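import Vale.Agent.P062.Checker

namespace Vale.Agent.P062.Second.D0

open Vale.Agent.P062

noncomputable def t0 : T := .cons 298 (.leaf 322 1814 (.cons 202 (.leaf 226 1623 (.cons 203 (.leaf 178 1431 (.leaf 274 1622 .nil)) .nil)) .nil)) (.cons 202 (.leaf 226 1623 (.cons 203 (.leaf 178 1431 (.cons 204 (.leaf 180 1437 (.leaf 228 1629 .nil)) .nil)) .nil)) (.cons 298 (.leaf 322 1814 (.cons 203 (.leaf 274 1622 (.cons 178 (.leaf 202 1431 (.cons 179 (.leaf 154 1239 (.cons 180 (.leaf 204 1437 (.leaf 156 1245 .nil)) .nil)) .nil)) .nil)) .nil)) (.cons 298 (.leaf 322 1814 (.cons 274 (.leaf 203 1622 (.cons 300 (.leaf 324 1820 (.cons 273 (.leaf 272 2176 (.leaf 301 2187 .nil)) .nil)) .nil)) .nil)) (.cons 226 (.leaf 202 1623 (.cons 228 (.leaf 204 1629 (.cons 298 (.leaf 322 1814 (.cons 300 (.leaf 324 1820 (.cons 225 (.cons 200 (.leaf 201 1603 (.cons 199 (.leaf 224 1595 (.cons 249 (.leaf 248 1794 (.cons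 229 (.leaf 250 1802 (.cons 206 (.leaf 205 1617 (.cons 230 (.leaf 207 1625 (.cons 254 (.leaf 253 1808 (.leaf 255 1816 .nil)) .nil)) .nil)) .nil)) .nil)) .nil)) .nil)) (.cons 200 (.leaf 201 1603 (.cons 248 (.leaf 249 1794 (.cons 253 (.leaf 252 1800 (.cons 229 (.leaf 254 1808 (.cons 206 (.leaf 205 1617 (.cons 230 (.leaf 250 1810 (.leaf 207 1625 .nil)) .nil)) .nil)) .nil)) .nil)) .nil)) (.cons 200 (.leaf 201 1603 (.cons 224 (.leaf 252 1792 (.leaf 199 1595 .nil)) .nil)) (.cons 252 (.leaf 224 1792 (.leaf 253 1800 .nil)) .nil)))) .nil)) .nil)) .nil)) .nil)) .nil))))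
noncomputable def t1 : T := .cons 250 (.leaf 226 1815 (.cons 228 (.leaf 252 1821 (.cons 324 (.leaf 348 2012 (.cons 347 (.leaf 274 2007 (.cons 370 (.leaf 346 2198 (.cons 371 (.leaf 394 2390 (.cons 395 (.leaf 300 2397 (.cons 396 (.leaf 372 2396 (.leaf 420 2588 .nil)) .nil)) .nil)) .nil)) .nil)) .nil)) .nil)) .nil)) (.cons 346 (.leaf 322 2006 (.cons 228 (.leaf 252 1821 (.cons 347 (.leaf 370 2198 (.cons 348 (.leaf 324 2012 (.leaf 372 2204 .nil)) .nil)) .nil)) .nil)) (.cons 250 (.leaf 226 1815 (.cons 228 (.leaf 252 1821 (.cons 347 (.leaf 274 2007 (.cons 348 (.leaf 324 2012 (.leaf 372 2204 .nil)) .nil)) .nil)) .nil)) (.cons 250 (.leaf 226 1815 (.cons 228 (.leaf 252 1821 (.cons 346 (.leaf 322 2006 (.cons 347 (.leaf 274 2007 (.leaf 370 2198 .nil)) .nil)) .nil)) .nil)) (.cons 250 (.leaf 226 1815 (.cons 322 (.leaf 346 2006 (.cons 347 (.leaf 274 2007 (.cons 348 (.leaf 324 2012 (.leaf 372 2204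 .nil)) .nil)) .nil)) .nil)) (.cons 322 (.leaf 346 2006 (.cons 324 (.leaf 348 2012 (.cons 250 (.leaf 226 1815 (.cons 252 (.leaf 228 1821 (.cons 253 (.cons 274 (.leaf 254 2002 (.leaf 273 1994 .nil)) (.cons 229 (.leaf 230 1809 (.cons 277 (.leaf 278 2000 (.cons 300 (.leaf 301 1830 (.cons 321 (.leaf 320 2369 (.cons 297 (.leaf 296 2371 (.cons 325 (.leaf 298 2376 (.cons 326 (.leaf 327 2395 (.cons 350 (.leaf 349 2576 (.leaf 351 2584 .nil)) .nil)) .nil)) .nil)) .nil)) .nil)) .nil)) .nil)) .nil)) .nil)) .nil)) .nil)) .nil)) .nil)))))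
noncomputable def t2 : T := .cons 227 (.cons 202 (.leaf 226 1623 (.cons 203 (.leaf 178 1431 (.cons 274 (.leaf 298 1622 (.cons 250 (.leaf 179 1430 (.cons 300 (.leaf 324 1820 (.cons 273 (.leaf 272 2176 (.cons 252 (.leaf 253 1994 (.cons 323 (.leaf 228 1821 (.leaf 347 2007 .nil)) .nil)) .nil)) .nil)) .nil)) .nil)) .nil)) .nil)) (.cons 204 (.leaf 228 1629 (.cons 180 (.leaf 203 1437 (.cons 322 (.leaf 298 1814 (.cons 323 (.leaf 346 2006 (.cons 324 (.leaf 300 1820 (.leaf 348 2012 .nil)) .nil)) .nil)) .nil)) .nil)) (.cons 202 (.leaf 226 1623 (.cons 203 (.leaf 178 1431 (.cons 298 (.leaf 274 1622 (.leaf 322 1814 .nil)) .nil)) .nil)) (.cons 202 (.leaf 226 1623 (.cons 203 (.leaf 178 1431 (.cons 204 (.leaf 180 1437 (.leaf 228 1629 .nil)) .nil)) .nil)) (.cons 202 (.leaf 226 1623 (.cons 228 (.leaf 204 1629 (.cons 322 (.leaf 298 1814 (.cons 323 (.leaf 252 1821 (.leaf 346 2006 .nil)) .nil)) .nil)) .nil))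 .nil))))) (.cons 323 t1 (.cons 227 t0 (.cons 227 (.cons 204 (.leaf 228 1629 (.cons 180 (.leaf 203 1437 (.cons 322 (.leaf 298 1814 (.cons 323 (.leaf 346 2006 (.cons 324 (.leaf 300 1820 (.leaf 348 2012 .nil)) .nil)) .nil)) .nil)) .nil)) (.cons 228 (.leaf 204 1629 (.cons 323 (.leaf 252 1821 (.cons 324 (.leaf 300 1820 (.leaf 348 2012 .nil)) .nil)) .nil)) (.cons 298 (.leaf 322 1814 (.cons 203 (.leaf 274 1622 (.cons 178 (.leaf 202 1431 (.cons 179 (.leaf 154 1239 (.cons 180 (.leaf 204 1437 (.leaf 156 1245 .nil)) .nil)) .nil)) .nil)) .nil)) (.cons 298 (.leaf 322 1814 (.cons 274 (.leaf 203 1622 (.cons 300 (.leaf 324 1820 (.cons 273 (.leaf 272 2176 (.leaf 301 2187 .nil)) .nil)) .nil)) .nil)) .nil)))) (.cons 227 (.cons 204 (.leaf 228 1629 (.cons 203 (.leaf 180 1437 (.cons 178 (.leaf 202 1431 (.cons 179 (.leaf 154 1239 (.cons 274 (.leaf 298 1622 (.leaf 250 1430 .nil)) .nil)) .nil)) .nil)) .nil))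 (.cons 226 (.leaf 202 1623 (.cons 323 (.leaf 250 1815 (.cons 324 (.leaf 300 1820 (.leaf 348 2012 .nil)) .nil)) .nil)) (.cons 228 (.leaf 204 1629 (.cons 323 (.leaf 252 1821 (.cons 324 (.leaf 300 1820 (.leaf 348 2012 .nil)) .nil)) .nil)) .nil))) (.cons 323 (.cons 228 (.leaf 252 1821 (.cons 250 (.leaf 226 1815 (.cons 324 (.leaf 348 2012 (.cons 347 (.leaf 274 2007 (.cons 370 (.leaf 346 2198 (.cons 371 (.leaf 394 2390 (.cons 395 (.leaf 300 2397 (.cons 396 (.leaf 372 2396 (.leaf 420 2588 .nil)) .nil)) .nil)) .nil)) .nil)) .nil)) .nil)) .nil)) (.cons 228 (.leaf 252 1821 (.cons 204 (.leaf 227 1629 (.cons 346 (.leaf 322 2006 (.cons 347 (.leaf 370 2198 (.cons 348 (.leaf 324 2012 (.leaf 372 2204 .nil)) .nil)) .nil)) .nil)) .nil)) (.cons 226 (.leaf 250 1815 (.cons 227 (.leaf 202 1623 (.cons 228 (.leaf 204 1629 (.leaf 252 1821 .nil)) .nil)) .nil)) (.cons 324 (.leaf 348 2012 (.cons 226 (.leaf 250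 1815 (.cons 227 (.leaf 202 1623 (.leaf 300 1820 .nil)) .nil)) .nil)) .nil)))) (.cons 227 (.cons 298 (.leaf 322 1814 (.cons 202 (.leaf 226 1623 (.cons 203 (.leaf 178 1431 (.leaf 274 1622 .nil)) .nil)) .nil)) (.cons 298 (.leaf 322 1814 (.cons 203 (.leaf 274 1622 (.cons 178 (.leaf 202 1431 (.cons 179 (.leaf 154 1239 (.cons 180 (.leaf 204 1437 (.leaf 156 1245 .nil)) .nil)) .nil)) .nil)) .nil)) (.cons 226 (.leaf 202 1623 (.cons 323 (.leaf 250 1815 (.cons 324 (.leaf 300 1820 (.leaf 348 2012 .nil)) .nil)) .nil)) (.cons 298 (.leaf 322 1814 (.cons 274 (.leaf 203 1622 (.cons 300 (.leaf 324 1820 (.cons 273 (.leaf 272 2176 (.leaf 301 2187 .nil)) .nil)) .nil)) .nil)) .nil)))) (.cons 227 (.cons 202 (.leaf 226 1623 (.cons 178 (.leaf 203 1431 (.cons 228 (.leaf 204 1629 (.cons 323 (.leaf 252 1821 (.cons 324 (.leaf 300 1820 (.leaf 348 2012 .nil)) .nil)) .nil)) .nil)) .nil)) (.cons 204 (.leaf 228 1629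 (.cons 180 (.leaf 203 1437 (.cons 322 (.leaf 298 1814 (.cons 323 (.leaf 346 2006 (.cons 324 (.leaf 300 1820 (.leaf 348 2012 .nil)) .nil)) .nil)) .nil)) .nil)) (.cons 226 (.leaf 202 1623 (.cons 323 (.leaf 250 1815 (.cons 324 (.leaf 300 1820 (.leaf 348 2012 .nil)) .nil)) .nil)) (.cons 202 (.leaf 226 1623 (.cons 178 (.leaf 203 1431 (.cons 228 (.leaf 204 1629 (.cons 322 (.leaf 298 1814 (.cons 323 (.leaf 252 1821 (.leaf 346 2006 .nil)) .nil)) .nil)) .nil)) .nil)) (.cons 202 (.leaf 226 1623 (.cons 203 (.leaf 178 1431 (.cons 204 (.leaf 180 1437 (.leaf 228 1629 .nil)) .nil)) .nil)) .nil))))) (.cons 227 (.cons 204 (.leaf 228 1629 (.cons 203 (.leaf 180 1437 (.cons 298 (.leaf 274 1622 (.leaf 322 1814 .nil)) .nil)) .nil)) (.cons 202 (.leaf 226 1623 (.cons 203 (.leaf 178 1431 (.cons 298 (.leaf 274 1622 (.leaf 322 1814 .nil)) .nil)) .nil)) (.cons 226 (.leaf 202 1623 (.cons 204 (.leaf 228 1629 (.cons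 203 (.leaf 180 1437 (.cons 205 (.leaf 206 1618 (.cons 224 (.leaf 225 1601 (.cons 250 (.leaf 323 1815 (.cons 179 (.leaf 274 1430 (.leaf 155 1238 .nil)) .nil)) .nil)) .nil)) .nil)) .nil)) .nil)) (.cons 202 (.leaf 226 1623 (.cons 228 (.leaf 204 1629 (.cons 322 (.leaf 298 1814 (.cons 323 (.leaf 252 1821 (.leaf 346 2006 .nil)) .nil)) .nil)) .nil)) .nil)))) .nil))))))))
noncomputable def t3 : T := .cons 346 (.leaf 322 2006 (.cons 347 (.leaf 370 2198 (.cons 274 (.leaf 250 2007 (.cons 371 (.leaf 298 2199 (.cons 372 (.leaf 348 2204 (.leaf 396 2396 .nil)) .nil)) .nil)) .nil)) .nil)) (.cons 348 (.leaf 324 2012 (.cons 347 (.leaf 372 2204 (.cons 274 (.leaf 250 2007 (.cons 370 (.leaf 346 2198 (.cons 371 (.leaf 298 2199 (.leaf 394 2390 .nil)) .nil)) .nil)) .nil)) .nil)) (.cons 324 (.leaf 348 2012 (.cons 227 (.leaf 300 1820 (.cons 298 (.leaf 322 1814 (.cons 203 (.leaf 274 1622 (.cons 178 (.leaf 202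 1431 (.cons 179 (.leaf 154 1239 (.cons 180 (.leaf 204 1437 (.leaf 156 1245 .nil)) .nil)) .nil)) .nil)) .nil)) .nil)) .nil)) (.cons 346 (.leaf 322 2006 (.cons 347 (.leaf 370 2198 (.cons 274 (.leaf 250 2007 (.cons 298 (.leaf 371 2199 (.cons 227 (.leaf 203 1622 (.cons 300 (.leaf 324 1820 (.cons 273 (.leaf 272 2176 (.leaf 301 2187 .nil)) .nil)) .nil)) .nil)) .nil)) .nil)) .nil)) (.cons 324 (.leaf 348 2012 (.cons 300 (.leaf 227 1820 (.cons 322 (.leaf 346 2006 (.cons 301 (.leaf 302 2386 (.leaf 321 2377 .nil)) .nil)) .nil)) .nil)) .nil))))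
noncomputable def t4 : T := .cons 298 (.leaf 322 1814 (.cons 203 (.leaf 274 1622 (.cons 178 (.leaf 202 1431 (.cons 179 (.leaf 154 1239 (.cons 180 (.leaf 204 1437 (.leaf 156 1245 .nil)) .nil)) .nil)) .nil)) .nil)) (.cons 228 (.leaf 204 1629 (.cons 252 (.leaf 323 1821 (.cons 250 (.cons 229 (.leaf 230 1810 (.leaf 249 1801 .nil)) (.cons 249 (.leaf 248 1793 (.cons 224 (.leaf 225 1795 (.cons 273 (.leaf 272 1986 (.cons 253 (.leaf 274 1994 (.cons 254 (.leaf 255 1819 (.cons 278 (.leaf 277 2000 (.leaf 279 2008 .nil)) .nil)) .nil)) .nil)) .nil)) .nil)) (.cons 229 (.leaf 230 1810 (.cons 253 (.cons 254 (.leaf 274 2002 (.leaf 255 1819 .nil)) (.cons 274 (.leaf 273 1994 (.cons 179 (.leaf 203 1430 (.cons 277 (.leaf 278 2000 (.cons 301 (.leaf 325 1831 (.cons 302 (.leaf 300 2195 (.leaf 326 1836 .nil)) .nil)) .nil)) .nil)) .nil)) (.cons 254 (.leaf 255 1819 (.cons 278 (.leaf 277 2000 (.leaf 279 2008 .nil))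 .nil)) .nil))) .nil)) .nil))) .nil)) .nil)) (.cons 298 (.leaf 322 1814 (.cons 274 (.leaf 203 1622 (.cons 297 (.cons 296 (.leaf 295 2169 (.cons 272 (.leaf 271 2171 (.cons 320 (.leaf 319 2362 (.cons 321 (.leaf 300 2370 (.cons 345 (.leaf 369 2189 (.leaf 248 1988 .nil)) .nil)) .nil)) .nil)) .nil)) (.cons 273 (.cons 272 (.leaf 252 1985 (.leaf 300 2176 .nil)) (.cons 300 (.leaf 301 2187 (.cons 321 (.leaf 320 2370 (.cons 345 (.leaf 369 2189 (.leaf 250 1997 .nil)) .nil)) .nil)) (.cons 272 (.leaf 252 1985 (.leaf 271 2168 .nil)) .nil))) (.cons 296 (.leaf 295 2169 (.cons 320 (.leaf 319 2362 (.cons 300 (.leaf 321 2370 (.cons 301 (.leaf 302 2195 (.leaf 273 2187 .nil)) .nil)) .nil)) .nil)) (.cons 296 (.leaf 295 2169 (.cons 272 (.leaf 271 2171 (.cons 252 (.leaf 273 1985 (.cons 323 (.leaf 228 1821 (.cons 347 (.leaf 250 2007 (.leaf 371 2199 .nil)) .nil)) .nil)) .nil)) .nil)) .nil)))) .nil)) .nil)) (.cons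 228 (.leaf 204 1629 (.cons 322 (.leaf 298 1814 (.cons 323 (.leaf 252 1821 (.leaf 346 2006 .nil)) .nil)) .nil)) .nil)))
noncomputable def t5 : T := .cons 249 (.leaf 250 1793 (.cons 225 (.leaf 320 1797 (.cons 201 (.leaf 177 1414 (.leaf 224 1605 .nil)) .nil)) .nil)) (.cons 224 (.cons 199 (.leaf 223 1599 (.cons 175 (.leaf 200 1407 (.cons 225 (.leaf 201 1605 (.cons 320 (.leaf 249 1797 (.cons 321 (.leaf 297 1796 (.leaf 345 1988 .nil)) .nil)) .nil)) .nil)) .nil)) (.cons 201 (.leaf 225 1605 (.cons 177 (.leaf 200 1413 (.cons 319 (.leaf 295 1790 (.cons 320 (.leaf 343 1982 (.cons 321 (.leaf 297 1796 (.leaf 345 1988 .nil)) .nil)) .nil)) .nil)) .nil)) (.cons 199 (.leaf 223 1599 (.cons 175 (.leaf 200 1407 (.cons 319 (.leaf 295 1790 (.cons 320 (.leaf 343 1982 (.cons 321 (.leaf 297 1796 (.leaf 345 1988 .nil)) .nil)) .nil)) .nil)) .nil)) (.cons 199 (.leaf 223 1599 (.cons 200 (.leaf 175 1407 (.cons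 201 (.leaf 177 1413 (.leaf 225 1605 .nil)) .nil)) .nil)) (.cons 199 (.leaf 223 1599 (.cons 201 (.leaf 225 1605 (.cons 319 (.leaf 295 1790 (.cons 320 (.leaf 343 1982 (.cons 321 (.leaf 297 1796 (.leaf 345 1988 .nil)) .nil)) .nil)) .nil)) .nil)) .nil))))) (.cons 224 (.cons 199 (.leaf 223 1599 (.cons 175 (.leaf 200 1407 (.cons 319 (.leaf 295 1790 (.cons 320 (.leaf 343 1982 (.cons 321 (.leaf 297 1796 (.leaf 345 1988 .nil)) .nil)) .nil)) .nil)) .nil)) (.cons 201 (.leaf 225 1605 (.cons 177 (.leaf 200 1413 (.cons 319 (.leaf 295 1790 (.cons 320 (.leaf 343 1982 (.cons 321 (.leaf 297 1796 (.leaf 345 1988 .nil)) .nil)) .nil)) .nil)) .nil)) (.cons 199 (.leaf 223 1599 (.cons 200 (.leaf 175 1407 (.cons 201 (.leaf 177 1413 (.leaf 225 1605 .nil)) .nil)) .nil)) (.cons 199 (.leaf 223 1599 (.cons 201 (.leaf 225 1605 (.cons 319 (.leaf 295 1790 (.cons 320 (.leaf 343 1982 (.cons 321 (.leaf 297 1796 (.leaf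 345 1988 .nil)) .nil)) .nil)) .nil)) .nil)) .nil)))) (.cons 249 (.leaf 250 1793 (.cons 320 (.leaf 225 1797 (.cons 223 (.leaf 247 1791 (.cons 343 (.leaf 319 1982 (.cons 344 (.leaf 367 2174 (.cons 345 (.leaf 321 1988 (.leaf 369 2180 .nil)) .nil)) .nil)) .nil)) .nil)) .nil)) (.cons 250 (.leaf 249 1793 (.cons 274 (.leaf 347 2007 (.cons 203 (.leaf 179 1430 (.cons 202 (.leaf 178 1431 (.cons 200 (.leaf 201 1600 (.cons 224 (.cons 199 (.leaf 175 1407 (.leaf 223 1599 .nil)) (.cons 295 (.leaf 271 1598 (.leaf 319 1790 .nil)) .nil)) .nil)) .nil)) .nil)) .nil)) .nil)) .nil))))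
noncomputable def t6 : T := .cons 249 (.leaf 250 1793 (.cons 322 (.leaf 346 2006 (.cons 320 (.leaf 321 2369 (.cons 296 (.leaf 225 1797 (.cons 223 (.leaf 247 1791 (.cons 224 (.leaf 199 1599 (.cons 319 (.leaf 295 1790 (.leaf 343 1982 .nil)) .nil)) .nil)) .nil)) .nil)) .nil)) .nil)) (.cons 322 (.leaf 346 2006 (.cons 301 (.leaf 302 2386 (.cons 320 (.leaf 321 2369 (.cons 296 (.cons 223 (.leaf 247 1791 (.cons 224 (.leaf 199 1599 (.cons 225 (.leaf 201 1605 (.leaf 249 1797 .nil)) .nil)) .nil)) (.cons 319 (.leaf 343 1982 (.cons 224 (.leaf 295 1790 (.cons 225 (.leaf 201 1605 (.leaf 249 1797 .nil)) .nil)) .nil)) (.cons 319 (.leaf 343 1982 (.cons 223 (.leaf 247 1791 (.cons 224 (.leaf 199 1599 (.leaf 295 1790 .nil)) .nil)) .nil)) (.cons 247 (.leaf 223 1791 (.cons 225 (.leaf 249 1797 (.cons 343 (.leaf 319 1982 (.cons 344 (.leaf 271 1983 (.leaf 367 2174 .nil)) .nil)) .nil)) .nil)) .nil)))) .nil))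 .nil)) .nil)) (.cons 322 (.leaf 346 2006 (.cons 320 (.leaf 321 2369 (.cons 296 (.cons 343 (.leaf 319 1982 (.cons 344 (.leaf 367 2174 (.cons 247 (.leaf 223 1791 (.leaf 271 1983 .nil)) .nil)) .nil)) (.cons 247 (.leaf 223 1791 (.cons 344 (.leaf 271 1983 (.cons 367 (.leaf 343 2174 (.cons 368 (.leaf 391 2366 (.cons 369 (.leaf 345 2180 (.leaf 393 2372 .nil)) .nil)) .nil)) .nil)) .nil)) (.cons 319 (.leaf 343 1982 (.cons 224 (.leaf 295 1790 (.cons 201 (.leaf 225 1605 (.cons 199 (.leaf 223 1599 (.cons 200 (.leaf 175 1407 (.leaf 177 1413 .nil)) .nil)) .nil)) .nil)) .nil)) (.cons 343 (.leaf 319 1982 (.cons 344 (.leaf 367 2174 (.cons 369 (.leaf 345 2180 (.cons 271 (.leaf 247 1983 (.cons 368 (.leaf 295 2175 (.leaf 393 2372 .nil)) .nil)) .nil)) .nil)) .nil)) (.cons 223 (.leaf 247 1791 (.cons 224 (.leaf 199 1599 (.cons 201 (.leaf 225 1605 (.cons 200 (.leaf 177 1413 (.cons 295 (.leaf 271 1598 (.leaf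 319 1790 .nil)) .nil)) .nil)) .nil)) .nil)) .nil))))) .nil)) .nil)) (.cons 296 t5 (.cons 250 (.leaf 249 1793 (.cons 229 (.leaf 230 1810 (.cons 346 (.leaf 322 2006 (.cons 347 (.leaf 274 2007 (.leaf 370 2198 .nil)) .nil)) .nil)) .nil)) .nil))))
noncomputable def t7 : T := .cons 250 (.leaf 273 1986 (.cons 224 (.leaf 225 1795 (.cons 248 (.leaf 223 1787 (.leaf 271 1978 .nil)) .nil)) .nil)) (.cons 320 (.leaf 321 2369 (.cons 296 (.cons 225 (.leaf 248 1797 (.cons 273 (.leaf 201 1606 (.leaf 344 1989 .nil)) .nil)) (.cons 225 (.leaf 248 1797 (.cons 273 (.leaf 201 1606 (.leaf 297 1798 .nil)) .nil)) (.cons 273 (.leaf 344 1989 (.cons 225 (.leaf 201 1606 (.leaf 297 1798 .nil)) .nil)) (.cons 344 (.leaf 273 1989 (.cons 247 (.leaf 271 1983 (.cons 248 (.leaf 223 1791 (.cons 343 (.leaf 319 1982 (.leaf 367 2174 .nil)) .nil)) .nil)) .nil)) (.cons 248 (.leaf 225 1797 (.cons 223 (.leaf 247 1791 (.cons 224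 (.leaf 199 1599 (.cons 319 (.leaf 295 1790 (.leaf 343 1982 .nil)) .nil)) .nil)) .nil)) .nil))))) .nil)) (.cons 248 (.cons 250 (.leaf 271 1978 (.cons 224 (.leaf 223 1787 (.leaf 225 1795 .nil)) .nil)) (.cons 320 (.leaf 321 2369 (.cons 296 (.leaf 225 1797 (.cons 223 (.leaf 247 1791 (.cons 224 (.leaf 199 1599 (.cons 319 (.leaf 295 1790 (.leaf 343 1982 .nil)) .nil)) .nil)) .nil)) .nil)) (.cons 271 (.leaf 250 1978 (.cons 320 (.leaf 321 2369 (.cons 296 (.leaf 225 1797 (.cons 247 (.leaf 223 1791 (.leaf 344 1983 .nil)) .nil)) .nil)) .nil)) (.cons 250 (.leaf 271 1978 (.cons 223 (.leaf 224 1787 (.cons 247 (.leaf 222 1779 (.cons 320 (.leaf 321 2369 (.leaf 296 1791 .nil)) .nil)) .nil)) .nil)) (.cons 250 (.leaf 271 1978 (.cons 225 (.leaf 224 1795 (.cons 320 (.leaf 321 2369 (.leaf 296 1797 .nil)) .nil)) .nil)) .nil))))) (.cons 273 (.leaf 250 1986 (.cons 320 (.leaf 321 2369 (.cons 296 (.leaf 344 1989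 (.cons 225 (.leaf 201 1606 (.leaf 297 1798 .nil)) .nil)) .nil)) .nil)) (.cons 321 (.leaf 320 2369 (.cons 273 (.leaf 250 1986 (.cons 297 (.leaf 296 2371 (.cons 248 (.leaf 345 1991 (.leaf 224 1799 .nil)) .nil)) .nil)) .nil)) .nil))))
noncomputable def t8 : T := .cons 227 (.leaf 324 1820 (.cons 229 (.leaf 230 1809 (.cons 278 (.leaf 277 2000 (.cons 254 (.leaf 279 2008 (.cons 302 (.leaf 301 2386 (.leaf 326 1839 .nil)) .nil)) .nil)) .nil)) .nil)) (.cons 229 (.leaf 230 1809 (.cons 301 (.leaf 302 2386 (.cons 324 (.leaf 227 1820 (.leaf 277 1830 .nil)) .nil)) .nil)) (.cons 277 (.leaf 278 2000 (.cons 301 (.leaf 302 2386 (.cons 324 (.leaf 227 1820 (.leaf 229 1830 .nil)) .nil)) .nil)) (.cons 227 (.leaf 324 1820 (.cons 230 (.leaf 229 1809 (.cons 254 (.leaf 231 1817 (.cons 278 (.leaf 277 2000 (.leaf 279 2008 .nil)) .nil)) .nil)) .nil)) (.cons 229 (.leaf 230 1809 (.cons 278 (.leaf 277 2000 (.cons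 254 (.leaf 279 2008 (.cons 302 (.leaf 301 2386 (.leaf 326 1839 .nil)) .nil)) .nil)) .nil)) (.cons 227 (.leaf 324 1820 (.cons 278 (.leaf 277 2000 (.cons 254 (.leaf 279 2008 (.cons 231 (.leaf 230 1817 (.cons 255 (.leaf 232 1825 (.cons 302 (.leaf 301 2386 (.leaf 326 1845 .nil)) .nil)) .nil)) .nil)) .nil)) .nil)) (.cons 230 (.leaf 229 1809 (.cons 254 (.leaf 231 1817 (.cons 278 (.leaf 279 2008 (.cons 302 (.leaf 301 2386 (.cons 327 (.leaf 303 1844 (.cons 324 (.leaf 227 1820 (.cons 326 (.leaf 325 2395 (.leaf 351 2036 .nil)) .nil)) .nil)) .nil)) .nil)) .nil)) .nil)) .nil))))))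
noncomputable def t9 : T := .cons 250 (.leaf 273 1986 (.cons 224 (.leaf 225 1795 (.cons 248 (.leaf 223 1787 (.leaf 271 1978 .nil)) .nil)) .nil)) (.cons 301 (.leaf 302 2386 (.cons 296 (.cons 248 (.leaf 225 1797 (.cons 223 (.leaf 247 1791 (.cons 199 (.leaf 224 1599 (.cons 343 (.leaf 319 1982 (.cons 344 (.leaf 273 1989 (.leaf 367 2174 .nil)) .nil)) .nil)) .nil)) .nil)) (.cons 248 (.leaf 225 1797 (.cons 223 (.leaf 247 1791 (.cons 224 (.leaf 199 1599 (.cons 319 (.leaf 295 1790 (.leaf 343 1982 .nil)) .nil)) .nil)) .nil)) (.cons 273 (.leaf 344 1989 (.cons 225 (.leaf 201 1606 (.leaf 297 1798 .nil)) .nil)) (.cons 344 (.leaf 273 1989 (.cons 247 (.leaf 271 1983 (.cons 248 (.leaf 223 1791 (.cons 343 (.leaf 319 1982 (.leaf 367 2174 .nil)) .nil)) .nil)) .nil)) .nil)))) .nil)) (.cons 248 (.cons 271 (.leaf 250 1978 (.cons 269 (.leaf 270 1961 (.cons 296 (.leaf 225 1797 (.cons 247 (.leaf 223 1791 (.leaf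 344 1983 .nil)) .nil)) .nil)) .nil)) (.cons 250 (.leaf 271 1978 (.cons 224 (.leaf 223 1787 (.leaf 225 1795 .nil)) .nil)) (.cons 296 (.leaf 225 1797 (.cons 223 (.leaf 247 1791 (.cons 224 (.leaf 199 1599 (.cons 319 (.leaf 295 1790 (.leaf 343 1982 .nil)) .nil)) .nil)) .nil)) (.cons 250 (.leaf 271 1978 (.cons 223 (.leaf 224 1787 (.cons 247 (.leaf 296 1791 (.leaf 222 1779 .nil)) .nil)) .nil)) (.cons 225 (.leaf 296 1797 (.cons 250 (.leaf 224 1795 (.leaf 271 1978 .nil)) .nil)) .nil))))) (.cons 273 (.leaf 250 1986 (.cons 296 (.leaf 344 1989 (.cons 225 (.leaf 201 1606 (.leaf 297 1798 .nil)) .nil)) .nil)) (.cons 250 (.leaf 273 1986 (.cons 248 (.leaf 271 1978 (.cons 223 (.leaf 224 1787 (.cons 247 (.leaf 296 1791 (.leaf 222 1779 .nil)) .nil)) .nil)) .nil)) .nil))))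
noncomputable def t10 : T := .cons 229 (.leaf 230 1810 (.cons 224 (.cons 199 (.leaf 175 1407 (.cons 295 (.leaf 271 1598 (.cons 296 (.leaf 223 1599 (.leaf 319 1790 .nil)) .nil)) .nil)) (.cons 177 (.leaf 201 1413 (.cons 176 (.leaf 153 1221 (.cons 271 (.leaf 295 1598 (.leaf 247 1406 .nil)) .nil)) .nil)) (.cons 175 (.leaf 199 1407 (.cons 176 (.leaf 151 1215 (.cons 177 (.leaf 201 1413 (.leaf 153 1221 .nil)) .nil)) .nil)) .nil))) .nil)) (.cons 203 (.leaf 179 1430 (.cons 202 (.leaf 178 1431 (.leaf 201 1600 .nil)) .nil)) (.cons 224 (.cons 175 (.leaf 199 1407 (.cons 176 (.leaf 151 1215 (.cons 271 (.leaf 295 1598 (.leaf 247 1406 .nil)) .nil)) .nil)) (.cons 271 (.leaf 295 1598 (.cons 176 (.leaf 247 1406 (.cons 152 (.cons 151 (.leaf 175 1215 (.leaf 127 1023 .nil)) (.cons 153 (.leaf 177 1221 (.leaf 129 1029 .nil)) .nil)) .nil)) .nil)) (.cons 199 (.leaf 175 1407 (.cons 296 (.leaf 223 1599 (.cons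 320 (.cons 319 (.leaf 295 1790 (.leaf 343 1982 .nil)) (.cons 321 (.leaf 297 1796 (.leaf 345 1988 .nil)) .nil)) .nil)) .nil)) (.cons 295 (.leaf 271 1598 (.cons 296 (.leaf 319 1790 (.cons 320 (.cons 223 (.leaf 199 1599 (.leaf 247 1791 .nil)) (.cons 321 (.leaf 297 1796 (.leaf 345 1988 .nil)) .nil)) .nil)) .nil)) (.cons 199 (.leaf 175 1407 (.cons 176 (.cons 177 (.leaf 153 1221 (.cons 179 (.leaf 203 1430 (.leaf 178 1402 .nil)) .nil)) (.cons 223 (.leaf 296 1599 (.cons 247 (.leaf 271 1405 (.leaf 152 1214 .nil)) .nil)) .nil)) .nil)) .nil))))) .nil))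
noncomputable def t11 : T := .cons 301 (.leaf 302 2195 (.cons 224 (.cons 175 (.leaf 199 1407 (.cons 176 (.leaf 151 1215 (.cons 177 (.leaf 201 1413 (.leaf 153 1221 .nil)) .nil)) .nil)) (.cons 175 (.leaf 199 1407 (.cons 176 (.leaf 151 1215 (.cons 271 (.leaf 295 1598 (.leaf 247 1406 .nil)) .nil)) .nil)) (.cons 177 (.leaf 201 1413 (.cons 176 (.leaf 153 1221 (.cons 271 (.leaf 295 1598 (.leaf 247 1406 .nil)) .nil)) .nil)) (.cons 199 (.leaf 175 1407 (.cons 201 (.leaf 177 1413 (.cons 296 (.leaf 223 1599 (.leaf 225 1605 .nil)) .nil)) .nil)) .nil)))) .nil)) (.cons 203 (.leaf 179 1430 (.cons 202 (.leaf 178 1431 (.leaf 201 1600 .nil)) .nil)) (.cons 224 (.cons 295 (.leaf 271 1598 (.cons 296 (.leaf 319 1790 (.cons 321 (.leaf 297 1796 (.cons 320 (.leaf 322 2369 (.leaf 345 1988 .nil)) .nil)) .nil)) .nil)) (.cons 199 (.leaf 175 1407 (.cons 296 (.leaf 223 1599 (.cons 321 (.leaf 297 1796 (.cons 320 (.leaf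 322 2369 (.leaf 345 1988 .nil)) .nil)) .nil)) .nil)) (.cons 175 (.leaf 199 1407 (.cons 176 (.leaf 151 1215 (.cons 271 (.leaf 295 1598 (.leaf 247 1406 .nil)) .nil)) .nil)) .nil))) .nil))
noncomputable def t12 : T := .cons 252 (.leaf 228 1821 (.cons 274 (.leaf 273 1985 (.cons 253 (.leaf 254 2002 (.cons 347 (.leaf 250 2007 (.cons 346 (.leaf 322 2006 (.leaf 370 2198 .nil)) .nil)) .nil)) .nil)) .nil)) (.cons 346 (.leaf 322 2006 (.cons 347 (.leaf 370 2198 (.cons 274 (.leaf 250 2007 (.cons 273 (.leaf 300 2176 (.cons 247 (.leaf 248 1979 (.cons 271 (.leaf 246 1971 (.cons 295 (.leaf 296 2170 (.leaf 294 2162 .nil)) .nil)) .nil)) .nil)) .nil)) .nil)) .nil)) (.cons 228 (.leaf 252 1821 (.cons 227 (.leaf 204 1629 (.cons 300 (.leaf 324 1820 (.cons 274 (.leaf 273 2176 (.cons 250 (.leaf 347 2007 (.cons 248 (.leaf 249 1793 (.cons 200 t11 .nil)) .nil)) .nil)) .nil)) .nil)) .nil)) (.cons 228 (.leaf 252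 1821 (.cons 227 (.leaf 204 1629 (.cons 300 (.leaf 324 1820 (.cons 274 (.leaf 273 2176 (.cons 250 (.leaf 347 2007 (.cons 248 (.leaf 249 1793 (.cons 200 t10 .nil)) .nil)) .nil)) .nil)) .nil)) .nil)) (.cons 322 (.leaf 346 2006 (.cons 252 (.leaf 228 1821 (.cons 300 (.cons 324 (.leaf 227 1820 (.cons 301 (.leaf 302 2386 (.leaf 321 2377 .nil)) .nil)) (.cons 320 (.leaf 321 2369 (.cons 249 t9 .nil)) (.cons 250 (.cons 249 (.leaf 273 1986 (.cons 224 (.leaf 225 1795 (.cons 248 (.leaf 223 1787 (.leaf 271 1978 .nil)) .nil)) .nil)) (.cons 253 t8 .nil)) (.cons 324 (.leaf 227 1820 (.cons 249 t7 .nil)) .nil)))) .nil)) .nil)) (.cons 228 (.leaf 252 1821 (.cons 227 (.leaf 204 1629 (.cons 300 (.leaf 324 1820 (.cons 248 t6 .nil)) .nil)) .nil)) (.cons 252 (.leaf 228 1821 (.cons 273 (.leaf 274 1985 (.cons 322 (.leaf 346 2006 (.cons 321 (.cons 320 (.leaf 300 2369 (.cons 295 (.leaf 296 2363 (.cons 319 (.leaf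 294 2355 (.cons 343 (.leaf 344 2554 (.leaf 342 2546 .nil)) .nil)) .nil)) .nil)) (.cons 324 (.cons 300 (.leaf 227 1820 (.leaf 301 2377 .nil)) (.cons 297 (.leaf 296 2371 (.cons 345 (.leaf 344 2562 (.leaf 248 1991 .nil)) .nil)) .nil)) (.cons 296 (.cons 295 (.leaf 320 2363 (.cons 294 (.leaf 293 2153 (.leaf 297 2352 .nil)) .nil)) (.cons 297 (.leaf 324 2371 (.cons 248 (.leaf 224 1796 (.leaf 345 1991 .nil)) .nil)) (.cons 320 (.leaf 295 2363 (.cons 248 (.leaf 345 1988 (.cons 344 (.leaf 343 2554 (.leaf 249 1989 .nil)) .nil)) .nil)) .nil))) (.cons 300 (.leaf 320 2369 (.cons 301 (.leaf 302 2386 (.leaf 324 2377 .nil)) .nil)) .nil)))) .nil)) .nil)) .nil)) .nil))))))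
noncomputable def t13 : T := .cons 344 (.leaf 249 1989 (.cons 297 (.leaf 368 2181 (.cons 343 (.leaf 367 2174 (.cons 248 (.leaf 319 1982 (.cons 321 (.leaf 224 1796 (.leaf 345 1988 .nil)) .nil)) .nil)) .nil)) .nil)) (.cons 248 (.cons 225 (.leaf 249 1797 (.cons 224 (.leaf 201 1605 (.cons 297 (.leaf 200 1604 (.leaf 321 1796 .nil)) .nil)) .nil)) (.cons 223 (.leaf 247 1791 (.cons 224 (.leaf 199 1599 (.cons 297 (.leaf 200 1604 (.leaf 321 1796 .nil)) .nil)) .nil)) (.cons 247 (.leaf 223 1791 (.cons 246 (.leaf 245 1960 (.cons 225 (.leaf 249 1797 (.cons 224 (.leaf 201 1605 (.cons 319 (.leaf 295 1790 (.leaf 343 1982 .nil)) .nil)) .nil)) .nil)) .nil)) (.cons 247 (.leaf 223 1791 (.cons 246 (.leaf 245 1960 (.cons 249 (.leaf 225 1797 (.cons 222 (.leaf 221 1771 (.cons 270 (.leaf 269 1962 (.cons 319 (.leaf 343 1982 (.cons 295 (.leaf 271 1783 (.leaf 294 1780 .nil)) .nil)) .nil)) .nil)) .nil)) .nil))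 .nil)) .nil)))) (.cons 344 (.cons 297 (.leaf 368 2181 (.cons 343 (.leaf 367 2174 (.cons 248 (.leaf 319 1982 (.cons 321 (.leaf 224 1796 (.leaf 345 1988 .nil)) .nil)) .nil)) .nil)) (.cons 247 (.leaf 271 1983 (.cons 248 (.leaf 223 1791 (.cons 343 (.leaf 319 1982 (.leaf 367 2174 .nil)) .nil)) .nil)) (.cons 247 (.leaf 271 1983 (.cons 223 (.leaf 248 1791 (.cons 368 (.leaf 297 2181 (.cons 369 (.leaf 345 2180 (.leaf 393 2372 .nil)) .nil)) .nil)) .nil)) (.cons 247 (.leaf 271 1983 (.cons 343 (.leaf 367 2174 (.cons 368 (.leaf 297 2181 (.cons 369 (.leaf 345 2180 (.leaf 393 2372 .nil)) .nil)) .nil)) .nil)) .nil)))) (.cons 344 (.leaf 249 1989 (.cons 247 (.leaf 271 1983 (.cons 343 (.leaf 367 2174 (.cons 368 (.leaf 297 2181 (.cons 369 (.leaf 345 2180 (.leaf 393 2372 .nil)) .nil)) .nil)) .nil)) .nil)) (.cons 344 (.leaf 249 1989 (.cons 247 (.leaf 271 1983 (.cons 248 (.leaf 223 1791 (.cons 343 (.leaf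 319 1982 (.leaf 367 2174 .nil)) .nil)) .nil)) .nil)) (.cons 344 (.leaf 249 1989 (.cons 247 (.leaf 271 1983 (.cons 223 (.leaf 248 1791 (.cons 368 (.leaf 297 2181 (.cons 369 (.leaf 345 2180 (.leaf 393 2372 .nil)) .nil)) .nil)) .nil)) .nil)) .nil)))))
noncomputable def t14 : T := .cons 322 (.leaf 346 2006 (.cons 321 (.leaf 300 2369 (.cons 295 (.leaf 296 2363 (.cons 319 (.leaf 294 2355 (.cons 343 (.leaf 344 2554 (.leaf 342 2546 .nil)) .nil)) .nil)) .nil)) .nil)) (.cons 296 t13 (.cons 322 (.leaf 346 2006 (.cons 321 (.leaf 300 2369 (.cons 343 (.leaf 344 2554 (.cons 319 (.leaf 342 2546 (.cons 295 (.leaf 294 2355 (.cons 248 (.leaf 271 1981 (.cons 297 (.leaf 345 1991 (.cons 224 (.leaf 200 1604 (.leaf 249 1799 .nil)) .nil)) .nil)) .nil)) .nil)) .nil)) .nil)) .nil)) (.cons 322 (.leaf 346 2006 (.cons 321 (.leaf 300 2369 (.cons 295 (.leaf 296 2363 (.cons 319 (.leaf 294 2355 (.cons 343 (.leaf 342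 2546 (.cons 248 (.leaf 271 1981 (.cons 297 (.leaf 345 1991 (.cons 224 (.leaf 200 1604 (.leaf 249 1799 .nil)) .nil)) .nil)) .nil)) .nil)) .nil)) .nil)) .nil)) (.cons 346 (.leaf 322 2006 (.cons 347 (.leaf 370 2198 (.cons 372 (.leaf 348 2204 (.cons 371 (.leaf 396 2396 (.cons 344 (.leaf 345 2752 (.cons 296 (.leaf 249 1989 (.cons 247 (.leaf 271 1983 (.cons 248 (.leaf 223 1791 (.cons 343 (.leaf 319 1982 (.leaf 367 2174 .nil)) .nil)) .nil)) .nil)) .nil)) .nil)) .nil)) .nil)) .nil)) (.cons 322 (.leaf 346 2006 (.cons 321 (.leaf 300 2369 (.cons 296 (.leaf 295 2363 (.cons 248 (.leaf 345 1988 (.cons 249 (.leaf 225 1797 (.leaf 344 1989 .nil)) .nil)) .nil)) .nil)) .nil)) .nil)))))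
noncomputable def t15 : T := .cons 203 (.leaf 179 1430 (.cons 202 (.leaf 178 1431 (.leaf 201 1600 .nil)) .nil)) (.cons 229 (.leaf 230 1810 (.cons 224 (.cons 175 (.leaf 199 1407 (.cons 176 (.leaf 151 1215 (.cons 177 (.leaf 201 1413 (.leaf 153 1221 .nil)) .nil)) .nil)) (.cons 177 (.leaf 201 1413 (.cons 176 (.leaf 153 1221 (.cons 271 (.leaf 295 1598 (.leaf 247 1406 .nil)) .nil)) .nil)) (.cons 175 (.leaf 199 1407 (.cons 176 (.leaf 151 1215 (.cons 271 (.leaf 295 1598 (.leaf 247 1406 .nil)) .nil)) .nil)) (.cons 175 (.leaf 199 1407 (.cons 201 (.leaf 177 1413 (.cons 295 (.leaf 271 1598 (.cons 296 (.leaf 225 1605 (.leaf 319 1790 .nil)) .nil)) .nil)) .nil)) .nil)))) .nil)) (.cons 224 (.cons 175 (.leaf 199 1407 (.cons 176 (.leaf 151 1215 (.cons 271 (.leaf 295 1598 (.leaf 247 1406 .nil)) .nil)) .nil)) (.cons 179 (.leaf 203 1430 (.cons 295 (.leaf 271 1598 (.cons 296 (.leaf 319 1790 (.cons 321 (.leaf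 297 1796 (.cons 320 (.leaf 322 2363 (.leaf 345 1988 .nil)) .nil)) .nil)) .nil)) .nil)) (.cons 199 (.leaf 175 1407 (.cons 296 (.leaf 223 1599 (.cons 295 (.leaf 319 1790 (.cons 321 (.leaf 297 1796 (.cons 320 (.leaf 322 2363 (.leaf 345 1988 .nil)) .nil)) .nil)) .nil)) .nil)) (.cons 175 (.leaf 199 1407 (.cons 176 (.leaf 151 1215 (.cons 153 (.leaf 177 1221 (.cons 152 (.leaf 129 1029 (.cons 247 (.leaf 271 1406 (.leaf 223 1214 .nil)) .nil)) .nil)) .nil)) .nil)) .nil)))) .nil))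
noncomputable def t16 : T := .cons 322 (.leaf 346 2006 (.cons 321 (.leaf 300 2369 (.cons 296 (.leaf 295 2363 (.leaf 345 1988 .nil)) .nil)) .nil)) (.cons 296 (.cons 343 (.leaf 319 1982 (.cons 344 (.leaf 367 2174 (.cons 271 (.leaf 247 1983 (.cons 345 (.leaf 321 1988 (.leaf 369 2180 .nil)) .nil)) .nil)) .nil)) (.cons 247 (.leaf 223 1791 (.cons 344 (.leaf 271 1983 (.cons 345 (.leaf 321 1988 (.leaf 369 2180 .nil)) .nil)) .nil)) (.cons 319 (.leaf 343 1982 (.cons 224 (.leaf 295 1790 (.cons 199 (.leaf 223 1599 (.cons 200 (.leaf 175 1407 (.cons 201 (.leaf 177 1413 (.leaf 225 1605 .nil)) .nil)) .nil)) .nil)) .nil)) .nil))) (.cons 322 (.leaf 346 2006 (.cons 321 (.leaf 300 2369 (.cons 343 (.leaf 344 2554 (.cons 319 (.leaf 342 2546 (.cons 295 (.leaf 271 1981 (.leaf 294 2355 .nil)) .nil)) .nil)) .nil)) .nil)) (.cons 296 (.cons 343 (.leaf 319 1982 (.cons 344 (.leaf 367 2174 (.cons 271 (.leaf 247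 1983 (.cons 368 (.leaf 295 2175 (.cons 369 (.leaf 345 2180 (.leaf 393 2372 .nil)) .nil)) .nil)) .nil)) .nil)) (.cons 247 (.leaf 223 1791 (.cons 344 (.leaf 271 1983 (.cons 367 (.leaf 343 2174 (.cons 368 (.leaf 391 2366 (.cons 369 (.leaf 345 2180 (.leaf 393 2372 .nil)) .nil)) .nil)) .nil)) .nil)) (.cons 319 (.leaf 343 1982 (.cons 224 (.leaf 295 1790 (.cons 199 (.leaf 223 1599 (.cons 200 (.leaf 175 1407 (.cons 201 (.leaf 177 1413 (.leaf 225 1605 .nil)) .nil)) .nil)) .nil)) .nil)) (.cons 223 (.leaf 247 1791 (.cons 224 (.leaf 199 1599 (.cons 201 (.leaf 225 1605 (.cons 200 (.leaf 177 1413 (.cons 295 (.leaf 271 1598 (.leaf 319 1790 .nil)) .nil)) .nil)) .nil)) .nil)) .nil)))) (.cons 322 (.leaf 346 2006 (.cons 321 (.leaf 300 2369 (.cons 296 (.leaf 345 1988 (.cons 343 (.leaf 344 2554 (.leaf 319 1982 .nil)) .nil)) .nil)) .nil)) .nil))))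
noncomputable def t17 : T := .cons 250 (.leaf 271 1978 (.cons 224 (.leaf 223 1787 (.leaf 225 1795 .nil)) .nil)) (.cons 346 (.leaf 322 2006 (.cons 347 (.leaf 370 2198 (.cons 348 (.leaf 372 2204 (.cons 320 (.cons 296 (.leaf 225 1797 (.cons 223 (.leaf 247 1791 (.cons 224 (.leaf 199 1599 (.cons 321 (.leaf 297 1796 (.leaf 345 2563 .nil)) .nil)) .nil)) .nil)) (.cons 345 (.leaf 321 2563 (.cons 344 (.leaf 319 2555 (.cons 368 (.leaf 367 2746 (.leaf 369 2754 .nil)) .nil)) .nil)) (.cons 296 (.leaf 225 1797 (.cons 223 (.leaf 247 1791 (.cons 224 (.leaf 199 1599 (.cons 319 (.leaf 295 1790 (.leaf 343 1982 .nil)) .nil)) .nil)) .nil)) .nil))) .nil)) .nil)) .nil)) (.cons 271 (.leaf 250 1978 (.cons 270 (.leaf 269 1961 (.cons 322 (.leaf 346 2006 (.cons 320 (.cons 296 (.leaf 225 1797 (.cons 247 (.leaf 223 1791 (.leaf 344 1983 .nil)) .nil)) (.cons 321 (.leaf 300 2369 (.cons 343 (.leaf 344 2554 (.cons 319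 (.leaf 295 1981 (.leaf 342 2546 .nil)) .nil)) .nil)) (.cons 296 (.leaf 225 1797 (.cons 321 (.leaf 300 2369 (.leaf 295 2363 .nil)) .nil)) .nil))) .nil)) .nil)) .nil)) (.cons 250 (.leaf 271 1978 (.cons 223 (.leaf 224 1787 (.cons 346 (.leaf 322 2006 (.cons 347 (.leaf 370 2198 (.cons 348 (.leaf 372 2204 (.cons 320 (.cons 345 (.leaf 321 2563 (.cons 344 (.leaf 319 2555 (.cons 368 (.leaf 367 2746 (.leaf 369 2754 .nil)) .nil)) .nil)) (.cons 247 (.leaf 296 1791 (.leaf 222 1779 .nil)) .nil)) .nil)) .nil)) .nil)) .nil)) .nil)) (.cons 250 (.leaf 271 1978 (.cons 225 (.leaf 224 1795 (.cons 320 (.leaf 296 1797 (.cons 346 (.leaf 322 2006 (.cons 347 (.leaf 370 2198 (.cons 348 (.leaf 372 2204 (.cons 345 (.leaf 321 2563 (.cons 344 (.leaf 319 2555 (.cons 368 (.leaf 367 2746 (.leaf 369 2754 .nil)) .nil)) .nil)) .nil)) .nil)) .nil)) .nil)) .nil)) .nil)) .nil))))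
noncomputable def t18 : T := .cons 322 (.leaf 346 2006 (.cons 321 (.leaf 300 2369 (.cons 295 (.leaf 296 2363 (.cons 319 (.leaf 294 2355 (.cons 343 (.leaf 344 2554 (.leaf 342 2546 .nil)) .nil)) .nil)) .nil)) .nil)) (.cons 296 (.cons 248 (.leaf 225 1797 (.cons 223 (.leaf 247 1791 (.cons 199 (.leaf 224 1599 (.cons 319 (.leaf 343 1982 (.cons 344 (.leaf 273 1989 (.cons 345 (.leaf 321 1988 (.leaf 369 2180 .nil)) .nil)) .nil)) .nil)) .nil)) .nil)) (.cons 273 (.leaf 344 1989 (.cons 225 (.leaf 201 1606 (.leaf 297 1798 .nil)) .nil)) (.cons 225 (.leaf 248 1797 (.cons 273 (.leaf 201 1606 (.leaf 297 1798 .nil)) .nil)) (.cons 248 (.leaf 225 1797 (.cons 223 (.leaf 247 1791 (.cons 199 (.leaf 224 1599 (.cons 343 (.leaf 319 1982 (.cons 344 (.leaf 367 2174 (.cons 345 (.leaf 321 1988 (.leaf 369 2180 .nil)) .nil)) .nil)) .nil)) .nil)) .nil)) (.cons 344 (.leaf 273 1989 (.cons 247 (.leaf 271 1983 (.cons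 223 (.leaf 248 1791 (.cons 367 (.leaf 343 2174 (.cons 368 (.leaf 391 2366 (.cons 369 (.leaf 345 2180 (.leaf 393 2372 .nil)) .nil)) .nil)) .nil)) .nil)) .nil)) .nil))))) (.cons 346 (.leaf 322 2006 (.cons 347 (.leaf 370 2198 (.cons 348 (.leaf 372 2204 (.cons 345 (.leaf 321 2563 (.cons 344 (.leaf 319 2555 (.cons 368 (.leaf 367 2746 (.leaf 369 2754 .nil)) .nil)) .nil)) .nil)) .nil)) .nil)) (.cons 322 (.leaf 346 2006 (.cons 321 (.leaf 300 2369 (.cons 296 (.leaf 295 2363 (.cons 248 (.leaf 225 1797 (.leaf 345 1988 .nil)) .nil)) .nil)) .nil)) (.cons 346 (.leaf 322 2006 (.cons 347 (.leaf 370 2198 (.cons 372 (.leaf 348 2204 (.cons 371 (.leaf 396 2396 (.cons 344 (.leaf 345 2752 (.cons 296 (.leaf 273 1989 (.cons 248 (.leaf 225 1797 (.cons 247 (.leaf 223 1791 (.leaf 271 1983 .nil)) .nil)) .nil)) .nil)) .nil)) .nil)) .nil)) .nil)) .nil))))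
noncomputable def t19 : T := .cons 250 (.leaf 273 1986 (.cons 248 (.leaf 271 1978 (.cons 224 (.leaf 223 1787 (.leaf 225 1795 .nil)) .nil)) .nil)) (.cons 320 t18 (.cons 248 t17 (.cons 273 (.leaf 250 1986 (.cons 322 (.leaf 346 2006 (.cons 320 (.cons 296 (.leaf 344 1989 (.cons 225 (.leaf 201 1606 (.leaf 297 1798 .nil)) .nil)) (.cons 321 (.leaf 300 2369 (.cons 344 (.leaf 343 2554 (.leaf 297 1990 .nil)) .nil)) (.cons 321 (.leaf 300 2369 (.cons 296 (.leaf 295 2363 (.cons 225 (.leaf 201 1606 (.leaf 297 1798 .nil)) .nil)) .nil)) (.cons 296 (.leaf 344 1989 (.cons 321 (.leaf 300 2369 (.leaf 295 2363 .nil)) .nil)) .nil)))) .nil)) .nil)) (.cons 250 (.leaf 273 1986 (.cons 248 (.leaf 271 1978 (.cons 223 (.leaf 224 1787 (.cons 346 (.leaf 322 2006 (.cons 347 (.leaf 370 2198 (.cons 348 (.leaf 372 2204 (.cons 320 (.cons 247 (.leaf 296 1791 (.leaf 222 1779 .nil)) (.cons 345 (.leaf 321 2563 (.cons 344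 (.leaf 319 2555 (.cons 368 (.leaf 367 2746 (.leaf 369 2754 .nil)) .nil)) .nil)) .nil)) .nil)) .nil)) .nil)) .nil)) .nil)) .nil)) .nil))))
noncomputable def t20 : T := .cons 252 (.leaf 228 1821 (.cons 273 (.leaf 274 1985 (.cons 249 (.leaf 250 1986 (.cons 322 (.leaf 346 2006 (.cons 320 (.cons 296 (.leaf 344 1989 (.cons 225 (.leaf 201 1606 (.leaf 248 1797 .nil)) .nil)) (.cons 321 (.leaf 300 2369 (.cons 344 (.leaf 343 2554 (.leaf 297 1990 .nil)) .nil)) (.cons 321 (.leaf 300 2369 (.cons 296 (.leaf 295 2363 (.cons 248 (.leaf 225 1797 (.leaf 345 1988 .nil)) .nil)) .nil)) .nil))) .nil)) .nil)) .nil)) .nil)) (.cons 346 (.leaf 322 2006 (.cons 347 (.leaf 370 2198 (.cons 274 (.leaf 250 2007 (.cons 273 (.leaf 300 2176 (.cons 247 (.leaf 248 1979 (.cons 271 (.leaf 246 1971 (.cons 295 (.leaf 296 2170 (.leaf 294 2162 .nil)) .nil)) .nil)) .nil)) .nil)) .nil)) .nil)) (.cons 228 (.leaf 252 1821 (.cons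 227 (.leaf 204 1629 (.cons 274 (.cons 250 (.leaf 347 2007 (.cons 273 (.leaf 300 2176 (.leaf 271 1977 .nil)) .nil)) (.cons 273 (.leaf 300 2176 (.cons 247 (.leaf 248 1979 (.cons 271 (.leaf 246 1971 (.cons 295 (.leaf 296 2170 (.leaf 294 2162 .nil)) .nil)) .nil)) .nil)) (.cons 250 (.leaf 347 2007 (.cons 248 (.leaf 249 1793 (.cons 200 t15 .nil)) .nil)) (.cons 250 (.leaf 347 2007 (.cons 179 (.leaf 203 1430 (.cons 229 (.leaf 230 1810 (.cons 248 (.leaf 249 1793 (.cons 273 (.leaf 247 1979 (.leaf 300 2176 .nil)) .nil)) .nil)) .nil)) .nil)) .nil)))) .nil)) .nil)) (.cons 252 (.leaf 228 1821 (.cons 274 (.leaf 273 1985 (.cons 253 (.leaf 254 2002 (.cons 347 (.leaf 250 2007 (.cons 370 (.leaf 346 2198 (.cons 371 (.leaf 394 2390 (.cons 372 (.leaf 348 2204 (.leaf 396 2396 .nil)) .nil)) .nil)) .nil)) .nil)) .nil)) .nil)) (.cons 252 (.leaf 228 1821 (.cons 249 t19 .nil)) (.cons 228 (.leaf 252 1821 (.cons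 227 (.leaf 204 1629 (.cons 250 (.cons 347 (.leaf 274 2007 (.cons 346 (.leaf 322 2006 (.leaf 370 2198 .nil)) .nil)) (.cons 248 (.leaf 249 1793 (.cons 229 (.leaf 230 1810 (.cons 320 t16 .nil)) .nil)) (.cons 248 (.leaf 249 1793 (.cons 274 (.leaf 347 2007 (.cons 200 t15 .nil)) .nil)) (.cons 347 (.leaf 274 2007 (.cons 229 (.leaf 230 1810 (.cons 248 (.leaf 249 1793 (.cons 370 (.leaf 346 2198 (.cons 371 (.leaf 394 2390 (.cons 372 (.leaf 348 2204 (.leaf 396 2396 .nil)) .nil)) .nil)) .nil)) .nil)) .nil)) .nil)))) .nil)) .nil)) (.cons 252 (.leaf 228 1821 (.cons 273 (.leaf 274 1985 (.cons 320 t14 .nil)) .nil)) .nil))))))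
noncomputable def t21 : T := .cons 253 (.leaf 254 2002 (.cons 273 (.leaf 272 1985 (.leaf 250 1994 .nil)) .nil)) (.cons 253 (.leaf 254 2002 (.cons 227 (.cons 228 (.leaf 204 1629 (.cons 300 (.leaf 324 1820 (.cons 301 (.leaf 302 2195 (.cons 277 (.leaf 325 1831 (.cons 278 (.leaf 250 2000 (.leaf 298 2193 .nil)) .nil)) .nil)) .nil)) .nil)) (.cons 203 (.leaf 298 1622 (.cons 178 (.leaf 202 1431 (.cons 179 (.leaf 154 1239 (.leaf 250 1430 .nil)) .nil)) .nil)) (.cons 228 (.leaf 204 1629 (.cons 300 (.leaf 324 1820 (.cons 301 (.leaf 302 2195 (.cons 277 (.leaf 325 1831 (.cons 250 (.leaf 278 2000 (.cons 229 (.leaf 230 1809 (.leaf 249 1801 .nil)) .nil)) .nil)) .nil)) .nil)) .nil)) (.cons 203 (.leaf 298 1622 (.cons 204 (.leaf 180 1437 (.leaf 228 1629 .nil)) .nil)) .nil)))) .nil)) (.cons 273 (.leaf 272 1985 (.cons 227 (.cons 204 (.leaf 228 1629 (.cons 300 (.leaf 324 1820 (.cons 301 (.leaf 302 2195 (.leaf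 298 2187 .nil)) .nil)) .nil)) (.cons 203 (.leaf 298 1622 (.cons 178 (.leaf 202 1431 (.cons 179 (.leaf 154 1239 (.leaf 250 1430 .nil)) .nil)) .nil)) (.cons 204 (.leaf 228 1629 (.cons 203 (.leaf 180 1437 (.cons 178 (.leaf 202 1431 (.cons 179 (.leaf 154 1239 (.leaf 250 1430 .nil)) .nil)) .nil)) .nil)) .nil))) .nil)) (.cons 273 (.leaf 272 1985 (.cons 253 (.leaf 254 2002 (.cons 300 (.cons 301 (.leaf 302 2195 (.leaf 298 2187 .nil)) (.cons 227 (.leaf 324 1820 (.cons 203 (.leaf 298 1622 (.cons 178 (.leaf 202 1431 (.cons 179 (.leaf 154 1239 (.cons 180 (.leaf 204 1437 (.leaf 156 1245 .nil)) .nil)) .nil)) .nil)) .nil)) (.cons 301 (.leaf 302 2195 (.cons 324 (.leaf 227 1820 (.cons 277 (.leaf 229 1830 (.cons 348 (.leaf 372 2213 (.leaf 325 2022 .nil)) .nil)) .nil)) .nil)) .nil))) .nil)) .nil)) .nil)))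
noncomputable def t22 : T := .cons 273 (.leaf 272 1985 (.cons 253 (.leaf 254 2002 (.leaf 250 1994 .nil)) .nil)) (.cons 253 (.leaf 254 2002 (.cons 323 (.cons 347 (.leaf 250 2007 (.cons 370 (.leaf 346 2198 (.cons 371 (.leaf 298 2199 (.leaf 394 2390 .nil)) .nil)) .nil)) (.cons 324 (.leaf 348 2012 (.cons 227 (.leaf 300 1820 (.cons 203 (.leaf 298 1622 (.cons 178 (.leaf 202 1431 (.cons 179 (.leaf 154 1239 (.leaf 250 1430 .nil)) .nil)) .nil)) .nil)) .nil)) (.cons 324 (.leaf 348 2012 (.cons 227 (.leaf 300 1820 (.cons 203 (.leaf 298 1622 (.cons 178 (.leaf 202 1431 (.cons 179 (.leaf 154 1239 (.cons 180 (.leaf 204 1437 (.leaf 156 1245 .nil)) .nil)) .nil)) .nil)) .nil)) .nil)) (.cons 250 (.leaf 347 2007 (.cons 229 (.leaf 230 1809 (.cons 277 (.leaf 278 2000 (.cons 324 (.leaf 348 2012 (.cons 300 (.leaf 227 1820 (.leaf 301 1830 .nil)) .nil)) .nil)) .nil)) .nil)) .nil)))) .nil)) (.cons 273 (.leaf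 272 1985 (.cons 300 (.cons 301 (.leaf 302 2195 (.leaf 298 2187 .nil)) (.cons 227 (.leaf 324 1820 (.cons 203 (.leaf 298 1622 (.cons 178 (.leaf 202 1431 (.cons 179 (.leaf 154 1239 (.leaf 250 1430 .nil)) .nil)) .nil)) .nil)) (.cons 301 (.leaf 302 2195 (.cons 324 (.leaf 227 1820 (.cons 348 (.leaf 323 2012 (.leaf 372 2207 .nil)) .nil)) .nil)) .nil))) .nil)) (.cons 273 (.leaf 272 1985 (.cons 253 (.leaf 254 2002 (.cons 300 (.cons 301 (.leaf 302 2195 (.leaf 298 2187 .nil)) (.cons 227 (.leaf 324 1820 (.cons 203 (.leaf 298 1622 (.cons 178 (.leaf 202 1431 (.cons 179 (.leaf 154 1239 (.cons 180 (.leaf 204 1437 (.leaf 156 1245 .nil)) .nil)) .nil)) .nil)) .nil)) (.cons 301 (.leaf 302 2195 (.cons 324 (.leaf 227 1820 (.cons 348 (.leaf 323 2012 (.leaf 372 2207 .nil)) .nil)) .nil)) .nil))) .nil)) .nil)) .nil)))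
noncomputable def t23 : T := .cons 346 (.leaf 322 2006 (.cons 347 (.leaf 370 2198 (.cons 274 (.leaf 250 2007 (.cons 252 (.leaf 228 1821 (.cons 273 (.leaf 272 1985 (.cons 298 (.leaf 371 2199 (.cons 300 (.leaf 301 2187 (.cons 253 (.leaf 254 2002 (.cons 297 (.cons 296 (.leaf 295 2169 (.leaf 324 2368 .nil)) (.cons 296 (.leaf 295 2169 (.cons 320 (.leaf 319 2362 (.leaf 321 2370 .nil)) .nil)) (.cons 321 (.leaf 320 2370 (.cons 324 (.leaf 348 2012 (.leaf 325 2376 .nil)) .nil)) .nil))) .nil)) .nil)) .nil)) .nil)) .nil)) .nil)) .nil)) .nil)) (.cons 348 (.leaf 324 2012 (.cons 228 (.leaf 252 1821 (.cons 347 (.leaf 372 2204 (.cons 274 (.leaf 250 2007 (.cons 370 (.leaf 346 2198 (.cons 371 (.leaf 298 2199 (.leaf 394 2390 .nil)) .nil)) .nil)) .nil)) .nil)) .nil)) (.cons 252 (.leaf 228 1821 (.cons 347 (.cons 348 (.leaf 324 2012 (.leaf 372 2204 .nil)) (.cons 274 (.leaf 250 2007 (.cons 253 (.leaf 254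 2002 (.cons 371 (.leaf 298 2199 (.cons 272 (.leaf 273 1985 (.cons 394 (.leaf 370 2390 (.cons 395 (.leaf 418 2582 (.cons 396 (.leaf 372 2396 (.leaf 420 2588 .nil)) .nil)) .nil)) .nil)) .nil)) .nil)) .nil)) (.cons 274 (.leaf 250 2007 (.cons 253 (.leaf 254 2002 (.cons 273 (.leaf 272 1985 (.cons 298 (.leaf 371 2199 (.cons 300 (.leaf 301 2187 (.cons 324 (.leaf 348 2012 (.cons 297 (.leaf 296 2368 (.leaf 325 2376 .nil)) .nil)) .nil)) .nil)) .nil)) .nil)) .nil)) .nil))) .nil)) (.cons 346 (.leaf 322 2006 (.cons 347 (.leaf 370 2198 (.cons 274 (.leaf 250 2007 (.cons 252 (.leaf 228 1821 (.cons 273 (.leaf 272 1985 (.cons 298 (.leaf 371 2199 (.cons 300 (.leaf 301 2187 (.cons 253 (.leaf 254 2002 (.cons 297 (.cons 296 (.leaf 295 2169 (.leaf 324 2368 .nil)) (.cons 296 (.leaf 295 2169 (.cons 320 (.leaf 319 2362 (.leaf 321 2370 .nil)) .nil)) (.cons 321 (.leaf 320 2370 (.cons 324 (.leaf 325 2376 (.cons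 345 (.leaf 344 2561 (.leaf 369 2189 .nil)) .nil)) .nil)) .nil))) .nil)) .nil)) .nil)) .nil)) .nil)) .nil)) .nil)) .nil)) (.cons 346 (.leaf 322 2006 (.cons 347 (.leaf 370 2198 (.cons 274 (.leaf 250 2007 (.cons 371 (.leaf 298 2199 (.cons 372 (.leaf 348 2204 (.leaf 396 2396 .nil)) .nil)) .nil)) .nil)) .nil)) (.cons 322 (.leaf 346 2006 (.cons 324 (.leaf 348 2012 (.cons 252 (.leaf 228 1821 (.cons 321 (.cons 296 (.leaf 297 2371 (.cons 320 (.leaf 300 2369 (.leaf 295 2363 .nil)) .nil)) (.cons 296 (.leaf 297 2371 (.cons 320 (.leaf 295 2363 (.cons 344 (.leaf 343 2554 (.leaf 345 2562 .nil)) .nil)) .nil)) (.cons 296 (.leaf 297 2371 (.cons 301 (.leaf 300 2377 (.cons 325 (.leaf 302 2385 (.cons 326 (.leaf 298 2387 (.cons 350 (.leaf 349 2576 (.leaf 351 2584 .nil)) .nil)) .nil)) .nil)) .nil)) (.cons 300 (.leaf 320 2369 (.leaf 301 2377 .nil)) .nil)))) .nil)) .nil)) .nil)) (.cons 348 (.leaf 324 2012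 (.cons 228 (.leaf 252 1821 (.cons 346 (.leaf 322 2006 (.cons 347 (.leaf 370 2198 (.leaf 372 2204 .nil)) .nil)) .nil)) .nil)) .nil))))))
noncomputable def t24 : T := .cons 319 (.leaf 320 2362 (.cons 295 (.leaf 318 2354 (.cons 270 (.leaf 271 2163 (.cons 294 (.leaf 269 2155 (.leaf 321 2352 .nil)) .nil)) .nil)) .nil)) (.cons 295 (.cons 271 (.leaf 272 2171 (.leaf 270 2163 .nil)) (.cons 294 (.leaf 321 2352 (.cons 269 (.leaf 270 2155 (.cons 293 (.leaf 268 2147 (.cons 317 (.leaf 318 2346 (.leaf 316 2338 .nil)) .nil)) .nil)) .nil)) (.cons 272 (.leaf 271 2171 (.cons 294 (.leaf 321 2352 (.cons 293 (.leaf 273 2153 (.cons 317 (.leaf 318 2346 (.leaf 316 2338 .nil)) .nil)) .nil)) .nil)) .nil))) (.cons 319 (.leaf 320 2362 (.cons 295 (.leaf 318 2354 (.cons 321 (.leaf 294 2352 (.cons 273 (.leaf 249 1996 (.cons 345 (.cons 272 (.leaf 248 1991 (.leaf 369 2183 .nil)) (.cons 368 (.leaf 344 2182 (.cons 369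 (.leaf 393 2381 (.leaf 392 2374 .nil)) .nil)) (.cons 272 (.leaf 248 1991 (.cons 343 (.leaf 367 2173 (.cons 344 (.leaf 368 2182 (.leaf 342 2545 .nil)) .nil)) .nil)) .nil))) .nil)) .nil)) .nil)) .nil)) (.cons 271 (.leaf 272 2171 (.cons 295 (.leaf 270 2163 (.cons 319 (.leaf 320 2362 (.leaf 318 2354 .nil)) .nil)) .nil)) (.cons 320 (.leaf 319 2362 (.cons 272 (.leaf 271 2171 (.cons 249 (.cons 273 (.leaf 225 1804 (.leaf 321 1996 .nil)) (.cons 248 (.leaf 225 1797 (.cons 321 (.leaf 224 1796 (.leaf 345 1988 .nil)) .nil)) (.cons 273 (.leaf 321 1996 (.leaf 344 1989 .nil)) (.cons 273 (.leaf 225 1804 (.leaf 344 1989 .nil)) .nil)))) .nil)) .nil)) .nil))))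
noncomputable def t25 : T := .cons 296 (.leaf 271 2171 (.cons 320 (.leaf 319 2362 (.cons 248 (.cons 345 (.leaf 321 1988 (.cons 223 (.leaf 247 1791 (.cons 225 (.leaf 249 1797 (.cons 344 (.leaf 369 2180 (.cons 367 (.leaf 343 2174 (.cons 368 (.leaf 273 2181 (.leaf 391 2366 .nil)) .nil)) .nil)) .nil)) .nil)) .nil)) (.cons 249 (.leaf 225 1797 (.cons 223 (.leaf 247 1791 (.cons 224 (.leaf 250 1787 (.leaf 199 1599 .nil)) .nil)) .nil)) (.cons 321 (.leaf 300 2370 (.leaf 224 1796 .nil)) .nil))) .nil)) .nil)) (.cons 300 (.leaf 273 2179 (.cons 321 (.leaf 320 2370 (.cons 301 (.leaf 322 2378 (.cons 325 (.leaf 324 2376 (.leaf 326 2384 .nil)) .nil)) .nil)) .nil)) (.cons 296 (.leaf 271 2171 (.cons 320 (.leaf 319 2362 (.cons 248 (.cons 345 (.leaf 321 1988 (.cons 223 (.leaf 247 1791 (.cons 225 (.leaf 249 1797 (.cons 344 (.leaf 369 2180 (.cons 367 (.leaf 343 2174 (.cons 368 (.leaf 273 2181 (.leaf 391 2366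 .nil)) .nil)) .nil)) .nil)) .nil)) .nil)) (.cons 249 (.leaf 225 1797 (.cons 223 (.leaf 247 1791 (.cons 224 (.leaf 250 1787 (.leaf 199 1599 .nil)) .nil)) .nil)) (.cons 321 (.leaf 224 1796 (.leaf 345 1988 .nil)) .nil))) .nil)) .nil)) (.cons 296 (.leaf 271 2171 (.cons 320 (.leaf 319 2362 (.cons 321 (.leaf 300 2370 (.cons 248 (.leaf 224 1796 (.leaf 345 1988 .nil)) .nil)) .nil)) .nil)) (.cons 273 (.leaf 300 2179 (.cons 271 (.leaf 296 2171 (.leaf 270 2160 .nil)) .nil)) .nil))))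
noncomputable def t26 : T := .cons 227 (.leaf 322 1814 (.cons 204 (.leaf 228 1629 (.cons 180 (.leaf 203 1437 (.cons 300 (.leaf 324 1820 (.cons 272 (.leaf 273 2179 (.cons 296 (.leaf 271 2171 (.cons 320 (.leaf 319 2362 (.leaf 321 2370 .nil)) .nil)) .nil)) .nil)) .nil)) .nil)) .nil)) (.cons 272 t25 (.cons 300 (.cons 324 (.leaf 227 1820 (.leaf 325 2376 .nil)) (.cons 272 (.leaf 273 2179 (.cons 296 (.leaf 271 2171 (.cons 320 (.leaf 319 2362 (.leaf 321 2370 .nil)) .nil)) .nil)) .nil)) (.cons 322 (.leaf 227 1814 (.cons 346 (.leaf 370 2197 (.cons 296 t24 .nil)) .nil)) (.cons 322 (.leaf 227 1814 (.cons 346 (.leaf 370 2197 (.cons 273 (.cons 300 (.leaf 272 2179 (.cons 321 (.leaf 320 2370 (.leaf 301 2378 .nil)) .nil)) (.cons 249 (.leaf 225 1804 (.cons 272 (.leaf 300 2179 (.cons 250 (.leaf 252 1986 (.cons 271 (.leaf 248 1978 (.leaf 270 2160 .nil)) .nil)) .nil)) .nil)) (.cons 249 (.leaf 225 1804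 (.leaf 321 1996 .nil)) .nil))) .nil)) .nil)) (.cons 322 (.leaf 227 1814 (.cons 346 (.leaf 370 2197 (.cons 273 (.cons 300 (.leaf 272 2179 (.cons 301 (.leaf 321 2378 (.cons 325 (.leaf 324 2376 (.leaf 326 2384 .nil)) .nil)) .nil)) (.cons 249 (.leaf 225 1804 (.leaf 321 1996 .nil)) (.cons 249 (.leaf 225 1804 (.cons 272 (.leaf 300 2179 (.cons 271 (.leaf 296 2171 (.leaf 270 2160 .nil)) .nil)) .nil)) .nil))) .nil)) .nil)) (.cons 300 (.cons 321 (.leaf 320 2370 (.cons 322 (.leaf 227 1814 (.leaf 301 2378 .nil)) .nil)) (.cons 321 (.leaf 320 2370 (.cons 301 (.leaf 322 2378 (.cons 325 (.leaf 324 2376 (.leaf 326 2384 .nil)) .nil)) .nil)) (.cons 324 (.leaf 227 1820 (.leaf 325 2376 .nil)) .nil))) (.cons 227 (.leaf 322 1814 (.cons 204 (.leaf 228 1629 (.cons 203 (.leaf 180 1437 (.cons 202 (.leaf 178 1431 (.cons 272 (.cons 296 (.leaf 271 2171 (.cons 319 (.leaf 320 2362 (.cons 295 (.leaf 318 2354 (.cons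 224 (.leaf 248 1790 (.cons 201 (.leaf 225 1602 (.cons 176 (.leaf 177 1411 (.cons 200 (.leaf 175 1403 (.leaf 223 1594 .nil)) .nil)) .nil)) .nil)) .nil)) .nil)) .nil)) (.cons 300 (.leaf 324 1820 (.leaf 273 2179 .nil)) .nil)) .nil)) .nil)) .nil)) .nil)) .nil)))))))
noncomputable def t27 : T := .cons 324 (.leaf 227 1820 (.cons 297 (.leaf 325 2376 (.cons 273 (.leaf 272 2179 (.cons 274 (.leaf 301 2187 (.cons 295 (.leaf 296 2169 (.cons 321 (.leaf 320 2370 (.cons 345 (.leaf 369 2189 (.leaf 250 1997 .nil)) .nil)) .nil)) .nil)) .nil)) .nil)) .nil)) (.cons 301 (.cons 274 (.leaf 302 2195 (.leaf 273 2187 .nil)) (.cons 325 (.leaf 326 2384 (.cons 277 (.leaf 278 2193 (.cons 297 (.leaf 324 2376 (.cons 272 (.leaf 273 2179 (.cons 296 (.leaf 271 2171 (.cons 320 (.leaf 319 2362 (.leaf 321 2370 .nil)) .nil)) .nil)) .nil)) .nil)) .nil)) (.cons 302 (.leaf 274 2195 (.cons 278 (.leaf 277 2193 (.leaf 279 2201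 .nil)) .nil)) .nil))) (.cons 301 (.cons 278 (.leaf 277 2193 (.cons 302 (.leaf 274 2195 (.leaf 279 2201 .nil)) .nil)) (.cons 278 (.leaf 277 2193 (.cons 302 (.leaf 279 2201 (.cons 326 (.leaf 325 2384 (.leaf 327 2392 .nil)) .nil)) .nil)) (.cons 274 (.leaf 273 2187 (.cons 227 (.leaf 203 1622 (.cons 228 (.leaf 204 1629 (.cons 277 (.leaf 278 2193 (.cons 325 (.leaf 326 2384 (.cons 253 (.leaf 252 1831 (.cons 230 (.leaf 254 1837 (.cons 229 (.leaf 250 1810 (.leaf 206 1645 .nil)) .nil)) .nil)) .nil)) .nil)) .nil)) .nil)) .nil)) (.cons 274 (.leaf 302 2195 (.leaf 273 2187 .nil)) .nil)))) (.cons 324 (.leaf 227 1820 (.cons 297 (.leaf 325 2376 (.cons 272 (.leaf 273 2179 (.cons 296 (.leaf 271 2171 (.cons 320 (.leaf 319 2362 (.leaf 321 2370 .nil)) .nil)) .nil)) .nil)) .nil)) (.cons 227 (.leaf 324 1820 (.cons 203 (.leaf 274 1622 (.cons 204 (.leaf 180 1437 (.leaf 228 1629 .nil)) .nil)) .nil)) .nil))))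
noncomputable def t28 : T := .cons 346 (.leaf 274 2005 (.leaf 370 2197 .nil)) (.cons 300 (.cons 272 (.leaf 273 2179 (.cons 271 (.leaf 296 2171 (.cons 301 (.leaf 321 2378 (.cons 325 (.leaf 324 2376 (.leaf 326 2384 .nil)) .nil)) .nil)) .nil)) (.cons 272 (.leaf 273 2179 (.cons 296 (.leaf 271 2171 (.cons 295 (.leaf 274 2169 (.cons 294 (.leaf 321 2352 (.cons 318 (.leaf 319 2354 (.leaf 317 2346 .nil)) .nil)) .nil)) .nil)) .nil)) (.cons 301 (.leaf 321 2378 (.cons 325 (.leaf 324 2376 (.leaf 326 2384 .nil)) .nil)) (.cons 272 (.leaf 273 2179 (.cons 271 (.leaf 296 2171 (.cons 325 (.leaf 324 2376 (.cons 301 (.leaf 326 2384 (.cons 278 (.leaf 277 2193 (.cons 302 (.leaf 274 2195 (.leaf 279 2201 .nil)) .nil)) .nil)) .nil)) .nil)) .nil)) .nil)))) (.cons 346 (.leaf 370 2197 (.cons 273 (.cons 249 (.leaf 225 1804 (.leaf 321 1996 .nil)) (.cons 300 (.leaf 272 2179 (.cons 301 (.leaf 321 2378 (.cons 325 (.leaf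 324 2376 (.leaf 326 2384 .nil)) .nil)) .nil)) (.cons 249 (.leaf 225 1804 (.cons 272 (.leaf 300 2179 (.cons 271 (.leaf 296 2171 (.leaf 270 2160 .nil)) .nil)) .nil)) .nil))) .nil)) .nil))
noncomputable def t29 : T := .cons 324 (.leaf 325 2376 (.cons 348 (.leaf 372 2207 (.cons 296 (.cons 320 (.leaf 319 2362 (.leaf 321 2370 .nil)) (.cons 295 (.leaf 274 2169 (.cons 270 (.leaf 271 2163 (.cons 294 (.leaf 269 2155 (.cons 318 (.leaf 319 2354 (.leaf 317 2346 .nil)) .nil)) .nil)) .nil)) (.cons 274 (.leaf 295 2169 (.cons 321 (.leaf 320 2370 (.cons 322 (.leaf 346 2005 (.leaf 301 2378 .nil)) .nil)) .nil)) .nil))) .nil)) .nil)) (.cons 325 (.leaf 324 2376 (.cons 301 (.leaf 326 2384 (.cons 274 (.leaf 302 2195 (.leaf 273 2187 .nil)) .nil)) .nil)) (.cons 324 (.leaf 325 2376 (.cons 348 (.leaf 372 2207 (.cons 296 (.cons 320 (.leaf 319 2362 (.leaf 321 2370 .nil)) (.cons 295 (.leaf 274 2169 (.cons 270 (.leaf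 271 2163 (.cons 294 (.leaf 269 2155 (.cons 318 (.leaf 319 2354 (.leaf 317 2346 .nil)) .nil)) .nil)) .nil)) (.cons 274 (.leaf 295 2169 (.cons 321 (.leaf 320 2370 (.cons 322 (.leaf 346 2005 (.cons 345 (.leaf 250 1998 (.leaf 369 2189 .nil)) .nil)) .nil)) .nil)) .nil))) .nil)) .nil)) (.cons 321 (.leaf 320 2370 (.cons 301 (.leaf 322 2378 (.cons 274 (.leaf 302 2195 (.leaf 273 2187 .nil)) .nil)) .nil)) (.cons 321 (.leaf 320 2370 (.cons 301 (.leaf 322 2378 (.cons 325 (.leaf 324 2376 (.leaf 326 2384 .nil)) .nil)) .nil)) .nil))))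
noncomputable def t30 : T := .cons 273 (.leaf 272 2179 (.cons 321 (.leaf 320 2370 (.cons 324 (.leaf 325 2376 (.cons 348 (.leaf 372 2207 (.cons 346 (.cons 322 (.leaf 274 2005 (.leaf 370 2197 .nil)) (.cons 345 (.leaf 370 2188 (.cons 274 (.leaf 301 2187 (.leaf 369 2189 .nil)) .nil)) (.cons 322 (.leaf 274 2005 (.leaf 301 2378 .nil)) (.cons 322 (.leaf 370 2197 (.leaf 301 2378 .nil)) .nil)))) .nil)) .nil)) .nil)) .nil)) (.cons 321 (.leaf 320 2370 (.cons 301 (.leaf 322 2378 (.cons 325 (.leaf 324 2376 (.leaf 326 2384 .nil)) .nil)) .nil)) (.cons 273 (.leaf 272 2179 (.cons 301 (.leaf 274 2187 (.cons 325 (.leaf 324 2376 (.leaf 326 2384 .nil)) .nil)) .nil)) (.cons 273 (.leaf 272 2179 (.cons 321 (.leaf 320 2370 (.cons 324 (.leaf 325 2376 (.cons 348 (.leaf 372 2207 (.cons 346 (.cons 322 (.leaf 274 2005 (.leaf 370 2197 .nil)) (.cons 345 (.leaf 370 2188 (.cons 274 (.leaf 369 2189 (.leaf 250 1997 .nil))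 .nil)) (.cons 322 (.leaf 274 2005 (.leaf 249 1996 .nil)) (.cons 322 (.leaf 370 2197 (.leaf 249 1996 .nil)) .nil)))) .nil)) .nil)) .nil)) .nil)) (.cons 273 (.leaf 272 2179 (.cons 274 (.leaf 301 2187 (.cons 321 (.leaf 320 2370 (.cons 345 (.leaf 369 2189 (.leaf 250 1997 .nil)) .nil)) .nil)) .nil)) .nil))))
noncomputable def t31 : T := .cons 295 (.leaf 274 2169 (.cons 319 (.leaf 320 2362 (.leaf 318 2354 .nil)) .nil)) (.cons 272 (.leaf 271 2171 (.cons 320 (.leaf 319 2362 (.cons 248 (.cons 223 (.leaf 247 1791 (.cons 224 (.leaf 321 1796 (.leaf 199 1599 .nil)) .nil)) (.cons 223 (.leaf 247 1791 (.cons 199 (.leaf 224 1599 (.cons 249 (.leaf 225 1797 (.cons 273 (.leaf 344 1989 (.cons 252 (.leaf 274 1985 (.leaf 250 1986 .nil)) .nil)) .nil)) .nil)) .nil)) (.cons 345 (.leaf 321 1988 (.cons 223 (.leaf 247 1791 (.cons 225 (.leaf 249 1797 (.cons 344 (.leaf 369 2180 (.cons 367 (.leaf 343 2174 (.cons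 368 (.leaf 273 2181 (.leaf 391 2366 .nil)) .nil)) .nil)) .nil)) .nil)) .nil)) (.cons 321 (.leaf 224 1796 (.leaf 345 1988 .nil)) .nil)))) .nil)) .nil)) (.cons 272 (.leaf 271 2171 (.cons 320 (.leaf 319 2362 (.cons 248 (.cons 345 (.leaf 321 1988 (.cons 223 (.leaf 247 1791 (.cons 225 (.leaf 249 1797 (.cons 344 (.leaf 369 2180 (.cons 367 (.leaf 343 2174 (.cons 368 (.leaf 273 2181 (.leaf 391 2366 .nil)) .nil)) .nil)) .nil)) .nil)) .nil)) (.cons 249 (.leaf 225 1797 (.cons 223 (.leaf 247 1791 (.cons 224 (.leaf 250 1787 (.leaf 199 1599 .nil)) .nil)) .nil)) (.cons 321 (.leaf 224 1796 (.leaf 345 1988 .nil)) .nil))) .nil)) .nil)) (.cons 295 (.leaf 274 2169 (.cons 271 (.leaf 272 2171 (.leaf 270 2163 .nil)) .nil)) .nil)))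
noncomputable def t32 : T := .cons 322 (.cons 346 (.leaf 274 2005 (.leaf 370 2197 .nil)) (.cons 300 (.cons 272 (.leaf 273 2179 (.cons 321 (.leaf 320 2370 (.leaf 301 2378 .nil)) .nil)) (.cons 272 (.leaf 273 2179 (.cons 271 (.leaf 296 2171 (.cons 325 (.leaf 324 2376 (.cons 301 (.leaf 326 2384 (.cons 278 (.leaf 277 2193 (.cons 302 (.leaf 274 2195 (.leaf 279 2201 .nil)) .nil)) .nil)) .nil)) .nil)) .nil)) (.cons 272 (.leaf 273 2179 (.cons 296 (.leaf 271 2171 (.cons 320 (.leaf 319 2362 (.leaf 321 2370 .nil)) .nil)) .nil)) (.cons 301 (.leaf 321 2378 (.cons 325 (.leaf 324 2376 (.leaf 326 2384 .nil)) .nil)) .nil)))) (.cons 346 (.leaf 370 2197 (.cons 273 (.cons 249 (.leaf 225 1804 (.leaf 321 1996 .nil)) (.cons 300 (.leaf 272 2179 (.cons 321 (.leaf 320 2370 (.leaf 301 2378 .nil)) .nil)) (.cons 249 (.leaf 225 1804 (.cons 272 (.leaf 300 2179 (.cons 271 (.leaf 296 2171 (.leaf 270 2160 .nil)) .nil))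 .nil)) .nil))) .nil)) .nil))) (.cons 296 t31 (.cons 272 (.cons 273 (.leaf 300 2179 (.cons 271 (.leaf 296 2171 (.leaf 270 2160 .nil)) .nil)) (.cons 300 (.leaf 273 2179 (.cons 321 (.leaf 320 2370 (.cons 301 (.leaf 322 2378 (.cons 325 (.leaf 324 2376 (.leaf 326 2384 .nil)) .nil)) .nil)) .nil)) (.cons 296 (.leaf 271 2171 (.cons 320 (.leaf 319 2362 (.cons 248 (.cons 345 (.leaf 321 1988 (.cons 223 (.leaf 247 1791 (.cons 225 (.leaf 249 1797 (.cons 344 (.leaf 369 2180 (.cons 367 (.leaf 343 2174 (.cons 368 (.leaf 273 2181 (.leaf 391 2366 .nil)) .nil)) .nil)) .nil)) .nil)) .nil)) (.cons 249 (.leaf 225 1797 (.cons 223 (.leaf 247 1791 (.cons 224 (.leaf 250 1787 (.leaf 199 1599 .nil)) .nil)) .nil)) (.cons 321 (.leaf 224 1796 (.leaf 345 1988 .nil)) .nil))) .nil)) .nil)) (.cons 296 (.leaf 271 2171 (.cons 320 (.leaf 319 2362 (.cons 321 (.leaf 300 2370 (.cons 248 (.leaf 224 1796 (.leaf 345 1988 .nil))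 .nil)) .nil)) .nil)) .nil)))) (.cons 300 t30 (.cons 296 (.cons 271 (.leaf 272 2171 (.cons 320 (.leaf 319 2362 (.cons 300 (.leaf 321 2370 (.cons 325 (.leaf 324 2376 (.cons 301 (.leaf 326 2384 (.cons 295 (.leaf 274 2169 (.leaf 270 2163 .nil)) .nil)) .nil)) .nil)) .nil)) .nil)) (.cons 271 (.leaf 272 2171 (.cons 320 (.leaf 319 2362 (.cons 300 (.leaf 321 2370 (.cons 325 (.leaf 324 2376 (.cons 301 (.leaf 326 2384 (.cons 278 (.leaf 277 2193 (.cons 302 (.leaf 274 2195 (.leaf 279 2201 .nil)) .nil)) .nil)) .nil)) .nil)) .nil)) .nil)) (.cons 295 (.leaf 274 2169 (.cons 271 (.leaf 272 2171 (.leaf 270 2163 .nil)) .nil)) (.cons 320 (.leaf 319 2362 (.cons 274 (.leaf 295 2169 (.cons 300 (.leaf 321 2370 (.cons 301 (.leaf 302 2195 (.cons 325 (.leaf 324 2376 (.leaf 326 2384 .nil)) .nil)) .nil)) .nil)) .nil)) (.cons 271 (.leaf 272 2171 (.cons 295 (.leaf 270 2163 (.cons 319 (.leaf 320 2362 (.leaf 318 2354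 .nil)) .nil)) .nil)) .nil))))) (.cons 300 t29 (.cons 322 t28 (.cons 296 (.cons 272 (.leaf 271 2171 (.cons 273 (.leaf 300 2179 (.cons 274 (.leaf 252 1985 (.leaf 295 2169 .nil)) .nil)) .nil)) (.cons 272 (.leaf 271 2171 (.cons 273 (.leaf 300 2179 (.cons 320 (.leaf 319 2362 (.cons 249 (.leaf 225 1798 (.leaf 344 1989 .nil)) .nil)) .nil)) .nil)) (.cons 295 (.leaf 274 2169 (.cons 319 (.leaf 320 2362 (.leaf 318 2354 .nil)) .nil)) .nil))) .nil)))))))
noncomputable def t33 : T := .cons 274 (.leaf 295 2169 (.cons 320 (.leaf 319 2362 (.cons 300 (.leaf 321 2370 (.cons 271 (.leaf 272 2171 (.cons 301 (.leaf 302 2195 (.leaf 273 2187 .nil)) .nil)) .nil)) .nil)) .nil)) (.cons 274 (.leaf 295 2169 (.cons 320 (.leaf 319 2362 (.cons 300 (.leaf 321 2370 (.cons 301 (.leaf 302 2195 (.leaf 273 2187 .nil)) .nil)) .nil)) .nil)) (.cons 272 (.leaf 271 2171 (.cons 320 (.leaf 319 2362 (.cons 248 (.cons 223 (.leaf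 247 1791 (.cons 224 (.leaf 321 1796 (.leaf 199 1599 .nil)) .nil)) (.cons 223 (.leaf 247 1791 (.cons 199 (.leaf 224 1599 (.cons 249 (.leaf 225 1797 (.cons 273 (.leaf 300 2179 (.leaf 344 1989 .nil)) .nil)) .nil)) .nil)) (.cons 223 (.leaf 247 1791 (.cons 225 (.leaf 249 1797 (.cons 345 (.leaf 321 1988 (.cons 344 (.leaf 369 2180 (.cons 367 (.leaf 343 2174 (.cons 368 (.leaf 273 2181 (.leaf 391 2366 .nil)) .nil)) .nil)) .nil)) .nil)) .nil)) (.cons 321 (.leaf 300 2370 (.leaf 224 1796 .nil)) .nil)))) .nil)) .nil)) (.cons 295 (.leaf 274 2169 (.cons 271 (.leaf 272 2171 (.leaf 270 2163 .nil)) .nil)) .nil)))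
noncomputable def t34 : T := .cons 296 (.cons 271 (.leaf 272 2171 (.cons 320 (.leaf 319 2362 (.cons 300 (.leaf 321 2370 (.cons 325 (.leaf 324 2376 (.cons 301 (.leaf 326 2384 (.cons 274 (.leaf 295 2169 (.leaf 302 2195 .nil)) .nil)) .nil)) .nil)) .nil)) .nil)) (.cons 227 (.leaf 322 1814 (.cons 204 (.leaf 228 1629 (.cons 180 (.leaf 203 1437 (.cons 271 (.leaf 272 2171 (.cons 295 (.leaf 270 2163 (.cons 319 (.leaf 320 2362 (.leaf 318 2354 .nil)) .nil)) .nil)) .nil)) .nil)) .nil)) (.cons 274 (.leaf 295 2169 (.cons 320 (.leaf 319 2362 (.cons 300 (.leaf 321 2370 (.cons 301 (.leaf 302 2195 (.leaf 273 2187 .nil)) .nil)) .nil)) .nil)) (.cons 227 (.leaf 322 1814 (.cons 203 (.leaf 274 1622 (.cons 204 (.leaf 180 1437 (.leaf 228 1629 .nil)) .nil)) .nil)) .nil)))) (.cons 300 (.cons 325 (.leaf 324 2376 (.cons 301 (.leaf 326 2384 (.cons 274 (.leaf 302 2195 (.leaf 273 2187 .nil)) .nil)) .nil)) (.cons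 321 (.leaf 320 2370 (.cons 301 (.leaf 322 2378 (.cons 325 (.leaf 324 2376 (.leaf 326 2384 .nil)) .nil)) .nil)) (.cons 272 (.leaf 273 2179 (.cons 296 (.leaf 271 2171 (.cons 320 (.leaf 319 2362 (.leaf 321 2370 .nil)) .nil)) .nil)) .nil))) (.cons 296 t33 (.cons 322 (.leaf 227 1814 (.cons 346 (.leaf 274 2005 (.leaf 370 2197 .nil)) .nil)) (.cons 227 (.leaf 322 1814 (.cons 204 (.leaf 228 1629 (.cons 180 (.leaf 203 1437 (.cons 300 (.leaf 324 1820 (.cons 272 (.leaf 273 2179 (.cons 296 (.leaf 271 2171 (.cons 320 (.leaf 319 2362 (.leaf 321 2370 .nil)) .nil)) .nil)) .nil)) .nil)) .nil)) .nil)) .nil))))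
noncomputable def top0 : T := t2
noncomputable def top1 : T := .cons 227 (.cons 298 (.leaf 322 1814 (.cons 274 (.leaf 203 1622 (.cons 228 (.leaf 204 1629 (.cons 252 (.leaf 323 1821 (.cons 253 (.leaf 254 2002 (.cons 273 (.leaf 272 1985 (.leaf 250 1994 .nil)) .nil)) .nil)) .nil)) .nil)) .nil)) (.cons 228 (.leaf 204 1629 (.cons 323 (.leaf 252 1821 (.cons 324 (.leaf 300 1820 (.leaf 348 2012 .nil)) .nil)) .nil)) (.cons 298 (.leaf 322 1814 (.cons 274 (.leaf 203 1622 (.cons 300 (.leaf 324 1820 (.cons 273 (.leaf 272 2176 (.leaf 301 2187 .nil)) .nil)) .nil)) .nil)) .nil))) (.cons 298 (.cons 297 t34 (.cons 297 t32 (.cons 300 t27 (.cons 297 t26 (.cons 227 (.leaf 322 1814 (.cons 203 (.leaf 274 1622 (.cons 204 (.leaf 180 1437 (.leaf 228 1629 .nil)) .nil)) .nil)) .nil))))) (.cons 323 t23 (.cons 252 (.cons 228 (.leaf 323 1821 (.cons 204 (.leaf 180 1438 (.leaf 227 1629 .nil)) .nil)) (.cons 274 t22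 (.cons 274 t21 (.cons 323 (.leaf 228 1821 (.cons 348 (.leaf 324 2012 (.cons 347 (.leaf 372 2204 (.cons 274 (.leaf 250 2007 (.cons 253 (.leaf 254 2002 (.cons 272 (.leaf 273 1985 (.cons 370 (.leaf 346 2198 (.cons 371 (.leaf 298 2199 (.leaf 394 2390 .nil)) .nil)) .nil)) .nil)) .nil)) .nil)) .nil)) .nil)) .nil)))) (.cons 323 (.cons 324 (.leaf 348 2012 (.cons 227 (.leaf 300 1820 (.cons 228 (.leaf 204 1629 (.leaf 252 1821 .nil)) .nil)) .nil)) (.cons 272 t20 (.cons 272 t12 (.cons 324 (.leaf 348 2012 (.cons 300 (.leaf 227 1820 (.cons 322 (.leaf 346 2006 (.cons 301 (.leaf 302 2386 (.leaf 321 2377 .nil)) .nil)) .nil)) .nil)) (.cons 348 (.leaf 324 2012 (.cons 228 (.leaf 252 1821 (.cons 346 (.leaf 322 2006 (.cons 347 (.leaf 370 2198 (.leaf 372 2204 .nil)) .nil)) .nil)) .nil)) .nil))))) (.cons 227 t4 (.cons 323 t3 (.cons 323 (.cons 228 (.leaf 252 1821 (.cons 227 (.leaf 204 1629 (.cons 298 (.leaf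 322 1814 (.cons 274 (.leaf 203 1622 (.cons 347 (.leaf 250 2007 (.leaf 371 2199 .nil)) .nil)) .nil)) .nil)) .nil)) (.cons 228 (.leaf 252 1821 (.cons 204 (.leaf 227 1629 (.cons 348 (.leaf 324 2012 (.cons 347 (.leaf 372 2204 (.cons 274 (.leaf 250 2007 (.cons 371 (.leaf 298 2199 (.cons 370 (.leaf 346 2198 (.leaf 394 2390 .nil)) .nil)) .nil)) .nil)) .nil)) .nil)) .nil)) (.cons 322 (.leaf 346 2006 (.cons 298 (.leaf 227 1814 (.cons 324 (.leaf 348 2012 (.cons 297 (.leaf 296 2368 (.leaf 325 2379 .nil)) .nil)) .nil)) .nil)) (.cons 228 (.leaf 252 1821 (.cons 346 (.leaf 322 2006 (.cons 347 (.leaf 370 2198 (.cons 348 (.leaf 324 2012 (.leaf 372 2204 .nil)) .nil)) .nil)) .nil)) .nil)))) (.cons 323 (.cons 228 (.leaf 252 1821 (.cons 227 (.leaf 204 1629 (.cons 324 (.leaf 300 1820 (.leaf 348 2012 .nil)) .nil)) .nil)) (.cons 228 (.leaf 252 1821 (.cons 227 (.leaf 204 1629 (.cons 322 (.leaf 298 1814 (.leaf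 346 2006 .nil)) .nil)) .nil)) (.cons 322 (.leaf 346 2006 (.cons 298 (.leaf 227 1814 (.cons 324 (.leaf 348 2012 (.cons 297 (.leaf 296 2368 (.leaf 325 2379 .nil)) .nil)) .nil)) .nil)) (.cons 228 (.leaf 252 1821 (.cons 346 (.leaf 322 2006 (.cons 347 (.leaf 370 2198 (.cons 348 (.leaf 324 2012 (.leaf 372 2204 .nil)) .nil)) .nil)) .nil)) .nil)))) .nil))))))))

end Vale.Agent.P062.Second.D0
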