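import Vale.Agent.P062.Checker

namespace Vale.Agent.P062.Second.D1

open Vale.Agent.P062

noncomputable def t0 : T := .cons 155 (.leaf 131 1055 (.cons 133 (.leaf 157 1061 (.cons 132 (.leaf 109 869 (.cons 229 (.leaf 205 1060 (.leaf 253 1252 .nil)) .nil)) .nil)) .nil)) (.cons 131 (.leaf 155 1055 (.cons 132 (.leaf 107 863 (.cons 133 (.leaf 109 869 (.leaf 157 1061 .nil)) .nil)) .nil)) (.cons 229 (.leaf 253 1252 (.cons 131 (.leaf 155 1055 (.cons 132 (.leaf 107 863 (.leaf 205 1060 .nil)) .nil)) .nil)) (.cons 229 (.leaf 253 1252 (.cons 132 (.leaf 205 1060 (.cons 133 (.leaf 109 869 (.leaf 157 1061 .nil)) .nil)) .nil)) (.cons 155 (.leaf 131 1055 (.cons 157 (.leaf 133 1061 (.cons 229 (.leaf 253 1252 (.cons 154 (.cons 181 (.leaf 153 1224 (.leaf 182 1232 .nil)) (.cons 129 (.leaf 130 1035 (.cons 153 (.leaf 128 1027 (.cons 152 (.leaf 179 1216 (.cons 176 (.leaf 177 1218 (.leaf 175 1210 .nil)) .nil))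 .nil)) .nil)) (.cons 129 (.leaf 130 1035 (.cons 182 (.leaf 181 1232 (.cons 158 (.leaf 183 1240 (.cons 134 (.leaf 135 1049 (.cons 206 (.leaf 205 1070 (.cons 231 (.leaf 207 1076 (.cons 230 (.leaf 203 1627 (.leaf 255 1268 .nil)) .nil)) .nil)) .nil)) .nil)) .nil)) .nil)) .nil))) .nil)) .nil)) .nil)) .nil))))
noncomputable def t1 : T := .cons 180 (.leaf 252 1438 (.cons 227 (.leaf 203 1437 (.leaf 299 1629 .nil)) .nil)) (.cons 299 (.leaf 227 1629 (.cons 323 (.leaf 252 1821 (.cons 346 (.leaf 322 2006 (.cons 347 (.leaf 370 2198 (.cons 348 (.leaf 324 2012 (.leaf 372 2204 .nil)) .nil)) .nil)) .nil)) .nil)) (.cons 180 (.leaf 252 1438 (.cons 156 (.cons 229 (.leaf 253 1252 (.cons 131 (.leaf 155 1055 (.cons 132 (.leaf 107 863 (.leaf 205 1060 .nil)) .nil)) .nil)) (.cons 131 (.leaf 155 1055 (.cons 132 (.leaf 107 863 (.cons 133 (.leaf 109 869 (.leaf 157 1061 .nil)) .nil)) .nil)) (.cons 229 (.leaf 253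 1252 (.cons 132 (.leaf 205 1060 (.cons 133 (.leaf 109 869 (.leaf 157 1061 .nil)) .nil)) .nil)) (.cons 157 (.leaf 133 1061 (.cons 155 (.leaf 131 1055 (.cons 229 (.leaf 253 1252 (.cons 158 (.cons 179 (.leaf 159 1242 (.leaf 178 1234 .nil)) (.cons 134 (.leaf 135 1049 (.cons 181 (.leaf 205 1069 (.cons 182 (.leaf 183 1240 (.leaf 154 1232 .nil)) .nil)) .nil)) .nil)) .nil)) .nil)) .nil)) .nil)))) .nil)) (.cons 227 (.leaf 299 1629 (.cons 180 (.leaf 203 1437 (.leaf 156 1246 .nil)) .nil)) .nil)))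
noncomputable def t2 : T := .cons 203 (.leaf 180 1437 (.cons 202 (.leaf 178 1431 (.cons 226 (.leaf 299 1623 (.cons 225 (.leaf 205 1610 (.leaf 224 1601 .nil)) .nil)) .nil)) .nil)) (.cons 299 (.leaf 228 1629 (.cons 202 (.leaf 226 1623 (.cons 322 (.leaf 298 1814 (.cons 323 (.leaf 346 2006 (.cons 324 (.leaf 300 1820 (.leaf 348 2012 .nil)) .nil)) .nil)) .nil)) .nil)) (.cons 203 (.leaf 180 1437 (.cons 202 (.leaf 178 1431 (.cons 274 (.leaf 298 1622 (.cons 201 (.cons 228 (.leaf 229 1608 (.leaf 200 1600 .nil)) (.cons 176 (.leaf 177 1411 (.cons 200 (.leaf 175 1403 (.cons 224 (.leaf 225 1602 (.leaf 223 1594 .nil)) .nil)) .nil)) (.cons 176 (.leaf 177 1411 (.cons 224 (.leaf 225 1602 (.cons 229 (.leaf 228 1608 (.cons 205 (.leaf 230 1616 (.cons 182 (.leaf 181 1425 (.cons 206 (.leaf 183 1433 (.leaf 226 1618 .nil)) .nil)) .nil)) .nil)) .nil)) .nil)) .nil))) .nil)) .nil)) .nil)) (.cons 299 (.leaf 228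 1629 (.cons 180 (.leaf 203 1437 (.cons 322 (.leaf 298 1814 (.cons 323 (.leaf 346 2006 (.cons 324 (.leaf 300 1820 (.leaf 348 2012 .nil)) .nil)) .nil)) .nil)) .nil)) .nil)))
noncomputable def t3 : T := .cons 181 (.leaf 133 1062 (.cons 226 (.leaf 225 1609 (.cons 229 (.leaf 206 1617 (.leaf 132 1063 .nil)) .nil)) .nil)) (.cons 226 (.leaf 225 1609 (.cons 206 (.leaf 207 1626 (.leaf 229 1617 .nil)) .nil)) (.cons 181 (.leaf 133 1062 (.cons 226 (.leaf 225 1609 (.cons 229 (.leaf 132 1063 (.cons 254 (.leaf 253 1808 (.leaf 230 1260 .nil)) .nil)) .nil)) .nil)) (.cons 181 (.leaf 133 1062 (.cons 207 (.leaf 206 1626 (.cons 229 (.leaf 132 1063 (.cons 134 (.leaf 158 1069 (.cons 230 (.leaf 254 1260 (.cons 231 (.leaf 232 1635 (.leaf 208 1633 .nil)) .nil)) .nil)) .nil)) .nil)) .nil)) (.cons 133 (.leaf 181 1062 (.cons 206 (.leaf 207 1626 (.cons 226 (.leaf 225 1609 (.cons 158 (.cons 182 (.leaf 230 1071 (.cons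 155 (.leaf 183 1240 (.cons 178 (.leaf 179 1234 (.cons 154 (.leaf 202 1236 (.leaf 134 1041 .nil)) .nil)) .nil)) .nil)) (.cons 155 (.cons 178 (.leaf 179 1234 (.cons 154 (.leaf 202 1236 (.leaf 134 1041 .nil)) .nil)) (.cons 178 (.leaf 179 1234 (.cons 154 (.leaf 202 1236 (.leaf 177 1226 .nil)) .nil)) (.cons 135 (.leaf 134 1049 (.cons 159 (.leaf 136 1057 (.cons 160 (.leaf 132 1059 (.cons 184 (.leaf 183 1248 (.leaf 185 1256 .nil)) .nil)) .nil)) .nil)) .nil))) (.cons 182 (.leaf 230 1071 (.cons 155 (.leaf 183 1240 (.cons 178 (.leaf 179 1234 (.cons 154 (.leaf 202 1236 (.leaf 177 1226 .nil)) .nil)) .nil)) .nil)) (.cons 182 (.leaf 230 1071 (.cons 109 (.leaf 85 684 (.leaf 134 879 .nil)) .nil)) .nil)))) .nil)) .nil)) .nil)) .nil))))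
noncomputable def t4 : T := .cons 135 (.leaf 134 1049 (.cons 159 (.leaf 136 1057 (.cons 160 (.leaf 132 1059 (.cons 184 (.leaf 183 1248 (.leaf 185 1256 .nil)) .nil)) .nil)) .nil)) (.cons 131 (.leaf 130 1043 (.cons 159 (.leaf 132 1051 (.cons 136 (.leaf 135 1057 (.cons 160 (.leaf 137 1065 (.cons 184 (.leaf 183 1248 (.leaf 185 1256 .nil)) .nil)) .nil)) .nil)) .nil)) (.cons 131 (.leaf 130 1043 (.cons 159 (.leaf 132 1051 (.cons 178 (.leaf 179 1234 (.cons 184 (.leaf 183 1248 (.cons 160 (.leaf 185 1256 (.cons 137 (.leaf 136 1065 (.cons 161 (.leaf 134 1067 (.leaf 138 1073 .nil)) .nil)) .nil)) .nil)) .nil)) .nil)) .nil)) (.cons 206 (.leaf 207 1626 (.cons 226 (.leaf 225 1609 (.cons 159 (.cons 130 (.leaf 131 1043 (.cons 136 (.leaf 135 1057 (.cons 160 (.leaf 137 1065 (.cons 184 (.leaf 183 1248 (.leaf 185 1256 .nil)) .nil)) .nil)) .nil)) (.cons 184 (.leaf 183 1248 (.cons 160 (.leaf 185 1256 (.cons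 137 (.leaf 136 1065 (.cons 161 (.leaf 134 1067 (.leaf 138 1073 .nil)) .nil)) .nil)) .nil)) (.cons 130 (.leaf 131 1043 (.cons 134 (.leaf 135 1049 (.cons 160 (.leaf 161 1067 (.cons 184 (.leaf 183 1248 (.leaf 185 1256 .nil)) .nil)) .nil)) .nil)) (.cons 135 (.leaf 134 1049 (.leaf 136 1057 .nil)) .nil)))) .nil)) .nil)) (.cons 131 (.leaf 130 1043 (.cons 179 (.leaf 178 1234 (.cons 107 (.cons 82 (.leaf 106 663 (.cons 83 (.leaf 58 471 (.cons 84 (.leaf 60 477 (.leaf 108 669 .nil)) .nil)) .nil)) (.cons 134 (.leaf 135 1049 (.cons 106 (.leaf 132 851 (.leaf 82 663 .nil)) .nil)) (.cons 84 (.leaf 108 669 (.cons 83 (.leaf 60 477 (.cons 58 (.leaf 82 471 (.cons 59 (.leaf 132 476 (.leaf 34 279 .nil)) .nil)) .nil)) .nil)) (.cons 134 (.leaf 135 1049 (.cons 84 (.leaf 108 669 (.cons 83 (.leaf 60 477 (.cons 132 (.leaf 59 476 (.leaf 106 851 .nil)) .nil)) .nil)) .nil)) .nil)))) .nil)) .nil)) .nil))))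
noncomputable def t5 : T := .cons 226 (.leaf 225 1609 (.cons 206 (.leaf 207 1626 (.leaf 229 1617 .nil)) .nil)) (.cons 181 (.leaf 133 1062 (.cons 226 (.leaf 225 1609 (.cons 229 (.leaf 132 1063 (.cons 254 (.leaf 253 1808 (.leaf 230 1260 .nil)) .nil)) .nil)) .nil)) (.cons 181 (.leaf 133 1062 (.cons 207 (.leaf 206 1626 (.cons 229 (.leaf 132 1063 (.cons 134 (.leaf 158 1069 (.cons 230 (.leaf 254 1260 (.cons 231 (.leaf 232 1635 (.leaf 208 1633 .nil)) .nil)) .nil)) .nil)) .nil)) .nil)) (.cons 133 (.leaf 181 1062 (.cons 155 (.cons 158 (.cons 131 (.leaf 130 1043 (.cons 159 (.leaf 132 1051 (.cons 136 (.leaf 135 1057 (.cons 160 (.leaf 137 1065 (.cons 184 (.leaf 183 1248 (.leaf 185 1256 .nil)) .nil)) .nil)) .nil)) .nil)) (.cons 135 (.leaf 134 1049 (.cons 159 (.leaf 136 1057 (.cons 160 (.leaf 132 1059 (.cons 184 (.leaf 183 1248 (.leaf 185 1256 .nil)) .nil)) .nil)) .nil)) (.cons 154 (.leaf 134 1041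 (.cons 130 (.leaf 129 1035 (.leaf 131 1043 .nil)) .nil)) .nil))) (.cons 158 t4 (.cons 226 (.leaf 225 1609 (.cons 206 (.leaf 207 1626 (.cons 154 (.cons 129 (.leaf 130 1035 (.cons 153 (.leaf 128 1027 (.leaf 132 1033 .nil)) .nil)) (.cons 178 (.leaf 202 1236 (.leaf 177 1226 .nil)) .nil)) .nil)) .nil)) (.cons 134 (.leaf 154 1041 (.cons 135 (.leaf 136 1058 (.leaf 158 1049 .nil)) .nil)) .nil)))) .nil)) .nil)))
noncomputable def t6 : T := .cons 159 (.cons 131 (.leaf 132 1051 (.cons 133 (.leaf 181 1062 (.cons 135 (.leaf 136 1057 (.cons 155 (.leaf 130 1043 (.cons 178 (.leaf 179 1234 (.cons 154 (.leaf 202 1236 (.leaf 177 1226 .nil)) .nil)) .nil)) .nil)) .nil)) .nil)) (.cons 131 (.leaf 132 1051 (.cons 135 (.leaf 136 1057 (.cons 155 (.leaf 130 1043 (.cons 178 (.leaf 179 1234 (.cons 154 (.leaf 202 1236 (.leaf 177 1226 .nil)) .nil)) .nil)) .nil)) .nil)) (.cons 136 (.leaf 135 1057 (.cons 160 (.leaf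 137 1065 (.cons 181 (.leaf 133 1062 (.cons 161 (.leaf 182 1258 (.cons 185 (.leaf 184 1256 (.leaf 186 1264 .nil)) .nil)) .nil)) .nil)) .nil)) (.cons 131 (.leaf 132 1051 (.cons 133 (.leaf 181 1062 (.cons 155 (.leaf 130 1043 (.cons 178 (.leaf 179 1234 (.cons 154 (.leaf 202 1236 (.leaf 177 1226 .nil)) .nil)) .nil)) .nil)) .nil)) .nil)))) (.cons 159 (.cons 131 (.leaf 132 1051 (.cons 155 (.leaf 130 1043 (.cons 183 (.leaf 182 1240 (.leaf 184 1248 .nil)) .nil)) .nil)) (.cons 135 (.leaf 136 1057 (.cons 131 (.leaf 132 1051 (.cons 155 (.leaf 130 1043 (.cons 178 (.leaf 179 1234 (.cons 154 (.leaf 202 1236 (.leaf 177 1226 .nil)) .nil)) .nil)) .nil)) .nil)) (.cons 135 (.leaf 136 1057 (.cons 182 (.leaf 230 1077 (.cons 183 (.leaf 155 1240 (.leaf 184 1248 .nil)) .nil)) .nil)) (.cons 131 (.leaf 132 1051 (.cons 135 (.leaf 136 1057 (.cons 182 (.leaf 230 1077 (.cons 111 (.leaf 183 886 (.leaf 87 694 .nil))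 .nil)) .nil)) .nil)) .nil)))) (.cons 133 (.leaf 181 1062 (.cons 159 (.cons 132 (.leaf 131 1051 (.leaf 160 1059 .nil)) (.cons 136 (.leaf 135 1057 (.cons 160 (.leaf 137 1065 (.cons 184 (.leaf 183 1248 (.leaf 185 1256 .nil)) .nil)) .nil)) (.cons 131 (.leaf 132 1051 (.cons 135 (.leaf 136 1057 (.cons 155 (.leaf 130 1043 (.cons 178 (.leaf 179 1234 (.cons 154 (.leaf 202 1236 (.leaf 177 1226 .nil)) .nil)) .nil)) .nil)) .nil)) .nil))) .nil)) (.cons 133 (.leaf 181 1062 (.cons 182 (.leaf 230 1071 (.cons 155 (.leaf 183 1240 (.cons 85 (.leaf 109 684 (.cons 130 (.leaf 131 1043 (.cons 154 (.leaf 129 1035 (.cons 178 (.leaf 202 1236 (.leaf 177 1226 .nil)) .nil)) .nil)) .nil)) .nil)) .nil)) .nil)) (.cons 133 (.leaf 181 1062 (.cons 182 (.leaf 230 1071 (.cons 109 (.leaf 85 684 (.cons 159 (.cons 132 (.leaf 131 1051 (.leaf 160 1059 .nil)) (.cons 135 (.leaf 136 1057 (.cons 183 (.leaf 184 1248 (.leaf 111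 886 .nil)) .nil)) .nil)) .nil)) .nil)) .nil)) (.cons 133 (.leaf 181 1062 (.cons 182 (.leaf 230 1071 (.cons 155 (.leaf 183 1240 (.cons 178 (.leaf 179 1234 (.cons 154 (.leaf 202 1236 (.leaf 177 1226 .nil)) .nil)) .nil)) .nil)) .nil)) .nil)))))
noncomputable def t7 : T := .cons 181 (.leaf 133 1062 (.cons 207 (.leaf 206 1626 (.cons 229 (.cons 134 (.leaf 158 1069 (.cons 230 (.leaf 254 1260 (.cons 231 (.leaf 232 1635 (.leaf 208 1633 .nil)) .nil)) .nil)) (.cons 158 (.leaf 134 1069 (.cons 182 (.leaf 253 1261 (.cons 183 (.leaf 184 1442 (.leaf 155 1240 .nil)) .nil)) .nil)) (.cons 230 (.leaf 254 1260 (.cons 231 (.leaf 232 1635 (.leaf 208 1633 .nil)) .nil)) .nil))) .nil)) .nil)) (.cons 181 (.leaf 133 1062 (.cons 226 (.leaf 225 1609 (.cons 229 (.cons 254 (.leaf 253 1808 (.leaf 230 1260 .nil)) (.cons 158 (.leaf 134 1069 (.cons 182 (.leaf 253 1261 (.cons 183 (.leaf 184 1442 (.leaf 155 1240 .nil))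 .nil)) .nil)) (.cons 158 (.leaf 134 1069 (.cons 202 (.leaf 201 1611 (.cons 154 (.leaf 178 1236 (.cons 155 (.leaf 182 1232 (.cons 130 (.leaf 129 1035 (.leaf 131 1043 .nil)) .nil)) .nil)) .nil)) .nil)) .nil))) .nil)) .nil)) (.cons 226 (.leaf 225 1609 (.cons 206 (.leaf 207 1626 (.leaf 229 1617 .nil)) .nil)) (.cons 133 (.leaf 181 1062 (.cons 206 (.leaf 207 1626 (.cons 158 (.cons 182 (.leaf 230 1071 (.cons 109 (.leaf 85 684 (.leaf 134 879 .nil)) .nil)) (.cons 159 (.cons 184 (.leaf 183 1248 (.cons 160 (.leaf 185 1256 (.cons 137 (.leaf 136 1065 (.cons 161 (.leaf 134 1067 (.leaf 138 1073 .nil)) .nil)) .nil)) .nil)) (.cons 184 (.leaf 183 1248 (.cons 160 (.leaf 185 1256 (.cons 134 (.leaf 161 1067 (.cons 155 (.leaf 154 1041 (.leaf 135 1049 .nil)) .nil)) .nil)) .nil)) (.cons 135 (.leaf 136 1057 (.cons 155 (.leaf 134 1049 (.cons 130 (.leaf 131 1043 (.cons 154 (.leaf 129 1035 (.cons 178 (.leaf 177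 1226 (.leaf 179 1234 .nil)) .nil)) .nil)) .nil)) .nil)) (.cons 136 (.leaf 135 1057 (.cons 160 (.leaf 137 1065 (.cons 184 (.leaf 183 1248 (.leaf 185 1256 .nil)) .nil)) .nil)) .nil)))) (.cons 182 (.leaf 230 1071 (.cons 85 (.leaf 109 684 (.cons 155 (.leaf 183 1240 (.cons 130 (.leaf 131 1043 (.cons 154 (.leaf 129 1035 (.cons 178 (.leaf 177 1226 (.leaf 179 1234 .nil)) .nil)) .nil)) .nil)) .nil)) .nil)) .nil))) .nil)) .nil)) .nil)))
noncomputable def t8 : T := .cons 182 (.leaf 154 1232 (.cons 183 (.leaf 158 1240 (.leaf 184 1251 .nil)) .nil)) (.cons 158 (.cons 131 (.leaf 130 1043 (.cons 135 (.leaf 134 1049 (.cons 159 (.leaf 132 1051 (.leaf 136 1057 .nil)) .nil)) .nil)) (.cons 131 (.leaf 130 1043 (.cons 159 (.leaf 132 1051 (.cons 183 (.leaf 182 1240 (.leaf 184 1248 .nil)) .nil)) .nil)) (.cons 134 (.leaf 135 1049 (.cons 110 (.leaf 86 686 (.cons 182 (.leaf 183 1240 (.leaf 205 878 .nil)) .nil))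 .nil)) .nil))) (.cons 158 (.cons 134 (.leaf 135 1049 (.cons 86 (.leaf 110 686 (.cons 178 (.leaf 179 1234 (.cons 154 (.leaf 177 1226 (.cons 205 (.leaf 229 1069 (.cons 226 (.leaf 202 1236 (.leaf 225 1609 .nil)) .nil)) .nil)) .nil)) .nil)) .nil)) (.cons 130 (.leaf 131 1043 (.cons 154 (.leaf 129 1035 (.cons 178 (.leaf 177 1226 (.leaf 179 1234 .nil)) .nil)) .nil)) (.cons 131 (.leaf 130 1043 (.cons 135 (.leaf 134 1049 (.cons 159 (.leaf 132 1051 (.leaf 136 1057 .nil)) .nil)) .nil)) .nil))) (.cons 154 (.leaf 182 1232 (.cons 129 (.leaf 130 1035 (.cons 153 (.leaf 128 1027 (.cons 177 (.leaf 176 1218 (.leaf 178 1226 .nil)) .nil)) .nil)) .nil)) .nil)))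
noncomputable def t9 : T := .cons 154 (.leaf 182 1232 (.cons 133 (.leaf 134 1041 (.cons 132 (.leaf 153 1033 (.cons 178 (.leaf 177 1226 (.cons 158 (.leaf 179 1234 (.cons 159 (.leaf 131 1051 (.leaf 160 1059 .nil)) .nil)) .nil)) .nil)) .nil)) .nil)) (.cons 158 (.cons 135 (.leaf 134 1049 (.cons 159 (.leaf 136 1057 (.cons 183 (.leaf 182 1240 (.leaf 184 1248 .nil)) .nil)) .nil)) (.cons 131 (.leaf 130 1043 (.cons 135 (.leaf 134 1049 (.cons 159 (.leaf 132 1051 (.leaf 136 1057 .nil)) .nil)) .nil)) (.cons 183 (.leaf 182 1240 (.cons 131 (.leaf 130 1043 (.cons 159 (.leaf 132 1051 (.leaf 184 1248 .nil)) .nil)) .nil)) (.cons 131 (.leaf 130 1043 (.cons 134 (.leaf 135 1049 (.cons 110 (.leaf 86 686 (.cons 182 (.leaf 183 1240 (.cons 109 (.leaf 85 687 (.cons 111 (.leaf 87 693 (.cons 132 (.leaf 108 858 (.leaf 133 857 .nil)) .nil)) .nil)) .nil)) .nil)) .nil)) .nil)) .nil)))) (.cons 154 (.cons 133 (.leaf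 134 1041 (.cons 132 (.leaf 153 1033 (.cons 178 (.leaf 177 1226 (.cons 158 (.leaf 179 1234 (.cons 159 (.leaf 131 1051 (.leaf 160 1059 .nil)) .nil)) .nil)) .nil)) .nil)) (.cons 129 (.leaf 130 1035 (.cons 133 (.leaf 134 1041 (.cons 153 (.leaf 128 1027 (.leaf 132 1033 .nil)) .nil)) .nil)) (.cons 178 (.leaf 177 1226 (.cons 129 (.leaf 130 1035 (.cons 153 (.leaf 128 1027 (.cons 202 (.leaf 226 1236 (.cons 179 (.leaf 158 1234 (.cons 81 (.leaf 105 652 (.cons 131 (.leaf 107 854 (.cons 152 (.leaf 132 1025 (.leaf 151 1208 .nil)) .nil)) .nil)) .nil)) .nil)) .nil)) .nil)) .nil)) (.cons 129 (.leaf 130 1035 (.cons 134 (.leaf 133 1041 (.cons 158 (.leaf 135 1049 (.cons 178 (.leaf 177 1226 (.leaf 179 1234 .nil)) .nil)) .nil)) .nil)) .nil)))) (.cons 154 (.leaf 182 1232 (.cons 133 (.leaf 134 1041 (.cons 129 (.leaf 130 1035 (.cons 153 (.leaf 128 1027 (.leaf 132 1033 .nil)) .nil)) .nil)) .nil)) (.cons 154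 (.leaf 182 1232 (.cons 178 (.leaf 177 1226 (.cons 129 (.leaf 130 1035 (.cons 153 (.leaf 128 1027 (.cons 202 (.leaf 226 1236 (.cons 179 (.leaf 158 1234 (.cons 81 (.leaf 105 652 (.cons 131 (.leaf 107 854 (.cons 152 (.leaf 132 1025 (.leaf 151 1208 .nil)) .nil)) .nil)) .nil)) .nil)) .nil)) .nil)) .nil)) .nil)) (.cons 154 (.leaf 182 1232 (.cons 129 (.leaf 130 1035 (.cons 134 (.leaf 133 1041 (.cons 158 (.leaf 135 1049 (.cons 178 (.leaf 177 1226 (.leaf 179 1234 .nil)) .nil)) .nil)) .nil)) .nil)) .nil)))))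
noncomputable def t10 : T := .cons 205 (.leaf 133 1062 (.cons 226 (.leaf 225 1609 (.cons 229 (.leaf 132 1063 (.cons 254 (.leaf 253 1808 (.leaf 230 1260 .nil)) .nil)) .nil)) .nil)) (.cons 155 t9 (.cons 155 t8 (.cons 205 (.leaf 133 1062 (.cons 226 (.leaf 225 1609 (.cons 229 (.cons 254 (.leaf 253 1808 (.leaf 230 1260 .nil)) (.cons 158 (.leaf 134 1069 (.cons 182 (.leaf 253 1261 (.cons 183 (.leaf 184 1442 (.leaf 155 1240 .nil)) .nil)) .nil)) (.cons 158 (.leaf 134 1069 (.cons 202 (.leaf 201 1611 (.cons 154 (.leaf 178 1236 (.cons 155 (.leaf 182 1232 (.cons 130 (.leaf 129 1035 (.leaf 131 1043 .nil)) .nil)) .nil)) .nil)) .nil)) .nil))) .nil)) .nil)) (.cons 155 (.cons 154 (.leaf 182 1232 (.cons 129 (.leaf 130 1035 (.cons 134 (.leaf 133 1041 (.cons 158 (.leaf 135 1049 (.cons 178 (.leaf 177 1226 (.leaf 179 1234 .nil)) .nil)) .nil)) .nil)) .nil)) (.cons 158 (.cons 131 (.leaf 130 1043 (.cons 134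 (.leaf 135 1049 (.cons 110 (.leaf 86 686 (.cons 182 (.leaf 183 1240 (.leaf 205 878 .nil)) .nil)) .nil)) .nil)) (.cons 183 (.leaf 182 1240 (.cons 131 (.leaf 130 1043 (.cons 159 (.leaf 132 1051 (.leaf 184 1248 .nil)) .nil)) .nil)) (.cons 131 (.leaf 130 1043 (.cons 135 (.leaf 134 1049 (.cons 159 (.leaf 132 1051 (.leaf 136 1057 .nil)) .nil)) .nil)) (.cons 134 (.leaf 135 1049 (.cons 110 (.leaf 86 686 (.cons 182 (.leaf 183 1240 (.leaf 205 878 .nil)) .nil)) .nil)) .nil)))) (.cons 133 (.leaf 205 1062 (.cons 134 (.leaf 154 1041 (.cons 135 (.leaf 132 1050 (.leaf 136 1058 .nil)) .nil)) .nil)) (.cons 154 (.leaf 182 1232 (.cons 129 (.leaf 130 1035 (.cons 153 (.leaf 128 1027 (.cons 177 (.leaf 176 1218 (.leaf 178 1226 .nil)) .nil)) .nil)) .nil)) .nil)))) .nil))))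
noncomputable def t11 : T := .cons 183 (.leaf 184 1248 (.cons 132 (.leaf 131 1051 (.cons 205 (.cons 226 (.leaf 225 1609 (.cons 229 (.leaf 206 1617 (.leaf 181 1063 .nil)) .nil)) (.cons 207 (.leaf 206 1626 (.cons 134 (.leaf 231 1079 (.cons 110 (.leaf 86 692 (.leaf 182 884 .nil)) .nil)) .nil)) (.cons 226 (.leaf 225 1609 (.cons 229 (.leaf 181 1063 (.cons 202 (.leaf 201 1611 (.cons 254 (.leaf 253 1808 (.cons 230 (.leaf 255 1816 (.cons 231 (.leaf 232 1635 (.leaf 207 1270 .nil)) .nil)) .nil)) .nil)) .nil)) .nil)) .nil))) .nil)) .nil)) (.cons 135 (.leaf 136 1057 (.cons 132 (.leaf 131 1051 (.cons 205 (.cons 226 (.leaf 225 1609 (.cons 229 (.leaf 206 1617 (.leaf 181 1063 .nil)) .nil)) (.cons 206 (.leaf 207 1626 (.cons 182 (.leaf 230 1077 (.cons 111 (.leaf 87 694 (.leaf 134 885 .nil)) .nil)) .nil)) (.cons 226 (.leaf 225 1609 (.cons 229 (.leaf 181 1063 (.cons 254 (.leaf 253 1808 (.cons 230 (.leaf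 255 1816 (.cons 231 (.leaf 232 1635 (.cons 207 (.leaf 208 1633 (.leaf 183 1270 .nil)) .nil)) .nil)) .nil)) .nil)) .nil)) .nil))) .nil)) .nil)) (.cons 135 (.leaf 136 1057 (.cons 132 (.leaf 131 1051 (.cons 206 (.cons 182 (.leaf 230 1077 (.cons 111 (.leaf 87 694 (.leaf 134 885 .nil)) .nil)) (.cons 205 (.leaf 207 1626 (.cons 226 (.leaf 225 1609 (.leaf 229 1617 .nil)) .nil)) .nil)) .nil)) .nil)) (.cons 184 (.leaf 183 1248 (.cons 136 (.leaf 135 1057 (.cons 160 (.leaf 137 1065 (.leaf 185 1256 .nil)) .nil)) .nil)) .nil)))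
noncomputable def t12 : T := .cons 205 (.cons 181 (.leaf 133 1062 (.cons 229 (.leaf 132 1063 (.leaf 134 1069 .nil)) .nil)) (.cons 206 (.leaf 207 1626 (.cons 226 (.leaf 225 1609 (.leaf 229 1617 .nil)) .nil)) (.cons 133 (.leaf 181 1062 (.cons 206 (.leaf 207 1626 (.cons 182 (.leaf 230 1071 (.cons 109 (.leaf 85 684 (.leaf 134 879 .nil)) .nil)) .nil)) .nil)) .nil))) (.cons 159 (.cons 132 (.leaf 131 1051 (.cons 160 (.leaf 133 1059 (.cons 184 (.leaf 183 1248 (.leaf 185 1256 .nil)) .nil)) .nil)) (.cons 136 (.leaf 135 1057 (.cons 160 (.leaf 137 1065 (.cons 184 (.leaf 183 1248 (.leaf 185 1256 .nil)) .nil)) .nil)) (.cons 132 (.leaf 131 1051 (.cons 136 (.leaf 135 1057 (.cons 160 (.leaf 133 1059 (.leaf 137 1065 .nil)) .nil)) .nil)) (.cons 135 (.leaf 136 1057 (.cons 183 (.leaf 184 1248 (.cons 132 (.leaf 131 1051 (.cons 111 (.cons 86 (.leaf 110 695 (.cons 112 (.leaf 88 701 (.cons 134 (.leaf 133 865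 (.cons 206 (.leaf 182 885 (.cons 207 (.leaf 231 1079 (.leaf 230 1078 .nil)) .nil)) .nil)) .nil)) .nil)) (.cons 86 (.leaf 110 695 (.cons 87 (.leaf 62 503 (.cons 88 (.leaf 64 509 (.leaf 112 701 .nil)) .nil)) .nil)) (.cons 182 (.leaf 87 694 (.leaf 206 886 .nil)) .nil))) .nil)) .nil)) .nil)) .nil)))) (.cons 159 t11 (.cons 205 (.cons 181 (.leaf 133 1062 (.cons 134 (.leaf 229 1069 (.cons 110 (.leaf 86 686 (.leaf 182 878 .nil)) .nil)) .nil)) (.cons 206 (.leaf 207 1626 (.cons 226 (.leaf 225 1609 (.leaf 229 1617 .nil)) .nil)) (.cons 133 (.leaf 181 1062 (.cons 206 (.leaf 207 1626 (.cons 182 (.leaf 230 1071 (.cons 109 (.leaf 85 684 (.leaf 134 879 .nil)) .nil)) .nil)) .nil)) .nil))) (.cons 159 (.cons 132 (.leaf 131 1051 (.cons 160 (.leaf 133 1059 (.cons 184 (.leaf 183 1248 (.leaf 185 1256 .nil)) .nil)) .nil)) (.cons 184 (.leaf 183 1248 (.cons 136 (.leaf 135 1057 (.cons 160 (.leaf 137 1065 (.leaf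 185 1256 .nil)) .nil)) .nil)) (.cons 132 (.leaf 131 1051 (.cons 136 (.leaf 135 1057 (.cons 160 (.leaf 133 1059 (.leaf 137 1065 .nil)) .nil)) .nil)) (.cons 183 (.leaf 184 1248 (.cons 135 (.leaf 136 1057 (.cons 132 (.leaf 131 1051 (.cons 111 (.cons 86 (.leaf 110 695 (.cons 87 (.leaf 182 694 (.leaf 62 503 .nil)) .nil)) (.cons 87 (.leaf 182 694 (.cons 88 (.leaf 64 509 (.leaf 112 701 .nil)) .nil)) (.cons 110 (.leaf 86 695 (.cons 112 (.leaf 88 701 (.cons 133 (.leaf 134 865 (.leaf 109 866 .nil)) .nil)) .nil)) .nil))) .nil)) .nil)) .nil)) .nil)))) (.cons 159 (.cons 132 (.leaf 131 1051 (.cons 183 (.leaf 184 1248 (.cons 136 (.leaf 135 1057 (.cons 160 (.leaf 133 1059 (.leaf 137 1065 .nil)) .nil)) .nil)) .nil)) (.cons 132 (.leaf 131 1051 (.cons 136 (.leaf 135 1057 (.cons 160 (.leaf 133 1059 (.leaf 137 1065 .nil)) .nil)) .nil)) (.cons 184 (.leaf 183 1248 (.cons 136 (.leaf 135 1057 (.cons 160 (.leaf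 137 1065 (.leaf 185 1256 .nil)) .nil)) .nil)) (.cons 132 (.leaf 131 1051 (.cons 160 (.leaf 133 1059 (.cons 184 (.leaf 183 1248 (.leaf 185 1256 .nil)) .nil)) .nil)) (.cons 132 (.leaf 131 1051 (.cons 183 (.leaf 184 1248 (.cons 135 (.leaf 136 1057 (.cons 111 (.cons 87 (.leaf 182 694 (.cons 88 (.leaf 64 509 (.leaf 112 701 .nil)) .nil)) (.cons 86 (.leaf 110 695 (.cons 87 (.leaf 62 503 (.cons 88 (.leaf 64 509 (.leaf 112 701 .nil)) .nil)) .nil)) (.cons 206 (.leaf 182 886 (.cons 207 (.leaf 205 1626 (.leaf 230 1078 .nil)) .nil)) .nil))) .nil)) .nil)) .nil)) .nil))))) (.cons 159 (.cons 132 (.leaf 131 1051 (.cons 133 (.leaf 160 1059 (.cons 183 (.leaf 184 1248 (.cons 205 (.leaf 181 1062 (.cons 206 (.leaf 207 1626 (.cons 226 (.leaf 225 1609 (.leaf 229 1617 .nil)) .nil)) .nil)) .nil)) .nil)) .nil)) (.cons 136 (.leaf 135 1057 (.cons 160 (.leaf 137 1065 (.cons 184 (.leaf 183 1248 (.leaf 185 1256 .nil))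 .nil)) .nil)) (.cons 132 (.leaf 131 1051 (.cons 133 (.leaf 160 1059 (.cons 135 (.leaf 136 1057 (.cons 205 (.leaf 181 1062 (.cons 206 (.leaf 207 1626 (.cons 226 (.leaf 225 1609 (.leaf 229 1617 .nil)) .nil)) .nil)) .nil)) .nil)) .nil)) (.cons 132 (.leaf 131 1051 (.cons 135 (.leaf 136 1057 (.cons 183 (.leaf 184 1248 (.cons 207 (.cons 134 (.leaf 231 1079 (.leaf 110 887 .nil)) (.cons 206 (.leaf 205 1626 (.leaf 230 1078 .nil)) .nil)) .nil)) .nil)) .nil)) .nil)))) .nil))))))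
noncomputable def t13 : T := .cons 132 (.leaf 131 1051 (.cons 133 (.leaf 160 1059 (.cons 183 (.leaf 184 1248 (.cons 205 (.leaf 181 1062 (.cons 206 (.leaf 207 1626 (.cons 226 (.leaf 225 1609 (.leaf 229 1617 .nil)) .nil)) .nil)) .nil)) .nil)) .nil)) (.cons 184 (.leaf 183 1248 (.cons 136 (.leaf 135 1057 (.cons 160 (.leaf 137 1065 (.leaf 185 1256 .nil)) .nil)) .nil)) (.cons 132 (.leaf 131 1051 (.cons 133 (.leaf 160 1059 (.cons 135 (.leaf 136 1057 (.cons 205 (.leaf 181 1062 (.cons 206 (.leaf 207 1626 (.cons 226 (.leaf 225 1609 (.leaf 229 1617 .nil)) .nil)) .nil)) .nil)) .nil)) .nil)) (.cons 183 (.leaf 184 1248 (.cons 132 (.leaf 131 1051 (.cons 205 (.cons 226 (.leaf 225 1609 (.cons 229 (.leaf 206 1617 (.leaf 181 1063 .nil)) .nil)) (.cons 207 (.leaf 206 1626 (.cons 134 (.leaf 231 1079 (.cons 110 (.leaf 86 692 (.leaf 182 884 .nil)) .nil)) .nil)) (.cons 226 (.leaf 225 1609 (.cons 229 (.leaf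 181 1063 (.cons 202 (.leaf 201 1611 (.cons 254 (.leaf 253 1808 (.cons 230 (.leaf 255 1816 (.cons 231 (.leaf 232 1635 (.leaf 207 1270 .nil)) .nil)) .nil)) .nil)) .nil)) .nil)) .nil))) .nil)) .nil)) .nil)))
noncomputable def t14 : T := .cons 155 (.cons 133 (.leaf 134 1041 (.cons 129 (.leaf 130 1035 (.cons 153 (.leaf 128 1027 (.leaf 132 1033 .nil)) .nil)) .nil)) (.cons 129 (.leaf 130 1035 (.cons 153 (.leaf 128 1027 (.cons 177 (.leaf 176 1218 (.leaf 178 1226 .nil)) .nil)) .nil)) (.cons 133 (.leaf 134 1041 (.cons 153 (.leaf 132 1033 (.cons 177 (.leaf 176 1218 (.leaf 178 1226 .nil)) .nil)) .nil)) (.cons 130 (.leaf 129 1035 (.cons 133 (.leaf 134 1041 (.cons 178 (.leaf 177 1226 (.cons 181 (.leaf 205 1062 (.leaf 182 1232 .nil)) .nil)) .nil)) .nil)) .nil)))) (.cons 226 (.cons 178 (.leaf 202 1236 (.cons 225 (.leaf 205 1609 (.cons 200 (.leaf 201 1603 (.cons 224 (.leaf 199 1595 (.cons 248 (.leaf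 249 1794 (.leaf 247 1786 .nil)) .nil)) .nil)) .nil)) .nil)) (.cons 202 (.leaf 178 1236 (.cons 201 (.leaf 229 1611 (.cons 200 (.leaf 225 1603 (.leaf 199 1592 .nil)) .nil)) .nil)) (.cons 202 (.leaf 178 1236 (.cons 229 (.leaf 201 1611 (.cons 206 (.leaf 205 1617 (.cons 230 (.leaf 207 1625 (.cons 254 (.leaf 253 1808 (.leaf 255 1816 .nil)) .nil)) .nil)) .nil)) .nil)) (.cons 205 (.leaf 225 1609 (.cons 206 (.leaf 207 1626 (.leaf 229 1617 .nil)) .nil)) .nil)))) (.cons 155 (.cons 133 (.leaf 134 1041 (.cons 129 (.leaf 130 1035 (.cons 153 (.leaf 128 1027 (.leaf 132 1033 .nil)) .nil)) .nil)) (.cons 133 (.leaf 134 1041 (.cons 153 (.leaf 132 1033 (.cons 177 (.leaf 176 1218 (.leaf 178 1226 .nil)) .nil)) .nil)) (.cons 129 (.leaf 130 1035 (.cons 153 (.leaf 128 1027 (.cons 177 (.leaf 176 1218 (.leaf 178 1226 .nil)) .nil)) .nil)) (.cons 130 (.leaf 129 1035 (.cons 133 (.leaf 134 1041 (.cons 178 (.leaf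 177 1226 (.cons 181 (.leaf 182 1232 (.cons 202 (.leaf 226 1236 (.cons 107 (.leaf 131 853 (.cons 106 (.leaf 83 661 (.cons 81 (.leaf 105 655 (.cons 82 (.leaf 57 463 (.leaf 179 660 .nil)) .nil)) .nil)) .nil)) .nil)) .nil)) .nil)) .nil)) .nil)) .nil)))) (.cons 205 (.cons 181 (.leaf 133 1062 (.cons 132 (.leaf 229 1063 (.cons 84 (.leaf 108 676 (.cons 155 (.leaf 182 1232 (.cons 129 (.leaf 130 1035 (.cons 153 (.leaf 128 1027 (.cons 152 (.leaf 131 1025 (.cons 176 (.leaf 177 1218 (.leaf 175 1210 .nil)) .nil)) .nil)) .nil)) .nil)) .nil)) .nil)) .nil)) (.cons 206 (.leaf 207 1626 (.cons 226 (.leaf 225 1609 (.leaf 229 1617 .nil)) .nil)) (.cons 133 (.leaf 181 1062 (.cons 155 (.leaf 134 1041 (.cons 153 (.leaf 132 1033 (.cons 129 (.leaf 128 1027 (.leaf 130 1035 .nil)) .nil)) .nil)) .nil)) .nil))) .nil)))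
noncomputable def t15 : T := .cons 154 (.leaf 178 1236 (.cons 155 (.cons 130 (.leaf 129 1035 (.cons 134 (.leaf 133 1041 (.cons 158 (.leaf 131 1043 (.leaf 135 1049 .nil)) .nil)) .nil)) (.cons 201 (.leaf 229 1611 (.cons 133 (.leaf 134 1041 (.cons 153 (.leaf 132 1033 (.cons 129 (.leaf 128 1027 (.leaf 177 1036 .nil)) .nil)) .nil)) .nil)) (.cons 201 (.leaf 229 1611 (.cons 129 (.leaf 130 1035 (.cons 153 (.leaf 128 1027 (.leaf 177 1036 .nil)) .nil)) .nil)) (.cons 134 (.leaf 133 1041 (.cons 158 (.leaf 135 1049 (.cons 131 (.leaf 130 1043 (.cons 159 (.leaf 132 1051 (.cons 183 (.leaf 182 1240 (.leaf 184 1248 .nil)) .nil)) .nil)) .nil)) .nil)) .nil)))) .nil)) (.cons 154 (.leaf 178 1236 (.cons 155 (.cons 134 (.leaf 133 1041 (.cons 158 (.leaf 135 1049 (.cons 131 (.leaf 130 1043 (.cons 159 (.leaf 132 1051 (.cons 183 (.leaf 182 1240 (.leaf 184 1248 .nil)) .nil)) .nil)) .nil)) .nil)) (.cons 133 (.leaf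 134 1041 (.cons 153 (.leaf 132 1033 (.cons 128 (.leaf 129 1027 (.cons 152 (.leaf 127 1019 (.cons 176 (.leaf 177 1218 (.leaf 175 1210 .nil)) .nil)) .nil)) .nil)) .nil)) (.cons 130 (.leaf 129 1035 (.cons 158 (.leaf 131 1043 (.cons 135 (.leaf 134 1049 (.cons 159 (.leaf 136 1057 (.cons 183 (.leaf 182 1240 (.leaf 184 1248 .nil)) .nil)) .nil)) .nil)) .nil)) (.cons 129 (.leaf 130 1035 (.cons 153 (.leaf 128 1027 (.cons 176 (.leaf 177 1218 (.cons 132 (.leaf 133 1033 (.cons 152 (.leaf 131 1025 (.leaf 175 1210 .nil)) .nil)) .nil)) .nil)) .nil)) .nil)))) .nil)) (.cons 201 (.leaf 229 1611 (.cons 200 (.leaf 225 1603 (.leaf 199 1592 .nil)) .nil)) .nil))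
noncomputable def t16 : T := .cons 206 (.leaf 205 1617 (.cons 202 (.leaf 201 1611 (.cons 154 (.leaf 178 1236 (.cons 230 (.leaf 207 1625 (.cons 254 (.leaf 253 1808 (.leaf 255 1816 .nil)) .nil)) .nil)) .nil)) .nil)) (.cons 253 (.leaf 254 1808 (.cons 202 (.leaf 201 1611 (.cons 154 (.leaf 178 1236 (.cons 155 (.cons 134 (.leaf 133 1041 (.cons 158 (.leaf 135 1049 (.cons 131 (.leaf 130 1043 (.cons 159 (.leaf 132 1051 (.cons 183 (.leaf 182 1240 (.leaf 184 1248 .nil)) .nil)) .nil)) .nil)) .nil)) (.cons 133 (.leaf 134 1041 (.cons 153 (.leaf 132 1033 (.cons 128 (.leaf 129 1027 (.cons 152 (.leaf 127 1019 (.cons 176 (.leaf 177 1218 (.leaf 175 1210 .nil)) .nil)) .nil)) .nil)) .nil)) (.cons 130 (.leaf 129 1035 (.cons 158 (.leaf 131 1043 (.cons 135 (.leaf 134 1049 (.cons 159 (.leaf 136 1057 (.cons 183 (.leaf 182 1240 (.leaf 184 1248 .nil)) .nil)) .nil)) .nil)) .nil)) (.cons 129 (.leaf 130 1035 (.cons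 153 (.leaf 128 1027 (.cons 132 (.leaf 133 1033 (.cons 152 (.leaf 131 1025 (.cons 176 (.leaf 177 1218 (.leaf 175 1210 .nil)) .nil)) .nil)) .nil)) .nil)) .nil)))) .nil)) .nil)) .nil)) (.cons 206 (.leaf 205 1617 (.cons 202 (.leaf 201 1611 (.cons 154 (.leaf 178 1236 (.cons 155 (.cons 129 (.leaf 130 1035 (.cons 133 (.leaf 134 1041 (.cons 153 (.leaf 128 1027 (.leaf 132 1033 .nil)) .nil)) .nil)) (.cons 130 (.leaf 129 1035 (.cons 158 (.leaf 131 1043 (.cons 134 (.leaf 135 1049 (.cons 182 (.leaf 183 1240 (.cons 207 (.leaf 230 1625 (.leaf 231 1076 .nil)) .nil)) .nil)) .nil)) .nil)) (.cons 133 (.leaf 134 1041 (.cons 153 (.leaf 132 1033 (.cons 128 (.leaf 129 1027 (.cons 152 (.leaf 127 1019 (.cons 176 (.leaf 177 1218 (.leaf 175 1210 .nil)) .nil)) .nil)) .nil)) .nil)) (.cons 130 (.leaf 129 1035 (.cons 158 (.leaf 131 1043 (.cons 182 (.leaf 183 1240 (.cons 230 (.leaf 207 1625 (.leaf 133 1071 .nil))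 .nil)) .nil)) .nil)) (.cons 133 (.leaf 134 1041 (.cons 230 (.leaf 207 1625 (.cons 158 (.leaf 182 1071 (.cons 131 (.leaf 130 1043 (.cons 132 (.leaf 159 1051 (.leaf 153 1033 .nil)) .nil)) .nil)) .nil)) .nil)) .nil))))) .nil)) .nil)) .nil)) (.cons 206 (.leaf 205 1617 (.cons 230 (.leaf 207 1625 (.cons 254 (.leaf 253 1808 (.leaf 255 1816 .nil)) .nil)) .nil)) .nil)))
noncomputable def t17 : T := .cons 135 (.leaf 136 1058 (.cons 155 (.leaf 132 1050 (.leaf 154 1041 .nil)) .nil)) (.cons 155 (.leaf 154 1041 (.cons 158 (.cons 182 (.leaf 183 1240 (.leaf 230 1071 .nil)) (.cons 131 (.leaf 130 1043 (.cons 159 (.leaf 132 1048 (.cons 160 (.leaf 161 1067 (.cons 184 (.leaf 183 1248 (.leaf 185 1256 .nil)) .nil)) .nil)) .nil)) (.cons 182 (.leaf 230 1071 (.leaf 229 1070 .nil)) .nil))) .nil)) (.cons 135 (.leaf 136 1058 (.cons 132 (.cons 107 (.leaf 108 859 (.cons 111 (.leaf 112 865 (.cons 131 (.leaf 106 851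 (.leaf 110 857 .nil)) .nil)) .nil)) (.cons 107 (.leaf 108 859 (.cons 131 (.leaf 106 851 (.cons 158 (.leaf 159 1048 (.leaf 130 1040 .nil)) .nil)) .nil)) (.cons 107 (.leaf 108 859 (.cons 111 (.leaf 112 865 (.cons 159 (.leaf 160 1056 (.cons 182 (.leaf 158 885 (.leaf 183 886 .nil)) .nil)) .nil)) .nil)) (.cons 111 (.leaf 112 865 (.cons 110 (.leaf 131 857 (.cons 62 (.leaf 86 494 (.cons 159 (.leaf 160 1056 (.cons 182 (.leaf 158 885 (.leaf 183 886 .nil)) .nil)) .nil)) .nil)) .nil)) .nil)))) .nil)) (.cons 135 (.leaf 136 1058 (.cons 155 (.leaf 154 1041 (.leaf 158 1049 .nil)) .nil)) .nil)))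
noncomputable def t18 : T := .cons 182 (.leaf 206 876 (.cons 108 (.leaf 84 679 (.cons 110 (.leaf 86 685 (.cons 155 (.leaf 154 1232 (.cons 135 (.cons 134 (.leaf 132 1050 (.leaf 136 1058 .nil)) (.cons 111 (.leaf 136 864 (.cons 132 (.leaf 112 866 (.leaf 131 858 .nil)) .nil)) (.cons 134 (.leaf 132 1050 (.leaf 107 856 .nil)) (.cons 134 (.leaf 136 1058 (.leaf 107 856 .nil)) .nil)))) .nil)) .nil)) .nil)) .nil)) (.cons 182 (.leaf 206 876 (.cons 86 (.leaf 110 685 (.cons 85 (.leaf 62 493 (.cons 60 (.leaf 84 487 (.cons 61 (.leaf 132 486 (.leaf 36 295 .nil)) .nil)) .nil)) .nil)) .nil)) (.cons 182 (.leaf 206 876 (.cons 155 (.leaf 154 1232 (.cons 85 (.cons 86 (.leaf 62 493 (.leaf 110 685 .nil)) (.cons 61 (.leaf 132 486 (.cons 36 (.leaf 60 295 (.cons 37 (.leaf 12 103 (.cons 38 (.leaf 62 301 (.leaf 14 109 .nil)) .nil)) .nil)) .nil)) (.cons 61 (.leaf 132 486 (.cons 36 (.leaf 60 295 (.cons 37 (.leaf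 12 103 (.cons 110 (.leaf 86 685 (.leaf 134 300 .nil)) .nil)) .nil)) .nil)) .nil))) .nil)) .nil)) (.cons 84 (.leaf 108 679 (.cons 85 (.leaf 60 487 (.cons 86 (.leaf 62 493 (.leaf 110 685 .nil)) .nil)) .nil)) (.cons 84 (.leaf 108 679 (.cons 85 (.leaf 60 487 (.cons 61 (.leaf 132 486 (.cons 62 (.leaf 86 493 (.leaf 38 301 .nil)) .nil)) .nil)) .nil)) (.cons 182 (.leaf 206 876 (.cons 155 (.leaf 154 1232 (.cons 134 (.cons 135 (.leaf 132 1050 (.leaf 136 1058 .nil)) (.cons 84 (.leaf 108 679 (.cons 85 (.leaf 60 487 (.cons 61 (.leaf 132 486 (.cons 37 (.leaf 110 300 (.cons 38 (.leaf 62 301 (.leaf 14 109 .nil)) .nil)) .nil)) .nil)) .nil)) (.cons 108 (.leaf 84 679 (.cons 135 (.leaf 136 1058 (.cons 107 (.leaf 106 848 (.leaf 110 856 .nil)) .nil)) .nil)) .nil))) .nil)) .nil)) .nil)))))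
noncomputable def t19 : T := .cons 135 (.leaf 136 1058 (.cons 155 (.leaf 132 1050 (.leaf 154 1041 .nil)) .nil)) (.cons 155 (.leaf 154 1041 (.cons 158 (.cons 130 (.leaf 131 1043 (.cons 178 (.leaf 179 1234 (.cons 182 (.leaf 183 1240 (.cons 109 (.leaf 85 684 (.leaf 206 879 .nil)) .nil)) .nil)) .nil)) (.cons 182 (.leaf 183 1240 (.cons 109 (.leaf 85 684 (.leaf 206 879 .nil)) .nil)) (.cons 131 (.leaf 130 1043 (.cons 132 (.leaf 159 1048 (.cons 107 (.leaf 106 851 (.cons 83 (.leaf 59 476 (.cons 58 (.leaf 82 471 (.cons 84 (.leaf 60 477 (.cons 179 (.leaf 108 669 (.leaf 178 1234 .nil)) .nil)) .nil)) .nil)) .nil)) .nil)) .nil)) .nil))) .nil)) (.cons 135 (.leaf 136 1058 (.cons 132 (.cons 111 (.leaf 112 865 (.cons 110 (.leaf 131 857 (.cons 86 (.leaf 62 494 (.cons 159 (.leaf 160 1056 (.leaf 183 695 .nil)) .nil)) .nil)) .nil)) (.cons 108 (.leaf 107 859 (.cons 84 (.leaf 60 484 (.cons 83 (.leaf 59 479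 (.cons 85 (.leaf 61 485 (.cons 111 (.leaf 112 865 (.cons 110 (.leaf 131 857 (.leaf 109 667 .nil)) .nil)) .nil)) .nil)) .nil)) .nil)) (.cons 108 (.leaf 107 859 (.cons 84 (.leaf 60 484 (.cons 83 (.leaf 59 479 (.cons 85 (.leaf 61 485 (.cons 111 (.leaf 112 865 (.cons 110 (.leaf 109 667 (.leaf 86 664 .nil)) .nil)) .nil)) .nil)) .nil)) .nil)) (.cons 107 (.leaf 108 859 (.cons 131 (.leaf 106 851 (.cons 158 (.leaf 159 1048 (.leaf 130 1040 .nil)) .nil)) .nil)) .nil)))) .nil)) (.cons 135 (.leaf 136 1058 (.cons 155 (.leaf 154 1041 (.leaf 158 1049 .nil)) .nil)) .nil)))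
noncomputable def t20 : T := .cons 135 (.leaf 136 1058 (.cons 155 (.leaf 132 1050 (.leaf 154 1041 .nil)) .nil)) (.cons 109 (.cons 84 (.leaf 108 679 (.cons 85 (.leaf 60 487 (.cons 61 (.leaf 132 486 (.leaf 158 492 .nil)) .nil)) .nil)) (.cons 86 (.leaf 110 685 (.cons 85 (.leaf 62 493 (.cons 61 (.leaf 132 486 (.leaf 158 492 .nil)) .nil)) .nil)) (.cons 84 (.leaf 108 679 (.cons 85 (.leaf 60 487 (.cons 86 (.leaf 62 493 (.leaf 110 685 .nil)) .nil)) .nil)) (.cons 108 (.leaf 84 679 (.cons 107 (.leaf 106 848 (.cons 110 (.leaf 86 685 (.leaf 135 856 .nil)) .nil)) .nil)) .nil)))) (.cons 109 (.cons 84 (.leaf 108 679 (.cons 85 (.leaf 60 487 (.cons 61 (.leaf 132 486 (.leaf 158 492 .nil)) .nil)) .nil)) (.cons 86 (.leaf 110 685 (.cons 85 (.leaf 62 493 (.cons 61 (.leaf 132 486 (.leaf 158 492 .nil)) .nil)) .nil)) (.cons 84 (.leaf 108 679 (.cons 85 (.leaf 60 487 (.cons 86 (.leaf 62 493 (.leaf 110 685 .nil))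 .nil)) .nil)) (.cons 108 (.leaf 84 679 (.cons 107 (.leaf 106 848 (.cons 110 (.leaf 86 685 (.cons 83 (.leaf 82 659 (.cons 131 (.leaf 130 850 (.cons 132 (.leaf 59 476 (.leaf 111 857 .nil)) .nil)) .nil)) .nil)) .nil)) .nil)) .nil)))) (.cons 135 (.leaf 136 1058 (.cons 155 (.leaf 154 1041 (.leaf 158 1049 .nil)) .nil)) .nil)))
noncomputable def t21 : T := .cons 181 (.leaf 205 1062 (.cons 134 t20 .nil)) (.cons 134 t19 (.cons 181 (.leaf 205 1062 (.cons 109 (.cons 84 (.leaf 108 679 (.cons 86 (.leaf 110 685 (.cons 182 (.leaf 206 876 (.cons 155 (.leaf 154 1232 (.cons 183 (.leaf 158 1240 (.leaf 184 1251 .nil)) .nil)) .nil)) .nil)) .nil)) (.cons 84 (.leaf 108 679 (.cons 85 (.leaf 60 487 (.cons 86 (.leaf 62 493 (.leaf 110 685 .nil)) .nil)) .nil)) (.cons 182 (.leaf 206 876 (.cons 85 (.leaf 158 684 (.cons 86 (.leaf 62 493 (.leaf 110 685 .nil)) .nil)) .nil)) (.cons 182 (.leaf 206 876 (.cons 84 (.leaf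 108 679 (.cons 85 (.leaf 60 487 (.leaf 158 684 .nil)) .nil)) .nil)) .nil)))) .nil)) (.cons 181 (.leaf 205 1062 (.cons 109 (.cons 182 (.leaf 206 876 (.cons 85 (.leaf 158 684 (.cons 86 (.leaf 62 493 (.leaf 110 685 .nil)) .nil)) .nil)) (.cons 84 (.leaf 108 679 (.cons 85 (.leaf 60 487 (.cons 86 (.leaf 62 493 (.leaf 110 685 .nil)) .nil)) .nil)) (.cons 182 (.leaf 206 876 (.cons 84 (.leaf 108 679 (.cons 85 (.leaf 60 487 (.leaf 158 684 .nil)) .nil)) .nil)) (.cons 108 (.leaf 84 679 (.cons 110 (.leaf 86 685 (.cons 182 (.leaf 206 876 (.cons 183 (.leaf 184 1251 (.cons 134 (.cons 135 (.leaf 136 1058 (.leaf 107 856 .nil)) (.cons 158 (.leaf 207 884 (.cons 111 (.leaf 87 693 (.cons 132 (.leaf 112 866 (.leaf 131 857 .nil)) .nil)) .nil)) .nil)) .nil)) .nil)) .nil)) .nil)) .nil)))) .nil)) (.cons 181 (.leaf 205 1062 (.cons 109 t18 .nil)) (.cons 205 (.leaf 181 1062 (.cons 206 (.leaf 207 1626 (.cons 134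 t17 .nil)) .nil)) (.cons 181 (.leaf 205 1062 (.cons 182 (.cons 155 (.leaf 154 1232 (.cons 183 (.leaf 158 1240 (.leaf 184 1251 .nil)) .nil)) (.cons 109 (.leaf 206 876 (.cons 86 (.leaf 110 685 (.cons 85 (.leaf 62 493 (.leaf 158 684 .nil)) .nil)) .nil)) (.cons 155 (.leaf 154 1232 (.cons 206 (.leaf 109 876 (.cons 230 (.leaf 254 1263 (.cons 207 (.leaf 229 1625 (.cons 183 (.leaf 184 1251 (.cons 135 (.leaf 159 1078 (.cons 134 (.leaf 132 1050 (.leaf 136 1058 .nil)) .nil)) .nil)) .nil)) .nil)) .nil)) .nil)) .nil))) .nil)) (.cons 181 (.leaf 205 1062 (.cons 182 (.cons 109 (.leaf 206 876 (.cons 84 (.leaf 108 679 (.cons 85 (.leaf 60 487 (.leaf 158 684 .nil)) .nil)) .nil)) (.cons 155 (.leaf 154 1232 (.cons 183 (.leaf 158 1240 (.leaf 184 1251 .nil)) .nil)) (.cons 155 (.leaf 154 1232 (.cons 206 (.leaf 109 876 (.cons 230 (.leaf 254 1263 (.cons 207 (.leaf 229 1625 (.cons 183 (.leaf 184 1251 (.cons 135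 (.leaf 159 1078 (.cons 134 (.leaf 132 1050 (.leaf 136 1058 .nil)) .nil)) .nil)) .nil)) .nil)) .nil)) .nil)) .nil))) .nil)) .nil)))))))
noncomputable def t22 : T := .cons 155 (.cons 178 (.leaf 179 1234 (.cons 154 (.leaf 177 1226 (.cons 182 (.leaf 181 1232 (.leaf 183 1240 .nil)) .nil)) .nil)) (.cons 131 (.leaf 130 1043 (.cons 135 (.leaf 134 1049 (.cons 159 (.leaf 132 1051 (.leaf 136 1057 .nil)) .nil)) .nil)) .nil)) (.cons 159 t11 (.cons 155 (.cons 178 (.leaf 179 1234 (.cons 154 (.leaf 177 1226 (.cons 182 (.leaf 181 1232 (.leaf 183 1240 .nil)) .nil)) .nil)) (.cons 178 (.leaf 179 1234 (.cons 130 (.leaf 131 1043 (.cons 154 (.leaf 129 1035 (.leaf 177 1226 .nil)) .nil)) .nil)) (.cons 130 (.leaf 131 1043 (.cons 154 (.leaf 129 1035 (.cons 182 (.leaf 181 1232 (.leaf 183 1240 .nil)) .nil)) .nil)) (.cons 134 (.leaf 135 1049 (.cons 182 (.leaf 183 1240 (.cons 131 (.leaf 130 1043 (.cons 179 (.leaf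 178 1234 (.cons 205 (.cons 181 (.leaf 229 1069 (.leaf 110 878 .nil)) (.cons 110 (.leaf 181 878 (.cons 85 (.leaf 109 687 (.cons 86 (.leaf 61 495 (.cons 87 (.leaf 63 501 (.leaf 111 693 .nil)) .nil)) .nil)) .nil)) (.cons 206 (.leaf 207 1626 (.leaf 229 1070 .nil)) .nil))) .nil)) .nil)) .nil)) .nil)) .nil)))) (.cons 155 (.cons 134 (.leaf 135 1049 (.cons 178 (.leaf 179 1234 (.cons 154 (.leaf 177 1226 (.cons 226 (.leaf 202 1236 (.cons 205 (.leaf 225 1609 (.cons 206 (.leaf 207 1626 (.leaf 229 1617 .nil)) .nil)) .nil)) .nil)) .nil)) .nil)) (.cons 130 (.leaf 131 1043 (.cons 135 (.leaf 134 1049 (.cons 154 (.leaf 129 1035 (.cons 159 (.leaf 136 1057 (.cons 182 (.leaf 181 1232 (.cons 206 (.leaf 230 1077 (.cons 205 (.leaf 207 1626 (.cons 226 (.leaf 225 1609 (.leaf 229 1617 .nil)) .nil)) .nil)) .nil)) .nil)) .nil)) .nil)) .nil)) (.cons 131 (.leaf 130 1043 (.cons 132 (.leaf 159 1051 (.cons 178 (.leaf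 179 1234 (.cons 154 (.leaf 177 1226 (.cons 226 (.leaf 202 1236 (.cons 83 (.leaf 107 662 (.cons 152 (.leaf 153 1025 (.cons 181 (.leaf 182 1232 (.cons 205 (.leaf 225 1609 (.leaf 229 1063 .nil)) .nil)) .nil)) .nil)) .nil)) .nil)) .nil)) .nil)) .nil)) (.cons 131 (.leaf 130 1043 (.cons 135 (.leaf 134 1049 (.cons 159 (.leaf 132 1051 (.leaf 136 1057 .nil)) .nil)) .nil)) .nil)))) (.cons 155 (.cons 130 (.leaf 131 1043 (.cons 154 (.leaf 129 1035 (.cons 182 (.leaf 181 1232 (.leaf 183 1240 .nil)) .nil)) .nil)) (.cons 131 (.leaf 130 1043 (.cons 132 (.leaf 159 1051 (.cons 178 (.leaf 179 1234 (.cons 154 (.leaf 177 1226 (.cons 226 (.leaf 202 1236 (.cons 83 (.leaf 107 662 (.cons 153 (.leaf 152 1025 (.cons 205 (.leaf 225 1609 (.cons 206 (.leaf 207 1626 (.leaf 229 1617 .nil)) .nil)) .nil)) .nil)) .nil)) .nil)) .nil)) .nil)) .nil)) (.cons 182 (.leaf 183 1240 (.cons 154 (.leaf 181 1232 (.cons 178 (.leaf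 177 1226 (.leaf 179 1234 .nil)) .nil)) .nil)) (.cons 131 (.leaf 130 1043 (.cons 183 (.leaf 182 1240 (.cons 159 (.leaf 132 1051 (.leaf 184 1248 .nil)) .nil)) .nil)) .nil)))) (.cons 159 (.cons 131 (.leaf 132 1051 (.cons 136 (.leaf 135 1057 (.cons 160 (.leaf 137 1065 (.cons 184 (.leaf 183 1248 (.leaf 185 1256 .nil)) .nil)) .nil)) .nil)) (.cons 131 (.leaf 132 1051 (.cons 155 (.leaf 130 1043 (.cons 178 (.leaf 179 1234 (.cons 154 (.leaf 177 1226 (.cons 226 (.leaf 202 1236 (.cons 83 (.leaf 107 662 (.cons 184 (.leaf 183 1248 (.cons 205 (.leaf 225 1609 (.cons 206 (.leaf 207 1626 (.leaf 229 1617 .nil)) .nil)) .nil)) .nil)) .nil)) .nil)) .nil)) .nil)) .nil)) (.cons 131 (.leaf 132 1051 (.cons 135 (.leaf 136 1057 (.cons 155 (.leaf 130 1043 (.leaf 134 1049 .nil)) .nil)) .nil)) (.cons 184 (.leaf 183 1248 (.cons 136 (.leaf 135 1057 (.cons 160 (.leaf 137 1065 (.leaf 185 1256 .nil)) .nil)) .nil)) .nil))))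 (.cons 155 (.cons 135 (.leaf 134 1049 (.cons 159 (.leaf 136 1057 (.cons 183 (.leaf 182 1240 (.leaf 184 1248 .nil)) .nil)) .nil)) (.cons 134 (.leaf 135 1049 (.cons 178 (.leaf 179 1234 (.cons 154 (.leaf 177 1226 (.cons 226 (.leaf 202 1236 (.cons 205 (.leaf 225 1609 (.cons 206 (.leaf 207 1626 (.leaf 229 1617 .nil)) .nil)) .nil)) .nil)) .nil)) .nil)) (.cons 182 (.leaf 183 1240 (.cons 154 (.leaf 181 1232 (.cons 178 (.leaf 177 1226 (.leaf 179 1234 .nil)) .nil)) .nil)) .nil))) .nil))))))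
noncomputable def t23 : T := .cons 154 (.cons 130 (.leaf 129 1035 (.cons 133 (.leaf 134 1041 (.cons 178 (.leaf 177 1226 (.cons 181 (.leaf 182 1232 (.cons 202 (.leaf 226 1236 (.cons 107 (.leaf 131 853 (.cons 106 (.leaf 83 661 (.cons 81 (.leaf 105 655 (.cons 82 (.leaf 179 660 (.leaf 57 463 .nil)) .nil)) .nil)) .nil)) .nil)) .nil)) .nil)) .nil)) .nil)) (.cons 133 (.leaf 134 1041 (.cons 129 (.leaf 130 1035 (.cons 153 (.leaf 128 1027 (.leaf 132 1033 .nil)) .nil)) .nil)) (.cons 133 (.leaf 134 1041 (.cons 153 (.leaf 132 1033 (.cons 177 (.leaf 176 1218 (.leaf 178 1226 .nil)) .nil)) .nil)) (.cons 178 (.leaf 177 1226 (.cons 130 (.leaf 129 1035 (.cons 181 (.leaf 182 1232 (.cons 202 (.leaf 226 1236 (.cons 107 (.leaf 131 853 (.cons 106 (.leaf 83 661 (.cons 81 (.leaf 105 655 (.cons 82 (.leaf 179 660 (.leaf 57 463 .nil)) .nil)) .nil)) .nil)) .nil)) .nil)) .nil)) .nil)) .nil)))) (.cons 154 (.cons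 133 (.leaf 134 1041 (.cons 132 (.leaf 153 1033 (.cons 177 (.leaf 178 1226 (.cons 182 (.leaf 181 1232 (.cons 158 (.leaf 183 1240 (.cons 159 (.leaf 131 1051 (.leaf 160 1059 .nil)) .nil)) .nil)) .nil)) .nil)) .nil)) (.cons 133 (.leaf 134 1041 (.cons 132 (.leaf 153 1033 (.cons 182 (.leaf 181 1232 (.cons 158 (.leaf 183 1240 (.cons 159 (.leaf 131 1051 (.leaf 160 1059 .nil)) .nil)) .nil)) .nil)) .nil)) (.cons 178 (.leaf 177 1226 (.cons 158 (.leaf 179 1234 (.cons 182 (.leaf 181 1232 (.leaf 183 1240 .nil)) .nil)) .nil)) (.cons 133 (.leaf 134 1041 (.cons 153 (.leaf 132 1033 (.cons 177 (.leaf 176 1218 (.leaf 178 1226 .nil)) .nil)) .nil)) .nil)))) (.cons 154 (.cons 129 (.leaf 130 1035 (.cons 153 (.leaf 128 1027 (.cons 177 (.leaf 176 1218 (.leaf 178 1226 .nil)) .nil)) .nil)) (.cons 129 (.leaf 130 1035 (.cons 153 (.leaf 128 1027 (.cons 132 (.leaf 133 1033 (.cons 131 (.leaf 152 1025 (.cons 158 (.leaf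 159 1051 (.cons 182 (.leaf 181 1232 (.leaf 183 1240 .nil)) .nil)) .nil)) .nil)) .nil)) .nil)) (.cons 178 (.leaf 177 1226 (.cons 158 (.leaf 179 1234 (.cons 182 (.leaf 181 1232 (.leaf 183 1240 .nil)) .nil)) .nil)) .nil))) (.cons 158 (.cons 130 (.leaf 131 1043 (.cons 154 (.leaf 129 1035 (.cons 182 (.leaf 181 1232 (.leaf 183 1240 .nil)) .nil)) .nil)) (.cons 131 (.leaf 130 1043 (.cons 135 (.leaf 134 1049 (.cons 159 (.leaf 132 1051 (.leaf 136 1057 .nil)) .nil)) .nil)) (.cons 134 (.leaf 135 1049 (.cons 133 (.leaf 154 1041 (.cons 182 (.leaf 183 1240 (.cons 109 (.leaf 85 684 (.leaf 206 879 .nil)) .nil)) .nil)) .nil)) .nil))) (.cons 154 (.cons 129 (.leaf 130 1035 (.cons 134 (.leaf 133 1041 (.cons 158 (.leaf 135 1049 (.cons 178 (.leaf 177 1226 (.leaf 179 1234 .nil)) .nil)) .nil)) .nil)) (.cons 129 (.leaf 130 1035 (.cons 153 (.leaf 128 1027 (.cons 133 (.leaf 132 1033 (.leaf 134 1041 .nil)) .nil))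 .nil)) (.cons 133 (.leaf 134 1041 (.cons 153 (.leaf 132 1033 (.cons 177 (.leaf 176 1218 (.leaf 178 1226 .nil)) .nil)) .nil)) (.cons 178 (.leaf 177 1226 (.cons 129 (.leaf 130 1035 (.cons 153 (.leaf 128 1027 (.cons 202 (.leaf 226 1236 (.cons 179 (.leaf 158 1234 (.cons 81 (.leaf 105 652 (.cons 131 (.leaf 107 854 (.cons 152 (.leaf 132 1025 (.leaf 151 1208 .nil)) .nil)) .nil)) .nil)) .nil)) .nil)) .nil)) .nil)) .nil)))) (.cons 154 (.cons 129 (.leaf 130 1035 (.cons 134 (.leaf 133 1041 (.cons 158 (.leaf 135 1049 (.cons 178 (.leaf 177 1226 (.leaf 179 1234 .nil)) .nil)) .nil)) .nil)) (.cons 133 (.leaf 134 1041 (.cons 129 (.leaf 130 1035 (.cons 153 (.leaf 128 1027 (.leaf 132 1033 .nil)) .nil)) .nil)) (.cons 178 (.leaf 177 1226 (.cons 158 (.leaf 179 1234 (.cons 182 (.leaf 181 1232 (.leaf 183 1240 .nil)) .nil)) .nil)) .nil))) (.cons 158 (.cons 130 (.leaf 131 1043 (.cons 154 (.leaf 129 1035 (.cons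 182 (.leaf 181 1232 (.leaf 183 1240 .nil)) .nil)) .nil)) (.cons 182 (.leaf 183 1240 (.cons 134 (.leaf 135 1049 (.cons 154 (.leaf 181 1232 (.cons 178 (.leaf 177 1226 (.leaf 179 1234 .nil)) .nil)) .nil)) .nil)) (.cons 131 (.leaf 130 1043 (.cons 135 (.leaf 134 1049 (.cons 159 (.leaf 132 1051 (.leaf 136 1057 .nil)) .nil)) .nil)) .nil))) (.cons 154 (.cons 129 (.leaf 130 1035 (.cons 128 (.leaf 153 1027 (.cons 134 (.leaf 133 1041 (.cons 158 (.leaf 135 1049 (.cons 182 (.leaf 181 1232 (.leaf 183 1240 .nil)) .nil)) .nil)) .nil)) .nil)) (.cons 178 (.leaf 177 1226 (.cons 158 (.leaf 179 1234 (.cons 182 (.leaf 181 1232 (.leaf 183 1240 .nil)) .nil)) .nil)) (.cons 129 (.leaf 130 1035 (.cons 133 (.leaf 134 1041 (.cons 153 (.leaf 128 1027 (.cons 177 (.leaf 176 1218 (.leaf 178 1226 .nil)) .nil)) .nil)) .nil)) .nil))) .nil)))))))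
noncomputable def t24 : T := .cons 154 (.cons 133 (.leaf 134 1041 (.cons 178 (.leaf 177 1226 (.cons 158 (.leaf 179 1234 (.cons 182 (.leaf 181 1232 (.leaf 183 1240 .nil)) .nil)) .nil)) .nil)) (.cons 129 (.leaf 130 1035 (.cons 153 (.leaf 128 1027 (.cons 132 (.leaf 133 1033 (.cons 131 (.leaf 152 1025 (.cons 158 (.leaf 159 1051 (.cons 182 (.leaf 181 1232 (.leaf 183 1240 .nil)) .nil)) .nil)) .nil)) .nil)) .nil)) (.cons 129 (.leaf 130 1035 (.cons 153 (.leaf 128 1027 (.cons 177 (.leaf 176 1218 (.leaf 178 1226 .nil)) .nil)) .nil)) .nil))) (.cons 158 (.cons 131 (.leaf 130 1043 (.cons 159 (.leaf 132 1051 (.cons 183 (.leaf 182 1240 (.leaf 184 1248 .nil)) .nil)) .nil)) (.cons 135 (.leaf 134 1049 (.cons 159 (.leaf 136 1057 (.cons 183 (.leaf 182 1240 (.leaf 184 1248 .nil)) .nil)) .nil)) (.cons 131 (.leaf 130 1043 (.cons 135 (.leaf 134 1049 (.cons 159 (.leaf 132 1051 (.leaf 136 1057 .nil)) .nil))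 .nil)) (.cons 134 (.leaf 135 1049 (.cons 182 (.leaf 183 1240 (.cons 131 (.leaf 130 1043 (.cons 179 (.leaf 178 1234 (.cons 110 (.cons 85 (.leaf 109 687 (.cons 86 (.leaf 181 686 (.leaf 61 495 .nil)) .nil)) (.cons 109 (.leaf 85 687 (.cons 111 (.leaf 87 693 (.cons 132 (.leaf 133 857 (.leaf 108 858 .nil)) .nil)) .nil)) (.cons 86 (.leaf 181 686 (.cons 87 (.leaf 63 501 (.leaf 111 693 .nil)) .nil)) .nil))) .nil)) .nil)) .nil)) .nil)) .nil)))) t23)
noncomputable def t25 : T := .cons 135 (.leaf 134 1049 (.cons 159 (.leaf 136 1057 (.cons 160 (.leaf 132 1059 (.cons 184 (.leaf 183 1248 (.leaf 185 1256 .nil)) .nil)) .nil)) .nil)) (.cons 131 (.leaf 130 1043 (.cons 159 (.leaf 132 1051 (.cons 136 (.leaf 135 1057 (.cons 160 (.leaf 137 1065 (.cons 184 (.leaf 183 1248 (.leaf 185 1256 .nil)) .nil)) .nil)) .nil)) .nil)) (.cons 131 (.leaf 130 1043 (.cons 159 (.leaf 132 1051 (.cons 178 (.leaf 179 1234 (.cons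 184 (.leaf 183 1248 (.cons 160 (.leaf 185 1256 (.cons 137 (.leaf 136 1065 (.cons 161 (.leaf 134 1067 (.leaf 138 1073 .nil)) .nil)) .nil)) .nil)) .nil)) .nil)) .nil)) (.cons 131 (.leaf 130 1043 (.cons 179 (.leaf 178 1234 (.cons 107 (.cons 84 (.leaf 108 669 (.cons 83 (.leaf 60 477 (.cons 58 (.leaf 82 471 (.cons 59 (.leaf 132 476 (.leaf 34 279 .nil)) .nil)) .nil)) .nil)) (.cons 82 (.leaf 106 663 (.cons 83 (.leaf 58 471 (.cons 84 (.leaf 60 477 (.leaf 108 669 .nil)) .nil)) .nil)) (.cons 82 (.leaf 106 663 (.cons 58 (.leaf 83 471 (.cons 135 (.leaf 134 1049 (.cons 159 (.leaf 132 1051 (.leaf 136 1057 .nil)) .nil)) .nil)) .nil)) (.cons 84 (.leaf 108 669 (.cons 83 (.leaf 60 477 (.cons 132 (.leaf 59 476 (.leaf 159 1051 .nil)) .nil)) .nil)) (.cons 82 (.leaf 106 663 (.cons 84 (.leaf 108 669 (.cons 135 (.leaf 134 1049 (.cons 159 (.leaf 132 1051 (.leaf 136 1057 .nil)) .nil)) .nil)) .nil)) .nil)))))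 .nil)) .nil)) (.cons 182 (.leaf 183 1240 (.cons 206 (.leaf 207 1626 (.leaf 230 1071 .nil)) .nil)) .nil))))
noncomputable def t26 : T := .cons 226 (.leaf 225 1609 (.cons 206 (.leaf 207 1626 (.leaf 229 1617 .nil)) .nil)) (.cons 181 (.leaf 133 1062 (.cons 226 (.leaf 225 1609 (.cons 229 (.leaf 132 1063 (.cons 254 (.leaf 253 1808 (.leaf 230 1260 .nil)) .nil)) .nil)) .nil)) (.cons 181 (.leaf 133 1062 (.cons 206 (.leaf 207 1626 (.cons 229 (.leaf 132 1063 (.cons 134 (.leaf 158 1069 (.cons 254 (.leaf 230 1260 (.cons 253 (.leaf 278 1452 (.cons 277 (.leaf 301 1639 (.leaf 182 1453 .nil)) .nil)) .nil)) .nil)) .nil)) .nil)) .nil)) (.cons 133 (.leaf 181 1062 (.cons 155 (.cons 226 (.leaf 225 1609 (.cons 134 (.leaf 154 1041 (.cons 135 (.leaf 132 1050 (.leaf 136 1058 .nil)) .nil)) .nil)) (.cons 158 t25 (.cons 226 (.leaf 225 1609 (.cons 206 (.leaf 207 1626 (.cons 154 (.cons 129 (.leaf 130 1035 (.cons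 153 (.leaf 128 1027 (.leaf 132 1033 .nil)) .nil)) (.cons 178 (.leaf 202 1236 (.leaf 177 1226 .nil)) .nil)) .nil)) .nil)) (.cons 154 (.leaf 134 1041 (.cons 129 (.leaf 130 1035 (.cons 128 (.leaf 153 1027 (.cons 178 (.leaf 177 1226 (.cons 226 (.leaf 202 1236 (.leaf 225 1609 .nil)) .nil)) .nil)) .nil)) .nil)) .nil)))) .nil)) .nil)))
noncomputable def t27 : T := .cons 205 t26 (.cons 155 t24 (.cons 158 t22 (.cons 133 t21 (.cons 226 (.cons 225 (.leaf 205 1609 (.cons 200 (.leaf 201 1603 (.cons 224 (.leaf 199 1595 (.cons 248 (.leaf 249 1794 (.leaf 247 1786 .nil)) .nil)) .nil)) .nil)) (.cons 229 t16 (.cons 202 t15 (.cons 205 (.leaf 225 1609 (.cons 206 (.leaf 207 1626 (.leaf 229 1617 .nil)) .nil)) .nil)))) (.cons 154 t14 (.cons 158 (.cons 159 t13 t12) (.cons 181 t10 (.cons 205 t7 (.cons 205 (.cons 181 (.leaf 133 1062 (.cons 206 (.leaf 207 1626 (.cons 229 (.leaf 226 1617 (.leaf 132 1063 .nil))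 .nil)) .nil)) (.cons 226 (.leaf 225 1609 (.cons 206 (.leaf 207 1626 (.leaf 229 1617 .nil)) .nil)) (.cons 181 (.leaf 133 1062 (.cons 226 (.leaf 225 1609 (.cons 229 (.leaf 132 1063 (.cons 254 (.leaf 253 1808 (.leaf 230 1260 .nil)) .nil)) .nil)) .nil)) (.cons 181 (.leaf 133 1062 (.cons 206 (.leaf 207 1626 (.cons 229 (.leaf 132 1063 (.cons 254 (.leaf 230 1260 (.cons 253 (.leaf 278 1452 (.cons 182 (.leaf 158 1261 (.leaf 277 1453 .nil)) .nil)) .nil)) .nil)) .nil)) .nil)) (.cons 206 (.leaf 207 1626 (.cons 226 (.leaf 225 1609 (.cons 158 t6 .nil)) .nil)) .nil))))) (.cons 205 t5 (.cons 205 t3 .nil)))))))))))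
noncomputable def t28 : T := .cons 180 (.leaf 252 1438 (.cons 227 (.leaf 299 1629 (.leaf 156 1246 .nil)) .nil)) (.cons 299 (.leaf 227 1629 (.cons 323 (.leaf 252 1821 (.cons 346 (.leaf 322 2006 (.cons 347 (.leaf 370 2198 (.cons 348 (.leaf 324 2012 (.leaf 372 2204 .nil)) .nil)) .nil)) .nil)) .nil)) (.cons 227 (.leaf 299 1629 (.cons 156 (.leaf 180 1246 (.cons 157 t27 .nil)) .nil)) (.cons 180 (.leaf 252 1438 (.cons 156 (.cons 229 (.leaf 253 1252 (.cons 131 (.leaf 155 1055 (.cons 132 (.leaf 107 863 (.leaf 205 1060 .nil)) .nil)) .nil)) (.cons 133 (.leaf 157 1061 (.cons 131 (.leaf 155 1055 (.cons 132 (.leaf 107 863 (.leaf 109 869 .nil)) .nil)) .nil)) (.cons 229 (.leaf 253 1252 (.cons 132 (.leaf 205 1060 (.cons 133 (.leaf 109 869 (.leaf 157 1061 .nil)) .nil)) .nil)) (.cons 157 (.leaf 133 1061 (.cons 155 (.leaf 131 1055 (.cons 229 (.leaf 253 1252 (.cons 158 (.cons 179 (.leaf 159 1242 (.leaf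 178 1234 .nil)) (.cons 134 (.leaf 135 1049 (.cons 181 (.leaf 205 1069 (.cons 182 (.leaf 183 1240 (.leaf 154 1232 .nil)) .nil)) .nil)) .nil)) .nil)) .nil)) .nil)) .nil)))) .nil)) .nil)))
noncomputable def t29 : T := .cons 180 (.leaf 227 1437 (.cons 202 (.cons 230 (.leaf 229 1616 (.cons 206 (.leaf 231 1624 (.cons 183 (.leaf 182 1433 (.cons 207 (.leaf 179 1435 (.leaf 184 1441 .nil)) .nil)) .nil)) .nil)) (.cons 181 (.leaf 201 1417 (.cons 225 (.leaf 226 1610 (.cons 229 (.leaf 230 1616 (.cons 156 (.leaf 132 1060 (.leaf 253 1255 .nil)) .nil)) .nil)) .nil)) (.cons 181 (.leaf 201 1417 (.leaf 182 1425 .nil)) .nil))) .nil)) (.cons 206 (.cons 183 (.leaf 182 1433 (.cons 207 (.leaf 184 1441 (.cons 231 (.leaf 230 1624 (.leaf 232 1632 .nil)) .nil)) .nil)) (.cons 230 (.leaf 231 1624 (.cons 202 (.leaf 229 1616 (.cons 225 (.leaf 226 1610 (.cons 201 (.leaf 224 1602 (.cons 180 (.leaf 181 1417 (.cons 179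 (.leaf 207 1435 (.leaf 200 1409 .nil)) .nil)) .nil)) .nil)) .nil)) .nil)) (.cons 183 (.leaf 182 1433 (.cons 207 (.leaf 184 1441 (.cons 180 (.leaf 179 1435 (.cons 208 (.leaf 181 1443 (.cons 232 (.leaf 231 1632 (.leaf 233 1640 .nil)) .nil)) .nil)) .nil)) .nil)) (.cons 183 (.leaf 182 1433 (.cons 207 (.leaf 184 1441 (.cons 180 (.leaf 179 1435 (.cons 181 (.leaf 208 1443 (.cons 202 (.leaf 201 1417 (.cons 225 (.leaf 226 1610 (.cons 229 (.leaf 230 1616 (.cons 156 (.leaf 132 1060 (.leaf 253 1255 .nil)) .nil)) .nil)) .nil)) .nil)) .nil)) .nil)) .nil)) (.cons 182 (.leaf 183 1433 (.cons 230 (.leaf 231 1624 (.cons 229 (.leaf 202 1616 (.cons 158 (.leaf 134 1070 (.leaf 253 1262 .nil)) .nil)) .nil)) .nil)) .nil))))) (.cons 206 (.cons 183 (.leaf 182 1433 (.cons 207 (.leaf 184 1441 (.cons 231 (.leaf 230 1624 (.leaf 232 1632 .nil)) .nil)) .nil)) (.cons 182 (.leaf 183 1433 (.cons 202 (.leaf 181 1425 (.cons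 226 (.leaf 225 1610 (.leaf 227 1618 .nil)) .nil)) .nil)) (.cons 226 (.leaf 227 1618 (.cons 202 (.leaf 225 1610 (.cons 230 (.leaf 229 1616 (.leaf 231 1624 .nil)) .nil)) .nil)) .nil))) (.cons 180 (.leaf 227 1437 (.cons 202 (.cons 181 (.leaf 201 1417 (.leaf 182 1425 .nil)) (.cons 229 (.leaf 230 1616 (.cons 132 (.leaf 156 1060 (.cons 225 (.leaf 226 1610 (.cons 201 (.leaf 224 1602 (.cons 176 (.leaf 177 1411 (.cons 200 (.leaf 175 1403 (.leaf 179 1409 .nil)) .nil)) .nil)) .nil)) .nil)) .nil)) (.cons 181 (.leaf 182 1425 (.cons 225 (.leaf 226 1610 (.cons 229 (.leaf 230 1616 (.cons 156 (.leaf 132 1060 (.leaf 253 1255 .nil)) .nil)) .nil)) .nil)) .nil))) .nil)) (.cons 227 (.leaf 180 1437 (.cons 206 (.leaf 226 1618 (.cons 183 (.leaf 182 1433 (.cons 207 (.leaf 184 1441 (.cons 231 (.leaf 230 1624 (.leaf 232 1632 .nil)) .nil)) .nil)) .nil)) .nil)) (.cons 227 (.leaf 180 1437 (.cons 226 (.leaf 206 1618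 (.cons 202 (.leaf 299 1623 (.leaf 225 1610 .nil)) .nil)) .nil)) (.cons 180 (.leaf 227 1437 (.cons 202 (.cons 181 (.leaf 201 1417 (.leaf 182 1425 .nil)) (.cons 230 (.leaf 229 1616 (.cons 206 (.leaf 231 1624 (.cons 183 (.leaf 182 1433 (.cons 207 (.leaf 179 1435 (.leaf 184 1441 .nil)) .nil)) .nil)) .nil)) (.cons 201 (.leaf 181 1417 (.cons 176 (.leaf 177 1411 (.cons 200 (.leaf 175 1403 (.leaf 179 1409 .nil)) .nil)) .nil)) .nil))) .nil)) .nil))))))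
noncomputable def t30 : T := .cons 231 (.leaf 255 1268 (.cons 229 (.leaf 253 1262 (.cons 232 (.cons 209 (.leaf 208 1641 (.cons 233 (.leaf 210 1649 (.cons 257 (.leaf 256 1832 (.leaf 258 1840 .nil)) .nil)) .nil)) (.cons 159 (.leaf 135 1077 (.cons 256 (.leaf 207 1276 (.leaf 257 1832 .nil)) .nil)) (.cons 209 (.leaf 208 1641 (.cons 233 (.leaf 210 1649 (.cons 135 (.leaf 159 1077 (.cons 234 (.leaf 207 1651 (.cons 258 (.leaf 257 1840 (.leaf 259 1848 .nil)) .nil)) .nil)) .nil)) .nil)) (.cons 159 (.leaf 135 1077 (.cons 207 (.leaf 134 1076 (.leaf 256 1276 .nil)) .nil)) .nil)))) .nil)) .nil)) (.cons 231 (.leaf 255 1268 (.cons 134 (.leaf 207 1076 (.cons 109 (.leaf 133 879 (.cons 110 (.leaf 85 687 (.cons 111 (.leaf 87 693 (.leaf 135 885 .nil)) .nil)) .nil)) .nil)) .nil)) (.cons 231 (.leaf 255 1268 (.cons 134 (.leaf 207 1076 (.cons 109 (.leaf 133 879 (.cons 110 (.leaf 85 687 (.cons 86 (.leaf 159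 692 (.cons 87 (.leaf 111 693 (.leaf 63 501 .nil)) .nil)) .nil)) .nil)) .nil)) .nil)) (.cons 135 (.leaf 159 1077 (.cons 134 (.leaf 111 885 (.cons 109 (.leaf 133 879 (.cons 110 (.leaf 85 687 (.leaf 207 884 .nil)) .nil)) .nil)) .nil)) (.cons 231 (.leaf 255 1268 (.cons 134 (.cons 109 (.leaf 133 879 (.cons 110 (.leaf 85 687 (.cons 86 (.leaf 159 692 (.cons 87 (.leaf 111 693 (.leaf 63 501 .nil)) .nil)) .nil)) .nil)) (.cons 109 (.leaf 133 879 (.cons 110 (.leaf 85 687 (.cons 111 (.leaf 87 693 (.leaf 135 885 .nil)) .nil)) .nil)) (.cons 109 (.leaf 133 879 (.cons 110 (.leaf 85 687 (.cons 159 (.leaf 135 1077 (.leaf 86 692 .nil)) .nil)) .nil)) (.cons 135 (.leaf 111 885 (.leaf 159 1077 .nil)) .nil)))) .nil)) (.cons 231 (.leaf 255 1268 (.cons 229 (.leaf 253 1262 (.cons 232 (.cons 209 (.leaf 208 1641 (.cons 233 (.leaf 210 1649 (.cons 257 (.leaf 256 1832 (.leaf 258 1840 .nil)) .nil)) .nil)) (.cons 159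 (.leaf 135 1077 (.cons 256 (.leaf 207 1276 (.leaf 257 1832 .nil)) .nil)) (.cons 209 (.leaf 208 1641 (.cons 233 (.leaf 210 1649 (.cons 135 (.leaf 159 1077 (.cons 234 (.leaf 207 1651 (.cons 258 (.leaf 257 1840 (.leaf 259 1848 .nil)) .nil)) .nil)) .nil)) .nil)) (.cons 159 (.leaf 135 1077 (.cons 207 (.leaf 256 1276 (.cons 209 (.leaf 208 1641 (.cons 233 (.leaf 234 1651 (.leaf 210 1649 .nil)) .nil)) .nil)) .nil)) .nil)))) .nil)) .nil)) .nil)))))
noncomputable def t31 : T := .cons 254 (.leaf 159 1269 (.cons 207 (.leaf 278 1461 (.cons 253 (.leaf 277 1454 (.cons 252 (.leaf 274 2002 (.leaf 231 1817 .nil)) .nil)) .nil)) .nil)) (.cons 158 t30 (.cons 254 (.cons 207 (.leaf 278 1461 (.cons 253 (.leaf 277 1454 (.cons 252 (.leaf 274 2002 (.leaf 231 1817 .nil)) .nil)) .nil)) (.cons 207 (.leaf 278 1461 (.cons 255 (.leaf 279 1460 (.cons 231 (.leaf 158 1268 (.cons 184 (.leaf 160 1277 (.cons 185 (.leaf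 186 1458 (.cons 161 (.leaf 162 1265 (.cons 256 (.leaf 280 1468 (.cons 257 (.leaf 229 1835 (.leaf 258 1843 .nil)) .nil)) .nil)) .nil)) .nil)) .nil)) .nil)) .nil)) (.cons 253 (.leaf 277 1454 (.cons 252 (.leaf 274 2002 (.leaf 231 1817 .nil)) .nil)) (.cons 207 (.leaf 278 1461 (.cons 253 (.leaf 277 1454 (.cons 229 (.leaf 158 1262 (.cons 208 (.leaf 209 1642 (.cons 255 (.leaf 279 1460 (.cons 256 (.leaf 257 1835 (.cons 232 (.leaf 280 1471 (.leaf 233 1833 .nil)) .nil)) .nil)) .nil)) .nil)) .nil)) .nil)) .nil)))) (.cons 254 (.leaf 159 1269 (.cons 253 (.leaf 277 1454 (.cons 252 (.leaf 274 2002 (.leaf 231 1817 .nil)) .nil)) .nil)) (.cons 254 (.leaf 159 1269 (.cons 207 (.leaf 278 1461 (.cons 253 (.leaf 277 1454 (.cons 229 (.leaf 158 1262 (.cons 208 (.leaf 209 1642 (.cons 255 (.leaf 279 1460 (.cons 256 (.leaf 257 1835 (.cons 232 (.leaf 280 1471 (.leaf 233 1833 .nil)) .nil)) .nil)) .nil)) .nil))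 .nil)) .nil)) .nil)) (.cons 159 (.leaf 254 1269 (.cons 135 (.leaf 111 886 (.leaf 158 1077 .nil)) .nil)) .nil)))))
noncomputable def t32 : T := .cons 254 (.leaf 159 1269 (.cons 207 (.leaf 278 1461 (.cons 253 (.leaf 277 1454 (.cons 252 (.leaf 274 2002 (.leaf 231 1817 .nil)) .nil)) .nil)) .nil)) (.cons 158 (.cons 157 (.leaf 133 1071 (.cons 159 (.leaf 135 1077 (.cons 156 (.leaf 179 1242 (.leaf 184 1248 .nil)) .nil)) .nil)) (.cons 231 (.leaf 255 1268 (.cons 133 (.leaf 157 1071 (.cons 134 (.leaf 109 879 (.leaf 207 1076 .nil)) .nil)) .nil)) (.cons 135 (.leaf 159 1077 (.cons 134 (.leaf 111 885 (.cons 207 (.leaf 110 884 (.leaf 231 1076 .nil)) .nil)) .nil)) .nil))) (.cons 158 (.cons 231 (.leaf 255 1268 (.cons 134 (.leaf 207 1076 (.cons 111 (.leaf 135 885 (.cons 110 (.leaf 87 693 (.cons 85 (.leaf 109 687 (.cons 86 (.leaf 61 495 (.cons 253 (.leaf 229 1262 (.cons 254 (.leaf 252 1817 (.leaf 277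 1454 .nil)) .nil)) .nil)) .nil)) .nil)) .nil)) .nil)) .nil)) (.cons 133 (.leaf 157 1071 (.cons 109 (.leaf 134 879 (.cons 253 (.leaf 229 1262 (.cons 254 (.leaf 277 1454 (.cons 132 (.leaf 156 869 (.cons 252 (.leaf 274 2002 (.cons 278 (.leaf 279 2008 (.leaf 207 1461 .nil)) .nil)) .nil)) .nil)) .nil)) .nil)) .nil)) (.cons 231 (.leaf 255 1268 (.cons 133 (.leaf 157 1071 (.cons 134 (.leaf 109 879 (.leaf 207 1076 .nil)) .nil)) .nil)) (.cons 133 (.leaf 157 1071 (.cons 231 (.leaf 255 1268 (.cons 253 (.leaf 229 1262 (.cons 254 (.leaf 252 1817 (.leaf 277 1454 .nil)) .nil)) .nil)) .nil)) .nil)))) (.cons 254 (.leaf 159 1269 (.cons 253 (.leaf 277 1454 (.cons 252 (.leaf 274 2002 (.leaf 231 1817 .nil)) .nil)) .nil)) (.cons 254 (.leaf 159 1269 (.cons 207 (.leaf 278 1461 (.cons 253 (.leaf 277 1454 (.cons 229 (.leaf 158 1262 (.cons 208 (.leaf 209 1642 (.cons 255 (.leaf 279 1460 (.cons 256 (.leaf 257 1835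 (.cons 232 (.leaf 280 1471 (.leaf 233 1833 .nil)) .nil)) .nil)) .nil)) .nil)) .nil)) .nil)) .nil)) .nil))))
noncomputable def t33 : T := .cons 254 (.leaf 159 1269 (.cons 207 (.leaf 278 1461 (.cons 253 (.leaf 277 1454 (.cons 252 (.leaf 274 2002 (.leaf 231 1817 .nil)) .nil)) .nil)) .nil)) (.cons 158 (.cons 135 (.leaf 159 1077 (.cons 134 (.leaf 111 885 (.cons 207 (.leaf 110 884 (.leaf 231 1076 .nil)) .nil)) .nil)) (.cons 231 (.leaf 255 1268 (.cons 133 (.leaf 157 1071 (.cons 134 (.leaf 109 879 (.leaf 207 1076 .nil)) .nil)) .nil)) (.cons 157 (.leaf 133 1071 (.cons 156 (.leaf 155 1240 (.cons 159 (.leaf 179 1242 (.leaf 135 1077 .nil)) .nil)) .nil)) .nil))) (.cons 158 (.cons 231 (.leaf 255 1268 (.cons 134 (.leaf 207 1076 (.cons 111 (.leaf 135 885 (.cons 110 (.leaf 87 693 (.cons 85 (.leaf 109 687 (.cons 86 (.leaf 61 495 (.cons 253 (.leaf 229 1262 (.cons 254 (.leaf 252 1817 (.leaf 277 1454 .nil))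 .nil)) .nil)) .nil)) .nil)) .nil)) .nil)) .nil)) (.cons 157 (.leaf 133 1071 (.cons 155 (.leaf 156 1240 (.cons 253 (.leaf 229 1262 (.cons 254 (.leaf 277 1454 (.cons 184 (.leaf 185 1259 (.cons 252 (.leaf 274 2002 (.cons 278 (.leaf 279 2008 (.leaf 207 1461 .nil)) .nil)) .nil)) .nil)) .nil)) .nil)) .nil)) (.cons 231 (.leaf 255 1268 (.cons 133 (.leaf 157 1071 (.cons 134 (.leaf 109 879 (.leaf 207 1076 .nil)) .nil)) .nil)) (.cons 157 (.leaf 133 1071 (.cons 155 (.leaf 156 1240 (.cons 184 (.leaf 185 1259 (.cons 253 (.leaf 229 1262 (.cons 231 (.leaf 255 1268 (.cons 254 (.leaf 252 1817 (.leaf 277 1454 .nil)) .nil)) .nil)) .nil)) .nil)) .nil)) .nil)))) (.cons 254 (.leaf 159 1269 (.cons 253 (.leaf 277 1454 (.cons 252 (.leaf 274 2002 (.leaf 231 1817 .nil)) .nil)) .nil)) (.cons 254 (.leaf 159 1269 (.cons 207 (.leaf 278 1461 (.cons 253 (.leaf 277 1454 (.cons 229 (.leaf 158 1262 (.cons 208 (.leaf 209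 1642 (.cons 255 (.leaf 279 1460 (.cons 256 (.leaf 257 1835 (.cons 232 (.leaf 280 1471 (.leaf 233 1833 .nil)) .nil)) .nil)) .nil)) .nil)) .nil)) .nil)) .nil)) .nil))))
noncomputable def t34 : T := .cons 155 (.leaf 154 1235 (.cons 131 (.leaf 107 860 (.cons 132 (.leaf 108 861 (.cons 133 (.leaf 109 869 (.cons 130 (.leaf 106 855 (.cons 129 (.leaf 128 1024 (.leaf 157 1032 .nil)) .nil)) .nil)) .nil)) .nil)) .nil)) (.cons 132 (.leaf 108 862 (.cons 133 (.leaf 109 869 (.cons 131 (.leaf 107 863 (.cons 130 (.cons 157 (.leaf 129 1032 (.cons 106 (.leaf 105 843 (.cons 178 (.leaf 154 852 (.leaf 177 1225 .nil)) .nil)) .nil)) (.cons 154 (.leaf 153 1034 (.cons 106 (.leaf 178 852 (.leaf 105 843 .nil)) .nil)) (.cons 129 (.leaf 157 1032 (.cons 105 (.leaf 104 835 (.leaf 106 843 .nil)) .nil)) (.cons 129 (.leaf 157 1032 (.cons 153 (.leaf 152 1026 (.leaf 154 1034 .nil)) .nil)) .nil)))) .nil)) .nil)) .nil))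 (.cons 132 (.leaf 108 862 (.cons 131 (.leaf 107 863 (.cons 130 (.cons 129 (.leaf 157 1032 (.cons 155 (.leaf 106 855 (.leaf 128 1024 .nil)) .nil)) (.cons 133 (.leaf 109 869 (.cons 106 (.leaf 155 855 (.leaf 105 843 .nil)) .nil)) (.cons 129 (.leaf 157 1032 (.cons 128 (.leaf 155 1024 (.cons 104 (.leaf 105 835 (.leaf 103 827 .nil)) .nil)) .nil)) (.cons 129 (.leaf 157 1032 (.cons 133 (.leaf 109 869 (.cons 105 (.leaf 104 835 (.leaf 106 843 .nil)) .nil)) .nil)) .nil)))) .nil)) .nil)) (.cons 154 (.leaf 155 1235 (.cons 178 (.leaf 153 1227 (.cons 177 (.leaf 176 1408 (.leaf 157 1225 .nil)) .nil)) .nil)) (.cons 132 (.leaf 108 862 (.cons 131 (.leaf 107 863 (.cons 133 (.leaf 109 869 (.cons 154 (.leaf 155 1235 (.cons 153 (.leaf 178 1227 (.leaf 130 1034 .nil)) .nil)) .nil)) .nil)) .nil)) .nil))))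
noncomputable def t35 : T := .cons 254 (.leaf 159 1269 (.cons 207 (.leaf 278 1461 (.cons 253 (.leaf 277 1454 (.cons 252 (.leaf 274 2002 (.leaf 231 1817 .nil)) .nil)) .nil)) .nil)) (.cons 158 (.cons 133 (.leaf 157 1071 (.cons 134 (.leaf 109 879 (.cons 207 (.leaf 110 884 (.leaf 231 1076 .nil)) .nil)) .nil)) (.cons 133 (.leaf 157 1071 (.cons 134 (.leaf 109 879 (.cons 135 (.leaf 111 885 (.leaf 159 1077 .nil)) .nil)) .nil)) (.cons 135 (.leaf 159 1077 (.cons 134 (.leaf 111 885 (.cons 207 (.leaf 110 884 (.leaf 231 1076 .nil)) .nil)) .nil)) (.cons 157 (.leaf 133 1071 (.cons 156 (.leaf 155 1240 (.cons 159 (.leaf 135 1077 (.leaf 184 1248 .nil)) .nil)) .nil)) .nil)))) (.cons 158 (.cons 231 (.leaf 255 1268 (.cons 134 (.leaf 207 1076 (.cons 111 (.leaf 135 885 (.cons 110 (.leaf 87 693 (.cons 85 (.leaf 109 687 (.cons 86 (.leaf 61 495 (.cons 253 (.leaf 229 1262 (.cons 254 (.leaf 252 1817 (.leaf 277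 1454 .nil)) .nil)) .nil)) .nil)) .nil)) .nil)) .nil)) .nil)) (.cons 157 (.leaf 133 1071 (.cons 155 (.leaf 156 1240 (.cons 253 (.leaf 229 1262 (.cons 254 (.leaf 277 1454 (.cons 184 (.leaf 185 1259 (.cons 252 (.leaf 274 2002 (.cons 278 (.leaf 279 2008 (.leaf 207 1461 .nil)) .nil)) .nil)) .nil)) .nil)) .nil)) .nil)) (.cons 231 (.leaf 255 1268 (.cons 133 (.leaf 157 1071 (.cons 134 (.leaf 109 879 (.leaf 207 1076 .nil)) .nil)) .nil)) (.cons 133 (.leaf 157 1071 (.cons 109 (.leaf 134 879 (.cons 132 (.leaf 156 869 (.cons 253 (.leaf 229 1262 (.cons 231 (.leaf 255 1268 (.cons 254 (.leaf 252 1817 (.leaf 277 1454 .nil)) .nil)) .nil)) .nil)) .nil)) .nil)) .nil)))) (.cons 254 (.leaf 159 1269 (.cons 253 (.leaf 277 1454 (.cons 252 (.leaf 274 2002 (.leaf 231 1817 .nil)) .nil)) .nil)) (.cons 254 (.leaf 159 1269 (.cons 207 (.leaf 278 1461 (.cons 253 (.leaf 277 1454 (.cons 229 (.leaf 158 1262 (.cons 208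 (.leaf 209 1642 (.cons 255 (.leaf 279 1460 (.cons 256 (.leaf 257 1835 (.cons 232 (.leaf 280 1471 (.leaf 233 1833 .nil)) .nil)) .nil)) .nil)) .nil)) .nil)) .nil)) .nil)) .nil))))
noncomputable def t36 : T := .cons 132 (.leaf 108 862 (.cons 131 (.leaf 107 863 (.cons 133 (.leaf 109 869 (.cons 154 (.leaf 155 1235 (.cons 153 (.leaf 178 1227 (.leaf 130 1034 .nil)) .nil)) .nil)) .nil)) .nil)) (.cons 132 (.leaf 108 862 (.cons 133 (.leaf 109 869 (.cons 131 (.leaf 107 863 (.cons 130 (.cons 129 (.leaf 157 1032 (.cons 153 (.leaf 152 1026 (.leaf 154 1034 .nil)) .nil)) (.cons 154 (.leaf 153 1034 (.cons 106 (.leaf 178 852 (.leaf 105 843 .nil)) .nil)) (.cons 157 (.leaf 129 1032 (.cons 106 (.leaf 105 843 (.cons 178 (.leaf 154 852 (.leaf 177 1225 .nil)) .nil)) .nil)) (.cons 129 (.leaf 157 1032 (.cons 105 (.leaf 104 835 (.leaf 106 843 .nil)) .nil)) .nil)))) .nil)) .nil)) .nil)) (.cons 132 (.leaf 108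 862 (.cons 131 (.leaf 107 863 (.cons 130 (.cons 129 (.leaf 157 1032 (.cons 155 (.leaf 106 855 (.leaf 128 1024 .nil)) .nil)) (.cons 133 (.leaf 109 869 (.cons 106 (.leaf 155 855 (.leaf 105 843 .nil)) .nil)) (.cons 129 (.leaf 157 1032 (.cons 128 (.leaf 155 1024 (.cons 104 (.leaf 105 835 (.leaf 103 827 .nil)) .nil)) .nil)) (.cons 129 (.leaf 157 1032 (.cons 133 (.leaf 109 869 (.cons 105 (.leaf 104 835 (.leaf 106 843 .nil)) .nil)) .nil)) .nil)))) .nil)) .nil)) (.cons 154 (.leaf 155 1235 (.cons 178 (.leaf 153 1227 (.cons 177 (.leaf 176 1408 (.leaf 157 1225 .nil)) .nil)) .nil)) .nil)))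
noncomputable def t37 : T := .cons 111 (.leaf 135 885 (.cons 231 (.leaf 207 1076 (.cons 230 (.leaf 255 1268 (.cons 253 (.leaf 229 1262 (.cons 254 (.leaf 252 1817 (.leaf 277 1454 .nil)) .nil)) .nil)) .nil)) .nil)) (.cons 109 (.leaf 133 879 (.cons 110 (.leaf 85 687 (.cons 87 (.leaf 111 693 (.cons 86 (.leaf 63 501 (.cons 231 (.leaf 207 1076 (.cons 230 (.leaf 255 1268 (.cons 253 (.leaf 229 1262 (.cons 254 (.leaf 252 1817 (.leaf 277 1454 .nil)) .nil)) .nil)) .nil)) .nil)) .nil)) .nil)) .nil)) (.cons 109 (.leaf 133 879 (.cons 85 (.leaf 110 687 (.cons 231 (.leaf 207 1076 (.cons 230 (.leaf 255 1268 (.cons 159 (.leaf 135 1077 (.cons 253 (.leaf 229 1262 (.cons 254 (.leaf 252 1817 (.leaf 277 1454 .nil)) .nil)) .nil)) .nil)) .nil)) .nil)) .nil)) (.cons 135 (.leaf 111 885 (.cons 109 (.leaf 133 879 (.cons 110 (.leaf 85 687 (.cons 230 (.leaf 159 1077 (.cons 253 (.leaf 229 1262 (.cons 254 (.leaf 277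 1454 (.cons 252 (.leaf 274 2002 (.cons 279 (.leaf 278 2008 (.leaf 255 1460 .nil)) .nil)) .nil)) .nil)) .nil)) .nil)) .nil)) .nil)) (.cons 109 (.leaf 133 879 (.cons 110 (.leaf 85 687 (.cons 111 (.leaf 87 693 (.leaf 135 885 .nil)) .nil)) .nil)) .nil))))
noncomputable def t38 : T := .cons 230 (.cons 135 (.leaf 159 1077 (.cons 111 (.leaf 134 885 (.cons 231 (.leaf 255 1268 (.cons 253 (.leaf 229 1262 (.cons 254 (.leaf 252 1817 (.leaf 157 1263 .nil)) .nil)) .nil)) .nil)) .nil)) (.cons 135 (.leaf 159 1077 (.cons 111 (.leaf 134 885 (.cons 231 (.leaf 255 1268 (.cons 253 (.leaf 229 1262 (.cons 254 (.leaf 252 1817 (.leaf 277 1454 .nil)) .nil)) .nil)) .nil)) .nil)) (.cons 157 (.leaf 133 1071 (.leaf 254 1263 .nil)) (.cons 159 (.leaf 179 1241 (.leaf 135 1077 .nil)) .nil)))) (.cons 157 (.cons 133 (.leaf 109 876 (.leaf 230 1071 .nil)) (.cons 179 (.leaf 178 1233 (.cons 155 (.leaf 154 1235 (.cons 131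 (.leaf 107 860 (.cons 130 (.leaf 106 855 (.leaf 156 1043 .nil)) .nil)) .nil)) .nil)) .nil)) (.cons 159 (.leaf 179 1241 (.cons 135 (.leaf 230 1077 (.cons 111 (.leaf 87 694 (.leaf 134 885 .nil)) .nil)) .nil)) (.cons 230 (.cons 135 (.leaf 159 1077 (.cons 111 (.leaf 134 885 (.cons 231 (.leaf 255 1268 (.cons 253 (.leaf 229 1262 (.cons 254 (.leaf 252 1817 (.leaf 157 1263 .nil)) .nil)) .nil)) .nil)) .nil)) (.cons 135 (.leaf 159 1077 (.cons 111 (.leaf 134 885 (.cons 231 (.leaf 255 1268 (.cons 253 (.leaf 229 1262 (.cons 254 (.leaf 252 1817 (.leaf 277 1454 .nil)) .nil)) .nil)) .nil)) .nil)) (.cons 157 (.leaf 133 1071 (.cons 159 (.leaf 160 1250 (.leaf 135 1077 .nil)) .nil)) (.cons 157 (.leaf 133 1071 (.leaf 254 1263 .nil)) .nil)))) (.cons 179 (.leaf 159 1241 (.cons 154 (.leaf 155 1235 (.cons 178 (.leaf 153 1227 (.leaf 157 1233 .nil)) .nil)) .nil)) .nil))))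
noncomputable def t39 : T := .cons 135 (.leaf 159 1077 (.cons 111 (.leaf 134 885 (.cons 231 (.leaf 255 1268 (.cons 253 (.leaf 229 1262 (.cons 254 (.leaf 252 1817 (.leaf 277 1454 .nil)) .nil)) .nil)) .nil)) .nil)) (.cons 253 (.leaf 229 1262 (.cons 135 (.leaf 159 1077 (.cons 111 (.leaf 134 885 (.cons 254 (.leaf 277 1454 (.cons 252 (.leaf 274 2002 (.cons 279 (.leaf 278 2008 (.leaf 255 1460 .nil)) .nil)) .nil)) .nil)) .nil)) .nil)) (.cons 231 (.leaf 255 1268 (.cons 134 (.leaf 207 1076 (.cons 135 (.leaf 111 885 (.leaf 159 1077 .nil)) .nil)) .nil)) (.cons 253 (.leaf 229 1262 (.cons 135 (.leaf 159 1077 (.cons 111 (.leaf 134 885 (.cons 254 (.leaf 277 1454 (.cons 252 (.leaf 274 2002 (.leaf 231 1817 .nil)) .nil)) .nil)) .nil)) .nil)) (.cons 231 (.leaf 255 1268 (.cons 134 (.leaf 207 1076 (.cons 109 (.leaf 133 879 (.cons 110 (.leaf 85 687 (.cons 87 (.leaf 111 693 (.cons 86 (.leaf 63 501 (.cons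 253 (.leaf 229 1262 (.cons 254 (.leaf 252 1817 (.leaf 277 1454 .nil)) .nil)) .nil)) .nil)) .nil)) .nil)) .nil)) .nil)) (.cons 253 (.leaf 229 1262 (.cons 135 (.leaf 159 1077 (.cons 231 (.leaf 255 1268 (.cons 254 (.leaf 252 1817 (.leaf 277 1454 .nil)) .nil)) .nil)) .nil)) .nil)))))
noncomputable def t40 : T := .cons 158 (.cons 159 (.leaf 179 1241 (.cons 160 (.leaf 157 1250 (.leaf 161 1258 .nil)) .nil)) (.cons 230 (.cons 135 (.leaf 159 1077 (.cons 134 (.leaf 111 885 (.cons 231 (.leaf 207 1076 (.leaf 255 1268 .nil)) .nil)) .nil)) (.cons 157 (.leaf 133 1071 (.leaf 254 1263 .nil)) .nil)) (.cons 207 (.leaf 179 1432 (.cons 134 (.leaf 231 1076 (.cons 109 (.leaf 133 879 (.cons 110 (.leaf 85 687 (.cons 111 (.leaf 87 693 (.leaf 135 885 .nil)) .nil)) .nil)) .nil)) .nil)) .nil))) (.cons 230 (.cons 158 (.cons 135 (.leaf 159 1077 (.cons 134 (.leaf 111 885 (.cons 231 (.leaf 207 1076 (.leaf 255 1268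 .nil)) .nil)) .nil)) (.cons 157 (.leaf 133 1071 (.leaf 254 1263 .nil)) .nil)) (.cons 158 t39 (.cons 158 (.cons 157 (.leaf 133 1071 (.cons 159 (.leaf 160 1250 (.leaf 135 1077 .nil)) .nil)) (.cons 231 (.leaf 255 1268 (.cons 134 (.leaf 207 1076 (.cons 135 (.leaf 111 885 (.leaf 159 1077 .nil)) .nil)) .nil)) (.cons 133 (.leaf 157 1071 (.cons 134 (.leaf 109 879 (.cons 231 (.leaf 207 1076 (.leaf 255 1268 .nil)) .nil)) .nil)) .nil))) (.cons 254 (.leaf 157 1263 (.cons 253 (.leaf 277 1454 (.cons 252 (.leaf 274 2002 (.leaf 231 1817 .nil)) .nil)) .nil)) (.cons 157 (.leaf 254 1263 (.cons 133 (.leaf 109 876 (.leaf 158 1071 .nil)) .nil)) .nil))))) (.cons 158 t38 (.cons 158 (.cons 134 (.cons 111 (.leaf 135 885 (.cons 231 (.leaf 207 1076 (.cons 230 (.leaf 255 1268 (.cons 253 (.leaf 229 1262 (.cons 254 (.leaf 252 1817 (.leaf 277 1454 .nil)) .nil)) .nil)) .nil)) .nil)) (.cons 109 (.leaf 133 879 (.cons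 110 (.leaf 85 687 (.cons 111 (.leaf 87 693 (.leaf 135 885 .nil)) .nil)) .nil)) (.cons 179 (.leaf 159 1241 (.leaf 207 1432 .nil)) .nil))) (.cons 134 t37 (.cons 207 (.leaf 179 1432 (.cons 134 (.leaf 231 1076 (.cons 109 (.leaf 133 879 (.cons 110 (.leaf 85 687 (.cons 111 (.leaf 87 693 (.leaf 135 885 .nil)) .nil)) .nil)) .nil)) .nil)) (.cons 159 (.leaf 179 1241 (.cons 135 (.leaf 230 1077 (.cons 111 (.leaf 87 694 (.leaf 134 885 .nil)) .nil)) .nil)) (.cons 179 (.leaf 159 1241 (.leaf 207 1432 .nil)) .nil))))) (.cons 179 (.leaf 207 1432 (.cons 156 t36 .nil)) (.cons 179 (.leaf 207 1432 (.cons 154 (.leaf 155 1235 (.cons 158 (.leaf 159 1241 (.cons 178 (.leaf 153 1227 (.leaf 157 1233 .nil)) .nil)) .nil)) .nil)) .nil)))))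
noncomputable def t41 : T := .cons 230 (.cons 133 (.leaf 157 1071 (.cons 135 (.leaf 159 1077 (.cons 253 (.leaf 229 1262 (.cons 254 (.leaf 277 1454 (.cons 252 (.leaf 274 2002 (.leaf 231 1817 .nil)) .nil)) .nil)) .nil)) .nil)) (.cons 133 (.leaf 157 1071 (.cons 109 (.leaf 134 879 (.cons 132 (.leaf 156 869 (.cons 253 (.leaf 229 1262 (.cons 254 (.leaf 277 1454 (.cons 252 (.leaf 274 2002 (.leaf 231 1817 .nil)) .nil)) .nil)) .nil)) .nil)) .nil)) (.cons 133 (.leaf 157 1071 (.cons 135 (.leaf 159 1077 (.cons 253 (.leaf 229 1262 (.cons 254 (.leaf 277 1454 (.cons 252 (.leaf 274 2002 (.cons 279 (.leaf 278 2008 (.leaf 255 1460 .nil)) .nil)) .nil)) .nil)) .nil)) .nil)) (.cons 159 (.leaf 135 1077 (.cons 229 (.leaf 253 1262 (.cons 254 (.leaf 183 1269 (.cons 255 (.leaf 231 1268 (.leaf 279 1460 .nil)) .nil)) .nil)) .nil)) (.cons 133 (.leaf 157 1071 (.cons 134 (.leaf 109 879 (.cons 135 (.leaf 111 885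 (.leaf 159 1077 .nil)) .nil)) .nil)) .nil))))) (.cons 134 (.cons 109 (.leaf 133 879 (.cons 110 (.leaf 85 687 (.cons 111 (.leaf 87 693 (.leaf 135 885 .nil)) .nil)) .nil)) (.cons 207 (.leaf 231 1076 (.cons 109 (.leaf 133 879 (.cons 110 (.leaf 85 687 (.leaf 183 884 .nil)) .nil)) .nil)) (.cons 207 (.leaf 231 1076 (.cons 110 (.leaf 183 884 (.cons 111 (.leaf 87 693 (.leaf 135 885 .nil)) .nil)) .nil)) (.cons 133 (.leaf 109 879 (.cons 135 (.leaf 111 885 (.cons 207 (.leaf 231 1076 (.cons 132 (.cons 159 (.leaf 131 1048 (.leaf 160 1056 .nil)) (.cons 107 (.leaf 108 859 (.cons 131 (.leaf 156 863 (.leaf 106 851 .nil)) .nil)) (.cons 107 (.leaf 108 859 (.cons 156 (.leaf 155 1050 (.cons 136 (.leaf 157 1058 (.cons 160 (.leaf 159 1056 (.leaf 161 1064 .nil)) .nil)) .nil)) .nil)) .nil))) .nil)) .nil)) .nil)) .nil)))) (.cons 230 (.cons 135 (.leaf 159 1077 (.cons 231 (.leaf 255 1268 (.cons 253 (.leaf 229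 1262 (.cons 254 (.leaf 252 1817 (.leaf 277 1454 .nil)) .nil)) .nil)) .nil)) (.cons 253 (.leaf 229 1262 (.cons 133 (.leaf 157 1071 (.cons 231 (.leaf 255 1268 (.cons 254 (.leaf 252 1817 (.leaf 277 1454 .nil)) .nil)) .nil)) .nil)) (.cons 157 (.leaf 133 1071 (.cons 159 (.leaf 135 1077 (.cons 156 (.leaf 179 1242 (.cons 183 (.leaf 155 1240 (.leaf 254 1269 .nil)) .nil)) .nil)) .nil)) (.cons 157 (.leaf 133 1071 (.cons 159 (.leaf 135 1077 (.cons 156 (.leaf 179 1242 (.cons 183 (.leaf 155 1240 (.leaf 184 1248 .nil)) .nil)) .nil)) .nil)) .nil)))) (.cons 230 (.cons 133 (.leaf 157 1071 (.cons 134 (.leaf 109 879 (.cons 231 (.leaf 207 1076 (.leaf 255 1268 .nil)) .nil)) .nil)) (.cons 133 (.leaf 157 1071 (.cons 109 (.leaf 134 879 (.cons 132 (.leaf 156 869 (.cons 253 (.leaf 229 1262 (.cons 254 (.leaf 277 1454 (.cons 252 (.leaf 274 2002 (.cons 279 (.leaf 278 2008 (.leaf 255 1460 .nil)) .nil)) .nil)) .nil))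 .nil)) .nil)) .nil)) (.cons 253 (.leaf 229 1262 (.cons 133 (.leaf 157 1071 (.cons 109 (.leaf 134 879 (.cons 132 (.leaf 156 869 (.cons 254 (.leaf 277 1454 (.cons 252 (.leaf 274 2002 (.leaf 231 1817 .nil)) .nil)) .nil)) .nil)) .nil)) .nil)) (.cons 231 (.leaf 255 1268 (.cons 134 (.leaf 207 1076 (.cons 253 (.leaf 229 1262 (.cons 254 (.leaf 252 1817 (.leaf 277 1454 .nil)) .nil)) .nil)) .nil)) (.cons 253 (.leaf 229 1262 (.cons 133 (.leaf 157 1071 (.cons 231 (.leaf 255 1268 (.cons 254 (.leaf 252 1817 (.leaf 277 1454 .nil)) .nil)) .nil)) .nil)) .nil))))) (.cons 230 (.cons 135 (.leaf 159 1077 (.cons 134 (.leaf 111 885 (.cons 231 (.leaf 207 1076 (.leaf 255 1268 .nil)) .nil)) .nil)) (.cons 231 (.leaf 255 1268 (.cons 134 (.leaf 207 1076 (.cons 253 (.leaf 229 1262 (.cons 254 (.leaf 252 1817 (.leaf 277 1454 .nil)) .nil)) .nil)) .nil)) (.cons 159 (.leaf 135 1077 (.cons 253 (.leaf 229 1262 (.cons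 254 (.leaf 183 1269 (.leaf 277 1454 .nil)) .nil)) .nil)) .nil))) (.cons 230 (.cons 133 (.leaf 157 1071 (.cons 134 (.leaf 109 879 (.cons 135 (.leaf 111 885 (.leaf 159 1077 .nil)) .nil)) .nil)) (.cons 133 (.leaf 157 1071 (.cons 134 (.leaf 109 879 (.cons 111 (.leaf 135 885 (.cons 110 (.leaf 87 693 (.cons 112 (.leaf 113 874 (.cons 253 (.leaf 229 1262 (.cons 254 (.leaf 277 1454 (.cons 252 (.leaf 274 2002 (.cons 279 (.leaf 278 2008 (.leaf 255 1460 .nil)) .nil)) .nil)) .nil)) .nil)) .nil)) .nil)) .nil)) .nil)) (.cons 133 (.leaf 157 1071 (.cons 109 (.leaf 134 879 (.cons 132 (.leaf 156 869 (.cons 253 (.leaf 229 1262 (.cons 254 (.leaf 277 1454 (.cons 252 (.leaf 274 2002 (.cons 279 (.leaf 278 2008 (.leaf 255 1460 .nil)) .nil)) .nil)) .nil)) .nil)) .nil)) .nil)) (.cons 159 (.leaf 135 1077 (.cons 253 (.leaf 229 1262 (.cons 254 (.leaf 183 1269 (.leaf 277 1454 .nil)) .nil)) .nil)) .nil)))) .nil)))))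
noncomputable def t42 : T := .cons 205 (.leaf 183 1433 (.cons 179 (.leaf 178 1427 (.leaf 207 1435 .nil)) .nil)) (.cons 158 (t41) (.cons 205 (.cons 179 (.leaf 178 1427 (.leaf 207 1435 .nil)) (.cons 230 (.leaf 231 1624 (.cons 158 (.cons 229 (.leaf 134 1070 (.leaf 253 1262 .nil)) (.cons 133 (.leaf 157 1071 (.cons 134 (.leaf 109 879 (.cons 135 (.leaf 111 885 (.leaf 159 1077 .nil)) .nil)) .nil)) (.cons 133 (.leaf 157 1071 (.cons 253 (.leaf 229 1262 (.cons 135 (.leaf 159 1077 (.cons 254 (.leaf 277 1454 (.cons 252 (.leaf 274 2002 (.cons 279 (.leaf 278 2008 (.leaf 255 1460 .nil)) .nil)) .nil)) .nil)) .nil)) .nil)) .nil))) .nil)) .nil)) (.cons 205 (.leaf 183 1433 (.cons 230 (.leaf 231 1624 (.cons 158 (.cons 229 (.leaf 134 1070 (.leaf 253 1262 .nil)) (.cons 133 (.leaf 157 1071 (.cons 134 (.leaf 109 879 (.cons 135 (.leaf 111 885 (.leaf 159 1077 .nil)) .nil)) .nil)) (.cons 133 (.leaf 157 1071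 (.cons 253 (.leaf 229 1262 (.cons 135 (.leaf 159 1077 (.cons 254 (.leaf 277 1454 (.cons 252 (.leaf 274 2002 (.cons 279 (.leaf 278 2008 (.leaf 255 1460 .nil)) .nil)) .nil)) .nil)) .nil)) .nil)) .nil))) .nil)) .nil)) .nil)))
noncomputable def t43 : T := .cons 207 (.leaf 179 1435 (.cons 231 (.leaf 230 1624 (.leaf 232 1632 .nil)) .nil)) (.cons 207 (.cons 231 (.leaf 230 1624 (.leaf 232 1632 .nil)) (.cons 208 (.leaf 181 1443 (.cons 185 (.leaf 184 1449 (.cons 209 (.leaf 186 1457 (.cons 233 (.leaf 232 1640 (.leaf 234 1648 .nil)) .nil)) .nil)) .nil)) (.cons 181 (.leaf 208 1443 (.cons 230 (.leaf 231 1624 (.cons 157 (.leaf 254 1263 (.leaf 133 1068 .nil)) .nil)) .nil)) .nil))) (.cons 179 (.leaf 178 1427 (.cons 230 (.leaf 231 1624 (.cons 155 (.cons 131 (.leaf 107 860 (.cons 132 (.leaf 108 861 (.cons 156 (.leaf 229 1060 (.cons 130 (.leaf 106 855 (.cons 129 (.leaf 128 1024 (.leaf 157 1032 .nil))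 .nil)) .nil)) .nil)) .nil)) (.cons 181 (.leaf 154 1235 (.cons 254 (.leaf 157 1263 (.leaf 278 1455 .nil)) .nil)) (.cons 131 (.leaf 107 860 (.cons 106 (.leaf 130 855 (.cons 132 (.leaf 108 861 (.cons 154 (.leaf 181 1235 (.cons 152 (.leaf 153 1216 (.cons 133 (.leaf 134 1042 (.cons 156 (.leaf 109 869 (.leaf 229 1060 .nil)) .nil)) .nil)) .nil)) .nil)) .nil)) .nil)) .nil))) .nil)) .nil)) (.cons 179 (.leaf 178 1427 (.leaf 207 1435 .nil)) .nil)))
noncomputable def t44 : T := .cons 205 (.leaf 231 1624 (.cons 158 (.cons 229 (.leaf 134 1070 (.leaf 253 1262 .nil)) (.cons 133 (.leaf 157 1071 (.cons 134 (.leaf 109 879 (.cons 135 (.leaf 111 885 (.leaf 159 1077 .nil)) .nil)) .nil)) (.cons 133 (.leaf 157 1071 (.cons 253 (.leaf 229 1262 (.cons 135 (.leaf 159 1077 (.cons 254 (.leaf 277 1454 (.cons 252 (.leaf 274 2002 (.cons 279 (.leaf 278 2008 (.leaf 255 1460 .nil)) .nil)) .nil)) .nil)) .nil)) .nil))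 .nil))) .nil)) (.cons 158 (.cons 133 (.leaf 157 1071 (.cons 134 (.leaf 109 879 (.cons 135 (.leaf 111 885 (.leaf 159 1077 .nil)) .nil)) .nil)) (.cons 253 (.leaf 229 1262 (.cons 135 (.leaf 159 1077 (.cons 111 (.leaf 134 885 (.cons 254 (.leaf 277 1454 (.cons 252 (.leaf 274 2002 (.leaf 231 1817 .nil)) .nil)) .nil)) .nil)) .nil)) (.cons 157 (.leaf 133 1071 (.cons 181 (.leaf 254 1263 (.cons 179 (.leaf 178 1233 (.cons 155 (.leaf 154 1235 (.cons 131 (.leaf 107 860 (.cons 130 (.leaf 106 855 (.leaf 156 1043 .nil)) .nil)) .nil)) .nil)) .nil)) .nil)) .nil))) (.cons 158 (.cons 253 (.leaf 229 1262 (.cons 135 (.leaf 159 1077 (.cons 111 (.leaf 134 885 (.cons 254 (.leaf 277 1454 (.cons 252 (.leaf 274 2002 (.cons 279 (.leaf 278 2008 (.leaf 255 1460 .nil)) .nil)) .nil)) .nil)) .nil)) .nil)) (.cons 157 (.leaf 133 1071 (.cons 181 (.leaf 254 1263 (.cons 179 (.leaf 178 1233 (.cons 155 (.leaf 154 1235 (.cons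 131 (.leaf 107 860 (.cons 130 (.leaf 106 855 (.leaf 156 1043 .nil)) .nil)) .nil)) .nil)) .nil)) .nil)) (.cons 133 (.leaf 157 1071 (.cons 134 (.leaf 109 879 (.cons 135 (.leaf 111 885 (.leaf 159 1077 .nil)) .nil)) .nil)) .nil))) (.cons 205 (.leaf 231 1624 (.cons 179 (.leaf 178 1427 (.cons 155 (.cons 131 (.leaf 107 860 (.cons 132 (.leaf 108 861 (.cons 156 (.leaf 229 1060 (.cons 130 (.leaf 106 855 (.cons 129 (.leaf 128 1024 (.leaf 157 1032 .nil)) .nil)) .nil)) .nil)) .nil)) (.cons 181 (.leaf 154 1235 (.cons 254 (.leaf 157 1263 (.leaf 278 1455 .nil)) .nil)) (.cons 131 (.leaf 107 860 (.cons 106 (.leaf 130 855 (.cons 132 (.leaf 108 861 (.cons 154 (.leaf 181 1235 (.cons 152 (.leaf 153 1216 (.cons 133 (.leaf 134 1042 (.cons 156 (.leaf 109 869 (.leaf 229 1060 .nil)) .nil)) .nil)) .nil)) .nil)) .nil)) .nil)) .nil))) .nil)) .nil)) (.cons 231 (.leaf 205 1624 (.cons 158 (.leaf 255 1268 (.cons 133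 (.leaf 157 1071 (.cons 134 (.leaf 109 879 (.cons 135 (.leaf 111 885 (.leaf 159 1077 .nil)) .nil)) .nil)) .nil)) .nil)) (.cons 231 (.leaf 205 1624 (.cons 158 (.leaf 255 1268 (.cons 135 (.leaf 159 1077 (.cons 111 (.leaf 134 885 (.cons 253 (.leaf 229 1262 (.cons 254 (.leaf 252 1817 (.leaf 277 1454 .nil)) .nil)) .nil)) .nil)) .nil)) .nil)) (.cons 231 (.leaf 205 1624 (.cons 158 (.leaf 255 1268 (.cons 133 (.leaf 157 1071 (.cons 135 (.leaf 159 1077 (.cons 253 (.leaf 229 1262 (.cons 254 (.leaf 252 1817 (.leaf 277 1454 .nil)) .nil)) .nil)) .nil)) .nil)) .nil)) .nil))))))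
noncomputable def t45 : T := .cons 231 (.leaf 205 1624 (.cons 254 (.cons 253 (.leaf 252 1817 (.leaf 277 1454 .nil)) (.cons 157 (.leaf 181 1263 (.cons 279 (.leaf 255 1460 (.cons 158 (.leaf 133 1071 (.cons 134 (.leaf 207 1076 (.cons 135 (.leaf 111 885 (.leaf 159 1077 .nil)) .nil)) .nil)) .nil)) .nil)) .nil)) .nil)) (.cons 254 (.cons 253 (.leaf 277 1454 (.cons 158 (.leaf 229 1262 (.cons 133 (.leaf 157 1071 (.cons 109 (.leaf 134 879 (.cons 132 (.leaf 156 869 (.cons 135 (.leaf 159 1077 (.cons 252 (.leaf 274 2002 (.cons 279 (.leaf 278 2008 (.leaf 255 1460 .nil)) .nil)) .nil)) .nil)) .nil)) .nil)) .nil)) .nil)) (.cons 181 (.leaf 157 1263 (.cons 278 (.leaf 205 1455 (.cons 279 (.leaf 255 1460 (.leaf 303 1652 .nil)) .nil)) .nil)) (.cons 253 (.leaf 277 1454 (.cons 158 (.leaf 229 1262 (.cons 135 (.leaf 159 1077 (.cons 111 (.leaf 134 885 (.cons 252 (.leaf 274 2002 (.cons 279 (.leaf 278 2008 (.leaf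 255 1460 .nil)) .nil)) .nil)) .nil)) .nil)) .nil)) (.cons 157 (.leaf 181 1263 (.cons 158 (.leaf 133 1071 (.cons 253 (.leaf 229 1262 (.leaf 277 1454 .nil)) .nil)) .nil)) .nil)))) (.cons 158 (.cons 133 (.leaf 157 1071 (.cons 134 (.leaf 109 879 (.cons 135 (.leaf 111 885 (.leaf 159 1077 .nil)) .nil)) .nil)) (.cons 135 (.leaf 159 1077 (.cons 111 (.leaf 134 885 (.cons 253 (.leaf 229 1262 (.cons 254 (.leaf 277 1454 (.cons 252 (.leaf 274 2002 (.leaf 231 1817 .nil)) .nil)) .nil)) .nil)) .nil)) (.cons 133 (.leaf 157 1071 (.cons 109 (.leaf 134 879 (.cons 132 (.leaf 156 869 (.cons 253 (.leaf 229 1262 (.cons 254 (.leaf 277 1454 (.cons 252 (.leaf 274 2002 (.leaf 231 1817 .nil)) .nil)) .nil)) .nil)) .nil)) .nil)) (.cons 133 (.leaf 157 1071 (.cons 135 (.leaf 159 1077 (.cons 253 (.leaf 229 1262 (.cons 254 (.leaf 277 1454 (.cons 252 (.leaf 274 2002 (.leaf 231 1817 .nil)) .nil)) .nil)) .nil)) .nil))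 .nil)))) (.cons 231 (.leaf 205 1624 (.cons 254 (.cons 253 (.leaf 252 1817 (.leaf 277 1454 .nil)) (.cons 157 (.leaf 181 1263 (.cons 279 (.leaf 255 1460 (.cons 278 (.leaf 303 1652 (.cons 301 (.leaf 277 1646 (.cons 302 (.leaf 207 1653 (.leaf 325 1838 .nil)) .nil)) .nil)) .nil)) .nil)) (.cons 157 (.leaf 181 1263 (.cons 253 (.leaf 252 1817 (.cons 279 (.leaf 255 1460 (.cons 278 (.leaf 303 1652 (.cons 232 (.leaf 233 1834 (.cons 302 (.leaf 207 1653 (.cons 325 (.leaf 301 1838 (.cons 326 (.leaf 229 1839 (.leaf 349 2030 .nil)) .nil)) .nil)) .nil)) .nil)) .nil)) .nil)) .nil)) .nil))) .nil)) (.cons 231 (.leaf 205 1624 (.cons 158 (.leaf 255 1268 (.cons 133 (.leaf 157 1071 (.cons 134 (.leaf 109 879 (.leaf 207 1076 .nil)) .nil)) .nil)) .nil)) (.cons 231 (.leaf 205 1624 (.cons 158 (.leaf 255 1268 (.cons 135 (.leaf 159 1077 (.cons 111 (.leaf 134 885 (.cons 253 (.leaf 229 1262 (.cons 254 (.leaf 252 1817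 (.leaf 277 1454 .nil)) .nil)) .nil)) .nil)) .nil)) .nil)) .nil)))))
noncomputable def t46 : T := .cons 154 (.leaf 155 1235 (.cons 132 (.leaf 108 862 (.cons 131 (.leaf 107 863 (.cons 133 (.leaf 109 869 (.cons 153 (.leaf 178 1227 (.leaf 130 1034 .nil)) .nil)) .nil)) .nil)) .nil)) (.cons 132 (.leaf 108 862 (.cons 133 (.leaf 109 869 (.cons 131 (.leaf 107 863 (.cons 130 (.cons 129 (.leaf 157 1032 (.cons 153 (.leaf 152 1026 (.leaf 154 1034 .nil)) .nil)) (.cons 106 (.leaf 105 843 (.cons 154 (.leaf 178 852 (.leaf 153 1034 .nil)) .nil)) (.cons 105 (.leaf 106 843 (.cons 129 (.leaf 157 1032 (.leaf 104 835 .nil)) .nil)) .nil))) .nil)) .nil)) .nil)) (.cons 132 (.leaf 108 862 (.cons 131 (.leaf 107 863 (.cons 130 (.cons 129 (.leaf 157 1032 (.cons 155 (.leaf 106 855 (.leaf 128 1024 .nil)) .nil)) (.cons 133 (.leaf 109 869 (.cons 106 (.leaf 155 855 (.leaf 105 843 .nil)) .nil)) (.cons 129 (.leaf 157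 1032 (.cons 128 (.leaf 155 1024 (.cons 104 (.leaf 105 835 (.leaf 103 827 .nil)) .nil)) .nil)) (.cons 129 (.leaf 157 1032 (.cons 133 (.leaf 109 869 (.cons 105 (.leaf 104 835 (.leaf 106 843 .nil)) .nil)) .nil)) .nil)))) .nil)) .nil)) (.cons 154 (.leaf 155 1235 (.cons 178 (.leaf 153 1227 (.cons 177 (.leaf 176 1408 (.leaf 157 1225 .nil)) .nil)) .nil)) .nil)))
noncomputable def t47 : T := .cons 207 (.leaf 179 1432 (.cons 134 (.leaf 231 1076 (.cons 109 (.leaf 133 879 (.cons 110 (.leaf 85 687 (.cons 111 (.leaf 87 693 (.leaf 135 885 .nil)) .nil)) .nil)) .nil)) .nil)) (.cons 134 (.cons 109 (.leaf 133 879 (.cons 110 (.leaf 85 687 (.cons 87 (.leaf 111 693 (.cons 86 (.leaf 63 501 (.cons 231 (.leaf 207 1076 (.cons 230 (.leaf 255 1268 (.cons 253 (.leaf 229 1262 (.cons 254 (.leaf 252 1817 (.leaf 277 1454 .nil)) .nil)) .nil)) .nil)) .nil)) .nil)) .nil)) .nil)) (.cons 109 (.leaf 133 879 (.cons 85 (.leaf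 110 687 (.cons 231 (.leaf 207 1076 (.cons 230 (.leaf 255 1268 (.cons 159 (.leaf 135 1077 (.cons 253 (.leaf 229 1262 (.cons 254 (.leaf 252 1817 (.leaf 277 1454 .nil)) .nil)) .nil)) .nil)) .nil)) .nil)) .nil)) (.cons 111 (.leaf 135 885 (.cons 231 (.leaf 207 1076 (.cons 230 (.leaf 255 1268 (.cons 253 (.leaf 229 1262 (.cons 254 (.leaf 252 1817 (.leaf 277 1454 .nil)) .nil)) .nil)) .nil)) .nil)) (.cons 109 (.leaf 133 879 (.cons 110 (.leaf 85 687 (.cons 111 (.leaf 87 693 (.leaf 135 885 .nil)) .nil)) .nil)) .nil)))) (.cons 159 (.leaf 179 1241 (.cons 135 (.leaf 230 1077 (.cons 111 (.leaf 87 694 (.leaf 134 885 .nil)) .nil)) .nil)) (.cons 179 (.leaf 159 1241 (.leaf 207 1432 .nil)) .nil)))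
noncomputable def t48 : T := .cons 254 (.leaf 157 1263 (.cons 253 (.leaf 277 1454 (.cons 252 (.leaf 274 2002 (.leaf 231 1817 .nil)) .nil)) .nil)) (.cons 158 (.cons 135 (.leaf 159 1077 (.cons 134 (.leaf 111 885 (.cons 231 (.leaf 207 1076 (.leaf 255 1268 .nil)) .nil)) .nil)) (.cons 253 (.leaf 229 1262 (.cons 135 (.leaf 159 1077 (.cons 111 (.leaf 134 885 (.cons 254 (.leaf 277 1454 (.cons 252 (.leaf 274 2002 (.cons 279 (.leaf 278 2008 (.leaf 255 1460 .nil)) .nil)) .nil)) .nil)) .nil)) .nil)) (.cons 253 (.leaf 229 1262 (.cons 135 (.leaf 159 1077 (.cons 111 (.leaf 134 885 (.cons 254 (.leaf 277 1454 (.cons 252 (.leaf 274 2002 (.leaf 231 1817 .nil)) .nil)) .nil)) .nil)) .nil)) (.cons 231 (.leaf 255 1268 (.cons 134 (.leaf 207 1076 (.cons 109 (.leaf 133 879 (.cons 110 (.leaf 85 687 (.cons 87 (.leaf 111 693 (.cons 86 (.leaf 63 501 (.cons 253 (.leaf 229 1262 (.cons 254 (.leaf 252 1817 (.leaf 277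 1454 .nil)) .nil)) .nil)) .nil)) .nil)) .nil)) .nil)) .nil)) (.cons 253 (.leaf 229 1262 (.cons 135 (.leaf 159 1077 (.cons 231 (.leaf 255 1268 (.cons 254 (.leaf 252 1817 (.leaf 277 1454 .nil)) .nil)) .nil)) .nil)) .nil))))) (.cons 158 (.cons 133 (.leaf 157 1071 (.cons 134 (.leaf 109 879 (.cons 135 (.leaf 111 885 (.leaf 159 1077 .nil)) .nil)) .nil)) (.cons 231 (.leaf 255 1268 (.cons 134 (.leaf 207 1076 (.cons 135 (.leaf 111 885 (.leaf 159 1077 .nil)) .nil)) .nil)) (.cons 133 (.leaf 157 1071 (.cons 134 (.leaf 109 879 (.cons 231 (.leaf 207 1076 (.leaf 255 1268 .nil)) .nil)) .nil)) (.cons 157 (.leaf 133 1071 (.cons 159 (.leaf 160 1250 (.leaf 135 1077 .nil)) .nil)) .nil)))) (.cons 157 (.leaf 254 1263 (.cons 133 (.leaf 109 876 (.leaf 158 1071 .nil)) .nil)) .nil)))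
noncomputable def t49 : T := .cons 179 (.leaf 159 1241 (.leaf 207 1432 .nil)) (.cons 134 (.cons 109 (.leaf 133 879 (.cons 110 (.leaf 85 687 (.cons 87 (.leaf 111 693 (.cons 86 (.leaf 157 686 (.leaf 63 501 .nil)) .nil)) .nil)) .nil)) (.cons 111 (.leaf 135 885 (.cons 231 (.leaf 207 1076 (.cons 230 (.leaf 255 1268 (.cons 253 (.leaf 229 1262 (.cons 254 (.leaf 252 1817 (.leaf 157 1263 .nil)) .nil)) .nil)) .nil)) .nil)) (.cons 109 (.leaf 133 879 (.cons 110 (.leaf 85 687 (.cons 87 (.leaf 111 693 (.cons 86 (.leaf 63 501 (.cons 231 (.leaf 207 1076 (.cons 230 (.leaf 255 1268 (.cons 253 (.leaf 229 1262 (.cons 254 (.leaf 252 1817 (.leaf 277 1454 .nil)) .nil)) .nil)) .nil)) .nil)) .nil)) .nil)) .nil)) (.cons 109 (.leaf 133 879 (.cons 85 (.leaf 110 687 (.cons 231 (.leaf 207 1076 (.cons 230 (.leaf 255 1268 (.cons 159 (.leaf 135 1077 (.cons 253 (.leaf 229 1262 (.cons 254 (.leaf 252 1817 (.leaf 157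 1263 .nil)) .nil)) .nil)) .nil)) .nil)) .nil)) .nil)) .nil)))) (.cons 207 (.leaf 179 1432 (.cons 134 (.leaf 231 1076 (.cons 109 (.leaf 133 879 (.cons 110 (.leaf 85 687 (.cons 111 (.leaf 87 693 (.leaf 135 885 .nil)) .nil)) .nil)) .nil)) .nil)) (.cons 159 (.leaf 179 1241 (.cons 160 (.leaf 157 1250 (.leaf 161 1258 .nil)) .nil)) .nil)))
noncomputable def t50 : T := .cons 158 t49 (.cons 230 t48 (.cons 158 (.cons 159 (.leaf 179 1241 (.cons 160 (.leaf 157 1250 (.leaf 161 1258 .nil)) .nil)) (.cons 157 (.cons 133 (.leaf 109 876 (.leaf 230 1071 .nil)) (.cons 179 (.leaf 178 1233 (.cons 155 (.leaf 154 1235 (.cons 131 (.leaf 107 860 (.cons 130 (.leaf 106 855 (.leaf 156 1043 .nil)) .nil)) .nil)) .nil)) .nil)) (.cons 159 (.leaf 179 1241 (.cons 135 (.leaf 230 1077 (.cons 111 (.leaf 87 694 (.leaf 134 885 .nil)) .nil)) .nil)) (.cons 230 (.cons 157 (.leaf 133 1071 (.leaf 254 1263 .nil)) (.cons 135 (.leaf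 159 1077 (.cons 111 (.leaf 134 885 (.cons 231 (.leaf 255 1268 (.cons 253 (.leaf 229 1262 (.cons 254 (.leaf 252 1817 (.leaf 277 1454 .nil)) .nil)) .nil)) .nil)) .nil)) (.cons 157 (.leaf 133 1071 (.cons 159 (.leaf 160 1250 (.leaf 135 1077 .nil)) .nil)) .nil))) .nil)))) (.cons 158 t47 (.cons 179 (.leaf 207 1432 (.cons 156 t46 .nil)) (.cons 179 (.leaf 207 1432 (.cons 154 (.leaf 155 1235 (.cons 158 (.leaf 159 1241 (.cons 178 (.leaf 153 1227 (.leaf 157 1233 .nil)) .nil)) .nil)) .nil)) .nil)))))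
noncomputable def t51 : T := .cons 205 (.cons 179 (.leaf 178 1427 (.leaf 207 1435 .nil)) (.cons 230 (.leaf 231 1624 (.cons 253 (.cons 229 (.leaf 277 1453 (.leaf 158 1262 .nil)) (.cons 254 (.leaf 277 1454 (.cons 252 (.leaf 274 2002 (.cons 278 (.leaf 279 2008 (.leaf 181 1455 .nil)) .nil)) .nil)) (.cons 158 (.leaf 229 1262 (.cons 135 (.leaf 159 1077 (.cons 134 (.leaf 111 885 (.cons 109 (.leaf 133 879 (.cons 110 (.leaf 85 687 (.leaf 181 878 .nil)) .nil)) .nil)) .nil)) .nil)) .nil))) .nil)) .nil)) (.cons 181 t50 (.cons 230 t45 (.cons 205 (.cons 230 (.leaf 231 1624 (.cons 158 (.cons 229 (.leaf 134 1070 (.leaf 253 1262 .nil)) (.cons 133 (.leaf 157 1071 (.cons 179 (.leaf 178 1427 (.leaf 207 1435 .nil)) .nil)) .nil)) .nil)) (.cons 230 (.leaf 231 1624 (.cons 158 (.cons 229 (.leaf 134 1070 (.leaf 253 1262 .nil)) (.cons 133 (.leaf 157 1071 (.cons 134 (.leaf 109 879 (.cons 135 (.leaf 111 885 (.leaf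 159 1077 .nil)) .nil)) .nil)) (.cons 133 (.leaf 157 1071 (.cons 253 (.leaf 229 1262 (.cons 135 (.leaf 159 1077 (.cons 254 (.leaf 277 1454 (.cons 252 (.leaf 274 2002 (.cons 279 (.leaf 278 2008 (.leaf 255 1460 .nil)) .nil)) .nil)) .nil)) .nil)) .nil)) .nil))) .nil)) (.cons 179 (.leaf 178 1427 (.leaf 207 1435 .nil)) .nil))) (.cons 230 t44 (.cons 179 (.cons 207 (.leaf 205 1435 (.leaf 181 1432 .nil)) (.cons 181 (.leaf 207 1432 (.cons 154 (.leaf 155 1235 (.cons 158 (.leaf 159 1241 (.cons 178 (.leaf 153 1227 (.leaf 157 1233 .nil)) .nil)) .nil)) .nil)) (.cons 178 (.leaf 205 1427 (.cons 177 (.leaf 176 1408 (.cons 153 (.leaf 152 1219 (.cons 154 (.leaf 181 1227 (.cons 130 (.leaf 106 852 (.cons 201 (.leaf 200 1410 (.leaf 225 1037 .nil)) .nil)) .nil)) .nil)) .nil)) .nil)) (.cons 205 (.leaf 178 1427 (.leaf 207 1435 .nil)) .nil)))) (.cons 205 t43 .nil))))))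
noncomputable def t52 : T := .cons 181 (.leaf 183 1434 (.cons 179 (.cons 158 (.leaf 159 1241 (.cons 157 (.leaf 178 1233 (.cons 206 (.leaf 207 1432 (.cons 155 (.leaf 154 1235 (.cons 133 (.leaf 109 876 (.leaf 230 1071 .nil)) .nil)) .nil)) .nil)) .nil)) (.cons 158 (.leaf 159 1241 (.cons 178 (.leaf 157 1233 (.cons 177 (.leaf 176 1408 (.leaf 205 1416 .nil)) .nil)) .nil)) (.cons 155 (.leaf 154 1235 (.cons 131 (.leaf 107 860 (.cons 130 (.leaf 106 855 (.cons 132 (.leaf 108 861 (.cons 158 (.leaf 159 1241 (.cons 157 (.leaf 156 1043 (.leaf 133 1040 .nil)) .nil)) .nil)) .nil)) .nil)) .nil)) (.cons 206 (.leaf 207 1432 (.cons 178 (.leaf 205 1424 (.cons 154 (.leaf 153 1227 (.leaf 155 1235 .nil)) .nil)) .nil)) .nil)))) .nil)) (.cons 206 t51 (.cons 206 t42 (.cons 181 (.leaf 183 1434 (.cons 206 t40 .nil)) (.cons 181 (.leaf 183 1434 (.cons 179 (.cons 155 (.leaf 154 1235 (.cons 131 (.leaf 107 860 (.cons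 130 (.leaf 106 855 (.cons 132 (.leaf 108 861 (.cons 158 (.leaf 159 1241 (.cons 157 (.leaf 178 1233 (.leaf 156 1043 .nil)) .nil)) .nil)) .nil)) .nil)) .nil)) (.cons 158 (.leaf 159 1241 (.cons 178 (.leaf 157 1233 (.cons 177 (.leaf 176 1408 (.leaf 205 1416 .nil)) .nil)) .nil)) (.cons 154 (.leaf 155 1235 (.cons 178 (.leaf 153 1227 (.cons 177 (.leaf 176 1408 (.leaf 205 1416 .nil)) .nil)) .nil)) (.cons 155 (.leaf 154 1235 (.cons 131 (.leaf 107 860 (.cons 130 (.leaf 106 855 (.cons 132 (.leaf 108 861 (.cons 158 (.leaf 159 1241 (.cons 157 (.leaf 156 1043 (.leaf 133 1040 .nil)) .nil)) .nil)) .nil)) .nil)) .nil)) .nil)))) .nil)) (.cons 183 (.leaf 181 1434 (.cons 206 (.leaf 205 1433 (.cons 230 t35 .nil)) .nil)) (.cons 181 (.leaf 183 1434 (.cons 179 (.cons 154 (.leaf 155 1235 (.cons 158 (.leaf 159 1241 (.cons 178 (.leaf 153 1227 (.leaf 157 1233 .nil)) .nil)) .nil)) (.cons 155 (.leaf 154 1235 (.cons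 131 (.leaf 107 860 (.cons 130 (.leaf 106 855 (.cons 132 (.leaf 108 861 (.cons 158 (.leaf 159 1241 (.cons 133 (.leaf 157 1040 (.cons 109 (.leaf 110 849 (.cons 206 (.leaf 207 1432 (.leaf 134 879 .nil)) .nil)) .nil)) .nil)) .nil)) .nil)) .nil)) .nil)) (.cons 154 (.leaf 155 1235 (.cons 178 (.leaf 153 1227 (.cons 205 (.leaf 177 1416 (.leaf 206 1424 .nil)) .nil)) .nil)) (.cons 158 (.leaf 159 1241 (.cons 157 (.leaf 178 1233 (.cons 206 (.leaf 207 1432 (.cons 133 (.leaf 109 876 (.leaf 230 1071 .nil)) .nil)) .nil)) .nil)) .nil)))) .nil)) (.cons 181 (.leaf 183 1434 (.cons 179 (.cons 206 (.leaf 207 1432 (.cons 205 (.leaf 178 1424 (.cons 230 (.leaf 231 1624 (.cons 157 (.leaf 254 1263 (.leaf 133 1068 .nil)) .nil)) .nil)) .nil)) (.cons 154 (.leaf 155 1235 (.cons 178 (.leaf 153 1227 (.cons 177 (.leaf 176 1408 (.leaf 205 1416 .nil)) .nil)) .nil)) (.cons 206 (.leaf 207 1432 (.cons 155 (.leaf 154 1235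 (.cons 131 (.leaf 107 860 (.cons 132 (.leaf 108 861 (.cons 130 (.leaf 106 855 (.cons 129 (.cons 156 (.leaf 128 1024 (.leaf 157 1032 .nil)) (.cons 104 (.leaf 105 835 (.cons 128 (.leaf 103 827 (.cons 152 (.leaf 151 1018 (.leaf 153 1026 .nil)) .nil)) .nil)) (.cons 104 (.leaf 105 835 (.cons 157 (.leaf 156 1032 (.cons 133 (.leaf 109 876 (.cons 230 (.leaf 254 1263 (.leaf 205 1068 .nil)) .nil)) .nil)) .nil)) .nil))) .nil)) .nil)) .nil)) .nil)) .nil)) (.cons 206 (.leaf 207 1432 (.cons 156 t34 .nil)) .nil)))) .nil)) (.cons 183 (.leaf 181 1434 (.cons 206 (.leaf 205 1433 (.cons 230 t33 .nil)) .nil)) (.cons 183 (.leaf 181 1434 (.cons 206 (.leaf 205 1433 (.cons 230 t32 .nil)) .nil)) (.cons 183 (.leaf 181 1434 (.cons 206 (.leaf 205 1433 (.cons 230 t31 .nil)) .nil)) (.cons 181 (.leaf 183 1434 (.cons 179 (.cons 158 (.leaf 159 1241 (.cons 178 (.leaf 157 1233 (.cons 177 (.leaf 176 1408 (.leaf 205 1416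 .nil)) .nil)) .nil)) (.cons 155 (.leaf 154 1235 (.cons 131 (.leaf 107 860 (.cons 130 (.leaf 106 855 (.cons 158 (.leaf 159 1241 (.cons 157 (.leaf 156 1043 (.cons 206 (.leaf 207 1432 (.cons 230 (.leaf 254 1263 (.cons 231 (.leaf 205 1624 (.leaf 255 1268 .nil)) .nil)) .nil)) .nil)) .nil)) .nil)) .nil)) .nil)) (.cons 206 (.leaf 207 1432 (.cons 178 (.leaf 205 1424 (.cons 154 (.leaf 153 1227 (.leaf 155 1235 .nil)) .nil)) .nil)) (.cons 154 (.leaf 155 1235 (.cons 158 (.leaf 159 1241 (.cons 178 (.leaf 153 1227 (.leaf 157 1233 .nil)) .nil)) .nil)) .nil)))) .nil)) .nil)))))))))))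
noncomputable def t53 : T := .cons 223 (.leaf 224 1594 (.cons 199 (.leaf 222 1586 (.cons 175 (.leaf 174 1395 (.cons 247 (.leaf 248 1404 (.cons 246 (.leaf 270 1398 (.cons 271 (.leaf 273 1971 (.leaf 296 1596 .nil)) .nil)) .nil)) .nil)) .nil)) .nil)) (.cons 223 (.leaf 224 1594 (.cons 199 (.leaf 222 1586 (.cons 175 (.leaf 174 1395 (.cons 247 (.leaf 248 1404 (.cons 270 (.leaf 246 1398 (.cons 271 (.leaf 296 1596 (.leaf 294 1590 .nil)) .nil)) .nil)) .nil)) .nil)) .nil)) (.cons 273 (.leaf 252 1985 (.cons 247 (.leaf 248 1979 (.cons 271 (.leaf 246 1971 (.cons 295 (.leaf 296 2170 (.leaf 294 2162 .nil)) .nil)) .nil)) .nil)) (.cons 223 (.leaf 224 1594 (.cons 199 (.leaf 222 1586 (.cons 174 (.leaf 175 1395 (.cons 198 (.leaf 173 1387 (.cons 126 (.leaf 150 1012 (.cons 273 (.leaf 252 1985 (.cons 271 (.leaf 247 1399 (.cons 295 (.leaf 296 2170 (.leaf 294 2162 .nil)) .nil)) .nil)) .nil)) .nil)) .nil))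 .nil)) .nil)) (.cons 273 (.leaf 252 1985 (.cons 223 (.leaf 224 1594 (.cons 199 (.leaf 222 1586 (.cons 174 (.leaf 175 1395 (.cons 173 (.leaf 198 1387 (.cons 247 (.leaf 248 1979 (.cons 271 (.leaf 246 1971 (.cons 294 (.leaf 295 2162 (.leaf 270 1590 .nil)) .nil)) .nil)) .nil)) .nil)) .nil)) .nil)) .nil)) (.cons 273 (.leaf 252 1985 (.cons 224 (.leaf 223 1594 (.cons 248 (.leaf 177 1413 (.leaf 297 1604 .nil)) .nil)) .nil)) .nil)))))
noncomputable def t54 : T := .cons 274 (.leaf 298 1622 (.cons 200 (.cons 175 (.leaf 176 1403 (.cons 199 (.leaf 174 1395 (.leaf 226 1592 .nil)) .nil)) (.cons 175 (.leaf 176 1403 (.cons 199 (.leaf 174 1395 (.cons 223 (.leaf 224 1594 (.leaf 222 1586 .nil)) .nil)) .nil)) (.cons 226 (.leaf 299 1623 (.leaf 199 1592 .nil)) (.cons 176 (.leaf 177 1411 (.leaf 175 1403 .nil)) .nil)))) .nil)) (.cons 274 (.leaf 298 1622 (.cons 200 (.cons 175 (.leaf 176 1403 (.cons 199 (.leaf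 174 1395 (.leaf 226 1592 .nil)) .nil)) (.cons 199 (.leaf 226 1592 (.cons 223 (.leaf 224 1594 (.leaf 222 1586 .nil)) .nil)) (.cons 176 (.leaf 177 1411 (.leaf 175 1403 .nil)) .nil))) .nil)) (.cons 274 (.leaf 298 1622 (.cons 200 (.cons 176 (.leaf 177 1411 (.leaf 175 1403 .nil)) (.cons 272 t53 (.cons 177 (.leaf 176 1411 (.cons 272 (.cons 224 (.leaf 223 1594 (.leaf 248 1413 .nil)) (.cons 273 (.leaf 252 1985 (.cons 247 (.leaf 248 1979 (.cons 271 (.leaf 246 1971 (.cons 295 (.leaf 296 2170 (.leaf 294 2162 .nil)) .nil)) .nil)) .nil)) (.cons 273 (.leaf 252 1985 (.cons 223 (.leaf 224 1594 (.cons 222 (.leaf 199 1586 (.cons 295 (.leaf 296 2170 (.cons 271 (.leaf 294 2162 (.cons 247 (.leaf 246 1971 (.leaf 198 1591 .nil)) .nil)) .nil)) .nil)) .nil)) .nil)) .nil))) .nil)) (.cons 175 (.leaf 176 1403 (.cons 199 (.leaf 174 1395 (.cons 223 (.leaf 224 1594 (.leaf 222 1586 .nil)) .nil)) .nil)) .nil)))) .nil))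 (.cons 299 (.leaf 226 1623 (.cons 298 (.leaf 274 1622 (.leaf 322 1814 .nil)) .nil)) (.cons 226 (.leaf 299 1623 (.cons 176 (.leaf 177 1411 (.cons 200 (.leaf 175 1403 (.leaf 199 1592 .nil)) .nil)) .nil)) .nil))))
noncomputable def t55 : T := .cons 227 (.leaf 178 1431 (.cons 226 (.leaf 299 1623 (.cons 205 (.leaf 225 1610 (.leaf 206 1618 .nil)) .nil)) .nil)) (.cons 205 (.cons 178 (.leaf 177 1419 (.cons 206 (.leaf 179 1427 (.cons 230 (.leaf 229 1616 (.leaf 231 1624 .nil)) .nil)) .nil)) (.cons 230 (.leaf 229 1616 (.cons 182 (.leaf 181 1425 (.cons 206 (.leaf 183 1433 (.leaf 231 1624 .nil)) .nil)) .nil)) (.cons 178 (.leaf 177 1419 (.cons 182 (.leaf 181 1425 (.cons 206 (.leaf 179 1427 (.leaf 183 1433 .nil)) .nil)) .nil)) (.cons 177 (.leaf 178 1419 (.cons 201 (.leaf 176 1411 (.cons 225 (.leaf 224 1602 (.leaf 226 1610 .nil)) .nil)) .nil)) .nil)))) (.cons 201 (.cons 225 (.leaf 224 1602 (.cons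 176 (.leaf 177 1411 (.cons 175 (.leaf 200 1403 (.cons 205 (.leaf 226 1610 (.cons 182 (.leaf 181 1425 (.cons 206 (.leaf 183 1433 (.cons 230 (.leaf 229 1616 (.leaf 231 1624 .nil)) .nil)) .nil)) .nil)) .nil)) .nil)) .nil)) (.cons 227 t54 (.cons 176 (.leaf 177 1411 (.cons 200 (.leaf 175 1403 (.cons 205 (.cons 226 (.leaf 225 1610 (.cons 227 (.leaf 299 1623 (.leaf 206 1618 .nil)) .nil)) (.cons 230 (.leaf 229 1616 (.cons 182 (.leaf 181 1425 (.cons 206 (.leaf 183 1433 (.leaf 231 1624 .nil)) .nil)) .nil)) (.cons 226 (.leaf 225 1610 (.cons 227 (.leaf 299 1623 (.leaf 199 1592 .nil)) .nil)) .nil))) .nil)) .nil)) (.cons 225 (.leaf 224 1602 (.cons 205 (.leaf 226 1610 (.cons 182 (.leaf 181 1425 (.cons 206 (.leaf 183 1433 (.cons 230 (.leaf 229 1616 (.leaf 231 1624 .nil)) .nil)) .nil)) .nil)) .nil)) (.cons 176 (.leaf 177 1411 (.cons 200 (.leaf 175 1403 (.cons 224 (.leaf 225 1602 (.leaf 223 1594 .nil))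 .nil)) .nil)) .nil))))) (.cons 227 (.leaf 178 1431 (.cons 298 (.leaf 274 1622 (.cons 299 (.leaf 226 1623 (.leaf 322 1814 .nil)) .nil)) .nil)) (.cons 178 (.leaf 227 1431 (.cons 177 (.leaf 205 1419 (.cons 176 (.leaf 179 1408 (.leaf 201 1411 .nil)) .nil)) .nil)) .nil))))
noncomputable def t56 : T := .cons 181 (.leaf 182 1425 (.cons 201 (.leaf 180 1417 (.cons 225 (.leaf 224 1602 (.leaf 226 1610 .nil)) .nil)) .nil)) (.cons 177 (.leaf 178 1419 (.cons 201 (.leaf 176 1411 (.cons 225 (.leaf 224 1602 (.leaf 226 1610 .nil)) .nil)) .nil)) (.cons 181 (.leaf 182 1425 (.cons 177 (.leaf 178 1419 (.cons 201 (.leaf 176 1411 (.leaf 180 1417 .nil)) .nil)) .nil)) (.cons 181 (.leaf 182 1425 (.cons 229 (.leaf 230 1616 (.cons 178 (.leaf 177 1419 (.cons 226 (.leaf 225 1610 (.cons 157 (.cons 132 (.leaf 156 1063 (.cons 133 (.leaf 108 871 (.cons 134 (.leaf 110 877 (.leaf 158 1069 .nil)) .nil)) .nil)) (.cons 134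 (.leaf 158 1069 (.cons 133 (.leaf 110 877 (.cons 108 (.leaf 132 871 (.cons 109 (.leaf 180 870 (.leaf 84 679 .nil)) .nil)) .nil)) .nil)) (.cons 158 (.leaf 134 1069 (.cons 179 (.leaf 180 1233 (.cons 155 (.leaf 131 1046 (.leaf 156 1234 .nil)) .nil)) .nil)) (.cons 132 (.leaf 156 1063 (.cons 133 (.leaf 108 871 (.cons 109 (.leaf 180 870 (.cons 110 (.leaf 134 877 (.leaf 86 685 .nil)) .nil)) .nil)) .nil)) (.cons 156 (.leaf 132 1063 (.cons 180 (.leaf 253 1255 (.cons 179 (.leaf 158 1233 (.cons 109 (.leaf 133 870 (.cons 154 (.leaf 153 1227 (.cons 131 (.leaf 155 1045 (.cons 130 (.leaf 106 852 (.leaf 107 853 .nil)) .nil)) .nil)) .nil)) .nil)) .nil)) .nil)) .nil))))) .nil)) .nil)) .nil)) .nil)) .nil)))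
noncomputable def t57 : T := .cons 202 (.cons 182 (.leaf 181 1425 (.cons 206 (.leaf 183 1433 (.cons 230 (.leaf 229 1616 (.leaf 231 1624 .nil)) .nil)) .nil)) (.cons 177 (.leaf 178 1419 (.cons 201 (.leaf 176 1411 (.cons 225 (.leaf 224 1602 (.leaf 226 1610 .nil)) .nil)) .nil)) .nil)) (.cons 206 (.cons 179 (.leaf 178 1427 (.cons 207 (.leaf 180 1435 (.cons 231 (.leaf 230 1624 (.leaf 232 1632 .nil)) .nil)) .nil)) (.cons 183 (.leaf 182 1433 (.cons 207 (.leaf 184 1441 (.cons 231 (.leaf 230 1624 (.leaf 232 1632 .nil)) .nil)) .nil)) (.cons 179 (.leaf 178 1427 (.cons 183 (.leaf 182 1433 (.cons 207 (.leaf 180 1435 (.leaf 184 1441 .nil)) .nil)) .nil)) (.cons 182 (.leaf 183 1433 (.cons 230 (.leaf 231 1624 (.cons 179 (.leaf 178 1427 (.cons 158 (.cons 229 (.leaf 134 1070 (.leaf 253 1262 .nil)) (.cons 133 (.leaf 157 1071 (.cons 134 (.leaf 109 879 (.cons 135 (.leaf 111 885 (.leaf 159 1077 .nil)) .nil))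 .nil)) (.cons 133 (.leaf 157 1071 (.cons 135 (.leaf 159 1077 (.cons 253 (.leaf 229 1262 (.cons 254 (.leaf 277 1454 (.cons 252 (.leaf 274 2002 (.cons 278 (.leaf 279 2008 (.leaf 181 1455 .nil)) .nil)) .nil)) .nil)) .nil)) .nil)) .nil))) .nil)) .nil)) .nil)) .nil)))) (.cons 202 t56 (.cons 202 (.cons 177 (.leaf 178 1419 (.cons 201 (.leaf 176 1411 (.cons 225 (.leaf 224 1602 (.leaf 226 1610 .nil)) .nil)) .nil)) (.cons 230 (.leaf 229 1616 (.cons 206 (.leaf 231 1624 (.cons 225 (.leaf 226 1610 (.cons 201 (.leaf 224 1602 (.cons 180 (.leaf 181 1417 (.cons 179 (.leaf 207 1435 (.leaf 200 1409 .nil)) .nil)) .nil)) .nil)) .nil)) .nil)) (.cons 177 (.leaf 178 1419 (.cons 201 (.leaf 176 1411 (.cons 180 (.leaf 181 1417 (.cons 179 (.leaf 200 1409 (.cons 206 (.leaf 207 1435 (.cons 230 (.leaf 229 1616 (.leaf 231 1624 .nil)) .nil)) .nil)) .nil)) .nil)) .nil)) (.cons 178 (.leaf 177 1419 (.cons 206 (.leaf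 179 1427 (.cons 230 (.leaf 229 1616 (.leaf 231 1624 .nil)) .nil)) .nil)) .nil)))) (.cons 206 (.cons 183 (.leaf 182 1433 (.cons 207 (.leaf 184 1441 (.cons 231 (.leaf 230 1624 (.leaf 232 1632 .nil)) .nil)) .nil)) (.cons 230 (.leaf 231 1624 (.cons 202 (.leaf 229 1616 (.cons 225 (.leaf 226 1610 (.cons 201 (.leaf 224 1602 (.cons 180 (.leaf 181 1417 (.cons 179 (.leaf 207 1435 (.leaf 200 1409 .nil)) .nil)) .nil)) .nil)) .nil)) .nil)) (.cons 183 (.leaf 182 1433 (.cons 207 (.leaf 184 1441 (.cons 180 (.leaf 179 1435 (.cons 208 (.leaf 181 1443 (.cons 232 (.leaf 231 1632 (.leaf 233 1640 .nil)) .nil)) .nil)) .nil)) .nil)) (.cons 183 (.leaf 182 1433 (.cons 207 (.leaf 184 1441 (.cons 180 (.leaf 179 1435 (.cons 181 (.leaf 208 1443 (.cons 202 (.leaf 201 1417 (.cons 225 (.leaf 226 1610 (.cons 229 (.leaf 230 1616 (.cons 156 (.leaf 132 1060 (.leaf 253 1255 .nil)) .nil)) .nil)) .nil)) .nil)) .nil)) .nil))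 .nil)) (.cons 182 (.leaf 183 1433 (.cons 230 (.leaf 231 1624 (.cons 229 (.leaf 202 1616 (.cons 158 (.leaf 134 1070 (.leaf 253 1262 .nil)) .nil)) .nil)) .nil)) .nil))))) (.cons 206 (.cons 179 (.leaf 178 1427 (.cons 207 (.leaf 180 1435 (.cons 231 (.leaf 230 1624 (.leaf 232 1632 .nil)) .nil)) .nil)) (.cons 179 (.leaf 178 1427 (.cons 183 (.leaf 182 1433 (.cons 207 (.leaf 180 1435 (.leaf 184 1441 .nil)) .nil)) .nil)) (.cons 182 (.leaf 183 1433 (.cons 230 (.leaf 231 1624 (.cons 202 (.leaf 229 1616 (.cons 225 (.leaf 226 1610 (.cons 177 (.leaf 178 1419 (.cons 201 (.leaf 176 1411 (.leaf 224 1602 .nil)) .nil)) .nil)) .nil)) .nil)) .nil)) (.cons 182 (.leaf 183 1433 (.cons 230 (.leaf 231 1624 (.cons 229 (.leaf 202 1616 (.cons 158 (.leaf 134 1070 (.leaf 253 1262 .nil)) .nil)) .nil)) .nil)) .nil)))) (.cons 202 (.cons 178 (.leaf 177 1419 (.cons 182 (.leaf 181 1425 (.cons 206 (.leaf 179 1427 (.leaf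 183 1433 .nil)) .nil)) .nil)) (.cons 181 (.leaf 182 1425 (.cons 201 (.leaf 180 1417 (.cons 225 (.leaf 224 1602 (.leaf 226 1610 .nil)) .nil)) .nil)) (.cons 178 (.leaf 177 1419 (.cons 179 (.leaf 206 1427 (.cons 225 (.leaf 226 1610 (.cons 201 (.leaf 224 1602 (.cons 200 (.leaf 180 1409 (.leaf 199 1401 .nil)) .nil)) .nil)) .nil)) .nil)) .nil))) .nil))))))
noncomputable def t58 : T := .cons 230 (.cons 157 (.leaf 133 1071 (.cons 159 (.leaf 135 1077 (.cons 156 (.leaf 179 1242 (.cons 183 (.leaf 155 1240 (.leaf 254 1269 .nil)) .nil)) .nil)) .nil)) (.cons 133 (.leaf 157 1071 (.cons 109 (.leaf 134 879 (.cons 132 (.leaf 156 869 (.cons 253 (.leaf 229 1262 (.cons 254 (.leaf 277 1454 (.cons 252 (.leaf 274 2002 (.leaf 231 1817 .nil)) .nil)) .nil)) .nil)) .nil)) .nil)) (.cons 135 (.leaf 159 1077 (.cons 134 (.leaf 111 885 (.cons 231 (.leaf 207 1076 (.leaf 255 1268 .nil)) .nil)) .nil)) .nil))) (.cons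 134 (.cons 207 (.leaf 231 1076 (.cons 109 (.leaf 133 879 (.cons 110 (.leaf 85 687 (.leaf 183 884 .nil)) .nil)) .nil)) (.cons 207 (.leaf 231 1076 (.cons 110 (.leaf 183 884 (.cons 111 (.leaf 87 693 (.leaf 135 885 .nil)) .nil)) .nil)) (.cons 109 (.leaf 133 879 (.cons 110 (.leaf 85 687 (.cons 111 (.leaf 87 693 (.leaf 135 885 .nil)) .nil)) .nil)) (.cons 133 (.leaf 109 879 (.cons 135 (.leaf 111 885 (.cons 207 (.leaf 231 1076 (.cons 132 (.cons 159 (.leaf 131 1048 (.leaf 160 1056 .nil)) (.cons 107 (.leaf 108 859 (.cons 131 (.leaf 156 863 (.leaf 106 851 .nil)) .nil)) (.cons 107 (.leaf 108 859 (.cons 156 (.leaf 155 1050 (.cons 136 (.leaf 157 1058 (.cons 160 (.leaf 159 1056 (.leaf 161 1064 .nil)) .nil)) .nil)) .nil)) .nil))) .nil)) .nil)) .nil)) .nil)))) (.cons 230 (.cons 157 (.leaf 133 1071 (.cons 159 (.leaf 135 1077 (.cons 156 (.leaf 179 1242 (.cons 183 (.leaf 155 1240 (.leaf 254 1269 .nil))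 .nil)) .nil)) .nil)) (.cons 253 (.leaf 229 1262 (.cons 133 (.leaf 157 1071 (.cons 231 (.leaf 255 1268 (.cons 254 (.leaf 252 1817 (.leaf 277 1454 .nil)) .nil)) .nil)) .nil)) (.cons 159 (.leaf 135 1077 (.cons 229 (.leaf 253 1262 (.cons 254 (.leaf 183 1269 (.cons 255 (.leaf 231 1268 (.leaf 279 1460 .nil)) .nil)) .nil)) .nil)) (.cons 157 (.leaf 133 1071 (.cons 159 (.leaf 135 1077 (.cons 156 (.leaf 179 1242 (.cons 183 (.leaf 155 1240 (.leaf 184 1248 .nil)) .nil)) .nil)) .nil)) .nil)))) (.cons 230 (.cons 133 (.leaf 157 1071 (.cons 109 (.leaf 134 879 (.cons 132 (.leaf 156 869 (.cons 253 (.leaf 229 1262 (.cons 254 (.leaf 277 1454 (.cons 252 (.leaf 274 2002 (.leaf 231 1817 .nil)) .nil)) .nil)) .nil)) .nil)) .nil)) (.cons 133 (.leaf 157 1071 (.cons 109 (.leaf 134 879 (.cons 132 (.leaf 156 869 (.cons 253 (.leaf 229 1262 (.cons 254 (.leaf 277 1454 (.cons 252 (.leaf 274 2002 (.cons 279 (.leaf 278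 2008 (.leaf 255 1460 .nil)) .nil)) .nil)) .nil)) .nil)) .nil)) .nil)) (.cons 231 (.leaf 255 1268 (.cons 134 (.leaf 207 1076 (.cons 253 (.leaf 229 1262 (.cons 254 (.leaf 252 1817 (.leaf 277 1454 .nil)) .nil)) .nil)) .nil)) (.cons 133 (.leaf 157 1071 (.cons 134 (.leaf 109 879 (.cons 231 (.leaf 207 1076 (.leaf 255 1268 .nil)) .nil)) .nil)) (.cons 253 (.leaf 229 1262 (.cons 133 (.leaf 157 1071 (.cons 231 (.leaf 255 1268 (.cons 254 (.leaf 252 1817 (.leaf 277 1454 .nil)) .nil)) .nil)) .nil)) .nil))))) (.cons 230 (.cons 135 (.leaf 159 1077 (.cons 134 (.leaf 111 885 (.cons 231 (.leaf 207 1076 (.leaf 255 1268 .nil)) .nil)) .nil)) (.cons 231 (.leaf 255 1268 (.cons 134 (.leaf 207 1076 (.cons 253 (.leaf 229 1262 (.cons 254 (.leaf 252 1817 (.leaf 277 1454 .nil)) .nil)) .nil)) .nil)) (.cons 159 (.leaf 135 1077 (.cons 253 (.leaf 229 1262 (.cons 254 (.leaf 183 1269 (.leaf 277 1454 .nil)) .nil)) .nil))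 .nil))) (.cons 230 (.cons 159 (.leaf 135 1077 (.cons 253 (.leaf 229 1262 (.cons 254 (.leaf 183 1269 (.leaf 277 1454 .nil)) .nil)) .nil)) (.cons 133 (.leaf 157 1071 (.cons 109 (.leaf 134 879 (.cons 132 (.leaf 156 869 (.cons 253 (.leaf 229 1262 (.cons 254 (.leaf 277 1454 (.cons 252 (.leaf 274 2002 (.cons 279 (.leaf 278 2008 (.leaf 255 1460 .nil)) .nil)) .nil)) .nil)) .nil)) .nil)) .nil)) (.cons 159 (.leaf 135 1077 (.cons 133 (.leaf 157 1071 (.cons 134 (.leaf 109 879 (.cons 131 (.leaf 132 1048 (.cons 183 (.leaf 254 1269 (.cons 110 (.leaf 207 884 (.leaf 86 692 .nil)) .nil)) .nil)) .nil)) .nil)) .nil)) (.cons 135 (.leaf 159 1077 (.cons 133 (.leaf 157 1071 (.cons 134 (.leaf 109 879 (.leaf 111 885 .nil)) .nil)) .nil)) .nil)))) .nil)))))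
noncomputable def t59 : T := .cons 231 (.leaf 255 1268 (.cons 134 (.leaf 207 1076 (.cons 109 (.leaf 133 879 (.cons 110 (.leaf 85 687 (.cons 86 (.leaf 159 692 (.cons 87 (.leaf 111 693 (.leaf 63 501 .nil)) .nil)) .nil)) .nil)) .nil)) .nil)) (.cons 231 (.leaf 255 1268 (.cons 134 (.leaf 207 1076 (.cons 109 (.leaf 133 879 (.cons 110 (.leaf 85 687 (.cons 111 (.leaf 87 693 (.leaf 135 885 .nil)) .nil)) .nil)) .nil)) .nil)) (.cons 135 (.leaf 159 1077 (.cons 134 (.leaf 111 885 (.cons 109 (.leaf 133 879 (.cons 110 (.leaf 85 687 (.leaf 207 884 .nil)) .nil)) .nil)) .nil)) (.cons 231 (.leaf 255 1268 (.cons 229 (.leaf 253 1262 (.cons 232 (.cons 209 (.leaf 208 1641 (.cons 233 (.leaf 210 1649 (.cons 257 (.leaf 256 1832 (.leaf 258 1840 .nil)) .nil)) .nil)) (.cons 159 (.leaf 135 1077 (.cons 256 (.leaf 207 1276 (.leaf 257 1832 .nil)) .nil)) (.cons 209 (.leaf 208 1641 (.cons 233 (.leaf 210 1649 (.cons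 135 (.leaf 159 1077 (.cons 234 (.leaf 207 1651 (.cons 258 (.leaf 257 1840 (.leaf 259 1848 .nil)) .nil)) .nil)) .nil)) .nil)) (.cons 159 (.leaf 135 1077 (.cons 207 (.leaf 134 1076 (.leaf 256 1276 .nil)) .nil)) .nil)))) .nil)) .nil)) (.cons 157 (.leaf 133 1071 (.cons 156 (.leaf 155 1240 (.cons 159 (.leaf 179 1242 (.leaf 135 1077 .nil)) .nil)) .nil)) .nil))))
noncomputable def t60 : T := .cons 254 (.leaf 159 1269 (.cons 207 (.leaf 278 1461 (.cons 253 (.leaf 277 1454 (.cons 252 (.leaf 274 2002 (.leaf 231 1817 .nil)) .nil)) .nil)) .nil)) (.cons 158 t59 (.cons 254 (.cons 207 (.leaf 278 1461 (.cons 253 (.leaf 277 1454 (.cons 252 (.leaf 274 2002 (.leaf 231 1817 .nil)) .nil)) .nil)) (.cons 207 (.leaf 278 1461 (.cons 255 (.leaf 279 1460 (.cons 231 (.leaf 158 1268 (.cons 184 (.leaf 160 1277 (.cons 185 (.leaf 186 1458 (.cons 161 (.leaf 162 1265 (.cons 256 (.leaf 280 1468 (.cons 257 (.leaf 229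 1835 (.leaf 258 1843 .nil)) .nil)) .nil)) .nil)) .nil)) .nil)) .nil)) .nil)) (.cons 253 (.leaf 277 1454 (.cons 252 (.leaf 274 2002 (.leaf 231 1817 .nil)) .nil)) (.cons 207 (.leaf 278 1461 (.cons 253 (.leaf 277 1454 (.cons 229 (.leaf 158 1262 (.cons 208 (.leaf 209 1642 (.cons 255 (.leaf 279 1460 (.cons 256 (.leaf 257 1835 (.cons 232 (.leaf 280 1471 (.leaf 233 1833 .nil)) .nil)) .nil)) .nil)) .nil)) .nil)) .nil)) .nil)))) (.cons 254 (.leaf 159 1269 (.cons 253 (.leaf 277 1454 (.cons 252 (.leaf 274 2002 (.leaf 231 1817 .nil)) .nil)) .nil)) (.cons 254 (.leaf 159 1269 (.cons 207 (.leaf 278 1461 (.cons 253 (.leaf 277 1454 (.cons 229 (.leaf 158 1262 (.cons 208 (.leaf 209 1642 (.cons 255 (.leaf 279 1460 (.cons 256 (.leaf 257 1835 (.cons 232 (.leaf 280 1471 (.leaf 233 1833 .nil)) .nil)) .nil)) .nil)) .nil)) .nil)) .nil)) .nil)) (.cons 159 (.leaf 254 1269 (.cons 135 (.leaf 111 886 (.leaf 158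 1077 .nil)) .nil)) .nil)))))
noncomputable def t61 : T := .cons 183 (.leaf 181 1434 (.cons 206 (.leaf 205 1433 (.cons 230 t60 .nil)) .nil)) (.cons 206 (.cons 205 (.leaf 183 1433 (.cons 230 (.leaf 231 1624 (.cons 202 (.leaf 229 1616 (.cons 177 (.leaf 178 1419 (.cons 201 (.leaf 176 1411 (.cons 225 (.leaf 224 1602 (.leaf 226 1610 .nil)) .nil)) .nil)) .nil)) .nil)) .nil)) (.cons 158 t58 (.cons 205 (.cons 230 (.leaf 231 1624 (.cons 202 (.leaf 229 1616 (.cons 177 (.leaf 178 1419 (.cons 201 (.leaf 176 1411 (.cons 225 (.leaf 224 1602 (.leaf 226 1610 .nil)) .nil)) .nil)) .nil)) .nil)) (.cons 179 (.leaf 178 1427 (.leaf 207 1435 .nil)) (.cons 179 (.leaf 207 1435 (.cons 230 (.leaf 231 1624 (.cons 202 (.leaf 229 1616 (.cons 201 (.leaf 200 1409 (.cons 225 (.leaf 224 1602 (.leaf 226 1610 .nil)) .nil)) .nil)) .nil)) .nil)) .nil))) (.cons 205 (.leaf 183 1433 (.cons 179 (.leaf 178 1427 (.leaf 207 1435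 .nil)) .nil)) .nil)))) (.cons 202 (.cons 201 (.leaf 181 1417 (.cons 176 (.leaf 177 1411 (.cons 200 (.leaf 175 1403 (.leaf 179 1409 .nil)) .nil)) .nil)) (.cons 201 (.cons 176 (.leaf 177 1411 (.cons 200 (.leaf 175 1403 (.leaf 179 1409 .nil)) .nil)) (.cons 176 (.leaf 177 1411 (.cons 225 (.leaf 224 1602 (.cons 205 (.leaf 226 1610 (.cons 230 (.leaf 229 1616 (.cons 206 (.leaf 231 1624 (.cons 179 (.leaf 178 1427 (.leaf 207 1435 .nil)) .nil)) .nil)) .nil)) .nil)) .nil)) (.cons 200 (.leaf 179 1409 (.cons 224 (.leaf 225 1602 (.leaf 223 1594 .nil)) .nil)) (.cons 225 (.leaf 224 1602 (.cons 177 (.leaf 176 1411 (.cons 205 (.leaf 178 1419 (.leaf 226 1610 .nil)) .nil)) .nil)) .nil)))) (.cons 181 (.leaf 201 1417 (.leaf 205 1425 .nil)) (.cons 181 (.leaf 205 1425 (.leaf 179 1426 .nil)) .nil)))) (.cons 181 (.leaf 183 1434 (.cons 202 (.leaf 201 1417 (.leaf 179 1426 .nil)) .nil)) (.cons 181 (.leaf 183 1434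 (.cons 202 (.leaf 201 1417 (.leaf 205 1425 .nil)) .nil)) .nil))))
noncomputable def t62 : T := .cons 325 (.leaf 301 2405 (.cons 395 (.leaf 419 2590 (.cons 420 (.leaf 349 2597 (.cons 445 (.leaf 421 2788 (.cons 444 (.leaf 469 2980 (.cons 371 (.leaf 347 2783 (.leaf 468 2975 .nil)) .nil)) .nil)) .nil)) .nil)) .nil)) (.cons 419 (.leaf 395 2590 (.cons 420 (.leaf 443 2782 (.cons 421 (.leaf 397 2596 (.leaf 445 2788 .nil)) .nil)) .nil)) (.cons 325 (.leaf 301 2405 (.cons 419 (.leaf 395 2590 (.cons 420 (.leaf 349 2597 (.leaf 443 2782 .nil)) .nil)) .nil)) (.cons 325 (.leaf 301 2405 (.cons 420 (.leaf 349 2597 (.cons 421 (.leaf 397 2596 (.leaf 445 2788 .nil)) .nil)) .nil)) (.cons 395 (.leaf 419 2590 (.cons 397 (.leaf 421 2596 (.cons 325 (.leaf 301 2405 (.cons 394 (.cons 373 (.leaf 393 2953 (.leaf 374 2961 .nil)) (.cons 369 (.leaf 370 2955 (.cons 393 (.leaf 368 2947 (.cons 417 (.leaf 416 3138 (.leaf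 418 3146 .nil)) .nil)) .nil)) (.cons 369 (.leaf 370 2955 (.cons 374 (.leaf 373 2961 (.cons 398 (.leaf 375 2969 (.cons 399 (.leaf 371 2971 (.cons 423 (.leaf 422 3160 (.leaf 424 3168 .nil)) .nil)) .nil)) .nil)) .nil)) .nil))) .nil)) .nil)) .nil)) .nil))))
noncomputable def t63 : T := .cons 323 (.leaf 348 2012 (.cons 322 (.leaf 346 2006 (.cons 321 (.cons 300 (.leaf 227 1820 (.leaf 320 2369 .nil)) (.cons 296 (.leaf 297 2371 (.cons 320 (.leaf 295 2363 (.cons 344 (.leaf 345 2562 (.leaf 343 2554 .nil)) .nil)) .nil)) (.cons 296 (.leaf 297 2371 (.cons 301 (.leaf 300 2377 (.cons 325 (.leaf 302 2385 (.cons 326 (.leaf 298 2387 (.cons 350 (.leaf 349 2576 (.leaf 351 2584 .nil)) .nil)) .nil)) .nil)) .nil)) .nil))) .nil)) .nil)) (.cons 227 (.leaf 300 1820 (.cons 202 (.leaf 226 1623 (.cons 203 (.leaf 178 1431 (.cons 298 (.leaf 274 1622 (.leaf 322 1814 .nil)) .nil)) .nil)) .nil)) (.cons 323 (.leaf 348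 2012 (.cons 322 (.leaf 346 2006 (.cons 298 (.leaf 227 1814 (.cons 297 (.leaf 296 2368 (.leaf 325 2379 .nil)) .nil)) .nil)) .nil)) (.cons 323 (.leaf 348 2012 (.cons 322 (.leaf 346 2006 (.cons 321 (.cons 300 (.leaf 320 2369 (.leaf 301 2377 .nil)) (.cons 296 (.leaf 297 2371 (.cons 320 (.leaf 295 2363 (.cons 344 (.leaf 345 2562 (.leaf 343 2554 .nil)) .nil)) .nil)) (.cons 296 (.leaf 297 2371 (.cons 301 (.leaf 300 2377 (.cons 325 (.leaf 302 2385 (.cons 326 (.leaf 298 2387 (.cons 350 (.leaf 349 2576 (.leaf 351 2584 .nil)) .nil)) .nil)) .nil)) .nil)) .nil))) .nil)) .nil)) (.cons 300 (.leaf 227 1820 (.cons 348 (.leaf 323 2012 (.leaf 372 2207 .nil)) .nil)) .nil))))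
noncomputable def t64 : T := .cons 345 (.cons 368 (.leaf 369 2754 (.cons 344 (.leaf 367 2746 (.cons 372 (.leaf 323 2204 (.leaf 371 2752 .nil)) .nil)) .nil)) (.cons 368 (.leaf 369 2754 (.cons 344 (.leaf 367 2746 (.cons 372 (.leaf 371 2752 (.leaf 373 2760 .nil)) .nil)) .nil)) (.cons 320 (.leaf 321 2563 (.cons 344 (.leaf 319 2555 (.cons 368 (.leaf 367 2746 (.leaf 369 2754 .nil)) .nil)) .nil)) (.cons 321 (.leaf 320 2563 (.cons 349 (.leaf 322 2571 (.cons 373 (.leaf 372 2760 (.leaf 374 2768 .nil)) .nil)) .nil)) .nil)))) (.cons 345 (.cons 320 (.leaf 321 2563 (.cons 344 (.leaf 319 2555 (.cons 368 (.leaf 367 2746 (.leaf 369 2754 .nil)) .nil)) .nil)) (.cons 368 (.leaf 369 2754 (.cons 344 (.leaf 367 2746 (.cons 372 (.leaf 371 2752 (.leaf 373 2760 .nil)) .nil)) .nil)) (.cons 321 (.leaf 320 2563 (.cons 349 (.leaf 322 2571 (.cons 373 (.leaf 372 2760 (.leaf 374 2768 .nil)) .nil)) .nil)) .nil))) (.cons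 322 (.leaf 323 2006 (.cons 321 (.leaf 349 2571 (.cons 320 (.leaf 319 2552 (.leaf 345 2563 .nil)) .nil)) .nil)) (.cons 372 (.leaf 323 2204 (.cons 345 (.leaf 373 2760 (.cons 320 (.leaf 321 2563 (.cons 344 (.leaf 319 2555 (.leaf 371 2752 .nil)) .nil)) .nil)) .nil)) (.cons 323 (.leaf 322 2006 (.leaf 372 2204 .nil)) .nil))))
noncomputable def t65 : T := .cons 321 (.leaf 322 2571 (.cons 325 (.leaf 326 2577 (.cons 373 (.leaf 374 2768 (.cons 324 (.leaf 372 2207 (.leaf 397 2407 .nil)) .nil)) .nil)) .nil)) (.cons 321 (.leaf 322 2571 (.cons 325 (.leaf 326 2577 (.cons 373 (.leaf 374 2768 (.cons 397 (.leaf 324 2407 (.cons 420 (.leaf 396 2598 (.cons 421 (.leaf 444 2790 (.cons 422 (.leaf 398 2604 (.leaf 446 2796 .nil)) .nil)) .nil)) .nil)) .nil)) .nil)) .nil)) (.cons 373 (.leaf 374 2768 (.cons 321 (.leaf 322 2571 (.cons 324 (.leaf 372 2207 (.cons 397 (.leaf 325 2407 (.leaf 421 2599 .nil)) .nil))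 .nil)) .nil)) (.cons 326 (.leaf 325 2577 (.cons 321 (.leaf 322 2571 (.cons 350 (.leaf 327 2585 (.cons 372 (.leaf 324 2207 (.cons 351 (.leaf 371 2778 (.cons 375 (.leaf 374 2776 (.leaf 376 2784 .nil)) .nil)) .nil)) .nil)) .nil)) .nil)) (.cons 326 (.leaf 325 2577 (.cons 321 (.leaf 322 2571 (.cons 350 (.leaf 327 2585 (.cons 372 (.leaf 324 2207 (.cons 351 (.leaf 371 2778 (.cons 352 (.leaf 373 2786 (.cons 376 (.leaf 375 2784 (.leaf 377 2792 .nil)) .nil)) .nil)) .nil)) .nil)) .nil)) .nil)) (.cons 374 (.leaf 373 2768 (.cons 321 (.leaf 322 2571 (.cons 350 (.leaf 375 2776 (.cons 327 (.leaf 326 2585 (.cons 351 (.leaf 328 2593 (.cons 372 (.leaf 324 2207 (.leaf 371 2778 .nil)) .nil)) .nil)) .nil)) .nil)) .nil)) (.cons 374 (.leaf 373 2768 (.cons 321 (.leaf 322 2571 (.cons 325 (.leaf 326 2577 (.cons 350 (.leaf 375 2776 (.cons 301 (.leaf 277 2220 (.cons 302 (.leaf 274 2195 (.cons 279 (.leaf 278 2201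 (.cons 303 (.leaf 280 2209 (.cons 327 (.leaf 328 2400 (.leaf 351 2230 .nil)) .nil)) .nil)) .nil)) .nil)) .nil)) .nil)) .nil)) .nil)) (.cons 326 (.leaf 325 2577 (.cons 324 (.leaf 372 2207 (.cons 350 (.leaf 327 2585 (.cons 374 (.leaf 373 2768 (.leaf 375 2776 .nil)) .nil)) .nil)) .nil)) .nil)))))))
noncomputable def t66 : T := .cons 372 (.leaf 324 2207 (.cons 345 (.leaf 373 2760 (.cons 320 (.leaf 321 2563 (.cons 344 (.leaf 319 2555 (.leaf 371 2752 .nil)) .nil)) .nil)) .nil)) (.cons 345 (.cons 325 (.leaf 324 2569 (.cons 349 (.leaf 326 2577 (.cons 374 (.leaf 373 2768 (.cons 350 (.leaf 375 2776 (.cons 301 (.leaf 277 2220 (.cons 302 (.leaf 274 2195 (.cons 279 (.leaf 278 2201 (.cons 321 (.leaf 320 2563 (.leaf 322 2571 .nil)) .nil)) .nil)) .nil)) .nil)) .nil)) .nil)) .nil)) (.cons 325 (.leaf 324 2569 (.cons 349 (.leaf 326 2577 (.cons 374 (.leaf 373 2768 (.cons 350 (.leaf 375 2776 (.cons 301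 (.leaf 277 2220 (.cons 302 (.leaf 274 2195 (.cons 279 (.leaf 278 2201 (.cons 303 (.leaf 280 2209 (.cons 327 (.leaf 328 2400 (.leaf 351 2230 .nil)) .nil)) .nil)) .nil)) .nil)) .nil)) .nil)) .nil)) .nil)) (.cons 320 (.leaf 321 2563 (.cons 344 (.leaf 319 2555 (.cons 368 (.leaf 367 2746 (.leaf 369 2754 .nil)) .nil)) .nil)) .nil))) (.cons 345 (.cons 368 (.leaf 369 2754 (.cons 344 (.leaf 367 2746 (.cons 372 (.leaf 371 2752 (.leaf 373 2760 .nil)) .nil)) .nil)) (.cons 320 (.leaf 321 2563 (.cons 344 (.leaf 319 2555 (.cons 368 (.leaf 367 2746 (.leaf 369 2754 .nil)) .nil)) .nil)) (.cons 321 (.leaf 320 2563 (.cons 349 (.leaf 322 2571 (.cons 373 (.leaf 372 2760 (.leaf 374 2768 .nil)) .nil)) .nil)) .nil))) (.cons 349 t65 (.cons 324 (.leaf 372 2207 (.cons 325 (.leaf 345 2569 (.cons 326 (.leaf 327 2586 (.leaf 349 2577 .nil)) .nil)) .nil)) .nil))))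
noncomputable def t67 : T := .cons 297 (.cons 273 (.leaf 272 2179 (.cons 321 (.leaf 320 2370 (.cons 324 (.leaf 325 2376 (.cons 322 (.leaf 274 2005 (.leaf 323 2006 .nil)) .nil)) .nil)) .nil)) (.cons 324 (.leaf 325 2376 (.cons 348 (.leaf 323 2012 (.leaf 372 2207 .nil)) .nil)) (.cons 273 (.leaf 272 2179 (.cons 321 (.leaf 320 2370 (.cons 322 (.leaf 274 2005 (.leaf 249 1996 .nil)) .nil)) .nil)) .nil))) (.cons 297 (.cons 324 (.leaf 325 2376 (.cons 348 (.leaf 323 2012 (.leaf 372 2207 .nil)) .nil)) (.cons 272 (.leaf 273 2179 (.cons 296 (.leaf 271 2171 (.cons 320 (.leaf 319 2362 (.leaf 321 2370 .nil)) .nil)) .nil)) .nil)) (.cons 297 (.cons 273 (.leaf 272 2179 (.cons 321 (.leaf 320 2370 (.cons 322 (.leaf 274 2005 (.leaf 249 1996 .nil)) .nil)) .nil)) (.cons 272 (.leaf 273 2179 (.cons 296 (.leaf 271 2171 (.cons 320 (.leaf 319 2362 (.leaf 321 2370 .nil)) .nil)) .nil)) (.cons 274 (.leaf 322 2005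 (.cons 296 (.leaf 295 2169 (.cons 320 (.leaf 319 2362 (.leaf 321 2370 .nil)) .nil)) .nil)) (.cons 274 (.leaf 322 2005 (.cons 272 (.leaf 273 2176 (.cons 296 (.leaf 295 2169 (.leaf 271 2171 .nil)) .nil)) .nil)) .nil)))) (.cons 322 (.leaf 274 2005 (.leaf 323 2006 .nil)) .nil)))
noncomputable def t68 : T := .cons 321 (.leaf 322 2571 (.cons 326 (.leaf 325 2577 (.cons 350 (.leaf 327 2585 (.cons 374 (.leaf 373 2768 (.leaf 375 2776 .nil)) .nil)) .nil)) .nil)) (.cons 324 (.leaf 372 2207 (.cons 321 (.leaf 322 2571 (.cons 373 (.leaf 374 2768 (.cons 397 (.leaf 325 2407 (.leaf 421 2599 .nil)) .nil)) .nil)) .nil)) (.cons 374 (.leaf 373 2768 (.cons 321 (.leaf 322 2571 (.cons 350 (.leaf 375 2776 (.cons 327 (.leaf 326 2585 (.cons 351 (.leaf 328 2593 (.cons 372 (.leaf 324 2207 (.leaf 371 2778 .nil)) .nil)) .nil)) .nil)) .nil)) .nil)) (.cons 326 (.leaf 325 2577 (.cons 321 (.leaf 322 2571 (.cons 350 (.leaf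 327 2585 (.cons 372 (.leaf 324 2207 (.cons 351 (.leaf 371 2778 (.cons 375 (.leaf 374 2776 (.leaf 376 2784 .nil)) .nil)) .nil)) .nil)) .nil)) .nil)) (.cons 326 (.leaf 325 2577 (.cons 321 (.leaf 322 2571 (.cons 350 (.leaf 327 2585 (.cons 372 (.leaf 324 2207 (.cons 351 (.leaf 371 2778 (.cons 352 (.leaf 373 2786 (.cons 376 (.leaf 375 2784 (.leaf 377 2792 .nil)) .nil)) .nil)) .nil)) .nil)) .nil)) .nil)) (.cons 326 (.leaf 325 2577 (.cons 324 (.leaf 372 2207 (.cons 350 (.leaf 327 2585 (.cons 374 (.leaf 373 2768 (.leaf 375 2776 .nil)) .nil)) .nil)) .nil)) .nil)))))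
noncomputable def t69 : T := .cons 349 (.cons 324 (.leaf 372 2207 (.cons 325 (.leaf 345 2569 (.leaf 326 2577 .nil)) .nil)) (.cons 321 (.leaf 322 2571 (.cons 326 (.leaf 325 2577 (.cons 350 (.leaf 327 2585 (.cons 374 (.leaf 373 2768 (.leaf 375 2776 .nil)) .nil)) .nil)) .nil)) (.cons 321 (.leaf 322 2571 (.cons 320 (.leaf 345 2563 (.cons 297 (.leaf 298 2370 (.cons 374 (.leaf 373 2768 (.cons 350 (.leaf 375 2776 (.cons 327 (.leaf 326 2585 (.cons 351 (.leaf 328 2593 (.cons 372 (.leaf 324 2207 (.leaf 371 2778 .nil)) .nil)) .nil)) .nil)) .nil)) .nil)) .nil)) .nil)) (.cons 321 (.leaf 322 2571 (.cons 320 (.leaf 345 2563 (.cons 297 (.leaf 298 2370 (.cons 324 (.leaf 372 2207 (.cons 373 (.leaf 374 2768 (.cons 397 (.leaf 325 2407 (.leaf 421 2599 .nil)) .nil)) .nil)) .nil)) .nil)) .nil)) .nil)))) (.cons 345 (.cons 321 (.leaf 320 2563 (.cons 322 (.leaf 349 2571 (.cons 298 (.leaf 301 2378 (.cons 369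 (.leaf 368 2754 (.leaf 393 2381 .nil)) .nil)) .nil)) .nil)) (.cons 325 (.leaf 324 2569 (.cons 326 (.leaf 349 2577 (.cons 301 (.leaf 298 2384 (.cons 327 (.leaf 302 2392 (.leaf 328 2403 .nil)) .nil)) .nil)) .nil)) (.cons 320 (.leaf 321 2563 (.cons 344 (.leaf 319 2555 (.cons 368 (.leaf 367 2746 (.leaf 369 2754 .nil)) .nil)) .nil)) .nil))) (.cons 345 (.cons 368 (.leaf 369 2754 (.cons 344 (.leaf 367 2746 (.cons 320 (.leaf 319 2555 (.leaf 321 2563 .nil)) .nil)) .nil)) (.cons 368 (.leaf 369 2754 (.cons 344 (.leaf 367 2746 (.cons 372 (.leaf 371 2752 (.leaf 373 2760 .nil)) .nil)) .nil)) (.cons 320 (.leaf 321 2563 (.cons 344 (.leaf 319 2555 (.cons 372 (.leaf 371 2752 (.leaf 373 2760 .nil)) .nil)) .nil)) (.cons 321 (.leaf 320 2563 (.cons 322 (.leaf 349 2571 (.cons 298 (.leaf 301 2378 (.cons 369 (.leaf 368 2754 (.leaf 393 2381 .nil)) .nil)) .nil)) .nil)) .nil)))) (.cons 349 t68 (.cons 324 (.leaf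 372 2207 (.cons 325 (.leaf 345 2569 (.cons 326 (.leaf 327 2586 (.cons 298 (.leaf 297 2376 (.leaf 301 2384 .nil)) .nil)) .nil)) .nil)) .nil))))
noncomputable def t70 : T := .cons 347 (.cons 324 (.leaf 323 2012 (.leaf 372 2207 .nil)) (.cons 345 (.cons 321 (.leaf 320 2563 (.cons 322 (.leaf 349 2571 (.cons 298 (.leaf 301 2378 (.cons 369 (.leaf 368 2754 (.leaf 393 2381 .nil)) .nil)) .nil)) .nil)) (.cons 368 (.leaf 369 2754 (.cons 344 (.leaf 367 2746 (.cons 372 (.leaf 324 2207 (.leaf 371 2752 .nil)) .nil)) .nil)) (.cons 320 (.leaf 321 2563 (.cons 319 (.leaf 344 2555 (.cons 325 (.leaf 324 2569 (.cons 326 (.leaf 349 2577 (.cons 301 (.leaf 298 2384 (.cons 327 (.leaf 302 2392 (.leaf 328 2403 .nil)) .nil)) .nil)) .nil)) .nil)) .nil)) .nil))) (.cons 345 (.cons 321 (.leaf 320 2563 (.cons 322 (.leaf 323 2006 (.leaf 349 2571 .nil)) .nil)) (.cons 321 (.leaf 320 2563 (.cons 322 (.leaf 349 2571 (.cons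 298 (.leaf 301 2378 (.cons 369 (.leaf 368 2754 (.leaf 393 2381 .nil)) .nil)) .nil)) .nil)) (.cons 368 (.leaf 369 2754 (.cons 344 (.leaf 367 2746 (.cons 372 (.leaf 323 2204 (.leaf 371 2752 .nil)) .nil)) .nil)) .nil))) (.cons 323 (.leaf 322 2006 (.leaf 324 2012 .nil)) .nil)))) (.cons 347 t69 (.cons 347 (.cons 372 (.leaf 323 2204 (.cons 345 (.leaf 373 2760 (.cons 320 (.leaf 321 2563 (.cons 344 (.leaf 319 2555 (.leaf 371 2752 .nil)) .nil)) .nil)) .nil)) (.cons 345 (.cons 368 (.leaf 369 2754 (.cons 344 (.leaf 367 2746 (.cons 372 (.leaf 371 2752 (.leaf 373 2760 .nil)) .nil)) .nil)) (.cons 321 (.leaf 320 2563 (.cons 322 (.leaf 349 2571 (.cons 298 (.leaf 301 2378 (.cons 369 (.leaf 368 2754 (.leaf 393 2381 .nil)) .nil)) .nil)) .nil)) (.cons 320 (.leaf 321 2563 (.cons 344 (.leaf 319 2555 (.cons 372 (.leaf 371 2752 (.leaf 373 2760 .nil)) .nil)) .nil)) .nil))) (.cons 322 (.leaf 323 2006 (.cons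 321 (.leaf 349 2571 (.cons 320 (.leaf 319 2552 (.leaf 345 2563 .nil)) .nil)) .nil)) (.cons 323 (.leaf 322 2006 (.leaf 372 2204 .nil)) .nil)))) (.cons 323 (.leaf 322 2006 (.leaf 324 2012 .nil)) (.cons 324 (.leaf 323 2012 (.leaf 372 2207 .nil)) .nil))))
noncomputable def t71 : T := .cons 348 (.leaf 323 2012 (.leaf 372 2207 .nil)) (.cons 325 (.cons 326 (.leaf 327 2395 (.cons 298 (.leaf 297 2376 (.leaf 301 2384 .nil)) .nil)) (.cons 298 (.leaf 297 2376 (.cons 301 (.cons 274 (.leaf 302 2195 (.leaf 273 2187 .nil)) (.cons 278 (.leaf 277 2193 (.cons 302 (.leaf 279 2201 (.cons 303 (.leaf 323 2394 (.leaf 304 2402 .nil)) .nil)) .nil)) (.cons 274 (.leaf 273 2187 (.cons 277 (.leaf 278 2193 (.cons 253 (.leaf 229 1830 (.cons 252 (.leaf 254 2002 (.leaf 228 1831 .nil)) .nil)) .nil)) .nil)) .nil))) .nil)) (.cons 326 (.leaf 327 2395 (.cons 323 (.leaf 347 2578 (.cons 228 (.leaf 252 1821 (.cons 302 (.leaf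 303 2393 (.cons 301 (.leaf 274 2195 (.cons 278 (.leaf 279 2201 (.cons 254 (.leaf 230 1838 (.leaf 349 2030 .nil)) .nil)) .nil)) .nil)) .nil)) .nil)) .nil)) (.cons 326 (.leaf 327 2395 (.cons 298 (.leaf 297 2376 (.leaf 323 2387 .nil)) .nil)) .nil)))) (.cons 348 (.leaf 372 2207 (.cons 325 (.cons 298 (.leaf 297 2376 (.cons 326 (.leaf 301 2384 (.leaf 327 2395 .nil)) .nil)) (.cons 347 (.leaf 345 2569 (.cons 298 (.leaf 297 2376 (.cons 301 (.cons 277 (.leaf 278 2193 (.leaf 253 2022 .nil)) (.cons 274 (.leaf 302 2195 (.leaf 273 2187 .nil)) .nil)) .nil)) .nil)) (.cons 326 (.leaf 327 2395 (.cons 347 (.leaf 345 2569 (.leaf 349 2577 .nil)) .nil)) .nil))) .nil)) .nil))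
noncomputable def t72 : T := .cons 302 (.leaf 279 2201 (.cons 326 (.leaf 327 2392 (.cons 254 (.cons 325 (.leaf 298 2384 (.leaf 230 1838 .nil)) (.cons 229 (.leaf 253 1839 (.cons 230 (.leaf 205 1647 (.cons 231 (.leaf 207 1653 (.leaf 255 1845 .nil)) .nil)) .nil)) (.cons 229 (.leaf 253 1839 (.cons 349 (.leaf 325 2030 (.cons 350 (.leaf 373 2222 (.cons 231 (.leaf 255 1845 (.cons 277 (.leaf 298 2193 (.leaf 374 2223 .nil)) .nil)) .nil)) .nil)) .nil)) .nil))) .nil)) .nil)) (.cons 298 (.leaf 277 2193 (.cons 321 (.leaf 322 2378 (.cons 297 (.leaf 320 2370 (.cons 325 (.leaf 324 2376 (.leaf 326 2384 .nil)) .nil)) .nil)) .nil)) (.cons 302 (.leaf 279 2201 (.cons 326 (.leaf 327 2392 (.cons 325 (.leaf 298 2384 (.cons 254 (.leaf 230 1838 (.leaf 349 2030 .nil)) .nil)) .nil)) .nil)) (.cons 302 (.leaf 279 2201 (.cons 326 (.leaf 327 2392 (.cons 254 (.cons 325 (.leaf 230 1838 (.leaf 349 2030 .nil)) (.cons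 229 (.leaf 253 1839 (.cons 230 (.leaf 205 1647 (.cons 231 (.leaf 207 1653 (.leaf 255 1845 .nil)) .nil)) .nil)) (.cons 229 (.leaf 253 1839 (.cons 349 (.leaf 325 2030 (.cons 350 (.leaf 373 2222 (.cons 231 (.leaf 255 1845 (.cons 374 (.leaf 277 2223 (.cons 375 (.leaf 351 2228 (.leaf 399 2420 .nil)) .nil)) .nil)) .nil)) .nil)) .nil)) .nil))) .nil)) .nil)) (.cons 277 (.leaf 298 2193 (.cons 279 (.leaf 302 2201 (.leaf 280 2210 .nil)) .nil)) .nil))))
noncomputable def t73 : T := .cons 322 (.leaf 323 2006 (.cons 298 (.leaf 274 2005 (.cons 301 (.leaf 321 2378 (.cons 325 (.leaf 326 2384 (.cons 277 (.leaf 278 2193 (.cons 324 (.leaf 297 2376 (.cons 348 (.leaf 372 2213 (.leaf 253 2022 .nil)) .nil)) .nil)) .nil)) .nil)) .nil)) .nil)) (.cons 301 (.cons 298 (.cons 322 (.leaf 274 2005 (.leaf 321 2378 .nil)) (.cons 277 (.leaf 278 2193 (.cons 325 (.leaf 326 2384 (.cons 324 (.leaf 297 2376 (.cons 348 (.leaf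 372 2213 (.leaf 253 2022 .nil)) .nil)) .nil)) .nil)) .nil)) (.cons 278 t72 (.cons 302 (.leaf 274 2195 (.cons 279 (.leaf 278 2201 (.cons 303 (.leaf 280 2209 (.cons 327 (.leaf 326 2392 (.leaf 328 2400 .nil)) .nil)) .nil)) .nil)) (.cons 274 (.leaf 302 2195 (.cons 273 (.leaf 272 2176 (.leaf 298 2187 .nil)) .nil)) .nil)))) (.cons 324 t71 (.cons 348 t70 (.cons 322 (.leaf 323 2006 (.cons 298 (.leaf 274 2005 (.cons 301 (.leaf 321 2378 (.cons 278 (.leaf 277 2193 (.cons 302 (.leaf 279 2201 (.cons 326 (.leaf 325 2384 (.leaf 327 2392 .nil)) .nil)) .nil)) .nil)) .nil)) .nil)) (.cons 298 t67 (.cons 348 (.cons 324 (.leaf 323 2012 (.leaf 372 2207 .nil)) (.cons 347 t66 (.cons 347 t64 (.cons 323 (.leaf 322 2006 (.leaf 324 2012 .nil)) .nil)))) (.cons 322 (.leaf 323 2006 (.cons 298 (.leaf 274 2005 (.cons 321 (.leaf 301 2378 (.cons 320 (.leaf 297 2370 (.leaf 319 2361 .nil)) .nil)) .nil)) .nil)) .nil)))))))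
noncomputable def t74 : T := .cons 345 (.cons 372 (.leaf 373 2760 (.cons 320 (.leaf 321 2563 (.cons 344 (.leaf 319 2555 (.leaf 371 2752 .nil)) .nil)) .nil)) (.cons 320 (.leaf 321 2563 (.cons 324 (.leaf 325 2569 (.cons 344 (.leaf 319 2555 (.cons 368 (.leaf 367 2746 (.leaf 369 2754 .nil)) .nil)) .nil)) .nil)) (.cons 324 (.leaf 325 2569 (.cons 372 (.leaf 300 2207 (.leaf 373 2760 .nil)) .nil)) .nil))) (.cons 349 (.cons 325 (.leaf 326 2577 (.cons 324 (.leaf 345 2569 (.cons 373 (.leaf 374 2768 (.cons 397 (.leaf 421 2599 (.leaf 300 2407 .nil)) .nil)) .nil)) .nil)) (.cons 370 (.leaf 369 2762 (.cons 350 (.leaf 371 2770 (.cons 374 (.leaf 373 2768 (.leaf 375 2776 .nil)) .nil)) .nil)) (.cons 325 (.leaf 326 2577 (.cons 345 (.leaf 324 2569 (.cons 369 (.leaf 368 2754 (.leaf 370 2762 .nil)) .nil)) .nil)) .nil))) (.cons 345 (.cons 320 (.leaf 321 2563 (.cons 344 (.leaf 319 2555 (.cons 368 (.leaf 367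 2746 (.leaf 369 2754 .nil)) .nil)) .nil)) (.cons 324 (.leaf 325 2569 (.cons 320 (.leaf 321 2563 (.cons 344 (.leaf 319 2555 (.cons 372 (.leaf 300 2207 (.leaf 371 2752 .nil)) .nil)) .nil)) .nil)) (.cons 369 (.leaf 368 2754 (.cons 324 (.leaf 325 2569 (.cons 370 (.leaf 349 2762 (.cons 372 (.leaf 300 2207 (.cons 371 (.leaf 344 2752 (.cons 392 (.leaf 393 2946 (.cons 396 (.leaf 397 2952 (.cons 419 (.leaf 395 2589 (.cons 420 (.leaf 443 2782 (.leaf 444 2783 .nil)) .nil)) .nil)) .nil)) .nil)) .nil)) .nil)) .nil)) .nil)) (.cons 320 (.leaf 321 2563 (.cons 325 (.leaf 324 2569 (.cons 349 (.leaf 326 2577 (.cons 369 (.leaf 368 2754 (.leaf 370 2762 .nil)) .nil)) .nil)) .nil)) .nil)))) (.cons 349 (.cons 374 (.leaf 373 2768 (.cons 326 (.leaf 325 2577 (.cons 350 (.leaf 327 2585 (.leaf 375 2776 .nil)) .nil)) .nil)) (.cons 325 (.leaf 326 2577 (.cons 324 (.leaf 345 2569 (.cons 372 (.leaf 300 2207 (.cons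 301 (.leaf 277 2214 (.leaf 396 2405 .nil)) .nil)) .nil)) .nil)) (.cons 374 (.leaf 373 2768 (.cons 350 (.leaf 375 2776 (.cons 327 (.leaf 326 2585 (.cons 351 (.leaf 328 2593 (.cons 371 (.leaf 370 2770 (.leaf 372 2778 .nil)) .nil)) .nil)) .nil)) .nil)) (.cons 374 (.leaf 373 2768 (.cons 350 (.leaf 375 2776 (.cons 371 (.leaf 370 2770 (.cons 372 (.leaf 351 2778 (.cons 324 (.leaf 300 2207 (.cons 345 (.leaf 325 2569 (.leaf 344 2752 .nil)) .nil)) .nil)) .nil)) .nil)) .nil)) .nil)))) (.cons 345 (.cons 320 (.leaf 321 2563 (.cons 369 (.leaf 368 2754 (.cons 349 (.leaf 370 2762 (.cons 373 (.leaf 372 2760 (.leaf 374 2768 .nil)) .nil)) .nil)) .nil)) (.cons 320 (.leaf 321 2563 (.cons 344 (.leaf 319 2555 (.cons 372 (.leaf 371 2752 (.leaf 373 2760 .nil)) .nil)) .nil)) (.cons 369 (.leaf 368 2754 (.cons 320 (.leaf 321 2563 (.cons 319 (.leaf 344 2555 (.cons 349 (.leaf 370 2762 (.cons 326 (.leaf 325 2577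 (.cons 350 (.leaf 327 2585 (.cons 374 (.leaf 373 2768 (.leaf 375 2776 .nil)) .nil)) .nil)) .nil)) .nil)) .nil)) .nil)) (.cons 369 (.leaf 368 2754 (.cons 320 (.leaf 321 2563 (.cons 344 (.leaf 319 2555 (.cons 272 (.leaf 296 2180 (.cons 370 (.leaf 349 2762 (.cons 371 (.leaf 343 2744 (.leaf 372 2752 .nil)) .nil)) .nil)) .nil)) .nil)) .nil)) (.cons 369 (.leaf 368 2754 (.cons 349 (.leaf 370 2762 (.cons 373 (.leaf 372 2760 (.leaf 374 2768 .nil)) .nil)) .nil)) .nil))))) (.cons 345 (.cons 369 (.leaf 368 2754 (.cons 320 (.leaf 321 2563 (.cons 344 (.leaf 319 2555 (.cons 272 (.leaf 296 2180 (.cons 370 (.leaf 349 2762 (.cons 371 (.leaf 343 2744 (.leaf 372 2752 .nil)) .nil)) .nil)) .nil)) .nil)) .nil)) (.cons 369 (.leaf 368 2754 (.cons 320 (.leaf 321 2563 (.cons 344 (.leaf 319 2555 (.cons 272 (.leaf 296 2180 (.cons 370 (.leaf 349 2762 (.cons 343 (.leaf 371 2744 (.leaf 342 2736 .nil)) .nil)) .nil))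 .nil)) .nil)) .nil)) (.cons 372 (.leaf 373 2760 (.cons 320 (.leaf 321 2563 (.cons 344 (.leaf 319 2555 (.leaf 371 2752 .nil)) .nil)) .nil)) (.cons 369 (.leaf 368 2754 (.cons 349 (.leaf 370 2762 (.cons 373 (.leaf 372 2760 (.leaf 374 2768 .nil)) .nil)) .nil)) .nil)))) (.cons 345 (.cons 320 (.leaf 321 2563 (.cons 369 (.leaf 368 2754 (.cons 319 (.leaf 344 2555 (.cons 325 (.leaf 324 2569 (.cons 349 (.leaf 326 2577 (.leaf 370 2762 .nil)) .nil)) .nil)) .nil)) .nil)) (.cons 320 (.leaf 321 2563 (.cons 319 (.leaf 344 2555 (.cons 324 (.leaf 325 2569 (.cons 372 (.leaf 300 2207 (.leaf 373 2760 .nil)) .nil)) .nil)) .nil)) (.cons 369 (.leaf 368 2754 (.cons 349 (.leaf 370 2762 (.cons 373 (.leaf 372 2760 (.leaf 374 2768 .nil)) .nil)) .nil)) .nil))) .nil))))))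
noncomputable def t75 : T := .cons 345 (.cons 368 (.leaf 369 2754 (.cons 344 (.leaf 367 2746 (.cons 372 (.leaf 371 2752 (.leaf 373 2760 .nil)) .nil)) .nil)) (.cons 369 (.leaf 368 2754 (.cons 320 (.leaf 321 2563 (.cons 319 (.leaf 344 2555 (.cons 325 (.leaf 324 2569 (.cons 349 (.leaf 326 2577 (.leaf 370 2762 .nil)) .nil)) .nil)) .nil)) .nil)) (.cons 372 (.leaf 373 2760 (.cons 320 (.leaf 321 2563 (.cons 344 (.leaf 319 2555 (.leaf 371 2752 .nil)) .nil)) .nil)) (.cons 320 (.leaf 321 2563 (.cons 369 (.leaf 368 2754 (.cons 349 (.leaf 370 2762 (.cons 373 (.leaf 372 2760 (.leaf 374 2768 .nil)) .nil)) .nil)) .nil)) .nil)))) (.cons 349 (.cons 370 (.leaf 369 2762 (.cons 326 (.leaf 325 2577 (.cons 350 (.leaf 327 2585 (.leaf 371 2770 .nil)) .nil)) .nil)) (.cons 370 (.leaf 369 2762 (.cons 350 (.leaf 371 2770 (.cons 374 (.leaf 373 2768 (.leaf 375 2776 .nil)) .nil)) .nil)) (.cons 374 (.leaf 373 2768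 (.cons 326 (.leaf 325 2577 (.cons 350 (.leaf 327 2585 (.leaf 375 2776 .nil)) .nil)) .nil)) (.cons 325 (.leaf 326 2577 (.cons 373 (.leaf 374 2768 (.cons 370 (.leaf 369 2762 (.cons 372 (.cons 301 (.leaf 277 2214 (.leaf 396 2406 .nil)) (.cons 300 (.leaf 324 2207 (.cons 301 (.leaf 277 2214 (.cons 302 (.leaf 274 2195 (.leaf 278 2221 .nil)) .nil)) .nil)) (.cons 324 (.leaf 300 2207 (.cons 396 (.leaf 420 2597 (.cons 397 (.leaf 421 2596 (.cons 398 (.leaf 422 2604 (.leaf 371 2960 .nil)) .nil)) .nil)) .nil)) .nil))) .nil)) .nil)) .nil)) .nil)))) t74)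
noncomputable def t76 : T := .cons 324 (.leaf 323 2012 (.cons 372 (.leaf 300 2207 (.cons 396 (.cons 325 (.leaf 301 2405 (.cons 347 (.leaf 345 2569 (.cons 326 (.leaf 349 2577 (.leaf 327 2586 .nil)) .nil)) .nil)) (.cons 419 (.leaf 395 2590 (.cons 420 (.leaf 443 2782 (.cons 421 (.leaf 397 2596 (.leaf 445 2788 .nil)) .nil)) .nil)) .nil)) .nil)) .nil)) (.cons 347 t75 (.cons 347 (.cons 370 (.leaf 323 2198 (.cons 349 (.leaf 369 2762 (.cons 326 (.leaf 325 2577 (.cons 350 (.leaf 327 2585 (.leaf 371 2770 .nil)) .nil)) .nil)) .nil)) (.cons 345 (.cons 320 (.leaf 321 2563 (.cons 344 (.leaf 319 2555 (.cons 368 (.leaf 367 2746 (.leaf 369 2754 .nil)) .nil)) .nil)) (.cons 320 (.leaf 321 2563 (.cons 344 (.leaf 319 2555 (.cons 372 (.leaf 371 2752 (.leaf 373 2760 .nil)) .nil)) .nil)) (.cons 369 (.leaf 368 2754 (.cons 349 (.leaf 370 2762 (.cons 373 (.leaf 372 2760 (.leaf 374 2768 .nil)) .nil)) .nil)) .nil)))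 (.cons 372 (.leaf 323 2204 (.cons 345 (.leaf 373 2760 (.cons 320 (.leaf 321 2563 (.cons 344 (.leaf 319 2555 (.leaf 371 2752 .nil)) .nil)) .nil)) .nil)) (.cons 323 (.leaf 370 2198 (.leaf 372 2204 .nil)) .nil)))) (.cons 324 (.leaf 323 2012 (.cons 372 (.leaf 300 2207 (.cons 396 (.cons 325 (.leaf 301 2405 (.cons 419 (.leaf 395 2590 (.cons 420 (.leaf 349 2597 (.leaf 443 2782 .nil)) .nil)) .nil)) (.cons 325 (.leaf 301 2405 (.cons 420 (.leaf 349 2597 (.cons 421 (.leaf 397 2596 (.leaf 445 2788 .nil)) .nil)) .nil)) (.cons 419 (.leaf 395 2590 (.cons 420 (.leaf 443 2782 (.cons 421 (.leaf 397 2596 (.leaf 445 2788 .nil)) .nil)) .nil)) (.cons 397 (.leaf 421 2596 (.cons 395 (.leaf 419 2590 (.cons 325 (.leaf 301 2405 (.cons 394 (.cons 373 (.leaf 393 2953 (.leaf 374 2961 .nil)) (.cons 369 (.leaf 370 2955 (.cons 393 (.leaf 368 2947 (.cons 417 (.leaf 416 3138 (.leaf 418 3146 .nil)) .nil)) .nil)) (.cons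 369 (.leaf 370 2955 (.cons 374 (.leaf 373 2961 (.cons 398 (.leaf 375 2969 (.cons 399 (.leaf 371 2971 (.cons 423 (.leaf 422 3160 (.leaf 424 3168 .nil)) .nil)) .nil)) .nil)) .nil)) .nil))) .nil)) .nil)) .nil)) .nil)))) .nil)) .nil)) (.cons 347 (.cons 370 (.leaf 323 2198 (.cons 349 (.leaf 369 2762 (.cons 326 (.leaf 325 2577 (.cons 350 (.leaf 327 2585 (.leaf 371 2770 .nil)) .nil)) .nil)) .nil)) (.cons 349 (.cons 325 (.leaf 326 2577 (.cons 324 (.leaf 345 2569 (.cons 373 (.leaf 374 2768 (.cons 397 (.leaf 421 2599 (.leaf 300 2407 .nil)) .nil)) .nil)) .nil)) (.cons 370 (.leaf 369 2762 (.cons 350 (.leaf 371 2770 (.cons 374 (.leaf 373 2768 (.leaf 375 2776 .nil)) .nil)) .nil)) (.cons 325 (.leaf 326 2577 (.cons 345 (.leaf 324 2569 (.cons 369 (.leaf 368 2754 (.leaf 370 2762 .nil)) .nil)) .nil)) .nil))) (.cons 324 (.leaf 323 2012 (.cons 325 (.leaf 345 2569 (.cons 326 (.leaf 349 2577 (.leaf 327 2586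 .nil)) .nil)) .nil)) (.cons 323 (.leaf 324 2012 (.leaf 370 2198 .nil)) .nil)))) (.cons 323 (.leaf 324 2012 (.cons 347 (.leaf 370 2198 (.leaf 372 2204 .nil)) .nil)) .nil)))))
noncomputable def t77 : T := .leaf 298 2197 (.cons 394 (.cons 395 (.leaf 419 2580 (.cons 321 (.leaf 297 2383 (.cons 418 (.leaf 345 2575 (.cons 441 (.leaf 417 2766 (.cons 442 (.leaf 465 2958 (.cons 371 (.leaf 347 2773 (.leaf 466 2965 .nil)) .nil)) .nil)) .nil)) .nil)) .nil)) (.cons 417 (.leaf 393 2574 (.cons 418 (.leaf 441 2766 (.cons 419 (.leaf 395 2580 (.leaf 443 2772 .nil)) .nil)) .nil)) (.cons 321 (.leaf 297 2383 (.cons 418 (.leaf 345 2575 (.cons 419 (.leaf 395 2580 (.leaf 443 2772 .nil)) .nil)) .nil)) (.cons 321 (.leaf 297 2383 (.cons 417 (.leaf 393 2574 (.cons 418 (.leaf 345 2575 (.leaf 441 2766 .nil)) .nil)) .nil)) (.cons 395 (.leaf 419 2580 (.cons 393 (.leaf 417 2574 (.cons 321 (.leaf 297 2383 (.cons 392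 (.cons 391 (.leaf 371 2937 (.cons 415 (.leaf 414 3122 (.leaf 416 3130 .nil)) .nil)) (.cons 368 (.leaf 367 2939 (.cons 369 (.leaf 396 2947 (.cons 416 (.leaf 415 3130 (.leaf 345 2566 .nil)) .nil)) .nil)) (.cons 391 (.leaf 371 2937 (.cons 367 (.leaf 366 2931 (.leaf 368 2939 .nil)) .nil)) .nil))) .nil)) .nil)) .nil)) .nil))))) .nil)
noncomputable def t78 : T := .cons 373 (.leaf 345 2763 (.cons 347 (.leaf 374 2771 (.cons 395 (.leaf 419 2583 (.cons 397 (.leaf 398 2960 (.cons 369 (.leaf 396 2952 (.cons 368 (.leaf 367 2745 (.leaf 348 2753 .nil)) .nil)) .nil)) .nil)) .nil)) .nil)) (.cons 369 (.cons 348 (.leaf 349 2761 (.cons 300 (.leaf 324 2207 (.cons 347 (.leaf 368 2753 (.cons 396 (.leaf 397 2952 (.cons 419 (.leaf 395 2583 (.cons 420 (.leaf 444 2783 (.leaf 443 2782 .nil)) .nil)) .nil)) .nil)) .nil)) .nil)) (.cons 344 (.leaf 345 2755 (.cons 368 (.leaf 343 2747 (.cons 396 (.leaf 395 2944 (.leaf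 397 2952 .nil)) .nil)) .nil)) (.cons 348 (.leaf 349 2761 (.cons 324 (.leaf 300 2207 (.cons 344 (.leaf 345 2755 (.cons 396 (.leaf 397 2952 (.cons 419 (.leaf 395 2590 (.cons 420 (.leaf 443 2782 (.cons 444 (.leaf 347 2783 (.cons 445 (.leaf 421 2788 (.leaf 469 2980 .nil)) .nil)) .nil)) .nil)) .nil)) .nil)) .nil)) .nil)) (.cons 348 (.leaf 349 2761 (.cons 300 (.leaf 324 2207 (.cons 344 (.leaf 345 2755 (.cons 368 (.leaf 343 2747 (.leaf 347 2753 .nil)) .nil)) .nil)) .nil)) .nil)))) (.cons 373 (.cons 347 (.leaf 374 2771 (.cons 349 (.leaf 350 2769 (.cons 348 (.leaf 369 2761 (.cons 300 (.leaf 324 2207 (.cons 325 (.leaf 326 2577 (.cons 396 (.leaf 301 2406 (.leaf 420 2597 .nil)) .nil)) .nil)) .nil)) .nil)) .nil)) (.cons 349 (.leaf 350 2769 (.cons 348 (.leaf 369 2761 (.cons 324 (.leaf 300 2207 (.cons 397 (.leaf 398 2960 (.leaf 421 2599 .nil)) .nil)) .nil)) .nil)) (.cons 374 (.leaf 347 2771 (.cons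 398 (.leaf 397 2960 (.leaf 399 2968 .nil)) .nil)) .nil))) (.cons 373 (.leaf 345 2763 (.cons 349 (.leaf 350 2769 (.cons 348 (.leaf 369 2761 (.cons 324 (.leaf 300 2207 (.cons 397 (.leaf 398 2960 (.leaf 421 2599 .nil)) .nil)) .nil)) .nil)) .nil)) (.cons 373 (.leaf 345 2763 (.cons 374 (.leaf 347 2771 (.cons 398 (.leaf 397 2960 (.leaf 399 2968 .nil)) .nil)) .nil)) (.cons 345 (.leaf 373 2763 (.cons 344 (.leaf 343 2744 (.leaf 347 2752 .nil)) .nil)) .nil)))))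
noncomputable def t79 : T := .cons 369 (.cons 348 (.leaf 349 2761 (.cons 300 (.leaf 324 2207 (.cons 393 (.leaf 392 2946 (.cons 417 (.leaf 345 2573 (.leaf 394 2574 .nil)) .nil)) .nil)) .nil)) (.cons 348 (.leaf 349 2761 (.cons 300 (.leaf 324 2207 (.cons 393 (.leaf 392 2946 (.cons 417 (.leaf 394 2574 (.leaf 441 2765 .nil)) .nil)) .nil)) .nil)) (.cons 348 (.leaf 349 2761 (.cons 300 (.leaf 324 2207 (.cons 396 (.leaf 397 2952 (.cons 395 (.leaf 368 2944 (.cons 419 (.leaf 394 2580 (.leaf 443 2781 .nil)) .nil)) .nil)) .nil)) .nil)) (.cons 392 (.leaf 393 2946 (.cons 368 (.leaf 391 2938 (.cons 396 (.leaf 395 2944 (.leaf 397 2952 .nil)) .nil)) .nil)) .nil)))) (.cons 369 (.cons 348 (.leaf 349 2761 (.cons 300 (.leaf 324 2207 (.cons 393 (.leaf 392 2946 (.cons 417 (.leaf 394 2574 (.leaf 441 2765 .nil)) .nil)) .nil)) .nil)) (.cons 348 (.leaf 349 2761 (.cons 300 (.leaf 324 2207 (.cons 396 (.leaf 397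 2952 (.cons 395 (.leaf 368 2944 (.cons 419 (.leaf 394 2580 (.leaf 443 2781 .nil)) .nil)) .nil)) .nil)) .nil)) (.cons 392 (.leaf 393 2946 (.cons 368 (.leaf 391 2938 (.cons 396 (.leaf 395 2944 (.leaf 397 2952 .nil)) .nil)) .nil)) .nil))) (.cons 373 (.leaf 345 2763 (.cons 349 (.leaf 350 2769 (.cons 394 (.leaf 393 2954 (.cons 395 (.leaf 419 2580 (.leaf 374 2962 .nil)) .nil)) .nil)) .nil)) (.cons 373 (.leaf 345 2763 (.cons 349 (.leaf 350 2769 (.cons 348 (.leaf 369 2761 (.cons 324 (.leaf 300 2207 (.cons 397 (.leaf 398 2960 (.leaf 421 2599 .nil)) .nil)) .nil)) .nil)) .nil)) (.cons 373 (.leaf 345 2763 (.cons 393 (.leaf 394 2954 (.cons 369 (.leaf 392 2946 (.cons 397 (.leaf 396 2952 (.leaf 398 2960 .nil)) .nil)) .nil)) .nil)) .nil))))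
noncomputable def t80 : T := .cons 345 (.leaf 373 2763 (.cons 344 (.leaf 343 2744 (.leaf 347 2752 .nil)) .nil)) (.cons 369 (.cons 348 (.leaf 349 2761 (.cons 300 (.leaf 324 2207 (.cons 392 (.leaf 393 2946 (.cons 368 (.leaf 347 2753 (.leaf 391 2938 .nil)) .nil)) .nil)) .nil)) (.cons 392 (.leaf 393 2946 (.cons 368 (.leaf 391 2938 (.cons 396 (.leaf 395 2944 (.leaf 397 2952 .nil)) .nil)) .nil)) (.cons 348 (.leaf 349 2761 (.cons 300 (.leaf 324 2207 (.cons 347 (.leaf 368 2753 (.cons 396 (.leaf 397 2952 (.cons 419 (.leaf 395 2583 (.cons 420 (.leaf 444 2783 (.leaf 443 2782 .nil)) .nil)) .nil)) .nil)) .nil)) .nil)) (.cons 345 (.leaf 344 2755 (.cons 393 (.leaf 417 2573 (.leaf 392 2946 .nil)) .nil)) .nil)))) (.cons 369 (.cons 348 (.leaf 349 2761 (.cons 300 (.leaf 324 2207 (.cons 392 (.leaf 393 2946 (.cons 368 (.leaf 347 2753 (.leaf 391 2938 .nil)) .nil)) .nil)) .nil)) (.cons 396 (.leaf 397 2952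 (.cons 368 (.leaf 395 2944 (.cons 392 (.leaf 391 2938 (.leaf 393 2946 .nil)) .nil)) .nil)) (.cons 348 (.leaf 349 2761 (.cons 324 (.leaf 300 2207 (.cons 392 (.leaf 393 2946 (.cons 396 (.leaf 397 2952 (.cons 419 (.leaf 395 2590 (.cons 420 (.leaf 443 2782 (.cons 444 (.leaf 347 2783 (.cons 445 (.leaf 421 2788 (.leaf 469 2980 .nil)) .nil)) .nil)) .nil)) .nil)) .nil)) .nil)) .nil)) (.cons 348 (.leaf 349 2761 (.cons 300 (.leaf 324 2207 (.cons 347 (.leaf 368 2753 (.cons 396 (.leaf 397 2952 (.cons 419 (.leaf 395 2583 (.cons 420 (.leaf 444 2783 (.leaf 443 2782 .nil)) .nil)) .nil)) .nil)) .nil)) .nil)) .nil)))) (.cons 373 (.leaf 345 2763 (.cons 349 (.leaf 350 2769 (.cons 348 (.leaf 369 2761 (.cons 324 (.leaf 300 2207 (.cons 397 (.leaf 398 2960 (.leaf 421 2599 .nil)) .nil)) .nil)) .nil)) .nil)) .nil)))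
noncomputable def t81 : T := .cons 393 (.leaf 417 2574 (.cons 392 (.leaf 391 2937 (.cons 395 (.leaf 419 2580 (.cons 368 (.leaf 367 2939 (.cons 369 (.leaf 396 2944 (.cons 343 (.leaf 344 2747 (.cons 347 (.leaf 348 2753 (.cons 416 (.leaf 415 3130 (.cons 440 (.leaf 464 2949 (.leaf 345 2757 .nil)) .nil)) .nil)) .nil)) .nil)) .nil)) .nil)) .nil)) .nil)) (.cons 417 (.leaf 393 2574 (.cons 418 (.leaf 441 2766 (.cons 442 (.leaf 347 2773 (.cons 443 (.leaf 419 2772 (.leaf 467 2964 .nil)) .nil)) .nil)) .nil)) (.cons 417 (.leaf 393 2574 (.cons 418 (.leaf 441 2766 (.cons 442 (.leaf 347 2773 (.cons 345 (.leaf 369 2767 (.cons 343 (.leaf 344 2744 (.cons 466 (.leaf 395 2965 (.cons 467 (.leaf 443 2964 (.leaf 491 3156 .nil)) .nil)) .nil)) .nil)) .nil)) .nil)) .nil)) (.cons 419 (.leaf 395 2580 (.cons 418 (.leaf 443 2772 (.cons 441 (.leaf 417 2766 (.cons 442 (.leaf 347 2773 (.leaf 465 2958 .nil)) .nil))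 .nil)) .nil)) (.cons 419 (.leaf 395 2580 (.cons 418 (.leaf 443 2772 (.cons 442 (.leaf 347 2773 (.cons 369 (.leaf 345 2767 (.cons 465 (.leaf 441 2958 (.cons 466 (.leaf 393 2959 (.leaf 489 3150 .nil)) .nil)) .nil)) .nil)) .nil)) .nil)) (.cons 419 (.leaf 395 2580 (.cons 417 (.leaf 393 2574 (.cons 418 (.leaf 441 2766 (.leaf 443 2772 .nil)) .nil)) .nil)) .nil)))))
noncomputable def t82 : T := .cons 373 (.leaf 345 2763 (.cons 347 (.leaf 374 2771 (.cons 393 (.leaf 394 2954 (.cons 369 (.leaf 392 2946 (.cons 368 (.leaf 367 2745 (.leaf 348 2753 .nil)) .nil)) .nil)) .nil)) .nil)) (.cons 369 (.cons 348 (.leaf 349 2761 (.cons 300 (.leaf 324 2207 (.cons 344 (.leaf 345 2755 (.cons 393 (.leaf 392 2946 (.cons 417 (.leaf 394 2574 (.leaf 441 2765 .nil)) .nil)) .nil)) .nil)) .nil)) (.cons 348 (.leaf 349 2761 (.cons 300 (.leaf 324 2207 (.cons 368 (.leaf 347 2753 (.cons 392 (.leaf 391 2938 (.leaf 393 2946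 .nil)) .nil)) .nil)) .nil)) (.cons 344 (.leaf 345 2755 (.cons 348 (.leaf 349 2761 (.cons 368 (.leaf 343 2747 (.leaf 347 2753 .nil)) .nil)) .nil)) (.cons 344 (.leaf 345 2755 (.cons 343 (.leaf 368 2747 (.cons 393 (.leaf 392 2946 (.cons 417 (.leaf 394 2574 (.leaf 441 2765 .nil)) .nil)) .nil)) .nil)) .nil)))) (.cons 373 (.cons 347 (.leaf 374 2771 (.cons 393 (.leaf 394 2954 (.cons 369 (.leaf 392 2946 (.cons 368 (.leaf 367 2745 (.leaf 348 2753 .nil)) .nil)) .nil)) .nil)) (.cons 349 (.leaf 350 2769 (.cons 348 (.leaf 369 2761 (.cons 324 (.leaf 300 2207 (.cons 397 (.leaf 398 2960 (.leaf 421 2599 .nil)) .nil)) .nil)) .nil)) (.cons 349 (.leaf 350 2769 (.cons 374 (.leaf 347 2771 (.cons 398 (.leaf 397 2960 (.leaf 399 2968 .nil)) .nil)) .nil)) .nil))) (.cons 373 (.leaf 345 2763 (.cons 349 (.leaf 350 2769 (.cons 374 (.leaf 347 2771 (.cons 398 (.leaf 397 2960 (.leaf 399 2968 .nil)) .nil)) .nil)) .nil))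 (.cons 373 (.leaf 345 2763 (.cons 349 (.leaf 350 2769 (.cons 348 (.leaf 369 2761 (.cons 324 (.leaf 300 2207 (.cons 397 (.leaf 398 2960 (.leaf 421 2599 .nil)) .nil)) .nil)) .nil)) .nil)) .nil))))
noncomputable def t83 : T := .cons 393 (.leaf 417 2574 (.cons 372 (.leaf 373 2954 (.cons 392 (.leaf 369 2946 (.leaf 391 2937 .nil)) .nil)) .nil)) (.cons 418 (.cons 442 (.leaf 347 2773 (.cons 395 (.leaf 419 2580 (.leaf 466 2965 .nil)) .nil)) (.cons 417 (.leaf 441 2766 (.cons 442 (.leaf 347 2773 (.cons 345 (.leaf 369 2767 (.cons 343 (.leaf 344 2744 (.cons 372 (.leaf 373 2763 (.cons 466 (.leaf 395 2965 (.cons 467 (.leaf 443 2964 (.leaf 491 3156 .nil)) .nil)) .nil)) .nil)) .nil)) .nil)) .nil)) (.cons 417 (.leaf 441 2766 (.cons 442 (.leaf 347 2773 (.cons 443 (.leaf 419 2772 (.leaf 467 2964 .nil)) .nil)) .nil)) (.cons 419 (.leaf 395 2580 (.leaf 443 2772 .nil)) .nil)))) (.cons 418 (.cons 419 (.leaf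 395 2580 (.leaf 443 2772 .nil)) (.cons 442 (.leaf 347 2773 (.cons 345 (.leaf 369 2767 (.cons 343 (.leaf 344 2744 (.cons 372 (.leaf 373 2763 (.cons 441 (.leaf 465 2958 (.cons 466 (.leaf 395 2965 (.cons 467 (.leaf 443 2964 (.leaf 491 3156 .nil)) .nil)) .nil)) .nil)) .nil)) .nil)) .nil)) (.cons 419 (.leaf 443 2772 (.cons 442 (.leaf 347 2773 (.cons 369 (.leaf 345 2767 (.cons 393 (.leaf 466 2959 (.cons 392 (.leaf 372 2946 (.leaf 391 3128 .nil)) .nil)) .nil)) .nil)) .nil)) (.cons 395 (.leaf 419 2580 (.cons 442 (.leaf 347 2773 (.leaf 466 2965 .nil)) .nil)) .nil)))) (.cons 418 (.cons 395 (.leaf 419 2580 (.cons 442 (.leaf 347 2773 (.leaf 466 2965 .nil)) .nil)) (.cons 417 (.leaf 393 2574 (.leaf 441 2766 .nil)) .nil)) .nil)))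
noncomputable def t84 : T := .cons 394 t83 (.cons 372 t82 (.cons 394 t81 (.cons 372 t80 (.cons 394 (.cons 418 (.cons 442 (.leaf 347 2773 (.cons 443 (.leaf 419 2772 (.leaf 467 2964 .nil)) .nil)) (.cons 442 (.leaf 347 2773 (.cons 441 (.leaf 417 2766 (.leaf 465 2958 .nil)) .nil)) (.cons 419 (.leaf 395 2580 (.leaf 443 2772 .nil)) .nil))) (.cons 417 (.leaf 393 2574 (.cons 418 (.leaf 441 2766 (.cons 442 (.leaf 347 2773 (.cons 443 (.leaf 419 2772 (.leaf 467 2964 .nil)) .nil)) .nil)) .nil)) (.cons 393 (.leaf 417 2574 (.cons 372 (.leaf 373 2954 (.cons 392 (.leaf 391 2937 (.leaf 395 2945 .nil)) .nil)) .nil)) (.cons 418 (.cons 442 (.leaf 347 2773 (.cons 443 (.leaf 419 2772 (.leaf 467 2964 .nil)) .nil)) (.cons 442 (.leaf 347 2773 (.cons 441 (.leaf 465 2958 (.cons 466 (.leaf 395 2965 (.cons 467 (.leaf 443 2964 (.leaf 491 3156 .nil)) .nil)) .nil)) .nil)) (.cons 419 (.leaf 395 2580 (.leaf 443 2772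 .nil)) (.cons 395 (.leaf 419 2580 (.cons 442 (.leaf 347 2773 (.leaf 466 2965 .nil)) .nil)) .nil)))) .nil)))) (.cons 372 t79 (.cons 372 t78 .nil))))))
noncomputable def t85 : T := .cons 417 (.leaf 393 2574 (.cons 297 (.leaf 321 2383 (.cons 418 (.leaf 441 2766 (.cons 442 (.leaf 347 2773 (.cons 443 (.leaf 419 2772 (.leaf 467 2964 .nil)) .nil)) .nil)) .nil)) .nil)) (.cons 417 (.leaf 393 2574 (.cons 297 (.leaf 321 2383 (.cons 418 (.leaf 441 2766 (.cons 442 (.leaf 347 2773 (.cons 466 (.leaf 395 2965 (.cons 467 (.leaf 443 2964 (.leaf 491 3156 .nil)) .nil)) .nil)) .nil)) .nil)) .nil)) (.cons 321 (.leaf 297 2383 (.cons 418 (.cons 419 (.leaf 395 2580 (.leaf 443 2772 .nil)) (.cons 442 (.leaf 347 2773 (.cons 441 (.leaf 465 2958 (.cons 466 (.leaf 395 2965 (.cons 467 (.leaf 443 2964 (.leaf 491 3156 .nil)) .nil)) .nil)) .nil)) (.cons 442 (.leaf 347 2773 (.cons 443 (.leaf 419 2772 (.leaf 467 2964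 .nil)) .nil)) (.cons 395 (.leaf 419 2580 (.cons 442 (.leaf 347 2773 (.leaf 466 2965 .nil)) .nil)) .nil)))) .nil)) (.cons 395 (.leaf 419 2580 (.cons 417 (.leaf 393 2574 (.cons 418 (.leaf 441 2766 (.cons 442 (.leaf 347 2773 (.leaf 466 2965 .nil)) .nil)) .nil)) .nil)) (.cons 395 (.leaf 419 2580 (.cons 393 (.leaf 417 2574 (.cons 372 (.leaf 373 2954 (.cons 369 (.cons 396 (.leaf 368 2944 (.leaf 397 2952 .nil)) (.cons 297 (.leaf 321 2383 (.cons 348 (.leaf 349 2761 (.cons 300 (.leaf 324 2398 (.cons 368 (.leaf 347 2753 (.leaf 367 2936 .nil)) .nil)) .nil)) .nil)) (.cons 396 (.leaf 397 2952 (.cons 297 (.leaf 321 2383 (.cons 348 (.leaf 349 2761 (.cons 420 (.leaf 421 3144 (.cons 444 (.leaf 347 2783 (.leaf 468 2975 .nil)) .nil)) .nil)) .nil)) .nil)) .nil))) .nil)) .nil)) .nil)) (.cons 419 (.leaf 395 2580 (.cons 297 (.leaf 321 2383 (.cons 417 (.leaf 393 2574 (.cons 418 (.leaf 441 2766 (.leaf 443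 2772 .nil)) .nil)) .nil)) .nil)) .nil)))))
noncomputable def t86 : T := .cons 348 (.leaf 324 2207 (.cons 349 (.leaf 369 2761 (.cons 350 (.leaf 347 2770 (.leaf 373 2769 .nil)) .nil)) .nil)) (.cons 297 (.cons 320 (.leaf 321 2370 (.cons 296 (.leaf 319 2362 (.cons 271 (.leaf 272 2171 (.cons 295 (.leaf 274 2169 (.leaf 270 2163 .nil)) .nil)) .nil)) .nil)) (.cons 320 (.leaf 321 2370 (.cons 296 (.leaf 319 2362 (.cons 274 (.leaf 295 2169 (.cons 301 (.leaf 302 2195 (.leaf 273 2187 .nil)) .nil)) .nil)) .nil)) (.cons 272 (.leaf 273 2179 (.cons 296 (.leaf 271 2171 (.cons 274 (.leaf 295 2169 (.cons 301 (.leaf 302 2195 (.cons 325 (.leaf 324 2376 (.leaf 326 2384 .nil)) .nil)) .nil)) .nil)) .nil)) (.cons 272 (.leaf 273 2179 (.cons 296 (.leaf 271 2171 (.cons 320 (.leaf 319 2362 (.leaf 321 2370 .nil)) .nil)) .nil)) (.cons 272 (.leaf 273 2179 (.cons 325 (.leaf 324 2376 (.cons 301 (.leaf 326 2384 (.cons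 278 (.leaf 277 2193 (.cons 302 (.leaf 274 2195 (.leaf 279 2201 .nil)) .nil)) .nil)) .nil)) .nil)) .nil))))) (.cons 297 (.cons 272 (.leaf 273 2179 (.cons 296 (.leaf 271 2171 (.cons 320 (.leaf 319 2362 (.leaf 321 2370 .nil)) .nil)) .nil)) (.cons 320 (.leaf 321 2370 (.cons 296 (.leaf 319 2362 (.cons 271 (.leaf 272 2171 (.cons 295 (.leaf 274 2169 (.leaf 270 2163 .nil)) .nil)) .nil)) .nil)) (.cons 320 (.leaf 321 2370 (.cons 296 (.leaf 319 2362 (.cons 274 (.leaf 295 2169 (.cons 301 (.leaf 302 2195 (.leaf 273 2187 .nil)) .nil)) .nil)) .nil)) (.cons 273 (.leaf 272 2179 (.cons 301 (.leaf 274 2187 (.cons 278 (.leaf 277 2193 (.cons 302 (.leaf 279 2201 (.cons 326 (.leaf 325 2384 (.leaf 327 2392 .nil)) .nil)) .nil)) .nil)) .nil)) .nil)))) .nil))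
noncomputable def t87 : T := .leaf 324 2207 (.cons 373 (.cons 347 (.leaf 374 2771 (.cons 369 (.leaf 368 2753 (.cons 397 (.leaf 396 2952 (.leaf 398 2960 .nil)) .nil)) .nil)) (.cons 397 (.leaf 398 2960 (.cons 369 (.leaf 396 2952 (.cons 368 (.leaf 347 2753 (.cons 343 (.leaf 344 2747 (.cons 367 (.leaf 342 2739 (.cons 391 (.leaf 390 2930 (.leaf 392 2938 .nil)) .nil)) .nil)) .nil)) .nil)) .nil)) (.cons 374 (.leaf 347 2771 (.cons 350 (.leaf 351 2777 (.cons 395 (.leaf 394 2962 (.cons 419 (.leaf 443 2781 (.cons 375 (.leaf 396 2970 (.cons 399 (.leaf 398 2968 (.leaf 400 2976 .nil)) .nil)) .nil)) .nil)) .nil)) .nil)) (.cons 398 (.leaf 397 2960 (.cons 374 (.leaf 399 2968 (.cons 351 (.leaf 350 2777 (.cons 375 (.leaf 352 2785 (.cons 395 (.leaf 394 2962 (.leaf 396 2970 .nil)) .nil)) .nil)) .nil)) .nil)) (.cons 374 (.leaf 347 2771 (.cons 351 (.leaf 350 2777 (.cons 375 (.leaf 352 2785 (.cons 395 (.leaf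 394 2962 (.leaf 396 2970 .nil)) .nil)) .nil)) .nil)) (.cons 374 (.leaf 347 2771 (.cons 398 (.leaf 397 2960 (.leaf 399 2968 .nil)) .nil)) .nil)))))) .nil)
noncomputable def t88 : T := .cons 349 (.leaf 350 2769 (.cons 374 (.leaf 347 2771 (.cons 398 (.leaf 397 2960 (.leaf 399 2968 .nil)) .nil)) .nil)) (.cons 397 (.leaf 398 2960 (.cons 349 (.leaf 350 2769 (.cons 324 (.cons 300 (.leaf 348 2404 (.leaf 325 2407 .nil)) (.cons 325 (.leaf 300 2407 (.cons 396 (.leaf 301 2406 (.leaf 420 2598 .nil)) .nil)) (.cons 421 (.leaf 348 2599 (.cons 420 (.leaf 444 2790 (.cons 396 (.leaf 325 2598 (.cons 422 (.leaf 446 2796 (.cons 395 (.leaf 394 3152 (.leaf 423 3163 .nil)) .nil)) .nil)) .nil)) .nil)) (.cons 348 (.leaf 300 2404 (.leaf 421 2599 .nil)) .nil)))) .nil)) .nil)) (.cons 374 (.leaf 347 2771 (.cons 398 (.leaf 397 2960 (.leaf 399 2968 .nil)) .nil)) (.cons 349 (.leaf 350 2769 (.cons 374 (.leaf 347 2771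 (.cons 395 (.leaf 394 2962 (.cons 375 (.leaf 396 2970 (.cons 399 (.leaf 398 2968 (.leaf 400 2976 .nil)) .nil)) .nil)) .nil)) .nil)) (.cons 349 (.leaf 350 2769 (.cons 374 (.leaf 347 2771 (.cons 395 (.leaf 394 2962 (.cons 375 (.leaf 396 2970 (.cons 352 (.leaf 351 2785 (.cons 376 (.leaf 348 2787 (.leaf 353 2793 .nil)) .nil)) .nil)) .nil)) .nil)) .nil)) .nil))))
noncomputable def t89 : T := .cons 373 (.cons 347 (.leaf 374 2771 (.cons 349 (.leaf 350 2769 (.cons 348 (.leaf 369 2761 (.cons 300 (.leaf 324 2207 (.cons 325 (.leaf 326 2577 (.cons 301 (.leaf 277 2214 (.leaf 396 2406 .nil)) .nil)) .nil)) .nil)) .nil)) .nil)) (.cons 349 (.leaf 350 2769 (.cons 348 (.leaf 369 2761 (.cons 324 (.leaf 300 2207 (.cons 397 (.leaf 398 2960 (.leaf 421 2599 .nil)) .nil)) .nil)) .nil)) (.cons 347 (.leaf 374 2771 (.cons 397 (.leaf 398 2960 (.cons 369 (.leaf 396 2952 (.cons 368 (.leaf 367 2745 (.leaf 348 2753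 .nil)) .nil)) .nil)) .nil)) (.cons 347 (.leaf 374 2771 (.cons 349 (.leaf 350 2769 (.cons 397 (.leaf 398 2960 (.cons 396 (.leaf 369 2952 (.cons 420 (.leaf 444 2789 (.leaf 325 2598 .nil)) .nil)) .nil)) .nil)) .nil)) (.cons 349 (.leaf 350 2769 (.cons 374 (.leaf 347 2771 (.cons 398 (.leaf 397 2960 (.leaf 399 2968 .nil)) .nil)) .nil)) .nil))))) (.cons 369 (.cons 348 (.leaf 349 2761 (.cons 324 (.leaf 300 2207 (.cons 396 (.leaf 397 2952 (.cons 419 (.leaf 395 2590 (.cons 420 (.leaf 443 2782 (.cons 301 (.leaf 325 2405 (.cons 444 (.leaf 347 2783 (.cons 445 (.leaf 421 2788 (.leaf 469 2980 .nil)) .nil)) .nil)) .nil)) .nil)) .nil)) .nil)) .nil)) (.cons 396 (.leaf 397 2952 (.cons 368 (.leaf 395 2944 (.cons 343 (.leaf 344 2747 (.cons 367 (.leaf 347 2745 (.leaf 342 2739 .nil)) .nil)) .nil)) .nil)) (.cons 348 (.leaf 349 2761 (.cons 300 (.leaf 324 2207 (.cons 368 (.leaf 347 2753 (.cons 343 (.leaf 344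 2747 (.cons 367 (.leaf 342 2739 (.cons 391 (.leaf 390 2930 (.leaf 392 2938 .nil)) .nil)) .nil)) .nil)) .nil)) .nil)) (.cons 348 (.leaf 349 2761 (.cons 300 (.leaf 324 2207 (.cons 396 (.leaf 397 2952 (.cons 368 (.leaf 395 2944 (.cons 343 (.leaf 344 2747 (.cons 367 (.leaf 342 2739 (.cons 391 (.leaf 390 2930 (.leaf 392 2938 .nil)) .nil)) .nil)) .nil)) .nil)) .nil)) .nil)) .nil)))) (.cons 373 (.cons 349 (.leaf 350 2769 (.cons 397 (.leaf 398 2960 (.cons 396 (.leaf 369 2952 (.cons 325 (.leaf 301 2406 (.leaf 420 2598 .nil)) .nil)) .nil)) .nil)) (.cons 349 (.leaf 350 2769 (.cons 374 (.leaf 347 2771 (.cons 395 (.leaf 394 2962 (.cons 375 (.leaf 396 2970 (.cons 399 (.leaf 398 2968 (.leaf 400 2976 .nil)) .nil)) .nil)) .nil)) .nil)) (.cons 349 (.leaf 350 2769 (.cons 374 (.leaf 347 2771 (.cons 395 (.leaf 394 2962 (.cons 375 (.leaf 396 2970 (.cons 352 (.leaf 351 2785 (.cons 376 (.leaf 353 2793 (.cons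 400 (.leaf 399 2976 (.leaf 401 2984 .nil)) .nil)) .nil)) .nil)) .nil)) .nil)) .nil)) (.cons 374 (.leaf 347 2771 (.cons 398 (.leaf 397 2960 (.leaf 399 2968 .nil)) .nil)) .nil)))) (.cons 373 t88 (.cons 300 (.cons 324 (.leaf 348 2207 (.cons 297 (.leaf 325 2376 (.cons 320 (.leaf 321 2370 (.cons 296 (.leaf 319 2362 (.cons 272 (.leaf 271 2171 (.leaf 273 2179 .nil)) .nil)) .nil)) .nil)) .nil)) (.cons 297 (.cons 273 (.leaf 272 2179 (.cons 301 (.leaf 274 2187 (.cons 278 (.leaf 277 2193 (.cons 302 (.leaf 279 2201 (.cons 326 (.leaf 325 2384 (.leaf 327 2392 .nil)) .nil)) .nil)) .nil)) .nil)) (.cons 320 (.leaf 321 2370 (.cons 296 (.leaf 319 2362 (.cons 271 (.leaf 272 2171 (.cons 295 (.leaf 274 2169 (.leaf 270 2163 .nil)) .nil)) .nil)) .nil)) (.cons 320 (.leaf 321 2370 (.cons 296 (.leaf 319 2362 (.cons 274 (.leaf 295 2169 (.cons 301 (.leaf 302 2195 (.leaf 273 2187 .nil)) .nil)) .nil)) .nil)) (.cons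 272 (.leaf 273 2179 (.cons 296 (.leaf 271 2171 (.cons 320 (.leaf 319 2362 (.leaf 321 2370 .nil)) .nil)) .nil)) .nil)))) (.cons 348 t87 .nil))) (.cons 300 t86 (.cons 300 (.cons 348 (.leaf 324 2207 (.cons 349 (.leaf 369 2761 (.cons 350 (.leaf 373 2769 (.leaf 351 2778 .nil)) .nil)) .nil)) (.cons 297 (.cons 273 (.leaf 272 2179 (.cons 301 (.leaf 274 2187 (.cons 278 (.leaf 277 2193 (.cons 302 (.leaf 279 2201 (.cons 326 (.leaf 325 2384 (.leaf 327 2392 .nil)) .nil)) .nil)) .nil)) .nil)) (.cons 320 (.leaf 321 2370 (.cons 296 (.leaf 319 2362 (.cons 271 (.leaf 272 2171 (.cons 295 (.leaf 274 2169 (.leaf 270 2163 .nil)) .nil)) .nil)) .nil)) (.cons 320 (.leaf 321 2370 (.cons 296 (.leaf 319 2362 (.cons 274 (.leaf 295 2169 (.cons 301 (.leaf 302 2195 (.leaf 273 2187 .nil)) .nil)) .nil)) .nil)) (.cons 272 (.leaf 273 2179 (.cons 296 (.leaf 271 2171 (.cons 320 (.leaf 319 2362 (.leaf 321 2370 .nil)) .nil))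 .nil)) .nil)))) .nil)) (.cons 373 (.cons 349 (.leaf 350 2769 (.cons 374 (.leaf 347 2771 (.cons 398 (.leaf 397 2960 (.leaf 399 2968 .nil)) .nil)) .nil)) (.cons 349 (.leaf 350 2769 (.cons 348 (.leaf 369 2761 (.cons 324 (.leaf 300 2207 (.cons 397 (.leaf 398 2960 (.leaf 421 2599 .nil)) .nil)) .nil)) .nil)) (.cons 374 (.leaf 347 2771 (.cons 350 (.leaf 349 2769 (.leaf 351 2777 .nil)) .nil)) (.cons 374 (.leaf 347 2771 (.cons 398 (.leaf 397 2960 (.leaf 399 2968 .nil)) .nil)) .nil)))) .nil)))))))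
noncomputable def t90 : T := .cons 395 (.leaf 419 2580 (.cons 368 (.leaf 367 2936 (.leaf 396 2944 .nil)) .nil)) (.cons 368 (.cons 297 (.leaf 321 2383 (.cons 343 (.leaf 344 2747 (.cons 367 (.leaf 342 2739 (.cons 391 (.leaf 390 2930 (.leaf 392 2938 .nil)) .nil)) .nil)) .nil)) (.cons 297 (.leaf 321 2383 (.cons 343 (.leaf 344 2747 (.cons 367 (.leaf 342 2739 (.cons 366 (.leaf 393 2928 (.cons 390 (.leaf 391 2930 (.leaf 389 2922 .nil)) .nil)) .nil)) .nil)) .nil)) (.cons 343 (.leaf 344 2747 (.cons 367 (.leaf 342 2739 (.cons 393 (.leaf 366 2928 (.cons 372 (.leaf 392 2946 (.leaf 373 2954 .nil)) .nil)) .nil)) .nil)) (.cons 297 (.leaf 321 2383 (.cons 392 (.leaf 391 2938 (.cons 372 (.leaf 393 2946 (.cons 349 (.leaf 348 2761 (.cons 373 (.leaf 350 2769 (.cons 397 (.leaf 396 2952 (.leaf 398 2960 .nil)) .nil)) .nil)) .nil)) .nil)) .nil)) .nil)))) (.cons 419 (.leaf 395 2580 (.cons 443 (.leaf 418 2772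 (.cons 321 (.leaf 297 2383 (.cons 372 (.cons 393 (.leaf 392 2946 (.leaf 373 2954 .nil)) (.cons 348 (.leaf 349 2761 (.cons 396 (.leaf 397 2952 (.leaf 420 2782 .nil)) .nil)) .nil)) .nil)) .nil)) .nil)) (.cons 395 (.leaf 419 2580 (.cons 297 (.leaf 321 2383 (.cons 368 (.leaf 367 2936 (.cons 392 (.leaf 391 2938 (.cons 372 (.leaf 393 2945 (.cons 343 (.leaf 344 2747 (.cons 349 (.leaf 348 2761 (.cons 373 (.leaf 350 2769 (.leaf 374 2962 .nil)) .nil)) .nil)) .nil)) .nil)) .nil)) .nil)) .nil)) .nil)))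
noncomputable def t91 : T := .cons 373 (.cons 398 (.leaf 397 2960 (.cons 350 (.leaf 349 2769 (.cons 374 (.leaf 347 2771 (.leaf 351 2777 .nil)) .nil)) .nil)) (.cons 349 (.leaf 350 2769 (.cons 397 (.leaf 398 2960 (.cons 348 (.cons 324 (.leaf 300 2404 (.leaf 421 2599 .nil)) (.cons 347 (.leaf 321 2571 (.cons 325 (.leaf 326 2577 (.cons 396 (.leaf 301 2406 (.leaf 420 2597 .nil)) .nil)) .nil)) .nil)) .nil)) .nil)) (.cons 374 (.leaf 347 2771 (.cons 398 (.leaf 397 2960 (.leaf 399 2968 .nil)) .nil)) (.cons 398 (.leaf 397 2960 (.cons 350 (.leaf 349 2769 (.cons 374 (.leaf 351 2777 (.leaf 399 2968 .nil)) .nil)) .nil)) (.cons 347 (.leaf 374 2771 (.cons 349 (.leaf 350 2769 (.cons 348 (.leaf 321 2571 (.cons 300 (.leaf 324 2207 (.cons 325 (.leaf 326 2577 (.cons 396 (.leaf 301 2406 (.leaf 420 2597 .nil)) .nil)) .nil)) .nil)) .nil)) .nil)) .nil))))) (.cons 373 (.cons 350 (.leaf 349 2769 (.cons 374 (.leaf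 347 2771 (.leaf 351 2777 .nil)) .nil)) (.cons 349 (.leaf 350 2769 (.cons 397 (.leaf 398 2960 (.cons 396 (.leaf 369 2952 (.cons 325 (.leaf 301 2406 (.leaf 420 2598 .nil)) .nil)) .nil)) .nil)) (.cons 347 (.leaf 374 2771 (.cons 395 (.leaf 419 2583 (.cons 397 (.leaf 398 2960 (.cons 369 (.leaf 396 2952 (.cons 368 (.leaf 367 2745 (.cons 392 (.leaf 391 2938 (.leaf 393 2946 .nil)) .nil)) .nil)) .nil)) .nil)) .nil)) .nil))) (.cons 397 (.cons 396 (.leaf 369 2952 (.cons 398 (.leaf 373 2960 (.leaf 395 2963 .nil)) .nil)) (.cons 373 (.leaf 398 2960 (.cons 349 (.leaf 350 2769 (.cons 348 (.leaf 369 2761 (.cons 324 (.leaf 300 2404 (.leaf 421 2599 .nil)) .nil)) .nil)) .nil)) (.cons 348 (.cons 324 (.leaf 300 2207 (.cons 396 (.leaf 369 2952 (.leaf 421 2596 .nil)) .nil)) (.cons 324 (.leaf 300 2207 (.cons 396 (.leaf 421 2596 (.cons 325 (.leaf 301 2405 (.cons 349 (.leaf 420 2597 (.cons 350 (.leaf 373 2769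 (.leaf 351 2778 .nil)) .nil)) .nil)) .nil)) .nil)) (.cons 369 (.leaf 349 2761 (.leaf 396 2952 .nil)) (.cons 300 (.leaf 324 2207 (.cons 349 (.leaf 369 2761 (.cons 350 (.leaf 373 2769 (.leaf 351 2778 .nil)) .nil)) .nil)) .nil)))) (.cons 396 (.leaf 369 2952 (.cons 398 (.leaf 395 2963 (.leaf 399 2971 .nil)) .nil)) (.cons 398 (.leaf 373 2960 (.cons 396 (.leaf 395 2963 (.leaf 399 2971 .nil)) .nil)) .nil))))) (.cons 369 (.cons 396 (.leaf 397 2952 (.cons 368 (.leaf 395 2944 (.cons 347 (.leaf 367 2745 (.leaf 348 2753 .nil)) .nil)) .nil)) (.cons 392 (.leaf 393 2946 (.cons 368 (.leaf 391 2938 (.cons 347 (.leaf 367 2745 (.leaf 348 2753 .nil)) .nil)) .nil)) (.cons 393 (.leaf 392 2946 (.cons 417 (.leaf 441 2765 (.cons 373 (.cons 374 (.leaf 347 2771 (.cons 351 (.leaf 350 2777 (.cons 375 (.leaf 352 2785 (.cons 399 (.leaf 398 2968 (.leaf 400 2976 .nil)) .nil)) .nil)) .nil)) (.cons 397 (.leaf 396 2952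 (.leaf 398 2960 .nil)) (.cons 374 (.leaf 347 2771 (.cons 351 (.leaf 350 2777 (.cons 375 (.leaf 352 2785 (.cons 396 (.leaf 397 2952 (.leaf 395 2970 .nil)) .nil)) .nil)) .nil)) .nil))) .nil)) .nil)) (.cons 396 (.leaf 397 2952 (.cons 368 (.leaf 395 2944 (.cons 392 (.leaf 391 2938 (.leaf 393 2946 .nil)) .nil)) .nil)) .nil)))) (.cons 395 (.cons 419 (.leaf 347 2583 (.leaf 443 2775 .nil)) (.cons 369 (.cons 348 (.leaf 349 2761 (.cons 300 (.leaf 324 2398 (.cons 368 (.leaf 347 2753 (.leaf 396 2944 .nil)) .nil)) .nil)) (.cons 368 (.leaf 396 2944 (.cons 392 (.leaf 391 2938 (.leaf 393 2946 .nil)) .nil)) (.cons 349 (.leaf 348 2761 (.cons 373 (.leaf 350 2769 (.cons 374 (.leaf 347 2771 (.cons 375 (.leaf 396 2970 (.cons 399 (.leaf 398 2968 (.leaf 400 2976 .nil)) .nil)) .nil)) .nil)) .nil)) (.cons 348 (.leaf 349 2761 (.cons 300 (.leaf 324 2398 (.cons 368 (.leaf 347 2753 (.cons 392 (.leaf 391 2938 (.leaf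 393 2946 .nil)) .nil)) .nil)) .nil)) .nil)))) (.cons 419 (.leaf 443 2775 (.cons 348 (.cons 324 (.leaf 300 2398 (.leaf 396 2590 .nil)) (.cons 349 (.leaf 369 2761 (.cons 350 (.leaf 373 2769 (.leaf 351 2778 .nil)) .nil)) .nil)) .nil)) .nil))) (.cons 373 (.cons 374 (.leaf 347 2771 (.cons 398 (.leaf 397 2960 (.leaf 399 2968 .nil)) .nil)) (.cons 349 (.leaf 350 2769 (.cons 348 (.leaf 369 2761 (.cons 324 (.leaf 300 2207 (.cons 397 (.leaf 398 2960 (.leaf 421 2599 .nil)) .nil)) .nil)) .nil)) (.cons 347 (.leaf 374 2771 (.cons 349 (.leaf 350 2769 (.cons 348 (.leaf 321 2571 (.leaf 369 2761 .nil)) .nil)) .nil)) .nil))) .nil)))))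
noncomputable def t92 : T := .cons 417 (.leaf 393 2574 (.cons 297 (.leaf 321 2383 (.cons 418 (.leaf 441 2766 (.cons 442 (.leaf 347 2773 (.cons 443 (.leaf 419 2772 (.leaf 467 2964 .nil)) .nil)) .nil)) .nil)) .nil)) (.cons 417 (.leaf 393 2574 (.cons 297 (.leaf 321 2383 (.cons 418 (.leaf 441 2766 (.cons 442 (.leaf 347 2773 (.cons 466 (.leaf 395 2965 (.cons 467 (.leaf 443 2964 (.leaf 491 3156 .nil)) .nil)) .nil)) .nil)) .nil)) .nil)) (.cons 419 (.leaf 395 2580 (.cons 297 (.leaf 321 2383 (.cons 418 (.leaf 443 2772 (.cons 441 (.leaf 417 2766 (.cons 442 (.leaf 347 2773 (.leaf 465 2958 .nil)) .nil)) .nil)) .nil)) .nil)) (.cons 321 (.leaf 297 2383 (.cons 418 (.cons 395 (.leaf 419 2580 (.cons 442 (.leaf 347 2773 (.leaf 466 2965 .nil)) .nil)) (.cons 442 (.leaf 347 2773 (.cons 441 (.leaf 465 2958 (.cons 466 (.leaf 395 2965 (.cons 467 (.leaf 443 2964 (.leaf 491 3156 .nil)) .nil)) .nil)) .nil))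 (.cons 442 (.leaf 347 2773 (.cons 443 (.leaf 419 2772 (.leaf 467 2964 .nil)) .nil)) (.cons 419 (.leaf 395 2580 (.leaf 443 2772 .nil)) .nil)))) .nil)) (.cons 419 (.leaf 395 2580 (.cons 417 (.leaf 393 2574 (.cons 418 (.leaf 441 2766 (.leaf 443 2772 .nil)) .nil)) .nil)) (.cons 395 (.leaf 419 2580 (.cons 297 (.leaf 321 2383 (.cons 393 (.leaf 417 2574 (.cons 392 (.leaf 391 2937 (.cons 368 (.leaf 367 2939 (.cons 396 (.leaf 369 2944 (.cons 397 (.leaf 398 2963 (.cons 421 (.leaf 420 3144 (.leaf 422 3152 .nil)) .nil)) .nil)) .nil)) .nil)) .nil)) .nil)) .nil)) .nil)))))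
noncomputable def t93 : T := .cons 297 (.leaf 321 2383 (.cons 393 (.leaf 417 2574 (.cons 372 (.leaf 373 2954 (.cons 392 (.leaf 391 2937 (.leaf 395 2945 .nil)) .nil)) .nil)) .nil)) (.cons 297 (.leaf 321 2383 (.cons 417 (.leaf 393 2574 (.cons 418 (.leaf 441 2766 (.cons 442 (.leaf 347 2773 (.cons 443 (.leaf 419 2772 (.leaf 467 2964 .nil)) .nil)) .nil)) .nil)) .nil)) (.cons 419 (.leaf 395 2580 (.cons 297 (.leaf 321 2383 (.cons 418 (.leaf 443 2772 (.cons 441 (.leaf 417 2766 (.cons 442 (.leaf 347 2773 (.leaf 465 2958 .nil)) .nil)) .nil)) .nil)) .nil)) (.cons 321 (.leaf 297 2383 (.cons 418 (.cons 442 (.leaf 347 2773 (.cons 441 (.leaf 465 2958 (.cons 466 (.leaf 395 2965 (.cons 467 (.leaf 443 2964 (.leaf 491 3156 .nil)) .nil)) .nil)) .nil)) (.cons 442 (.leaf 347 2773 (.cons 443 (.leaf 419 2772 (.leaf 467 2964 .nil)) .nil)) (.cons 419 (.leaf 395 2580 (.leaf 443 2772 .nil)) (.cons 395 (.leaf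 419 2580 (.cons 442 (.leaf 347 2773 (.leaf 466 2965 .nil)) .nil)) .nil)))) .nil)) (.cons 419 (.leaf 395 2580 (.cons 417 (.leaf 393 2574 (.cons 418 (.leaf 441 2766 (.leaf 443 2772 .nil)) .nil)) .nil)) .nil))))
noncomputable def t94 : T := .cons 372 (.cons 348 (.leaf 349 2761 (.cons 300 (.leaf 324 2207 (.cons 393 (.leaf 392 2946 (.cons 373 (.leaf 394 2954 (.cons 397 (.leaf 396 2952 (.leaf 398 2960 .nil)) .nil)) .nil)) .nil)) .nil)) (.cons 393 (.leaf 392 2946 (.cons 373 (.leaf 394 2954 (.cons 397 (.leaf 396 2952 (.leaf 398 2960 .nil)) .nil)) .nil)) (.cons 348 (.leaf 349 2761 (.cons 300 (.leaf 324 2207 (.cons 297 (.cons 273 (.leaf 272 2179 (.cons 301 (.leaf 274 2187 (.cons 278 (.leaf 277 2193 (.cons 302 (.leaf 279 2201 (.cons 326 (.leaf 325 2384 (.leaf 327 2392 .nil)) .nil)) .nil)) .nil)) .nil)) (.cons 320 (.leaf 321 2370 (.cons 296 (.leaf 319 2362 (.cons 271 (.leaf 272 2171 (.cons 295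 (.leaf 274 2169 (.leaf 270 2163 .nil)) .nil)) .nil)) .nil)) (.cons 320 (.leaf 321 2370 (.cons 296 (.leaf 319 2362 (.cons 274 (.leaf 295 2169 (.cons 301 (.leaf 302 2195 (.leaf 273 2187 .nil)) .nil)) .nil)) .nil)) (.cons 272 (.leaf 273 2179 (.cons 296 (.leaf 271 2171 (.cons 320 (.leaf 319 2362 (.leaf 321 2370 .nil)) .nil)) .nil)) .nil)))) .nil)) .nil)) .nil))) (.cons 368 (.cons 347 (.leaf 367 2745 (.leaf 348 2753 .nil)) (.cons 391 (.leaf 392 2938 (.cons 343 (.leaf 344 2747 (.cons 367 (.leaf 342 2739 (.leaf 390 2930 .nil)) .nil)) .nil)) (.cons 392 (.leaf 391 2938 (.cons 344 (.leaf 343 2747 (.cons 416 (.cons 347 (.leaf 348 2753 (.cons 417 (.leaf 441 2756 (.cons 320 (.leaf 393 2564 (.cons 297 (.leaf 321 2373 (.cons 296 (.leaf 319 2362 (.leaf 273 2181 .nil)) .nil)) .nil)) .nil)) .nil)) (.cons 439 (.leaf 415 2750 (.cons 440 (.leaf 463 2942 (.cons 347 (.leaf 348 2753 (.cons 464 (.leaf 393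 2949 (.cons 465 (.leaf 441 2948 (.leaf 489 3140 .nil)) .nil)) .nil)) .nil)) .nil)) (.cons 439 (.leaf 415 2750 (.cons 440 (.leaf 463 2942 (.cons 393 (.leaf 464 2949 (.cons 320 (.leaf 296 2372 (.leaf 417 2564 .nil)) .nil)) .nil)) .nil)) (.cons 347 (.leaf 348 2753 (.cons 439 (.leaf 415 2750 (.cons 440 (.leaf 463 2942 (.cons 441 (.leaf 417 2756 (.leaf 465 2948 .nil)) .nil)) .nil)) .nil)) .nil)))) .nil)) .nil)) .nil))) (.cons 368 (.cons 347 (.leaf 367 2745 (.cons 392 (.leaf 391 2938 (.cons 372 (.leaf 393 2946 (.cons 343 (.leaf 344 2747 (.cons 373 (.leaf 374 2771 (.cons 397 (.leaf 396 2952 (.leaf 398 2960 .nil)) .nil)) .nil)) .nil)) .nil)) .nil)) (.cons 344 (.leaf 343 2747 (.cons 392 (.leaf 391 2938 (.cons 393 (.leaf 372 2946 (.cons 417 (.leaf 441 2765 (.leaf 320 2564 .nil)) .nil)) .nil)) .nil)) (.cons 343 (.leaf 344 2747 (.cons 367 (.leaf 347 2745 (.leaf 342 2739 .nil)) .nil)) (.cons 347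 (.leaf 367 2745 (.cons 392 (.leaf 391 2938 (.cons 372 (.leaf 393 2946 (.cons 373 (.leaf 374 2771 (.cons 397 (.leaf 396 2952 (.leaf 398 2960 .nil)) .nil)) .nil)) .nil)) .nil)) .nil)))) (.cons 372 (.cons 349 (.leaf 348 2761 (.cons 373 (.leaf 350 2769 (.cons 397 (.leaf 396 2952 (.leaf 398 2960 .nil)) .nil)) .nil)) (.cons 397 (.leaf 396 2952 (.cons 373 (.leaf 398 2960 (.cons 350 (.leaf 349 2769 (.cons 374 (.leaf 347 2771 (.leaf 351 2777 .nil)) .nil)) .nil)) .nil)) (.cons 397 (.leaf 396 2952 (.cons 373 (.leaf 398 2960 (.cons 347 (.leaf 374 2771 (.cons 368 (.leaf 367 2745 (.leaf 348 2753 .nil)) .nil)) .nil)) .nil)) (.cons 348 (.leaf 349 2761 (.cons 300 (.leaf 324 2207 (.cons 368 (.leaf 347 2753 (.cons 343 (.leaf 344 2747 (.cons 367 (.leaf 342 2739 (.cons 391 (.leaf 390 2930 (.leaf 392 2938 .nil)) .nil)) .nil)) .nil)) .nil)) .nil)) .nil)))) (.cons 372 (.cons 349 (.leaf 348 2761 (.cons 373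 (.leaf 350 2769 (.cons 397 (.leaf 396 2952 (.leaf 398 2960 .nil)) .nil)) .nil)) (.cons 397 (.leaf 396 2952 (.cons 373 (.leaf 398 2960 (.cons 350 (.leaf 349 2769 (.cons 374 (.leaf 347 2771 (.leaf 351 2777 .nil)) .nil)) .nil)) .nil)) (.cons 397 (.leaf 396 2952 (.cons 373 (.leaf 398 2960 (.cons 347 (.leaf 374 2771 (.cons 368 (.leaf 367 2745 (.leaf 348 2753 .nil)) .nil)) .nil)) .nil)) (.cons 348 (.leaf 349 2761 (.cons 368 (.leaf 347 2753 (.cons 300 (.leaf 324 2207 (.cons 344 (.leaf 343 2747 (.cons 301 (.cons 274 (.leaf 302 2195 (.leaf 273 2187 .nil)) (.cons 278 (.leaf 277 2193 (.cons 302 (.leaf 279 2201 (.cons 326 (.leaf 325 2384 (.leaf 327 2392 .nil)) .nil)) .nil)) (.cons 273 (.leaf 274 2187 (.cons 297 (.leaf 272 2179 (.cons 320 (.leaf 321 2370 (.leaf 296 2181 .nil)) .nil)) .nil)) .nil))) .nil)) .nil)) .nil)) .nil)) .nil)))) .nil))))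
noncomputable def t95 : T := .cons 348 (.leaf 349 2761 (.cons 324 (.leaf 300 2207 (.cons 392 (.leaf 393 2946 (.cons 396 (.leaf 397 2952 (.cons 419 (.leaf 395 2590 (.cons 301 (.leaf 325 2405 (.cons 420 (.leaf 443 2782 (.cons 444 (.leaf 347 2783 (.cons 445 (.leaf 421 2788 (.leaf 469 2980 .nil)) .nil)) .nil)) .nil)) .nil)) .nil)) .nil)) .nil)) .nil)) (.cons 393 (.leaf 392 2946 (.cons 373 (.leaf 394 2954 (.cons 397 (.leaf 396 2952 (.leaf 398 2960 .nil)) .nil)) .nil)) (.cons 348 (.leaf 349 2761 (.cons 324 (.leaf 300 2207 (.cons 396 (.leaf 397 2952 (.cons 419 (.leaf 395 2590 (.cons 420 (.leaf 443 2782 (.cons 301 (.leaf 325 2405 (.cons 444 (.leaf 347 2783 (.cons 445 (.leaf 421 2788 (.leaf 469 2980 .nil)) .nil)) .nil)) .nil)) .nil)) .nil)) .nil)) .nil)) (.cons 348 (.leaf 349 2761 (.cons 300 (.leaf 324 2207 (.cons 393 (.leaf 392 2946 (.cons 373 (.leaf 394 2954 (.cons 374 (.leaf 347 2771 (.cons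 351 (.leaf 350 2777 (.cons 375 (.leaf 352 2785 (.cons 399 (.leaf 398 2968 (.leaf 400 2976 .nil)) .nil)) .nil)) .nil)) .nil)) .nil)) .nil)) .nil)) .nil)))
noncomputable def t96 : T := .cons 368 (.cons 343 (.leaf 344 2747 (.cons 367 (.leaf 347 2745 (.leaf 342 2739 .nil)) .nil)) (.cons 343 (.leaf 344 2747 (.cons 367 (.leaf 342 2739 (.cons 391 (.leaf 390 2930 (.leaf 392 2938 .nil)) .nil)) .nil)) (.cons 343 (.leaf 344 2747 (.cons 348 (.leaf 347 2753 (.cons 372 (.leaf 349 2761 (.cons 396 (.leaf 395 2944 (.leaf 397 2952 .nil)) .nil)) .nil)) .nil)) (.cons 347 (.leaf 367 2745 (.leaf 348 2753 .nil)) .nil)))) (.cons 372 t95 (.cons 368 (.cons 343 (.leaf 344 2747 (.cons 347 (.leaf 367 2745 (.leaf 348 2753 .nil)) .nil)) (.cons 343 (.leaf 344 2747 (.cons 367 (.leaf 342 2739 (.cons 391 (.leaf 390 2930 (.leaf 392 2938 .nil)) .nil)) .nil)) (.cons 343 (.leaf 344 2747 (.cons 347 (.leaf 348 2753 (.cons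 392 (.leaf 391 2938 (.cons 395 (.leaf 396 2944 (.cons 419 (.leaf 443 2775 (.cons 420 (.leaf 444 2780 (.cons 393 (.leaf 394 3136 (.cons 417 (.leaf 441 2765 (.leaf 418 3139 .nil)) .nil)) .nil)) .nil)) .nil)) .nil)) .nil)) .nil)) (.cons 347 (.leaf 367 2745 (.leaf 348 2753 .nil)) .nil)))) (.cons 372 (.cons 348 (.leaf 349 2761 (.cons 324 (.leaf 300 2207 (.cons 396 (.leaf 397 2952 (.cons 395 (.leaf 368 2944 (.leaf 419 2590 .nil)) .nil)) .nil)) .nil)) (.cons 349 (.leaf 348 2761 (.cons 373 (.leaf 350 2769 (.cons 393 (.leaf 392 2946 (.leaf 394 2954 .nil)) .nil)) .nil)) (.cons 393 (.leaf 392 2946 (.cons 373 (.leaf 394 2954 (.cons 397 (.leaf 396 2952 (.leaf 398 2960 .nil)) .nil)) .nil)) .nil))) (.cons 368 (.cons 347 (.leaf 367 2745 (.cons 392 (.leaf 391 2938 (.cons 343 (.leaf 344 2747 (.cons 395 (.leaf 396 2944 (.cons 419 (.leaf 443 2775 (.cons 420 (.leaf 444 2780 (.cons 393 (.leaf 372 2946 (.leaf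 394 3136 .nil)) .nil)) .nil)) .nil)) .nil)) .nil)) .nil)) (.cons 343 (.leaf 344 2747 (.cons 392 (.leaf 391 2938 (.cons 372 (.leaf 393 2946 (.cons 396 (.leaf 395 2944 (.leaf 397 2952 .nil)) .nil)) .nil)) .nil)) (.cons 343 (.leaf 344 2747 (.cons 367 (.leaf 347 2745 (.leaf 342 2739 .nil)) .nil)) (.cons 347 (.leaf 367 2745 (.cons 392 (.leaf 391 2938 (.cons 372 (.leaf 393 2946 (.cons 396 (.leaf 395 2944 (.leaf 397 2952 .nil)) .nil)) .nil)) .nil)) .nil)))) (.cons 368 (.cons 347 (.leaf 367 2745 (.leaf 348 2753 .nil)) (.cons 343 (.leaf 344 2747 (.cons 342 (.leaf 367 2739 (.cons 392 (.leaf 391 2938 (.cons 372 (.leaf 393 2946 (.cons 349 (.leaf 348 2761 (.cons 373 (.leaf 350 2769 (.cons 397 (.leaf 396 2952 (.leaf 398 2960 .nil)) .nil)) .nil)) .nil)) .nil)) .nil)) .nil)) (.cons 343 (.leaf 344 2747 (.cons 347 (.leaf 348 2753 (.cons 392 (.leaf 391 2938 (.cons 372 (.leaf 393 2946 (.cons 373 (.leaf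 374 2771 (.cons 397 (.leaf 396 2952 (.leaf 398 2960 .nil)) .nil)) .nil)) .nil)) .nil)) .nil)) (.cons 367 (.leaf 347 2745 (.cons 343 (.leaf 342 2739 (.leaf 344 2747 .nil)) .nil)) .nil)))) (.cons 368 (.cons 343 (.leaf 344 2747 (.cons 348 (.leaf 347 2753 (.cons 372 (.leaf 349 2761 (.cons 392 (.leaf 391 2938 (.leaf 393 2946 .nil)) .nil)) .nil)) .nil)) (.cons 343 (.leaf 344 2747 (.cons 367 (.leaf 342 2739 (.cons 391 (.leaf 390 2930 (.leaf 392 2938 .nil)) .nil)) .nil)) (.cons 367 (.leaf 347 2745 (.cons 343 (.leaf 342 2739 (.leaf 344 2747 .nil)) .nil)) (.cons 347 (.leaf 367 2745 (.leaf 348 2753 .nil)) .nil)))) (.cons 368 (.cons 343 (.leaf 344 2747 (.cons 367 (.leaf 347 2745 (.leaf 342 2739 .nil)) .nil)) (.cons 343 (.leaf 344 2747 (.cons 367 (.leaf 342 2739 (.cons 395 (.leaf 394 2936 (.leaf 396 2944 .nil)) .nil)) .nil)) (.cons 343 (.leaf 344 2747 (.cons 348 (.leaf 347 2753 (.cons 372 (.leaf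 349 2761 (.cons 396 (.leaf 395 2944 (.leaf 397 2952 .nil)) .nil)) .nil)) .nil)) (.cons 347 (.leaf 367 2745 (.leaf 348 2753 .nil)) .nil)))) .nil)))))))
noncomputable def t97 : T := .cons 322 (.leaf 298 2197 (.cons 394 (.cons 419 (.leaf 395 2580 (.cons 297 (.leaf 321 2383 (.cons 417 (.leaf 393 2574 (.cons 418 (.leaf 441 2766 (.leaf 443 2772 .nil)) .nil)) .nil)) .nil)) (.cons 393 (.leaf 417 2574 (.cons 372 (.leaf 373 2954 (.cons 392 (.leaf 369 2946 (.leaf 391 2937 .nil)) .nil)) .nil)) (.cons 419 (.leaf 395 2580 (.cons 297 (.leaf 321 2383 (.cons 418 (.leaf 443 2772 (.cons 441 (.leaf 417 2766 (.cons 442 (.leaf 347 2773 (.leaf 465 2958 .nil)) .nil)) .nil)) .nil)) .nil)) (.cons 321 (.leaf 297 2383 (.cons 418 (.cons 419 (.leaf 395 2580 (.leaf 443 2772 .nil)) (.cons 442 (.leaf 347 2773 (.cons 441 (.leaf 465 2958 (.cons 466 (.leaf 395 2965 (.cons 467 (.leaf 443 2964 (.leaf 491 3156 .nil)) .nil))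 .nil)) .nil)) (.cons 442 (.leaf 347 2773 (.cons 443 (.leaf 419 2772 (.leaf 467 2964 .nil)) .nil)) (.cons 395 (.leaf 419 2580 (.cons 442 (.leaf 347 2773 (.leaf 466 2965 .nil)) .nil)) .nil)))) .nil)) .nil)))) .nil)) (.cons 369 t96 (.cons 298 (.leaf 322 2197 (.cons 369 (.cons 368 (.cons 347 (.leaf 367 2745 (.leaf 348 2753 .nil)) (.cons 344 (.leaf 343 2747 (.cons 392 (.leaf 391 2938 (.cons 393 (.leaf 372 2946 (.cons 417 (.leaf 441 2765 (.leaf 320 2564 .nil)) .nil)) .nil)) .nil)) .nil)) t94) .nil)) (.cons 322 (.leaf 298 2197 (.cons 394 t93 .nil)) (.cons 322 (.leaf 298 2197 (.cons 394 t92 .nil)) (.cons 322 (.leaf 298 2197 (.cons 372 (.cons 369 (.cons 396 (.leaf 397 2952 (.cons 368 (.leaf 395 2944 (.cons 347 (.leaf 367 2745 (.leaf 348 2753 .nil)) .nil)) .nil)) (.cons 392 (.leaf 393 2946 (.cons 368 (.leaf 391 2938 (.cons 396 (.leaf 395 2944 (.leaf 397 2952 .nil)) .nil)) .nil)) (.cons 392 (.leaf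 393 2946 (.cons 368 (.leaf 391 2938 (.cons 347 (.leaf 367 2745 (.leaf 348 2753 .nil)) .nil)) .nil)) (.cons 348 (.leaf 349 2761 (.cons 324 (.leaf 300 2207 (.cons 392 (.leaf 393 2946 (.cons 396 (.leaf 397 2952 (.cons 419 (.leaf 395 2590 (.cons 420 (.leaf 443 2782 (.cons 444 (.leaf 347 2783 (.cons 445 (.leaf 421 2788 (.leaf 469 2980 .nil)) .nil)) .nil)) .nil)) .nil)) .nil)) .nil)) .nil)) .nil)))) t91) .nil)) (.cons 322 (.leaf 298 2197 (.cons 394 (.cons 393 (.leaf 417 2574 (.cons 297 (.leaf 321 2383 (.cons 372 (.leaf 373 2954 (.cons 392 (.leaf 369 2946 (.leaf 391 2937 .nil)) .nil)) .nil)) .nil)) (.cons 321 (.leaf 297 2383 (.cons 418 (.cons 441 (.leaf 417 2766 (.cons 442 (.leaf 465 2958 (.cons 466 (.leaf 395 2965 (.cons 467 (.leaf 443 2964 (.leaf 491 3156 .nil)) .nil)) .nil)) .nil)) (.cons 441 (.leaf 417 2766 (.cons 442 (.leaf 465 2958 (.cons 443 (.leaf 419 2772 (.leaf 467 2964 .nil)) .nil))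 .nil)) (.cons 395 (.leaf 419 2580 (.cons 441 (.leaf 417 2766 (.cons 442 (.leaf 465 2958 (.leaf 466 2965 .nil)) .nil)) .nil)) (.cons 419 (.leaf 395 2580 (.leaf 443 2772 .nil)) .nil)))) .nil)) (.cons 369 t90 (.cons 393 (.leaf 417 2574 (.cons 372 (.leaf 373 2954 (.cons 392 (.leaf 369 2946 (.leaf 391 2937 .nil)) .nil)) .nil)) .nil)))) .nil)) (.cons 298 (.leaf 322 2197 (.cons 372 (t89) .nil)) (.cons 322 (.leaf 298 2197 (.cons 394 t85 .nil)) .nil))))))))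
noncomputable def t98 : T := .cons 296 (.cons 271 (.leaf 272 2171 (.cons 295 (.leaf 274 2169 (.leaf 270 2163 .nil)) .nil)) (.cons 272 (.leaf 271 2171 (.cons 320 (.leaf 319 2362 (.cons 273 (.cons 249 (.leaf 225 1798 (.leaf 344 1989 .nil)) (.cons 321 (.leaf 345 2188 (.cons 225 (.leaf 249 1798 (.cons 248 (.leaf 224 1796 (.cons 247 (.leaf 274 1979 (.leaf 223 1791 .nil)) .nil)) .nil)) .nil)) (.cons 345 (.leaf 321 2188 (.cons 344 (.leaf 368 2181 (.leaf 369 2180 .nil)) .nil)) .nil))) .nil)) .nil)) (.cons 295 (.leaf 274 2169 (.cons 319 (.leaf 320 2362 (.leaf 318 2354 .nil)) .nil)) (.cons 319 (.leaf 320 2362 (.cons 271 (.leaf 272 2171 (.cons 295 (.leaf 270 2163 (.leaf 318 2354 .nil)) .nil)) .nil)) .nil)))) (.cons 300 (.cons 273 (.leaf 272 2179 (.cons 324 (.leaf 325 2376 (.cons 345 (.leaf 321 2188 (.cons 301 (.leaf 274 2187 (.cons 277 (.leaf 278 2193 (.cons 372 (.leaf 348 2213 (.cons 371 (.leaf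 373 2763 (.cons 344 (.leaf 343 2744 (.leaf 347 2752 .nil)) .nil)) .nil)) .nil)) .nil)) .nil)) .nil)) .nil)) (.cons 325 (.leaf 324 2376 (.cons 301 (.leaf 326 2384 (.cons 278 (.leaf 277 2193 (.cons 302 (.leaf 274 2195 (.leaf 279 2201 .nil)) .nil)) .nil)) .nil)) (.cons 273 (.leaf 272 2179 (.cons 321 (.leaf 320 2370 (.leaf 345 2188 .nil)) .nil)) .nil))) (.cons 296 (.cons 271 (.leaf 272 2171 (.cons 320 (.leaf 319 2362 (.cons 295 (.leaf 274 2169 (.leaf 270 2163 .nil)) .nil)) .nil)) (.cons 271 (.leaf 272 2171 (.cons 320 (.leaf 319 2362 (.cons 300 (.leaf 321 2370 (.cons 325 (.leaf 324 2376 (.cons 301 (.leaf 326 2384 (.cons 278 (.leaf 277 2193 (.cons 302 (.leaf 274 2195 (.leaf 279 2201 .nil)) .nil)) .nil)) .nil)) .nil)) .nil)) .nil)) (.cons 271 (.leaf 272 2171 (.cons 295 (.leaf 274 2169 (.leaf 270 2163 .nil)) .nil)) (.cons 320 (.leaf 319 2362 (.cons 274 (.leaf 295 2169 (.cons 300 (.leaf 321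 2370 (.cons 301 (.leaf 302 2195 (.cons 325 (.leaf 324 2376 (.leaf 326 2384 .nil)) .nil)) .nil)) .nil)) .nil)) (.cons 320 (.leaf 319 2362 (.cons 272 (.leaf 271 2171 (.cons 321 (.leaf 300 2370 (.cons 345 (.leaf 369 2183 (.leaf 248 1988 .nil)) .nil)) .nil)) .nil)) .nil))))) (.cons 300 (.cons 321 (.leaf 320 2370 (.cons 324 (.leaf 325 2376 (.cons 345 (.leaf 273 2188 (.cons 372 (.leaf 348 2207 (.cons 371 (.leaf 373 2763 (.cons 344 (.leaf 343 2744 (.leaf 347 2752 .nil)) .nil)) .nil)) .nil)) .nil)) .nil)) (.cons 325 (.leaf 324 2376 (.cons 301 (.leaf 326 2384 (.cons 278 (.leaf 277 2193 (.cons 302 (.leaf 274 2195 (.leaf 279 2201 .nil)) .nil)) .nil)) .nil)) (.cons 320 (.leaf 321 2370 (.cons 296 (.leaf 319 2362 (.cons 274 (.leaf 295 2169 (.cons 301 (.leaf 302 2195 (.leaf 273 2187 .nil)) .nil)) .nil)) .nil)) .nil))) (.cons 296 (.cons 272 (.leaf 271 2171 (.cons 273 (.leaf 300 2179 (.cons 274 (.leaf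 252 1985 (.leaf 295 2169 .nil)) .nil)) .nil)) (.cons 272 (.leaf 271 2171 (.cons 273 (.leaf 300 2179 (.cons 320 (.leaf 319 2362 (.cons 249 (.leaf 225 1798 (.leaf 344 1989 .nil)) .nil)) .nil)) .nil)) (.cons 295 (.leaf 274 2169 (.cons 319 (.leaf 320 2362 (.leaf 318 2354 .nil)) .nil)) .nil))) (.cons 300 (.cons 273 (.leaf 272 2179 (.cons 324 (.leaf 325 2376 (.cons 345 (.leaf 321 2188 (.cons 301 (.leaf 274 2187 (.cons 277 (.leaf 278 2193 (.cons 372 (.leaf 348 2213 (.cons 371 (.leaf 373 2763 (.cons 344 (.leaf 343 2744 (.leaf 347 2752 .nil)) .nil)) .nil)) .nil)) .nil)) .nil)) .nil)) .nil)) (.cons 325 (.leaf 324 2376 (.cons 301 (.leaf 326 2384 (.cons 278 (.leaf 277 2193 (.cons 302 (.leaf 274 2195 (.leaf 279 2201 .nil)) .nil)) .nil)) .nil)) (.cons 296 (.cons 272 (.leaf 271 2171 (.leaf 273 2179 .nil)) (.cons 274 (.leaf 295 2169 (.cons 301 (.leaf 302 2195 (.leaf 273 2187 .nil)) .nil)) (.cons 271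 (.leaf 272 2171 (.cons 295 (.leaf 274 2169 (.leaf 270 2163 .nil)) .nil)) .nil))) (.cons 273 (.leaf 272 2179 (.cons 324 (.leaf 325 2376 (.cons 345 (.leaf 321 2188 (.cons 372 (.leaf 348 2207 (.cons 371 (.leaf 373 2763 (.cons 344 (.leaf 343 2744 (.leaf 347 2752 .nil)) .nil)) .nil)) .nil)) .nil)) .nil)) .nil)))) (.cons 320 (.cons 321 (.leaf 300 2370 (.cons 273 (.leaf 345 2188 (.cons 319 (.leaf 296 2362 (.leaf 318 2353 .nil)) .nil)) .nil)) (.cons 296 (.leaf 319 2362 (.cons 272 (.leaf 271 2171 (.cons 273 (.leaf 300 2179 (.cons 249 (.leaf 225 1798 (.leaf 344 1989 .nil)) .nil)) .nil)) .nil)) (.cons 321 (.leaf 300 2370 (.cons 273 (.leaf 345 2188 (.cons 249 (.leaf 344 1990 (.cons 224 (.leaf 248 1799 (.cons 225 (.leaf 200 1607 (.cons 202 (.leaf 226 1613 (.cons 201 (.leaf 203 1602 (.leaf 178 1421 .nil)) .nil)) .nil)) .nil)) .nil)) .nil)) .nil)) (.cons 319 (.leaf 296 2362 (.cons 321 (.leaf 318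 2353 (.cons 345 (.leaf 273 2188 (.cons 347 (.leaf 344 2555 (.leaf 348 2563 .nil)) .nil)) .nil)) .nil)) (.cons 319 (.leaf 296 2362 (.cons 321 (.leaf 300 2370 (.leaf 318 2353 .nil)) .nil)) .nil))))) .nil))))))
noncomputable def t99 : T := .cons 322 (.leaf 298 2197 (.cons 394 (.cons 419 (.leaf 395 2580 (.cons 417 (.leaf 393 2574 (.cons 418 (.leaf 441 2766 (.leaf 443 2772 .nil)) .nil)) .nil)) (.cons 321 (.leaf 297 2383 (.cons 417 (.leaf 393 2574 (.cons 418 (.leaf 345 2575 (.leaf 441 2766 .nil)) .nil)) .nil)) (.cons 321 (.leaf 297 2383 (.cons 418 (.leaf 345 2575 (.cons 419 (.leaf 395 2580 (.leaf 443 2772 .nil)) .nil)) .nil)) (.cons 321 (.leaf 297 2383 (.cons 395 (.leaf 419 2580 (.cons 393 (.leaf 417 2574 (.cons 392 (.cons 368 (.leaf 367 2939 (.cons 372 (.leaf 371 2945 (.cons 416 (.leaf 415 3130 (.cons 344 (.leaf 345 2565 (.cons 319 (.leaf 343 2559 (.cons 320 (.leaf 347 2552 (.leaf 295 2367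 .nil)) .nil)) .nil)) .nil)) .nil)) .nil)) (.cons 367 (.leaf 368 2939 (.cons 391 (.leaf 366 2931 (.cons 415 (.leaf 414 3122 (.leaf 416 3130 .nil)) .nil)) .nil)) (.cons 371 (.leaf 391 2937 (.leaf 372 2945 .nil)) .nil))) .nil)) .nil)) .nil)) .nil)))) .nil)) (.cons 298 (.leaf 322 2197 (.cons 297 (.cons 300 (.cons 273 (.leaf 272 2179 (.cons 324 (.leaf 325 2376 (.cons 345 (.leaf 321 2188 (.cons 274 (.leaf 301 2187 (.cons 296 (.leaf 295 2169 (.cons 320 (.leaf 319 2362 (.cons 344 (.leaf 368 2181 (.cons 371 (.leaf 343 2744 (.cons 372 (.leaf 348 2207 (.leaf 347 2752 .nil)) .nil)) .nil)) .nil)) .nil)) .nil)) .nil)) .nil)) .nil)) (.cons 325 (.leaf 324 2376 (.cons 301 (.leaf 326 2384 (.cons 278 (.leaf 277 2193 (.cons 302 (.leaf 274 2195 (.leaf 279 2201 .nil)) .nil)) .nil)) .nil)) (.cons 273 (.leaf 272 2179 (.cons 321 (.leaf 320 2370 (.leaf 345 2188 .nil)) .nil)) .nil))) t98) .nil)) (.cons 322 (.leaf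 298 2197 (.cons 394 (.cons 321 (.leaf 297 2383 (.cons 417 (.leaf 393 2574 (.cons 418 (.leaf 345 2575 (.leaf 441 2766 .nil)) .nil)) .nil)) (.cons 417 (.leaf 393 2574 (.cons 418 (.leaf 441 2766 (.cons 419 (.leaf 395 2580 (.leaf 443 2772 .nil)) .nil)) .nil)) (.cons 321 (.leaf 297 2383 (.cons 418 (.leaf 345 2575 (.cons 419 (.leaf 395 2580 (.leaf 443 2772 .nil)) .nil)) .nil)) (.cons 321 (.leaf 297 2383 (.cons 393 (.leaf 417 2574 (.cons 395 (.leaf 419 2580 (.cons 396 (.cons 369 (.leaf 397 2955 (.leaf 368 2947 .nil)) (.cons 373 (.leaf 372 2953 (.cons 397 (.leaf 374 2961 (.cons 421 (.leaf 420 3144 (.leaf 422 3152 .nil)) .nil)) .nil)) (.cons 368 (.leaf 369 2947 (.cons 392 (.leaf 367 2939 (.cons 416 (.leaf 415 3130 (.cons 344 (.leaf 345 2565 (.cons 319 (.leaf 343 2559 (.cons 320 (.leaf 347 2552 (.leaf 295 2367 .nil)) .nil)) .nil)) .nil)) .nil)) .nil)) .nil))) .nil)) .nil)) .nil)) .nil)))) .nil))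 (.cons 371 t97 (.cons 322 (.leaf 298 2197 (.cons 371 t84 .nil)) (.cons 322 (.leaf 298 2197 (.cons 394 (.cons 417 (.leaf 393 2574 (.cons 418 (.leaf 441 2766 (.cons 419 (.leaf 395 2580 (.leaf 443 2772 .nil)) .nil)) .nil)) (.cons 321 (.leaf 297 2383 (.cons 418 (.leaf 345 2575 (.cons 419 (.leaf 395 2580 (.leaf 443 2772 .nil)) .nil)) .nil)) (.cons 321 (.leaf 297 2383 (.cons 417 (.leaf 393 2574 (.cons 418 (.leaf 345 2575 (.leaf 441 2766 .nil)) .nil)) .nil)) (.cons 393 (.leaf 417 2574 (.cons 395 (.leaf 419 2580 (.cons 321 (.leaf 297 2383 (.cons 392 (.cons 371 (.leaf 391 2937 (.leaf 372 2945 .nil)) (.cons 367 (.leaf 368 2939 (.cons 391 (.leaf 366 2931 (.cons 415 (.leaf 414 3122 (.leaf 416 3130 .nil)) .nil)) .nil)) (.cons 372 (.leaf 371 2945 (.cons 396 (.leaf 373 2953 (.cons 369 (.leaf 397 2955 (.leaf 368 2947 .nil)) .nil)) .nil)) .nil))) .nil)) .nil)) .nil)) .nil)))) .nil)) (.cons 322 t77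 (.cons 322 (.leaf 298 2197 (.cons 394 (.cons 321 (.leaf 297 2383 (.cons 417 (.leaf 393 2574 (.cons 418 (.leaf 345 2575 (.leaf 441 2766 .nil)) .nil)) .nil)) (.cons 417 (.leaf 393 2574 (.cons 418 (.leaf 441 2766 (.cons 419 (.leaf 395 2580 (.leaf 443 2772 .nil)) .nil)) .nil)) (.cons 321 (.leaf 297 2383 (.cons 418 (.leaf 345 2575 (.cons 419 (.leaf 395 2580 (.leaf 443 2772 .nil)) .nil)) .nil)) (.cons 393 (.leaf 417 2574 (.cons 395 (.leaf 419 2580 (.cons 321 (.leaf 297 2383 (.cons 392 (.cons 415 (.leaf 416 3130 (.cons 391 (.leaf 371 2937 (.leaf 414 3122 .nil)) .nil)) (.cons 415 (.leaf 416 3130 (.cons 391 (.leaf 414 3122 (.cons 366 (.leaf 367 2931 (.cons 390 (.leaf 369 2929 (.leaf 365 2923 .nil)) .nil)) .nil)) .nil)) (.cons 372 (.leaf 371 2945 (.cons 396 (.leaf 373 2953 (.cons 397 (.leaf 369 2955 (.cons 421 (.leaf 420 3144 (.leaf 422 3152 .nil)) .nil)) .nil)) .nil)) .nil))) .nil)) .nil))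 .nil)) .nil)))) .nil)) .nil)))))))
noncomputable def t100 : T := .cons 321 (.leaf 345 2575 (.cons 322 (.leaf 297 2383 (.cons 393 (.leaf 417 2574 (.cons 443 (.leaf 419 2772 (.cons 442 (.leaf 467 2964 (.cons 371 (.leaf 347 2773 (.cons 369 (.leaf 466 2959 (.cons 372 (.leaf 392 2946 (.leaf 373 2954 .nil)) .nil)) .nil)) .nil)) .nil)) .nil)) .nil)) .nil)) (.cons 345 (.leaf 321 2575 (.cons 442 (.leaf 369 2767 (.cons 371 (.leaf 347 2773 (.cons 343 (.leaf 344 2744 (.cons 372 (.leaf 373 2763 (.cons 395 (.leaf 466 2965 (.cons 393 (.leaf 392 2945 (.cons 417 (.leaf 322 2574 (.leaf 441 2766 .nil)) .nil)) .nil)) .nil)) .nil)) .nil)) .nil)) .nil)) (.cons 419 (.leaf 443 2772 (.cons 322 (.leaf 395 2580 (.cons 417 (.leaf 393 2574 (.leaf 441 2766 .nil)) .nil)) .nil)) (.cons 345 (.leaf 321 2575 (.cons 369 (.leaf 442 2767 (.cons 419 (.leaf 443 2772 (.cons 395 (.leaf 322 2580 (.cons 368 (.leaf 367 2936 (.cons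 396 (.leaf 371 2944 (.leaf 397 2955 .nil)) .nil)) .nil)) .nil)) .nil)) .nil)) (.cons 345 (.leaf 321 2575 (.cons 417 (.leaf 441 2766 (.cons 442 (.leaf 369 2767 (.cons 371 (.leaf 347 2773 (.cons 343 (.leaf 344 2744 (.cons 395 (.leaf 466 2965 (.cons 372 (.leaf 373 2763 (.cons 392 (.leaf 393 2945 (.cons 396 (.leaf 397 3146 (.cons 416 (.leaf 415 3129 (.leaf 419 3137 .nil)) .nil)) .nil)) .nil)) .nil)) .nil)) .nil)) .nil)) .nil)) .nil)) .nil))))
noncomputable def t101 : T := .cons 321 (.leaf 345 2575 (.cons 322 (.leaf 297 2383 (.cons 417 (.leaf 393 2574 (.leaf 441 2766 .nil)) .nil)) .nil)) (.cons 345 (.leaf 321 2575 (.cons 442 (.leaf 369 2767 (.cons 371 (.leaf 347 2773 (.cons 343 (.leaf 344 2744 (.cons 372 (.leaf 373 2763 (.cons 465 (.leaf 441 2958 (.cons 466 (.leaf 395 2965 (.leaf 489 3150 .nil)) .nil)) .nil)) .nil)) .nil)) .nil)) .nil)) (.cons 417 (.leaf 441 2766 (.cons 393 (.leaf 322 2574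 (.cons 371 (.cons 372 (.leaf 373 2954 (.cons 442 (.leaf 347 2773 (.cons 466 (.leaf 369 2959 (.leaf 395 2965 .nil)) .nil)) .nil)) (.cons 372 (.leaf 373 2954 (.cons 392 (.leaf 369 2946 (.leaf 391 2937 .nil)) .nil)) (.cons 391 (.leaf 392 2937 (.cons 442 (.leaf 347 2773 (.cons 466 (.leaf 369 2959 (.leaf 395 2965 .nil)) .nil)) .nil)) (.cons 347 (.leaf 442 2773 (.cons 372 (.leaf 373 2954 (.cons 392 (.leaf 391 2937 (.leaf 395 2945 .nil)) .nil)) .nil)) .nil)))) .nil)) .nil)) (.cons 345 (.leaf 321 2575 (.cons 442 (.leaf 369 2767 (.cons 371 (.leaf 347 2773 (.cons 343 (.leaf 344 2744 (.cons 372 (.leaf 373 2763 (.cons 395 (.leaf 466 2965 (.cons 393 (.leaf 392 2945 (.cons 417 (.leaf 322 2574 (.cons 396 (.leaf 416 3138 (.leaf 397 3146 .nil)) .nil)) .nil)) .nil)) .nil)) .nil)) .nil)) .nil)) .nil)) .nil)))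
noncomputable def t102 : T := .cons 321 (.leaf 345 2575 (.cons 322 (.leaf 297 2383 (.cons 393 (.leaf 417 2574 (.cons 443 (.leaf 419 2772 (.cons 442 (.leaf 467 2964 (.cons 371 (.leaf 347 2773 (.cons 369 (.leaf 466 2959 (.cons 372 (.leaf 392 2946 (.leaf 373 2954 .nil)) .nil)) .nil)) .nil)) .nil)) .nil)) .nil)) .nil)) (.cons 345 (.leaf 321 2575 (.cons 442 (.leaf 369 2767 (.cons 371 (.leaf 347 2773 (.cons 343 (.leaf 344 2744 (.cons 372 (.leaf 373 2763 (.cons 395 (.leaf 466 2965 (.cons 393 (.leaf 392 2945 (.cons 417 (.leaf 322 2574 (.cons 396 (.leaf 416 3138 (.leaf 397 3146 .nil)) .nil)) .nil)) .nil)) .nil)) .nil)) .nil)) .nil)) .nil)) (.cons 443 (.leaf 419 2772 (.cons 442 (.leaf 467 2964 (.cons 371 (.leaf 347 2773 (.cons 466 (.leaf 395 2965 (.cons 393 (.leaf 369 2959 (.cons 417 (.leaf 322 2574 (.leaf 490 3151 .nil)) .nil)) .nil)) .nil)) .nil)) .nil)) (.cons 419 (.leaf 443 2772 (.cons 321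 (.leaf 345 2575 (.cons 322 (.leaf 297 2383 (.leaf 395 2580 .nil)) .nil)) .nil)) (.cons 345 (.leaf 321 2575 (.cons 419 (.leaf 443 2772 (.cons 442 (.leaf 369 2767 (.cons 371 (.leaf 347 2773 (.cons 343 (.leaf 344 2744 (.cons 466 (.leaf 395 2965 (.cons 372 (.leaf 373 2763 (.cons 489 (.leaf 465 3150 (.cons 490 (.leaf 513 3342 (.cons 491 (.leaf 467 3156 (.leaf 515 3348 .nil)) .nil)) .nil)) .nil)) .nil)) .nil)) .nil)) .nil)) .nil)) .nil)) .nil))))
noncomputable def t103 : T := .cons 321 (.leaf 345 2575 (.cons 297 (.leaf 322 2383 (.cons 441 (.leaf 417 2766 (.cons 442 (.leaf 465 2958 (.cons 371 (.leaf 347 2773 (.cons 466 (.leaf 395 2965 (.cons 467 (.leaf 443 2964 (.leaf 491 3156 .nil)) .nil)) .nil)) .nil)) .nil)) .nil)) .nil)) (.cons 321 (.leaf 345 2575 (.cons 297 (.leaf 322 2383 (.cons 443 (.leaf 419 2772 (.cons 442 (.leaf 467 2964 (.cons 371 (.leaf 347 2773 (.cons 465 (.leaf 441 2958 (.cons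 466 (.leaf 395 2965 (.leaf 489 3150 .nil)) .nil)) .nil)) .nil)) .nil)) .nil)) .nil)) (.cons 321 (.leaf 345 2575 (.cons 322 (.leaf 297 2383 (.cons 417 (.leaf 393 2574 (.leaf 441 2766 .nil)) .nil)) .nil)) (.cons 321 (.leaf 345 2575 (.cons 322 (.leaf 297 2383 (.cons 419 (.leaf 395 2580 (.leaf 443 2772 .nil)) .nil)) .nil)) (.cons 419 (.leaf 443 2772 (.cons 322 (.leaf 395 2580 (.cons 417 (.leaf 393 2574 (.leaf 441 2766 .nil)) .nil)) .nil)) (.cons 443 (.leaf 419 2772 (.cons 442 (.leaf 467 2964 (.cons 371 (.leaf 347 2773 (.cons 465 (.leaf 441 2958 (.cons 466 (.leaf 395 2965 (.leaf 489 3150 .nil)) .nil)) .nil)) .nil)) .nil)) .nil)))))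
noncomputable def t104 : T := .cons 345 (.leaf 321 2575 (.cons 417 (.leaf 441 2766 (.cons 442 (.leaf 369 2767 (.cons 371 (.leaf 347 2773 (.cons 343 (.leaf 344 2744 (.cons 395 (.leaf 466 2965 (.cons 372 (.leaf 373 2763 (.cons 392 (.leaf 393 2945 (.cons 396 (.leaf 397 3146 (.cons 416 (.leaf 415 3129 (.leaf 419 3137 .nil)) .nil)) .nil)) .nil)) .nil)) .nil)) .nil)) .nil)) .nil)) .nil)) (.cons 441 (.leaf 417 2766 (.cons 442 (.leaf 465 2958 (.cons 371 (.leaf 347 2773 (.cons 466 (.leaf 395 2965 (.cons 467 (.leaf 443 2964 (.leaf 491 3156 .nil)) .nil)) .nil)) .nil)) .nil)) (.cons 345 (.leaf 321 2575 (.cons 419 (.leaf 443 2772 (.cons 442 (.leaf 369 2767 (.cons 371 (.leaf 347 2773 (.cons 343 (.leaf 344 2744 (.cons 466 (.leaf 395 2965 (.cons 465 (.leaf 441 2958 (.leaf 489 3150 .nil)) .nil)) .nil)) .nil)) .nil)) .nil)) .nil)) (.cons 345 (.leaf 321 2575 (.cons 419 (.leaf 443 2772 (.cons 442 (.leaf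 369 2767 (.cons 371 (.leaf 347 2773 (.cons 343 (.leaf 344 2744 (.cons 466 (.leaf 395 2965 (.cons 372 (.leaf 373 2763 (.cons 489 (.leaf 465 3150 (.cons 490 (.leaf 513 3342 (.cons 491 (.leaf 467 3156 (.leaf 515 3348 .nil)) .nil)) .nil)) .nil)) .nil)) .nil)) .nil)) .nil)) .nil)) .nil)) (.cons 417 (.leaf 441 2766 (.cons 419 (.leaf 443 2772 (.cons 345 (.leaf 321 2575 (.cons 416 (.cons 395 (.leaf 415 3129 (.leaf 396 3137 .nil)) (.cons 392 (.leaf 391 3131 (.cons 393 (.leaf 420 3139 (.cons 440 (.leaf 439 3322 (.leaf 369 2758 .nil)) .nil)) .nil)) .nil)) .nil)) .nil)) .nil)) (.cons 345 (.leaf 321 2575 (.cons 417 (.leaf 441 2766 (.cons 442 (.leaf 369 2767 (.cons 443 (.leaf 419 2772 (.leaf 467 2964 .nil)) .nil)) .nil)) .nil)) .nil)))))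
noncomputable def t105 : T := .cons 443 (.leaf 419 2772 (.cons 442 (.leaf 467 2964 (.cons 371 (.leaf 347 2773 (.cons 465 (.leaf 441 2958 (.cons 466 (.leaf 395 2965 (.leaf 489 3150 .nil)) .nil)) .nil)) .nil)) .nil)) (.cons 441 (.leaf 417 2766 (.cons 442 (.leaf 465 2958 (.cons 371 (.leaf 347 2773 (.cons 466 (.leaf 395 2965 (.cons 467 (.leaf 443 2964 (.leaf 491 3156 .nil)) .nil)) .nil)) .nil)) .nil)) (.cons 443 (.leaf 419 2772 (.cons 442 (.leaf 467 2964 (.cons 371 (.leaf 347 2773 (.cons 466 (.leaf 395 2965 (.cons 393 (.leaf 369 2959 (.cons 417 (.leaf 322 2574 (.leaf 490 3151 .nil)) .nil)) .nil)) .nil)) .nil)) .nil)) (.cons 417 (.leaf 441 2766 (.cons 393 (.leaf 322 2574 (.cons 371 (.cons 372 (.leaf 373 2954 (.cons 442 (.leaf 347 2773 (.cons 466 (.leaf 369 2959 (.leaf 395 2965 .nil)) .nil)) .nil)) (.cons 372 (.leaf 373 2954 (.cons 392 (.leaf 369 2946 (.leaf 391 2937 .nil)) .nil)) (.cons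 391 (.leaf 392 2937 (.cons 442 (.leaf 347 2773 (.cons 466 (.leaf 369 2959 (.leaf 395 2965 .nil)) .nil)) .nil)) (.cons 347 (.leaf 442 2773 (.cons 372 (.leaf 373 2954 (.cons 392 (.leaf 391 2937 (.leaf 395 2945 .nil)) .nil)) .nil)) .nil)))) .nil)) .nil)) (.cons 417 (.leaf 441 2766 (.cons 419 (.leaf 443 2772 (.cons 395 (.leaf 322 2580 (.cons 396 (.leaf 397 3146 (.leaf 416 3137 .nil)) .nil)) .nil)) .nil)) (.cons 417 (.leaf 441 2766 (.cons 393 (.leaf 322 2574 (.cons 419 (.leaf 443 2772 (.cons 392 (.leaf 391 3128 (.leaf 420 3139 .nil)) .nil)) .nil)) .nil)) .nil)))))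
noncomputable def t106 : T := .cons 372 (.leaf 373 2954 (.cons 392 (.leaf 369 2946 (.leaf 391 2937 .nil)) .nil)) (.cons 392 (.leaf 391 2937 (.cons 395 (.cons 368 (.leaf 367 2939 (.cons 369 (.leaf 396 2944 (.cons 343 (.leaf 344 2747 (.cons 416 (.leaf 415 3130 (.cons 345 (.leaf 321 2566 (.leaf 440 2757 .nil)) .nil)) .nil)) .nil)) .nil)) (.cons 419 (.leaf 443 2775 (.leaf 420 3136 .nil)) .nil)) .nil)) (.cons 372 (.leaf 373 2954 (.cons 369 (.cons 348 (.leaf 349 2761 (.cons 300 (.leaf 324 2207 (.cons 368 (.leaf 347 2753 (.cons 395 (.leaf 367 2936 (.leaf 396 2944 .nil)) .nil)) .nil)) .nil)) (.cons 344 (.leaf 345 2755 (.cons 348 (.leaf 349 2761 (.cons 368 (.leaf 343 2747 (.leaf 347 2753 .nil)) .nil)) .nil)) (.cons 344 (.leaf 345 2755 (.cons 368 (.leaf 343 2747 (.cons 367 (.leaf 347 2745 (.leaf 395 2936 .nil)) .nil)) .nil)) (.cons 344 (.leaf 345 2755 (.cons 348 (.leaf 349 2761 (.cons 324 (.leaf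 300 2207 (.cons 396 (.leaf 397 2952 (.cons 301 (.leaf 325 2405 (.cons 395 (.leaf 419 2590 (.cons 417 (.leaf 441 2765 (.leaf 416 3138 .nil)) .nil)) .nil)) .nil)) .nil)) .nil)) .nil)) .nil)))) .nil)) (.cons 372 (.leaf 373 2954 (.cons 392 (.leaf 391 2937 (.leaf 395 2945 .nil)) .nil)) .nil)))
noncomputable def t107 : T := .cons 372 (.leaf 373 2954 (.cons 392 (.leaf 369 2946 (.leaf 391 2937 .nil)) .nil)) (.cons 392 (.leaf 391 2937 (.cons 395 (.cons 419 (.leaf 322 2580 (.leaf 443 2775 .nil)) (.cons 368 (.leaf 367 2939 (.cons 369 (.leaf 396 2944 (.cons 343 (.leaf 344 2747 (.cons 416 (.leaf 415 3130 (.cons 345 (.leaf 321 2566 (.leaf 440 2757 .nil)) .nil)) .nil)) .nil)) .nil)) .nil)) .nil)) (.cons 372 (.leaf 373 2954 (.cons 369 (.cons 345 (.leaf 344 2755 (.cons 297 (.leaf 321 2380 (.cons 348 (.leaf 349 2761 (.cons 347 (.leaf 368 2753 (.cons 324 (.leaf 300 2207 (.leaf 325 2569 .nil)) .nil))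 .nil)) .nil)) .nil)) (.cons 344 (.leaf 345 2755 (.cons 368 (.leaf 343 2747 (.cons 367 (.leaf 347 2745 (.leaf 395 2936 .nil)) .nil)) .nil)) (.cons 348 (.leaf 349 2761 (.cons 300 (.leaf 324 2207 (.cons 368 (.leaf 347 2753 (.cons 395 (.leaf 367 2936 (.leaf 396 2944 .nil)) .nil)) .nil)) .nil)) (.cons 345 (.leaf 344 2755 (.cons 297 (.leaf 321 2380 (.cons 348 (.leaf 349 2761 (.cons 324 (.leaf 300 2207 (.cons 325 (.leaf 347 2569 (.cons 396 (.leaf 397 2952 (.leaf 301 2405 .nil)) .nil)) .nil)) .nil)) .nil)) .nil)) (.cons 344 (.leaf 345 2755 (.cons 348 (.leaf 349 2761 (.cons 300 (.leaf 324 2207 (.cons 368 (.leaf 343 2747 (.cons 395 (.leaf 367 2936 (.leaf 396 2944 .nil)) .nil)) .nil)) .nil)) .nil)) .nil))))) .nil)) (.cons 372 (.leaf 373 2954 (.cons 392 (.leaf 391 2937 (.leaf 395 2945 .nil)) .nil)) .nil)))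
noncomputable def t108 : T := .cons 322 (.leaf 417 2574 (.cons 395 (.leaf 419 2580 (.cons 321 (.leaf 297 2383 (.cons 392 (.cons 391 (.leaf 371 2937 (.cons 415 (.leaf 414 3122 (.leaf 416 3130 .nil)) .nil)) (.cons 368 (.leaf 367 2939 (.cons 369 (.leaf 396 2947 (.cons 391 (.leaf 390 2929 (.cons 416 (.leaf 415 3130 (.leaf 345 2566 .nil)) .nil)) .nil)) .nil)) (.cons 368 (.leaf 367 2939 (.cons 372 (.leaf 371 2945 (.cons 416 (.leaf 415 3130 (.cons 344 (.leaf 345 2565 (.cons 319 (.leaf 343 2559 (.cons 320 (.leaf 347 2552 (.leaf 295 2367 .nil)) .nil)) .nil)) .nil)) .nil)) .nil)) (.cons 367 (.leaf 368 2939 (.cons 391 (.leaf 371 2937 (.leaf 366 2931 .nil)) .nil)) .nil)))) .nil)) .nil)) .nil)) (.cons 371 t107 (.cons 371 t106 (.cons 322 (.leaf 417 2574 (.cons 395 (.leaf 419 2580 (.cons 321 (.leaf 297 2383 (.cons 392 (.cons 368 (.leaf 367 2939 (.cons 372 (.leaf 371 2945 (.cons 416 (.leaf 415 3130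 (.cons 344 (.leaf 345 2565 (.cons 319 (.leaf 343 2559 (.cons 320 (.leaf 347 2552 (.leaf 295 2367 .nil)) .nil)) .nil)) .nil)) .nil)) .nil)) (.cons 367 (.leaf 368 2939 (.cons 391 (.leaf 366 2931 (.cons 415 (.leaf 414 3122 (.leaf 416 3130 .nil)) .nil)) .nil)) (.cons 371 (.leaf 391 2937 (.leaf 372 2945 .nil)) .nil))) .nil)) .nil)) .nil)) (.cons 417 (.leaf 322 2574 (.cons 441 (.leaf 369 2765 (.leaf 465 2957 .nil)) .nil)) .nil))))
noncomputable def t109 : T := .cons 393 t108 (.cons 418 (.cons 417 (.leaf 441 2766 (.cons 419 (.leaf 443 2772 (.cons 395 (.leaf 322 2580 (.cons 396 (.leaf 397 3146 (.leaf 416 3137 .nil)) .nil)) .nil)) .nil)) (.cons 345 (.leaf 321 2575 (.cons 442 (.leaf 369 2767 (.cons 347 (.leaf 371 2773 (.cons 465 (.leaf 441 2958 (.cons 466 (.leaf 489 3150 (.cons 467 (.leaf 443 2964 (.leaf 491 3156 .nil)) .nil)) .nil)) .nil)) .nil)) .nil)) (.cons 321 (.leaf 345 2575 (.cons 322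 (.leaf 297 2383 (.cons 395 (.leaf 419 2580 (.cons 441 (.leaf 417 2766 (.cons 442 (.leaf 465 2958 (.cons 371 (.leaf 347 2773 (.leaf 466 2965 .nil)) .nil)) .nil)) .nil)) .nil)) .nil)) (.cons 321 (.leaf 345 2575 (.cons 322 (.leaf 297 2383 (.cons 419 (.leaf 395 2580 (.leaf 443 2772 .nil)) .nil)) .nil)) .nil)))) (.cons 418 t105 (.cons 418 (.cons 443 (.leaf 419 2772 (.cons 442 (.leaf 467 2964 (.cons 371 (.leaf 347 2773 (.cons 465 (.leaf 441 2958 (.cons 466 (.leaf 395 2965 (.leaf 489 3150 .nil)) .nil)) .nil)) .nil)) .nil)) (.cons 345 (.leaf 321 2575 (.cons 442 (.leaf 369 2767 (.cons 347 (.leaf 371 2773 (.cons 465 (.leaf 441 2958 (.cons 466 (.leaf 489 3150 (.cons 467 (.leaf 443 2964 (.leaf 491 3156 .nil)) .nil)) .nil)) .nil)) .nil)) .nil)) (.cons 345 (.leaf 321 2575 (.cons 442 (.leaf 369 2767 (.cons 371 (.leaf 347 2773 (.cons 343 (.leaf 344 2744 (.cons 372 (.leaf 373 2763 (.cons 465 (.leaf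 441 2958 (.cons 466 (.leaf 395 2965 (.leaf 489 3150 .nil)) .nil)) .nil)) .nil)) .nil)) .nil)) .nil)) (.cons 419 (.leaf 443 2772 (.cons 321 (.leaf 345 2575 (.cons 322 (.leaf 297 2383 (.leaf 395 2580 .nil)) .nil)) .nil)) .nil)))) (.cons 418 (.cons 321 (.leaf 345 2575 (.cons 322 (.leaf 297 2383 (.cons 417 (.leaf 393 2574 (.leaf 441 2766 .nil)) .nil)) .nil)) (.cons 441 (.leaf 417 2766 (.cons 442 (.leaf 465 2958 (.cons 371 (.leaf 347 2773 (.cons 466 (.leaf 395 2965 (.cons 467 (.leaf 443 2964 (.leaf 491 3156 .nil)) .nil)) .nil)) .nil)) .nil)) (.cons 345 (.leaf 321 2575 (.cons 442 (.leaf 369 2767 (.cons 347 (.leaf 371 2773 (.cons 465 (.leaf 441 2958 (.cons 466 (.leaf 489 3150 (.cons 467 (.leaf 443 2964 (.leaf 491 3156 .nil)) .nil)) .nil)) .nil)) .nil)) .nil)) (.cons 345 (.leaf 321 2575 (.cons 442 (.leaf 369 2767 (.cons 371 (.leaf 347 2773 (.cons 343 (.leaf 344 2744 (.cons 372 (.leaf 373 2763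 (.cons 395 (.leaf 466 2965 (.cons 393 (.leaf 392 2945 (.cons 417 (.leaf 322 2574 (.cons 396 (.leaf 416 3138 (.leaf 397 3146 .nil)) .nil)) .nil)) .nil)) .nil)) .nil)) .nil)) .nil)) .nil)) .nil)))) (.cons 418 (.cons 345 (.leaf 321 2575 (.cons 442 (.leaf 369 2767 (.cons 347 (.leaf 371 2773 (.cons 465 (.leaf 441 2958 (.cons 466 (.leaf 489 3150 (.cons 467 (.leaf 443 2964 (.leaf 491 3156 .nil)) .nil)) .nil)) .nil)) .nil)) .nil)) (.cons 417 (.leaf 441 2766 (.cons 393 (.leaf 322 2574 (.cons 419 (.leaf 443 2772 (.cons 392 (.leaf 391 3128 (.leaf 420 3139 .nil)) .nil)) .nil)) .nil)) (.cons 321 (.leaf 345 2575 (.cons 322 (.leaf 297 2383 (.cons 393 (.leaf 417 2574 (.cons 443 (.leaf 419 2772 (.cons 442 (.leaf 467 2964 (.cons 371 (.leaf 347 2773 (.cons 369 (.leaf 466 2959 (.cons 372 (.leaf 392 2946 (.leaf 373 2954 .nil)) .nil)) .nil)) .nil)) .nil)) .nil)) .nil)) .nil)) (.cons 345 (.leaf 321 2575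 (.cons 369 (.leaf 442 2767 (.cons 417 (.leaf 441 2766 (.cons 393 (.leaf 322 2573 (.cons 344 (.leaf 320 2567 (.cons 343 (.leaf 371 2744 (.leaf 342 2736 .nil)) .nil)) .nil)) .nil)) .nil)) .nil)) .nil)))) (.cons 418 t104 (.cons 418 t103 (.cons 418 (.cons 321 (.leaf 345 2575 (.cons 441 (.leaf 417 2766 (.cons 442 (.leaf 465 2958 (.cons 443 (.leaf 419 2772 (.leaf 467 2964 .nil)) .nil)) .nil)) .nil)) (.cons 419 (.leaf 443 2772 (.cons 321 (.leaf 345 2575 (.cons 322 (.leaf 297 2383 (.leaf 395 2580 .nil)) .nil)) .nil)) (.cons 321 (.leaf 345 2575 (.cons 322 (.leaf 297 2383 (.cons 417 (.leaf 393 2574 (.leaf 441 2766 .nil)) .nil)) .nil)) (.cons 417 (.leaf 441 2766 (.cons 393 (.leaf 322 2574 (.cons 419 (.leaf 443 2772 (.cons 392 (.leaf 391 3128 (.leaf 420 3139 .nil)) .nil)) .nil)) .nil)) .nil)))) (.cons 418 t102 (.cons 418 t101 (.cons 418 t100 .nil)))))))))))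
noncomputable def t110 : T := .cons 373 (.leaf 345 2763 (.cons 349 (.leaf 350 2769 (.cons 348 (.leaf 369 2761 (.cons 300 (.leaf 324 2207 (.cons 397 (.leaf 398 2960 (.cons 421 (.leaf 445 2791 (.cons 394 (.leaf 393 2954 (.cons 420 (.leaf 444 2790 (.cons 325 (.leaf 396 2597 (.cons 326 (.leaf 347 2577 (.leaf 302 2413 .nil)) .nil)) .nil)) .nil)) .nil)) .nil)) .nil)) .nil)) .nil)) .nil)) (.cons 369 (.cons 348 (.leaf 349 2761 (.cons 300 (.leaf 324 2207 (.cons 393 (.leaf 392 2946 (.cons 373 (.leaf 394 2954 (.cons 397 (.leaf 396 2952 (.leaf 398 2960 .nil)) .nil)) .nil)) .nil)) .nil)) (.cons 393 (.leaf 392 2946 (.cons 373 (.leaf 394 2954 (.cons 397 (.leaf 396 2952 (.leaf 398 2960 .nil)) .nil)) .nil)) (.cons 348 (.leaf 349 2761 (.cons 300 (.leaf 324 2207 (.cons 368 (.leaf 347 2753 (.cons 396 (.leaf 395 2944 (.leaf 397 2952 .nil)) .nil)) .nil)) .nil)) (.cons 348 (.leaf 349 2761 (.cons 300 (.leaf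 324 2207 (.cons 368 (.leaf 347 2753 (.cons 392 (.leaf 391 2938 (.leaf 393 2946 .nil)) .nil)) .nil)) .nil)) .nil)))) (.cons 369 (.cons 348 (.leaf 349 2761 (.cons 300 (.leaf 324 2207 (.cons 368 (.leaf 347 2753 (.cons 392 (.leaf 391 2938 (.leaf 393 2946 .nil)) .nil)) .nil)) .nil)) (.cons 344 (.leaf 345 2755 (.cons 368 (.leaf 343 2747 (.cons 392 (.leaf 391 2938 (.leaf 393 2946 .nil)) .nil)) .nil)) (.cons 345 (.leaf 344 2755 (.cons 348 (.leaf 349 2761 (.cons 393 (.leaf 392 2946 (.cons 396 (.leaf 397 2952 (.cons 324 (.leaf 300 2207 (.cons 325 (.leaf 347 2569 (.leaf 301 2405 .nil)) .nil)) .nil)) .nil)) .nil)) .nil)) (.cons 345 (.leaf 344 2755 (.cons 348 (.leaf 349 2761 (.cons 324 (.leaf 300 2207 (.cons 325 (.leaf 347 2569 (.cons 396 (.leaf 397 2952 (.leaf 301 2405 .nil)) .nil)) .nil)) .nil)) .nil)) .nil)))) (.cons 345 (.leaf 373 2763 (.cons 344 (.leaf 343 2744 (.leaf 347 2752 .nil)) .nil))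 (.cons 373 (.leaf 345 2763 (.cons 349 (.leaf 350 2769 (.cons 348 (.leaf 369 2761 (.cons 300 (.leaf 324 2207 (.cons 397 (.leaf 398 2960 (.cons 421 (.leaf 445 2791 (.cons 394 (.leaf 393 2954 (.cons 422 (.leaf 446 2796 (.cons 395 (.leaf 396 3152 (.cons 419 (.leaf 443 2781 (.leaf 420 3155 .nil)) .nil)) .nil)) .nil)) .nil)) .nil)) .nil)) .nil)) .nil)) .nil)) .nil))))
noncomputable def t111 : T := .cons 369 (.cons 348 (.leaf 349 2761 (.cons 300 (.leaf 324 2207 (.cons 344 (.leaf 345 2755 (.cons 368 (.leaf 343 2747 (.leaf 347 2753 .nil)) .nil)) .nil)) .nil)) (.cons 348 (.leaf 349 2761 (.cons 300 (.leaf 324 2207 (.cons 368 (.leaf 347 2753 (.cons 392 (.leaf 391 2938 (.leaf 393 2946 .nil)) .nil)) .nil)) .nil)) (.cons 344 (.leaf 345 2755 (.cons 368 (.leaf 343 2747 (.cons 392 (.leaf 391 2938 (.leaf 393 2946 .nil)) .nil)) .nil)) (.cons 345 (.leaf 373 2763 (.leaf 344 2755 .nil)) .nil)))) (.cons 369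 (.cons 348 (.leaf 349 2761 (.cons 300 (.leaf 324 2207 (.cons 344 (.leaf 345 2755 (.cons 368 (.leaf 343 2747 (.leaf 347 2753 .nil)) .nil)) .nil)) .nil)) (.cons 348 (.leaf 349 2761 (.cons 300 (.leaf 324 2207 (.cons 368 (.leaf 347 2753 (.cons 392 (.leaf 391 2938 (.leaf 393 2946 .nil)) .nil)) .nil)) .nil)) (.cons 344 (.leaf 345 2755 (.cons 368 (.leaf 343 2747 (.cons 392 (.leaf 391 2938 (.leaf 393 2946 .nil)) .nil)) .nil)) (.cons 345 (.leaf 344 2755 (.cons 348 (.leaf 349 2761 (.cons 300 (.leaf 324 2207 (.cons 393 (.leaf 392 2946 (.cons 417 (.leaf 441 2765 (.cons 418 (.leaf 442 2764 (.cons 321 (.leaf 394 2572 (.cons 320 (.leaf 347 2563 (.leaf 296 2375 .nil)) .nil)) .nil)) .nil)) .nil)) .nil)) .nil)) .nil)) .nil)))) (.cons 373 (.cons 374 (.leaf 347 2771 (.cons 398 (.leaf 397 2960 (.leaf 399 2968 .nil)) .nil)) (.cons 349 (.leaf 350 2769 (.cons 348 (.leaf 369 2761 (.cons 300 (.leaf 324 2207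 (.cons 397 (.leaf 398 2960 (.cons 421 (.leaf 445 2791 (.cons 420 (.leaf 444 2790 (.cons 325 (.leaf 396 2597 (.cons 301 (.leaf 277 2214 (.cons 302 (.leaf 274 2195 (.leaf 278 2221 .nil)) .nil)) .nil)) .nil)) .nil)) .nil)) .nil)) .nil)) .nil)) (.cons 374 (.leaf 347 2771 (.cons 350 (.leaf 349 2769 (.leaf 351 2777 .nil)) .nil)) .nil))) (.cons 345 (.leaf 373 2763 (.cons 344 (.leaf 343 2744 (.leaf 347 2752 .nil)) .nil)) (.cons 373 (.leaf 345 2763 (.cons 349 (.leaf 350 2769 (.cons 348 (.leaf 369 2761 (.cons 300 (.leaf 324 2207 (.cons 397 (.leaf 398 2960 (.cons 421 (.leaf 445 2791 (.cons 420 (.leaf 444 2790 (.cons 325 (.leaf 396 2597 (.cons 301 (.leaf 277 2214 (.cons 302 (.leaf 274 2195 (.leaf 278 2221 .nil)) .nil)) .nil)) .nil)) .nil)) .nil)) .nil)) .nil)) .nil)) .nil)) .nil))))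
noncomputable def t112 : T := .cons 373 (.leaf 345 2763 (.cons 374 (.leaf 347 2771 (.cons 394 (.leaf 393 2954 (.leaf 395 2962 .nil)) .nil)) .nil)) (.cons 373 (.cons 374 (.leaf 347 2771 (.cons 394 (.leaf 393 2954 (.leaf 395 2962 .nil)) .nil)) (.cons 349 (.leaf 350 2769 (.cons 369 (.leaf 348 2761 (.cons 393 (.leaf 392 2946 (.leaf 394 2954 .nil)) .nil)) .nil)) (.cons 374 (.leaf 347 2771 (.cons 350 (.leaf 349 2769 (.leaf 351 2777 .nil)) .nil)) .nil))) (.cons 369 (.cons 348 (.leaf 349 2761 (.cons 300 (.leaf 324 2207 (.cons 344 (.leaf 345 2755 (.cons 368 (.leaf 343 2747 (.leaf 347 2753 .nil)) .nil)) .nil)) .nil)) (.cons 344 (.leaf 345 2755 (.cons 368 (.leaf 343 2747 (.cons 392 (.leaf 391 2938 (.leaf 393 2946 .nil)) .nil)) .nil)) (.cons 348 (.leaf 349 2761 (.cons 300 (.leaf 324 2207 (.cons 368 (.leaf 347 2753 (.cons 392 (.leaf 391 2938 (.leaf 393 2946 .nil)) .nil)) .nil)) .nil)) (.cons 345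 (.leaf 344 2755 (.cons 348 (.leaf 349 2761 (.cons 300 (.leaf 324 2207 (.cons 393 (.leaf 392 2946 (.cons 417 (.leaf 441 2765 (.cons 418 (.leaf 442 2764 (.cons 321 (.leaf 394 2572 (.cons 320 (.leaf 347 2563 (.leaf 296 2375 .nil)) .nil)) .nil)) .nil)) .nil)) .nil)) .nil)) .nil)) .nil)))) (.cons 373 (.leaf 345 2763 (.cons 349 (.leaf 350 2769 (.cons 369 (.leaf 348 2761 (.cons 393 (.leaf 392 2946 (.leaf 394 2954 .nil)) .nil)) .nil)) .nil)) (.cons 345 (.leaf 373 2763 (.cons 344 (.leaf 343 2744 (.leaf 347 2752 .nil)) .nil)) .nil))))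
noncomputable def t113 : T := .cons 369 (.cons 348 (.leaf 349 2761 (.cons 300 (.leaf 324 2207 (.cons 396 (.leaf 397 2952 (.cons 368 (.leaf 347 2753 (.leaf 395 2944 .nil)) .nil)) .nil)) .nil)) (.cons 345 (.leaf 373 2763 (.leaf 344 2755 .nil)) .nil)) (.cons 369 (.cons 344 (.leaf 345 2755 (.cons 348 (.leaf 349 2761 (.cons 368 (.leaf 343 2747 (.leaf 347 2753 .nil)) .nil)) .nil)) (.cons 344 (.leaf 345 2755 (.cons 368 (.leaf 343 2747 (.cons 396 (.leaf 395 2944 (.leaf 397 2952 .nil)) .nil)) .nil)) (.cons 348 (.leaf 349 2761 (.cons 324 (.leaf 300 2207 (.cons 396 (.leaf 397 2952 (.cons 395 (.leaf 368 2944 (.leaf 419 2590 .nil)) .nil)) .nil)) .nil)) (.cons 345 (.leaf 344 2755 (.cons 348 (.leaf 349 2761 (.cons 324 (.leaf 300 2207 (.cons 325 (.leaf 347 2569 (.cons 396 (.leaf 397 2952 (.leaf 301 2405 .nil)) .nil)) .nil)) .nil)) .nil)) .nil)))) (.cons 373 (.cons 349 (.leaf 350 2769 (.cons 348 (.leaf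 369 2761 (.cons 300 (.leaf 324 2207 (.cons 374 (.leaf 347 2768 (.cons 398 (.leaf 397 2960 (.leaf 399 2968 .nil)) .nil)) .nil)) .nil)) .nil)) (.cons 349 (.leaf 350 2769 (.cons 348 (.leaf 369 2761 (.cons 300 (.leaf 324 2207 (.cons 397 (.leaf 398 2960 (.cons 421 (.leaf 445 2791 (.cons 420 (.leaf 444 2790 (.cons 325 (.leaf 396 2597 (.cons 301 (.leaf 277 2214 (.cons 302 (.leaf 274 2195 (.leaf 278 2221 .nil)) .nil)) .nil)) .nil)) .nil)) .nil)) .nil)) .nil)) .nil)) (.cons 374 (.leaf 347 2771 (.cons 398 (.leaf 397 2960 (.leaf 399 2968 .nil)) .nil)) (.cons 374 (.leaf 347 2771 (.cons 350 (.leaf 349 2769 (.leaf 351 2777 .nil)) .nil)) .nil)))) (.cons 373 (.leaf 345 2763 (.cons 374 (.leaf 347 2771 (.cons 398 (.leaf 397 2960 (.leaf 399 2968 .nil)) .nil)) .nil)) (.cons 373 (.leaf 345 2763 (.cons 349 (.leaf 350 2769 (.cons 348 (.leaf 369 2761 (.cons 300 (.leaf 324 2207 (.cons 397 (.leaf 398 2960 (.cons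 421 (.leaf 445 2791 (.cons 420 (.leaf 444 2790 (.cons 325 (.leaf 396 2597 (.cons 301 (.leaf 277 2214 (.cons 302 (.leaf 274 2195 (.leaf 278 2221 .nil)) .nil)) .nil)) .nil)) .nil)) .nil)) .nil)) .nil)) .nil)) .nil)) (.cons 373 (.leaf 345 2763 (.cons 374 (.leaf 347 2771 (.cons 350 (.leaf 349 2769 (.leaf 351 2777 .nil)) .nil)) .nil)) .nil)))))
noncomputable def t114 : T := .cons 373 (.leaf 345 2763 (.cons 347 (.leaf 374 2771 (.cons 394 (.leaf 393 2954 (.cons 397 (.leaf 398 2960 (.cons 418 (.leaf 442 2773 (.cons 417 (.leaf 441 2766 (.cons 396 (.leaf 369 2952 (.leaf 395 3146 .nil)) .nil)) .nil)) .nil)) .nil)) .nil)) .nil)) (.cons 373 (.cons 347 (.leaf 374 2771 (.cons 394 (.leaf 393 2954 (.cons 397 (.leaf 398 2960 (.cons 418 (.leaf 442 2773 (.cons 417 (.leaf 441 2766 (.cons 396 (.leaf 369 2952 (.leaf 395 3146 .nil)) .nil)) .nil)) .nil)) .nil)) .nil)) (.cons 393 (.leaf 394 2954 (.cons 369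 (.leaf 392 2946 (.cons 397 (.leaf 396 2952 (.leaf 398 2960 .nil)) .nil)) .nil)) (.cons 347 (.leaf 374 2771 (.cons 397 (.leaf 398 2960 (.cons 369 (.leaf 396 2952 (.cons 368 (.leaf 367 2745 (.leaf 348 2753 .nil)) .nil)) .nil)) .nil)) (.cons 374 (.leaf 347 2771 (.cons 394 (.leaf 393 2954 (.leaf 395 2962 .nil)) .nil)) .nil)))) (.cons 369 (.cons 392 (.leaf 393 2946 (.cons 368 (.leaf 391 2938 (.cons 396 (.leaf 395 2944 (.leaf 397 2952 .nil)) .nil)) .nil)) (.cons 345 (.leaf 344 2755 (.cons 393 (.leaf 392 2946 (.cons 396 (.leaf 397 2952 (.cons 417 (.leaf 441 2765 (.cons 416 (.leaf 440 2758 (.cons 394 (.leaf 395 3138 (.cons 418 (.leaf 321 2572 (.leaf 442 2764 .nil)) .nil)) .nil)) .nil)) .nil)) .nil)) .nil)) (.cons 345 (.leaf 344 2755 (.cons 396 (.leaf 397 2952 (.cons 368 (.leaf 395 2944 (.cons 347 (.leaf 348 2753 (.leaf 367 2745 .nil)) .nil)) .nil)) .nil)) (.cons 344 (.leaf 345 2755 (.cons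 368 (.leaf 343 2747 (.cons 392 (.leaf 391 2938 (.leaf 393 2946 .nil)) .nil)) .nil)) .nil)))) (.cons 345 (.leaf 373 2763 (.cons 344 (.leaf 343 2744 (.leaf 347 2752 .nil)) .nil)) (.cons 369 (.cons 345 (.leaf 373 2763 (.leaf 344 2755 .nil)) (.cons 393 (.leaf 392 2946 (.cons 373 (.leaf 394 2954 (.cons 397 (.leaf 396 2952 (.leaf 398 2960 .nil)) .nil)) .nil)) (.cons 344 (.leaf 345 2755 (.cons 368 (.leaf 343 2747 (.cons 392 (.leaf 391 2938 (.leaf 393 2946 .nil)) .nil)) .nil)) .nil))) .nil))))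
noncomputable def t115 : T := .cons 373 (.leaf 345 2763 (.cons 347 (.leaf 374 2771 (.cons 393 (.leaf 394 2954 (.cons 369 (.leaf 392 2946 (.cons 368 (.leaf 367 2745 (.leaf 348 2753 .nil)) .nil)) .nil)) .nil)) .nil)) (.cons 369 (.cons 345 (.leaf 344 2755 (.cons 348 (.leaf 349 2761 (.cons 300 (.leaf 324 2207 (.cons 393 (.leaf 392 2946 (.cons 417 (.leaf 441 2765 (.cons 347 (.leaf 368 2753 (.cons 321 (.leaf 320 2563 (.cons 394 (.leaf 418 2572 (.leaf 297 2380 .nil)) .nil)) .nil)) .nil)) .nil)) .nil)) .nil)) .nil)) (.cons 348 (.leaf 349 2761 (.cons 300 (.leaf 324 2207 (.cons 368 (.leaf 347 2753 (.cons 392 (.leaf 391 2938 (.leaf 393 2946 .nil)) .nil)) .nil)) .nil)) (.cons 344 (.leaf 345 2755 (.cons 368 (.leaf 343 2747 (.cons 392 (.leaf 391 2938 (.leaf 393 2946 .nil)) .nil)) .nil)) (.cons 348 (.leaf 349 2761 (.cons 300 (.leaf 324 2207 (.cons 344 (.leaf 345 2755 (.cons 368 (.leaf 343 2747 (.leaf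 347 2753 .nil)) .nil)) .nil)) .nil)) (.cons 345 (.leaf 344 2755 (.cons 348 (.leaf 349 2761 (.cons 300 (.leaf 324 2207 (.cons 393 (.leaf 392 2946 (.cons 417 (.leaf 441 2765 (.cons 418 (.leaf 442 2764 (.cons 321 (.leaf 394 2572 (.cons 320 (.leaf 347 2563 (.leaf 296 2375 .nil)) .nil)) .nil)) .nil)) .nil)) .nil)) .nil)) .nil)) .nil))))) (.cons 373 (.cons 347 (.leaf 374 2771 (.cons 393 (.leaf 394 2954 (.cons 369 (.leaf 392 2946 (.cons 368 (.leaf 367 2745 (.leaf 348 2753 .nil)) .nil)) .nil)) .nil)) (.cons 349 (.leaf 350 2769 (.cons 348 (.leaf 369 2761 (.cons 324 (.leaf 300 2207 (.cons 397 (.leaf 398 2960 (.leaf 421 2599 .nil)) .nil)) .nil)) .nil)) (.cons 349 (.leaf 350 2769 (.cons 394 (.leaf 393 2954 (.cons 374 (.leaf 347 2771 (.leaf 395 2962 .nil)) .nil)) .nil)) .nil))) (.cons 373 (.leaf 345 2763 (.cons 349 (.leaf 350 2769 (.cons 394 (.leaf 393 2954 (.cons 374 (.leaf 347 2771 (.leaf 395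 2962 .nil)) .nil)) .nil)) .nil)) (.cons 373 (.leaf 345 2763 (.cons 349 (.leaf 350 2769 (.cons 348 (.leaf 369 2761 (.cons 300 (.leaf 324 2207 (.cons 394 (.leaf 393 2954 (.cons 374 (.leaf 395 2962 (.cons 398 (.leaf 397 2960 (.leaf 399 2968 .nil)) .nil)) .nil)) .nil)) .nil)) .nil)) .nil)) (.cons 373 (.leaf 345 2763 (.cons 349 (.leaf 350 2769 (.cons 348 (.leaf 369 2761 (.cons 324 (.leaf 300 2207 (.cons 397 (.leaf 398 2960 (.leaf 421 2599 .nil)) .nil)) .nil)) .nil)) .nil)) .nil)))))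
noncomputable def t116 : T := .cons 369 (.cons 348 (.leaf 349 2761 (.cons 300 (.leaf 324 2207 (.cons 396 (.leaf 397 2952 (.cons 368 (.leaf 395 2944 (.cons 344 (.leaf 343 2747 (.leaf 345 2755 .nil)) .nil)) .nil)) .nil)) .nil)) (.cons 348 (.leaf 349 2761 (.cons 300 (.leaf 324 2207 (.cons 396 (.leaf 397 2952 (.cons 368 (.leaf 395 2944 (.cons 392 (.leaf 391 2938 (.leaf 393 2946 .nil)) .nil)) .nil)) .nil)) .nil)) (.cons 349 (.leaf 348 2761 (.cons 373 (.leaf 345 2763 (.leaf 350 2769 .nil)) .nil)) (.cons 392 (.leaf 393 2946 (.cons 368 (.leaf 391 2938 (.cons 396 (.leaf 395 2944 (.leaf 397 2952 .nil)) .nil)) .nil)) .nil)))) (.cons 369 (.cons 348 (.leaf 349 2761 (.cons 300 (.leaf 324 2207 (.cons 396 (.leaf 397 2952 (.cons 368 (.leaf 395 2944 (.cons 344 (.leaf 343 2747 (.leaf 345 2755 .nil)) .nil)) .nil)) .nil)) .nil)) (.cons 348 (.leaf 349 2761 (.cons 300 (.leaf 324 2207 (.cons 396 (.leaf 397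 2952 (.cons 368 (.leaf 395 2944 (.cons 392 (.leaf 391 2938 (.leaf 393 2946 .nil)) .nil)) .nil)) .nil)) .nil)) (.cons 344 (.leaf 345 2755 (.cons 368 (.leaf 343 2747 (.cons 392 (.leaf 391 2938 (.leaf 393 2946 .nil)) .nil)) .nil)) (.cons 345 (.leaf 344 2755 (.cons 393 (.leaf 392 2946 (.cons 396 (.leaf 397 2952 (.cons 417 (.leaf 441 2765 (.cons 416 (.leaf 440 2758 (.cons 394 (.leaf 395 3138 (.cons 418 (.leaf 321 2572 (.leaf 442 2764 .nil)) .nil)) .nil)) .nil)) .nil)) .nil)) .nil)) .nil)))) (.cons 369 (.cons 348 (.leaf 349 2761 (.cons 300 (.leaf 324 2207 (.cons 396 (.leaf 397 2952 (.cons 368 (.leaf 395 2944 (.cons 392 (.leaf 391 2938 (.leaf 393 2946 .nil)) .nil)) .nil)) .nil)) .nil)) (.cons 348 (.leaf 349 2761 (.cons 300 (.leaf 324 2207 (.cons 396 (.leaf 397 2952 (.cons 368 (.leaf 395 2944 (.cons 343 (.leaf 344 2747 (.cons 367 (.leaf 342 2739 (.cons 391 (.leaf 390 2930 (.leaf 392 2938 .nil))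 .nil)) .nil)) .nil)) .nil)) .nil)) .nil)) (.cons 393 (.leaf 392 2946 (.cons 349 (.leaf 348 2761 (.cons 373 (.leaf 350 2769 (.leaf 394 2954 .nil)) .nil)) .nil)) (.cons 393 (.leaf 392 2946 (.cons 373 (.leaf 394 2954 (.cons 397 (.leaf 396 2952 (.leaf 398 2960 .nil)) .nil)) .nil)) (.cons 396 (.leaf 397 2952 (.cons 348 (.leaf 349 2761 (.cons 324 (.leaf 300 2207 (.cons 395 (.leaf 368 2944 (.leaf 419 2590 .nil)) .nil)) .nil)) .nil)) .nil))))) (.cons 373 (.leaf 345 2763 (.cons 349 (.leaf 350 2769 (.cons 394 (.leaf 393 2954 (.cons 374 (.leaf 395 2962 (.cons 398 (.leaf 397 2960 (.leaf 399 2968 .nil)) .nil)) .nil)) .nil)) .nil)) (.cons 373 (.leaf 345 2763 (.cons 349 (.leaf 350 2769 (.cons 348 (.leaf 369 2761 (.cons 300 (.leaf 324 2207 (.cons 397 (.leaf 398 2960 (.cons 421 (.leaf 445 2791 (.cons 420 (.leaf 444 2790 (.cons 325 (.leaf 396 2597 (.cons 301 (.leaf 277 2214 (.cons 302 (.leaf 274 2195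 (.leaf 278 2221 .nil)) .nil)) .nil)) .nil)) .nil)) .nil)) .nil)) .nil)) .nil)) .nil)) (.cons 373 (.leaf 345 2763 (.cons 349 (.leaf 350 2769 (.cons 348 (.leaf 369 2761 (.cons 300 (.leaf 324 2207 (.cons 394 (.leaf 393 2954 (.cons 374 (.leaf 395 2962 (.cons 375 (.leaf 376 2787 (.cons 399 (.leaf 398 2968 (.leaf 400 2976 .nil)) .nil)) .nil)) .nil)) .nil)) .nil)) .nil)) .nil)) (.cons 373 (.leaf 345 2763 (.cons 393 (.leaf 394 2954 (.cons 369 (.leaf 392 2946 (.cons 397 (.leaf 396 2952 (.leaf 398 2960 .nil)) .nil)) .nil)) .nil)) .nil))))))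
noncomputable def t117 : T := .cons 369 (.cons 392 (.leaf 393 2946 (.cons 368 (.leaf 391 2938 (.cons 396 (.leaf 395 2944 (.leaf 397 2952 .nil)) .nil)) .nil)) (.cons 348 (.leaf 349 2761 (.cons 324 (.leaf 300 2207 (.cons 392 (.leaf 393 2946 (.cons 396 (.leaf 397 2952 (.cons 345 (.leaf 373 2763 (.leaf 344 2755 .nil)) .nil)) .nil)) .nil)) .nil)) (.cons 345 (.leaf 373 2763 (.leaf 344 2755 .nil)) .nil))) (.cons 369 (.cons 348 (.leaf 349 2761 (.cons 300 (.leaf 324 2207 (.cons 368 (.leaf 347 2753 (.cons 392 (.leaf 391 2938 (.leaf 393 2946 .nil)) .nil)) .nil)) .nil)) (.cons 344 (.leaf 345 2755 (.cons 368 (.leaf 343 2747 (.cons 392 (.leaf 391 2938 (.leaf 393 2946 .nil)) .nil)) .nil)) (.cons 348 (.leaf 349 2761 (.cons 324 (.leaf 300 2207 (.cons 392 (.leaf 393 2946 (.cons 396 (.leaf 397 2952 (.cons 419 (.leaf 395 2590 (.cons 301 (.leaf 325 2405 (.cons 420 (.leaf 443 2782 (.cons 444 (.leaf 347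 2783 (.cons 445 (.leaf 421 2788 (.leaf 469 2980 .nil)) .nil)) .nil)) .nil)) .nil)) .nil)) .nil)) .nil)) .nil)) (.cons 344 (.leaf 345 2755 (.cons 368 (.leaf 343 2747 (.cons 396 (.leaf 395 2944 (.leaf 397 2952 .nil)) .nil)) .nil)) .nil)))) (.cons 369 (.cons 348 (.leaf 349 2761 (.cons 300 (.leaf 324 2207 (.cons 347 (.leaf 368 2753 (.cons 373 (.leaf 374 2771 (.cons 397 (.leaf 396 2952 (.leaf 398 2960 .nil)) .nil)) .nil)) .nil)) .nil)) (.cons 396 (.leaf 397 2952 (.cons 368 (.leaf 395 2944 (.cons 392 (.leaf 391 2938 (.leaf 393 2946 .nil)) .nil)) .nil)) (.cons 348 (.leaf 349 2761 (.cons 300 (.leaf 324 2207 (.cons 368 (.leaf 347 2753 (.cons 392 (.leaf 391 2938 (.leaf 393 2946 .nil)) .nil)) .nil)) .nil)) (.cons 348 (.leaf 349 2761 (.cons 324 (.leaf 300 2207 (.cons 392 (.leaf 393 2946 (.cons 396 (.leaf 397 2952 (.cons 419 (.leaf 395 2590 (.cons 301 (.leaf 325 2405 (.cons 420 (.leaf 443 2782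 (.cons 444 (.leaf 347 2783 (.cons 445 (.leaf 421 2788 (.leaf 469 2980 .nil)) .nil)) .nil)) .nil)) .nil)) .nil)) .nil)) .nil)) .nil)) .nil)))) (.cons 373 (.leaf 345 2763 (.cons 349 (.leaf 350 2769 (.cons 374 (.leaf 347 2771 (.cons 398 (.leaf 397 2960 (.leaf 399 2968 .nil)) .nil)) .nil)) .nil)) (.cons 345 (.leaf 373 2763 (.cons 344 (.leaf 343 2744 (.leaf 347 2752 .nil)) .nil)) .nil))))
noncomputable def t118 : T := .cons 345 (.leaf 347 2760 (.leaf 371 2763 .nil)) (.cons 347 (.leaf 345 2760 (.cons 374 (.leaf 349 2768 (.leaf 375 2779 .nil)) .nil)) (.cons 371 (.cons 349 (.leaf 350 2769 (.cons 394 (.leaf 393 2954 (.cons 374 (.leaf 347 2768 (.leaf 395 2962 .nil)) .nil)) .nil)) (.cons 349 (.leaf 350 2769 (.cons 397 (.leaf 398 2960 (.cons 421 (.leaf 445 2791 (.cons 394 (.leaf 393 2954 (.cons 422 (.leaf 446 2796 (.cons 395 (.leaf 396 3152 (.cons 419 (.leaf 443 2781 (.leaf 420 3155 .nil)) .nil))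 .nil)) .nil)) .nil)) .nil)) .nil)) (.cons 347 (.leaf 374 2771 (.cons 394 (.leaf 393 2954 (.cons 397 (.leaf 398 2960 (.cons 418 (.leaf 442 2773 (.cons 417 (.leaf 441 2766 (.cons 396 (.leaf 395 3146 (.cons 419 (.leaf 443 2772 (.leaf 420 3145 .nil)) .nil)) .nil)) .nil)) .nil)) .nil)) .nil)) (.cons 349 (.leaf 350 2769 (.cons 374 (.leaf 347 2768 (.cons 398 (.leaf 397 2960 (.leaf 399 2968 .nil)) .nil)) .nil)) .nil)))) (.cons 371 (.leaf 345 2763 (.cons 349 (.leaf 350 2769 (.cons 397 (.leaf 398 2960 (.cons 421 (.leaf 445 2791 (.cons 394 (.leaf 393 2954 (.cons 395 (.leaf 374 2962 (.cons 419 (.leaf 443 2781 (.cons 422 (.leaf 446 2796 (.leaf 396 3152 .nil)) .nil)) .nil)) .nil)) .nil)) .nil)) .nil)) .nil)) .nil)))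
noncomputable def t119 : T := .cons 371 (.leaf 345 2763 (.cons 349 (.leaf 350 2769 (.cons 394 (.leaf 393 2954 (.cons 374 (.leaf 347 2768 (.leaf 395 2962 .nil)) .nil)) .nil)) .nil)) (.cons 347 (.leaf 345 2760 (.cons 374 (.leaf 349 2768 (.leaf 375 2779 .nil)) .nil)) (.cons 349 (.cons 371 (.leaf 350 2769 (.cons 394 (.leaf 393 2954 (.cons 374 (.leaf 347 2768 (.leaf 395 2962 .nil)) .nil)) .nil)) (.cons 347 (.leaf 374 2768 (.cons 325 (.leaf 326 2577 (.cons 301 (.leaf 277 2214 (.cons 302 (.leaf 274 2195 (.leaf 278 2221 .nil)) .nil)) .nil)) .nil)) (.cons 350 (.leaf 371 2769 (.cons 351 (.leaf 352 2786 (.cons 327 (.leaf 328 2593 (.cons 326 (.leaf 347 2585 (.cons 302 (.leaf 301 2392 (.leaf 278 2222 .nil)) .nil)) .nil)) .nil)) .nil)) (.cons 371 (.leaf 350 2769 (.cons 394 (.leaf 393 2954 (.cons 374 (.leaf 395 2962 (.cons 398 (.leaf 397 2960 (.leaf 399 2968 .nil)) .nil)) .nil)) .nil)) .nil)))) (.cons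 371 (.leaf 345 2763 (.cons 349 (.leaf 350 2769 (.cons 394 (.leaf 393 2954 (.cons 374 (.leaf 395 2962 (.cons 398 (.leaf 397 2960 (.leaf 399 2968 .nil)) .nil)) .nil)) .nil)) .nil)) (.cons 345 (.leaf 347 2760 (.leaf 371 2763 .nil)) .nil))))
noncomputable def t120 : T := .cons 301 (.leaf 325 2405 (.cons 419 (.leaf 395 2590 (.cons 420 (.leaf 443 2782 (.cons 421 (.leaf 397 2596 (.leaf 445 2788 .nil)) .nil)) .nil)) .nil)) (.cons 325 (.leaf 301 2405 (.cons 345 (.leaf 347 2569 (.cons 371 (.leaf 373 2763 (.cons 397 (.leaf 421 2596 (.cons 398 (.leaf 395 2963 (.leaf 399 2971 .nil)) .nil)) .nil)) .nil)) .nil)) (.cons 325 (.leaf 301 2405 (.cons 347 (.leaf 345 2569 (.cons 421 (.leaf 397 2596 (.cons 420 (.leaf 445 2788 (.cons 443 (.leaf 419 2782 (.cons 444 (.leaf 371 2783 (.leaf 467 2974 .nil)) .nil)) .nil)) .nil)) .nil)) .nil)) (.cons 419 (.leaf 395 2590 (.cons 325 (.leaf 301 2405 (.cons 347 (.leaf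 345 2569 (.cons 420 (.leaf 443 2782 (.cons 326 (.leaf 327 2586 (.cons 444 (.leaf 371 2783 (.cons 445 (.leaf 421 2788 (.leaf 469 2980 .nil)) .nil)) .nil)) .nil)) .nil)) .nil)) .nil)) (.cons 325 (.leaf 301 2405 (.cons 345 (.leaf 347 2569 (.cons 373 (.leaf 371 2763 (.cons 395 (.leaf 419 2590 (.cons 374 (.leaf 375 2970 (.cons 394 (.leaf 393 2953 (.leaf 397 2961 .nil)) .nil)) .nil)) .nil)) .nil)) .nil)) (.cons 419 (.leaf 395 2590 (.cons 420 (.leaf 443 2782 (.cons 421 (.leaf 397 2596 (.leaf 445 2788 .nil)) .nil)) .nil)) .nil)))))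
noncomputable def t121 : T := .cons 347 (.leaf 374 2771 (.cons 349 (.leaf 350 2769 (.cons 325 (.leaf 326 2577 (.cons 301 (.leaf 277 2214 (.leaf 396 2406 .nil)) .nil)) .nil)) .nil)) (.cons 349 (.leaf 350 2769 (.cons 393 (.leaf 394 2954 (.cons 397 (.leaf 398 2960 (.cons 421 (.leaf 445 2791 (.cons 420 (.leaf 444 2790 (.cons 325 (.leaf 396 2597 (.cons 326 (.leaf 347 2577 (.leaf 302 2413 .nil)) .nil)) .nil)) .nil)) .nil)) .nil)) .nil)) (.cons 347 (.leaf 374 2771 (.cons 394 (.leaf 393 2954 (.cons 397 (.leaf 398 2960 (.cons 418 (.leaf 442 2773 (.cons 417 (.leaf 441 2766 (.cons 396 (.leaf 395 3146 (.cons 419 (.leaf 443 2772 (.leaf 420 3145 .nil)) .nil)) .nil)) .nil)) .nil)) .nil)) .nil)) (.cons 349 (.leaf 350 2769 (.cons 393 (.leaf 394 2954 (.cons 397 (.leaf 398 2960 (.cons 421 (.leaf 445 2791 (.cons 420 (.leaf 444 2790 (.cons 325 (.leaf 396 2597 (.cons 301 (.leaf 277 2214 (.cons 302 (.leaf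 278 2221 (.leaf 326 2413 .nil)) .nil)) .nil)) .nil)) .nil)) .nil)) .nil)) .nil)) (.cons 349 (.leaf 350 2769 (.cons 374 (.leaf 347 2768 (.cons 394 (.leaf 393 2954 (.leaf 395 2962 .nil)) .nil)) .nil)) .nil))))
noncomputable def t122 : T := .cons 324 (.leaf 300 2207 (.cons 325 (.cons 347 (.leaf 345 2569 (.cons 326 (.leaf 349 2577 (.leaf 327 2586 .nil)) .nil)) (.cons 301 (.leaf 396 2405 (.cons 277 (.leaf 349 2214 (.leaf 253 2022 .nil)) .nil)) (.cons 347 (.leaf 345 2569 (.cons 396 (.leaf 301 2405 (.cons 419 (.leaf 395 2590 (.cons 420 (.leaf 443 2782 (.cons 326 (.leaf 327 2586 (.cons 421 (.leaf 397 2596 (.leaf 445 2788 .nil)) .nil)) .nil)) .nil)) .nil)) .nil)) .nil))) .nil)) (.cons 373 (.cons 345 (.leaf 347 2760 (.leaf 371 2763 .nil)) (.cons 347 (.leaf 345 2760 (.cons 374 (.leaf 349 2768 (.leaf 375 2779 .nil)) .nil)) (.cons 371 t121 (.cons 371 (.leaf 345 2763 (.cons 349 (.leaf 350 2769 (.cons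 393 (.leaf 394 2954 (.cons 397 (.leaf 398 2960 (.cons 421 (.leaf 445 2791 (.cons 420 (.leaf 444 2790 (.cons 325 (.leaf 396 2597 (.cons 301 (.leaf 277 2214 (.cons 302 (.leaf 278 2221 (.leaf 326 2413 .nil)) .nil)) .nil)) .nil)) .nil)) .nil)) .nil)) .nil)) .nil)) .nil)))) (.cons 324 (.leaf 300 2207 (.cons 396 (.cons 301 (.leaf 325 2405 (.cons 419 (.leaf 395 2590 (.cons 420 (.leaf 443 2782 (.cons 421 (.leaf 397 2596 (.leaf 445 2788 .nil)) .nil)) .nil)) .nil)) (.cons 325 (.leaf 301 2405 (.cons 349 (.leaf 420 2597 (.cons 326 (.leaf 347 2577 (.cons 327 (.leaf 328 2594 (.cons 303 (.leaf 304 2401 (.cons 351 (.leaf 352 2592 (.cons 350 (.leaf 371 2778 (.cons 279 (.leaf 255 2038 (.leaf 374 2230 .nil)) .nil)) .nil)) .nil)) .nil)) .nil)) .nil)) .nil)) (.cons 395 (.leaf 419 2590 (.cons 397 (.leaf 421 2596 (.cons 398 (.leaf 371 2963 (.cons 374 (.leaf 375 2969 (.cons 373 (.leaf 394 2961 (.cons 422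 (.leaf 423 3160 (.cons 349 (.leaf 347 2768 (.leaf 446 2799 .nil)) .nil)) .nil)) .nil)) .nil)) .nil)) .nil)) .nil))) .nil)) (.cons 324 (.leaf 300 2207 (.cons 396 (.cons 325 (.leaf 301 2405 (.cons 420 (.leaf 349 2597 (.cons 421 (.leaf 397 2596 (.leaf 445 2788 .nil)) .nil)) .nil)) (.cons 325 (.leaf 301 2405 (.cons 419 (.leaf 395 2590 (.cons 420 (.leaf 349 2597 (.leaf 443 2782 .nil)) .nil)) .nil)) (.cons 395 (.leaf 419 2590 (.cons 397 (.leaf 421 2596 (.cons 398 (.leaf 371 2963 (.cons 375 (.leaf 374 2969 (.cons 399 (.leaf 376 2977 (.cons 423 (.leaf 422 3160 (.leaf 424 3168 .nil)) .nil)) .nil)) .nil)) .nil)) .nil)) .nil))) .nil)) (.cons 324 (.leaf 300 2207 (.cons 396 t120 .nil)) (.cons 300 (.leaf 324 2207 (.cons 373 t119 .nil)) (.cons 300 (.leaf 324 2207 (.cons 373 t118 .nil)) (.cons 324 (.leaf 300 2207 (.cons 325 (.cons 347 (.leaf 345 2569 (.cons 326 (.leaf 349 2577 (.leaf 327 2586 .nil))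 .nil)) (.cons 301 (.leaf 396 2405 (.cons 277 (.leaf 349 2214 (.leaf 253 2022 .nil)) .nil)) (.cons 347 (.leaf 345 2569 (.cons 396 (.leaf 301 2405 (.cons 421 (.leaf 397 2596 (.cons 420 (.leaf 445 2788 (.cons 443 (.leaf 419 2782 (.cons 444 (.leaf 371 2783 (.leaf 467 2974 .nil)) .nil)) .nil)) .nil)) .nil)) .nil)) .nil))) .nil)) (.cons 324 (.leaf 300 2207 (.cons 325 (.cons 347 (.leaf 345 2569 (.cons 326 (.leaf 349 2577 (.leaf 327 2586 .nil)) .nil)) (.cons 396 (.leaf 301 2405 (.cons 419 (.leaf 395 2590 (.cons 420 (.leaf 349 2597 (.leaf 443 2782 .nil)) .nil)) .nil)) (.cons 347 (.leaf 345 2569 (.cons 396 (.leaf 301 2405 (.cons 419 (.leaf 395 2590 (.cons 420 (.leaf 443 2782 (.cons 326 (.leaf 327 2586 (.cons 444 (.leaf 371 2783 (.cons 445 (.leaf 421 2788 (.leaf 469 2980 .nil)) .nil)) .nil)) .nil)) .nil)) .nil)) .nil)) .nil))) .nil)) .nil))))))))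
noncomputable def t123 : T := .cons 345 (.leaf 373 2763 (.cons 344 (.leaf 343 2744 (.leaf 347 2752 .nil)) .nil)) (.cons 369 (.cons 392 (.leaf 393 2946 (.cons 368 (.leaf 391 2938 (.cons 396 (.leaf 395 2944 (.leaf 397 2952 .nil)) .nil)) .nil)) (.cons 344 (.leaf 345 2755 (.cons 368 (.leaf 343 2747 (.cons 396 (.leaf 395 2944 (.leaf 397 2952 .nil)) .nil)) .nil)) (.cons 344 (.leaf 345 2755 (.cons 368 (.leaf 343 2747 (.cons 392 (.leaf 391 2938 (.leaf 393 2946 .nil)) .nil)) .nil)) (.cons 345 (.leaf 344 2755 (.cons 393 (.leaf 392 2946 (.cons 396 (.leaf 397 2952 (.cons 417 (.leaf 441 2765 (.cons 416 (.leaf 440 2758 (.cons 394 (.leaf 395 3138 (.cons 418 (.leaf 321 2572 (.leaf 442 2764 .nil)) .nil)) .nil)) .nil)) .nil)) .nil)) .nil)) .nil)))) (.cons 373 (.cons 347 (.leaf 374 2771 (.cons 349 (.leaf 350 2769 (.cons 397 (.leaf 398 2960 (.cons 369 (.leaf 396 2952 (.cons 368 (.leaf 367 2745 (.cons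 392 (.leaf 391 2938 (.leaf 393 2946 .nil)) .nil)) .nil)) .nil)) .nil)) .nil)) (.cons 349 (.leaf 350 2769 (.cons 393 (.leaf 394 2954 (.cons 369 (.leaf 392 2946 (.cons 397 (.leaf 396 2952 (.leaf 398 2960 .nil)) .nil)) .nil)) .nil)) (.cons 349 (.leaf 350 2769 (.cons 374 (.leaf 347 2771 (.cons 394 (.leaf 393 2954 (.leaf 395 2962 .nil)) .nil)) .nil)) (.cons 347 (.leaf 374 2771 (.cons 349 (.leaf 350 2769 (.cons 397 (.leaf 398 2960 (.cons 396 (.leaf 369 2952 (.cons 420 (.leaf 444 2789 (.leaf 325 2598 .nil)) .nil)) .nil)) .nil)) .nil)) (.cons 374 (.leaf 347 2771 (.cons 394 (.leaf 393 2954 (.leaf 395 2962 .nil)) .nil)) .nil))))) .nil))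
noncomputable def t124 : T := .cons 349 (.leaf 369 2761 (.cons 350 (.leaf 347 2770 (.leaf 373 2769 .nil)) .nil)) (.cons 373 (.cons 347 (.leaf 374 2771 (.cons 394 (.leaf 393 2954 (.cons 397 (.leaf 398 2960 (.cons 418 (.leaf 442 2773 (.cons 417 (.leaf 441 2766 (.cons 396 (.leaf 395 3146 (.cons 419 (.leaf 443 2772 (.leaf 420 3145 .nil)) .nil)) .nil)) .nil)) .nil)) .nil)) .nil)) (.cons 349 (.leaf 350 2769 (.cons 397 (.leaf 398 2960 (.cons 421 (.leaf 445 2791 (.cons 394 (.leaf 393 2954 (.cons 422 (.leaf 446 2796 (.cons 395 (.leaf 396 3152 (.cons 419 (.leaf 443 2781 (.leaf 420 3155 .nil)) .nil)) .nil)) .nil)) .nil)) .nil)) .nil)) (.cons 349 (.leaf 350 2769 (.cons 374 (.leaf 347 2768 (.cons 398 (.leaf 397 2960 (.leaf 399 2968 .nil)) .nil)) .nil)) (.cons 349 (.leaf 350 2769 (.cons 374 (.leaf 347 2768 (.cons 394 (.leaf 393 2954 (.leaf 395 2962 .nil)) .nil)) .nil)) .nil)))) (.cons 369 (.cons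 347 (.leaf 368 2753 (.cons 393 (.leaf 392 2946 (.cons 396 (.leaf 397 2952 (.cons 420 (.leaf 444 2783 (.cons 373 (.leaf 374 2771 (.leaf 394 2954 .nil)) .nil)) .nil)) .nil)) .nil)) (.cons 393 (.leaf 392 2946 (.cons 373 (.leaf 394 2954 (.cons 397 (.leaf 396 2952 (.leaf 398 2960 .nil)) .nil)) .nil)) (.cons 347 (.leaf 368 2753 (.cons 373 (.leaf 374 2771 (.cons 397 (.leaf 396 2952 (.leaf 398 2960 .nil)) .nil)) .nil)) (.cons 368 (.leaf 347 2753 (.cons 392 (.leaf 391 2938 (.leaf 393 2946 .nil)) .nil)) .nil)))) (.cons 349 (.leaf 369 2761 (.cons 350 (.leaf 347 2770 (.leaf 351 2778 .nil)) .nil)) (.cons 369 (.leaf 349 2761 (.cons 393 (.leaf 392 2946 (.cons 373 (.leaf 394 2954 (.cons 397 (.leaf 396 2952 (.leaf 398 2960 .nil)) .nil)) .nil)) .nil)) .nil))))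
noncomputable def t125 : T := .cons 395 (.leaf 419 2590 (.cons 397 (.leaf 421 2596 (.cons 394 (.leaf 369 2955 (.cons 373 (.leaf 393 2953 (.leaf 374 2961 .nil)) .nil)) .nil)) .nil)) (.cons 419 (.leaf 395 2590 (.cons 420 (.leaf 443 2782 (.cons 349 (.leaf 325 2597 (.cons 369 (.leaf 347 2762 (.leaf 371 2761 .nil)) .nil)) .nil)) .nil)) (.cons 397 (.leaf 421 2596 (.cons 369 (.leaf 371 2952 (.cons 349 (.leaf 347 2762 (.cons 420 (.leaf 325 2597 (.cons 443 (.leaf 419 2782 (.cons 444 (.leaf 373 2789 (.leaf 467 2974 .nil)) .nil)) .nil)) .nil)) .nil)) .nil)) (.cons 397 (.leaf 421 2596 (.cons 369 (.leaf 371 2952 (.cons 349 (.leaf 347 2762 (.cons 420 (.leaf 325 2597 (.cons 444 (.leaf 373 2789 (.cons 467 (.leaf 443 2974 (.cons 468 (.leaf 491 3166 (.cons 469 (.leaf 445 2980 (.leaf 493 3172 .nil)) .nil)) .nil)) .nil)) .nil)) .nil)) .nil)) .nil)) (.cons 419 (.leaf 395 2590 (.cons 397 (.leaf 421 2596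 (.cons 420 (.leaf 443 2782 (.cons 349 (.leaf 325 2597 (.cons 373 (.leaf 444 2789 (.cons 371 (.leaf 350 2769 (.leaf 398 2960 .nil)) .nil)) .nil)) .nil)) .nil)) .nil)) .nil))))
noncomputable def t126 : T := .cons 371 (.leaf 369 2761 (.cons 350 (.leaf 347 2770 (.leaf 373 2769 .nil)) .nil)) (.cons 347 (.cons 325 (.leaf 326 2577 (.cons 301 (.leaf 277 2214 (.cons 274 (.leaf 302 2195 (.cons 273 (.leaf 272 2176 (.leaf 298 2187 .nil)) .nil)) .nil)) .nil)) (.cons 350 (.leaf 371 2770 (.cons 374 (.leaf 373 2768 (.leaf 375 2776 .nil)) .nil)) .nil)) (.cons 347 (.leaf 369 2762 (.cons 350 (.cons 327 (.leaf 326 2585 (.cons 351 (.leaf 328 2593 (.cons 373 (.leaf 374 2768 (.leaf 352 2786 .nil)) .nil)) .nil)) (.cons 327 (.leaf 326 2585 (.cons 351 (.leaf 328 2593 (.cons 352 (.leaf 373 2786 (.cons 376 (.leaf 375 2784 (.leaf 377 2792 .nil)) .nil)) .nil)) .nil)) (.cons 374 (.leaf 373 2768 (.leaf 375 2776 .nil))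 (.cons 327 (.leaf 326 2585 (.cons 351 (.leaf 328 2593 (.cons 375 (.leaf 374 2776 (.leaf 376 2784 .nil)) .nil)) .nil)) .nil)))) .nil)) (.cons 371 (.leaf 369 2761 (.cons 350 (.leaf 373 2769 (.leaf 351 2778 .nil)) .nil)) (.cons 347 (.leaf 369 2762 (.cons 325 (.leaf 326 2577 (.cons 301 (.leaf 277 2214 (.cons 274 (.leaf 302 2195 (.cons 273 (.leaf 272 2176 (.leaf 298 2187 .nil)) .nil)) .nil)) .nil)) .nil)) .nil))))
noncomputable def t127 : T := .cons 397 (.leaf 421 2596 (.cons 369 (.leaf 371 2952 (.cons 395 (.leaf 394 2955 (.leaf 419 2590 .nil)) .nil)) .nil)) (.cons 325 (.leaf 301 2405 (.cons 420 (.cons 443 (.leaf 419 2782 (.cons 444 (.leaf 467 2974 (.cons 445 (.leaf 421 2788 (.leaf 469 2980 .nil)) .nil)) .nil)) (.cons 445 (.leaf 421 2788 (.cons 444 (.leaf 469 2980 (.cons 371 (.leaf 347 2783 (.cons 467 (.leaf 443 2974 (.cons 468 (.leaf 395 2975 (.leaf 491 3166 .nil)) .nil)) .nil)) .nil))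 .nil)) (.cons 445 (.leaf 421 2788 (.cons 444 (.leaf 469 2980 (.cons 371 (.leaf 347 2783 (.cons 395 (.leaf 419 2590 (.leaf 468 2975 .nil)) .nil)) .nil)) .nil)) (.cons 419 (.leaf 395 2590 (.leaf 443 2782 .nil)) .nil)))) .nil)) (.cons 397 (.leaf 421 2596 (.cons 301 (.leaf 325 2405 (.cons 371 (.leaf 369 2952 (.cons 398 (.leaf 373 2960 (.leaf 399 2971 .nil)) .nil)) .nil)) .nil)) (.cons 419 (.leaf 395 2590 (.cons 443 (.leaf 420 2782 (.cons 394 (.leaf 418 2772 (.cons 371 (.cons 397 (.leaf 369 2952 (.cons 398 (.leaf 373 2960 (.leaf 399 2971 .nil)) .nil)) (.cons 373 (.leaf 393 2954 (.cons 301 (.leaf 325 2405 (.cons 374 (.leaf 347 2771 (.cons 398 (.leaf 397 2960 (.leaf 399 2968 .nil)) .nil)) .nil)) .nil)) (.cons 369 (.leaf 397 2952 (.cons 301 (.leaf 325 2405 (.cons 368 (.leaf 347 2753 (.cons 392 (.leaf 391 2938 (.leaf 393 2946 .nil)) .nil)) .nil)) .nil)) (.cons 393 (.leaf 373 2954 (.cons 392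 (.leaf 369 2946 (.leaf 391 2937 .nil)) .nil)) .nil)))) .nil)) .nil)) .nil)) (.cons 419 (.leaf 395 2590 (.cons 301 (.leaf 325 2405 (.cons 420 (.leaf 443 2782 (.cons 421 (.leaf 397 2596 (.leaf 445 2788 .nil)) .nil)) .nil)) .nil)) .nil))))
noncomputable def t128 : T := .cons 349 (.cons 347 (.leaf 369 2762 (.cons 325 (.leaf 326 2577 (.cons 301 (.leaf 277 2214 (.cons 373 (.leaf 374 2768 (.leaf 396 2406 .nil)) .nil)) .nil)) .nil)) (.cons 325 (.cons 277 (.leaf 301 2214 (.cons 347 (.leaf 326 2577 (.cons 350 (.leaf 371 2770 (.cons 374 (.leaf 373 2768 (.leaf 375 2776 .nil)) .nil)) .nil)) .nil)) (.cons 347 (.leaf 326 2577 (.cons 350 (.leaf 371 2770 (.cons 374 (.leaf 373 2768 (.leaf 375 2776 .nil)) .nil)) .nil)) (.cons 277 (.leaf 301 2214 (.cons 347 (.leaf 326 2577 (.cons 350 (.leaf 371 2770 (.cons 375 (.leaf 374 2776 (.cons 351 (.leaf 376 2784 (.cons 328 (.leaf 327 2593 (.cons 352 (.leaf 324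 2595 (.leaf 329 2601 .nil)) .nil)) .nil)) .nil)) .nil)) .nil)) .nil)) (.cons 301 (.leaf 277 2214 (.cons 396 (.leaf 324 2405 (.leaf 373 2406 .nil)) .nil)) .nil)))) (.cons 371 (.leaf 369 2761 (.cons 350 (.leaf 373 2769 (.leaf 351 2778 .nil)) .nil)) (.cons 369 (.leaf 347 2762 (.leaf 371 2761 .nil)) .nil)))) (.cons 324 (.leaf 300 2207 (.cons 396 (.cons 395 (.leaf 419 2590 (.cons 397 (.leaf 421 2596 (.cons 394 (.leaf 369 2955 (.cons 373 (.leaf 393 2953 (.leaf 374 2961 .nil)) .nil)) .nil)) .nil)) (.cons 325 (.leaf 301 2405 (.cons 349 (.leaf 420 2597 (.cons 347 (.leaf 326 2577 (.leaf 369 2762 .nil)) .nil)) .nil)) (.cons 325 (.leaf 301 2405 (.cons 349 (.leaf 420 2597 (.cons 326 (.leaf 347 2577 (.cons 327 (.leaf 328 2594 (.cons 395 (.leaf 419 2590 (.cons 397 (.leaf 421 2596 (.cons 373 (.leaf 302 2413 (.cons 374 (.leaf 375 2970 (.leaf 394 2961 .nil)) .nil)) .nil)) .nil)) .nil)) .nil)) .nil))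 .nil)) .nil))) .nil)) (.cons 324 (.leaf 300 2207 (.cons 396 t127 .nil)) (.cons 324 (.leaf 300 2207 (.cons 396 (.cons 419 (.leaf 395 2590 (.cons 301 (.leaf 325 2405 (.cons 420 (.leaf 443 2782 (.cons 421 (.leaf 397 2596 (.leaf 445 2788 .nil)) .nil)) .nil)) .nil)) (.cons 325 (.leaf 301 2405 (.cons 349 (.leaf 420 2597 (.cons 326 (.leaf 347 2577 (.cons 327 (.leaf 328 2594 (.cons 303 (.leaf 304 2401 (.cons 351 (.leaf 352 2592 (.cons 350 (.leaf 371 2778 (.cons 279 (.leaf 255 2038 (.leaf 374 2230 .nil)) .nil)) .nil)) .nil)) .nil)) .nil)) .nil)) .nil)) (.cons 395 (.leaf 419 2590 (.cons 397 (.leaf 421 2596 (.cons 398 (.leaf 371 2963 (.cons 374 (.leaf 375 2969 (.cons 373 (.leaf 394 2961 (.cons 422 (.leaf 423 3160 (.cons 349 (.leaf 347 2768 (.leaf 446 2799 .nil)) .nil)) .nil)) .nil)) .nil)) .nil)) .nil)) .nil))) .nil)) (.cons 324 (.leaf 300 2207 (.cons 396 (.cons 395 (.leaf 419 2590 (.cons 397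 (.leaf 421 2596 (.cons 369 (.leaf 371 2952 (.leaf 394 2955 .nil)) .nil)) .nil)) (.cons 325 (.leaf 301 2405 (.cons 349 (.leaf 420 2597 (.cons 326 (.leaf 347 2577 (.cons 327 (.leaf 328 2594 (.cons 303 (.leaf 304 2401 (.cons 351 (.leaf 352 2592 (.cons 350 (.leaf 371 2778 (.cons 279 (.leaf 255 2038 (.leaf 374 2230 .nil)) .nil)) .nil)) .nil)) .nil)) .nil)) .nil)) .nil)) (.cons 325 (.leaf 301 2405 (.cons 349 (.leaf 420 2597 (.cons 347 (.leaf 326 2577 (.leaf 369 2762 .nil)) .nil)) .nil)) .nil))) .nil)) (.cons 324 (.leaf 300 2207 (.cons 396 (.cons 301 (.leaf 325 2405 (.cons 395 (.leaf 419 2590 (.cons 397 (.leaf 421 2596 (.cons 394 (.leaf 369 2955 (.cons 373 (.leaf 393 2953 (.leaf 374 2961 .nil)) .nil)) .nil)) .nil)) .nil)) (.cons 325 (.leaf 301 2405 (.cons 349 (.leaf 420 2597 (.cons 371 (.leaf 369 2761 (.cons 350 (.leaf 373 2769 (.leaf 351 2778 .nil)) .nil)) .nil)) .nil)) (.cons 397 (.leaf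 421 2596 (.cons 369 (.leaf 371 2952 (.cons 395 (.leaf 394 2955 (.leaf 419 2590 .nil)) .nil)) .nil)) (.cons 301 (.leaf 325 2405 (.cons 419 (.leaf 395 2590 (.cons 420 (.leaf 443 2782 (.cons 421 (.leaf 397 2596 (.leaf 445 2788 .nil)) .nil)) .nil)) .nil)) .nil)))) .nil)) (.cons 300 (.leaf 324 2207 (.cons 349 t126 .nil)) (.cons 324 (.leaf 300 2207 (.cons 396 t125 .nil)) (.cons 324 (.leaf 300 2207 (.cons 396 (.cons 325 (.leaf 301 2405 (.cons 349 (.leaf 420 2597 (.cons 347 (.leaf 326 2577 (.leaf 369 2762 .nil)) .nil)) .nil)) (.cons 395 (.leaf 419 2590 (.cons 397 (.leaf 421 2596 (.cons 369 (.leaf 371 2952 (.leaf 394 2955 .nil)) .nil)) .nil)) (.cons 419 (.leaf 395 2590 (.cons 301 (.leaf 325 2405 (.cons 420 (.leaf 443 2782 (.cons 421 (.leaf 397 2596 (.leaf 445 2788 .nil)) .nil)) .nil)) .nil)) .nil))) .nil)) (.cons 300 (.leaf 324 2207 (.cons 371 t124 .nil)) .nil)))))))))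
noncomputable def t129 : T := .cons 324 (.leaf 300 2207 (.cons 396 (.cons 395 (.leaf 419 2590 (.cons 397 (.leaf 421 2596 (.cons 394 (.leaf 369 2955 (.cons 373 (.leaf 393 2953 (.leaf 374 2961 .nil)) .nil)) .nil)) .nil)) (.cons 325 (.leaf 301 2405 (.cons 349 (.leaf 420 2597 (.cons 347 (.leaf 326 2577 (.leaf 369 2762 .nil)) .nil)) .nil)) (.cons 325 (.leaf 301 2405 (.cons 349 (.leaf 420 2597 (.cons 326 (.leaf 347 2577 (.cons 327 (.leaf 328 2594 (.cons 303 (.leaf 304 2401 (.cons 351 (.leaf 352 2592 (.cons 350 (.leaf 371 2778 (.cons 279 (.leaf 255 2038 (.leaf 374 2230 .nil)) .nil)) .nil)) .nil)) .nil)) .nil)) .nil)) .nil)) .nil))) .nil)) (.cons 349 (.cons 371 (.leaf 369 2761 (.cons 350 (.leaf 347 2770 (.leaf 373 2769 .nil)) .nil)) (.cons 325 (.cons 347 (.leaf 326 2577 (.cons 301 (.leaf 277 2214 (.cons 373 (.leaf 374 2768 (.leaf 396 2406 .nil)) .nil)) .nil)) (.cons 347 (.leaf 326 2577 (.cons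 350 (.leaf 371 2770 (.cons 374 (.leaf 373 2768 (.leaf 375 2776 .nil)) .nil)) .nil)) (.cons 301 (.leaf 277 2214 (.cons 326 (.leaf 347 2577 (.cons 300 (.leaf 298 2384 (.cons 327 (.leaf 302 2392 (.leaf 328 2594 .nil)) .nil)) .nil)) .nil)) (.cons 301 (.leaf 277 2214 (.cons 396 (.leaf 373 2406 (.leaf 420 2597 .nil)) .nil)) .nil)))) (.cons 347 (.leaf 369 2762 (.cons 325 (.leaf 326 2577 (.cons 301 (.leaf 277 2214 (.cons 373 (.leaf 374 2768 (.leaf 396 2406 .nil)) .nil)) .nil)) .nil)) (.cons 371 (.leaf 369 2761 (.cons 350 (.leaf 373 2769 (.leaf 351 2778 .nil)) .nil)) (.cons 369 (.leaf 347 2762 (.leaf 371 2761 .nil)) .nil))))) t128)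
noncomputable def t130 : T := .cons 395 (.leaf 419 2590 (.cons 397 (.leaf 421 2596 (.cons 398 (.leaf 371 2963 (.cons 375 (.leaf 374 2969 (.cons 399 (.leaf 376 2977 (.cons 423 (.leaf 422 3160 (.leaf 424 3168 .nil)) .nil)) .nil)) .nil)) .nil)) .nil)) (.cons 397 (.leaf 421 2596 (.cons 301 (.leaf 325 2405 (.cons 371 (.leaf 369 2952 (.cons 398 (.leaf 395 2963 (.leaf 399 2971 .nil)) .nil)) .nil)) .nil)) (.cons 325 (.leaf 301 2405 (.cons 347 (.leaf 345 2569 (.cons 421 (.leaf 397 2596 (.cons 420 (.leaf 445 2788 (.cons 443 (.leaf 419 2782 (.cons 444 (.leaf 371 2783 (.leaf 467 2974 .nil)) .nil)) .nil)) .nil)) .nil)) .nil)) (.cons 419 (.leaf 395 2590 (.cons 325 (.leaf 301 2405 (.cons 420 (.leaf 443 2782 (.cons 421 (.leaf 445 2788 (.cons 418 (.cons 345 (.leaf 347 2569 (.cons 394 (.leaf 321 2575 (.leaf 393 3147 .nil)) .nil)) (.cons 393 (.leaf 394 3147 (.cons 417 (.leaf 392 3139 (.cons 441 (.leaf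 369 2765 (.leaf 440 3330 .nil)) .nil)) .nil)) (.cons 441 (.leaf 442 3338 (.cons 417 (.leaf 440 3330 (.cons 393 (.leaf 369 2765 (.leaf 392 3139 .nil)) .nil)) .nil)) (.cons 345 (.leaf 347 2569 (.cons 394 (.leaf 321 2575 (.cons 441 (.leaf 417 2766 (.leaf 442 3338 .nil)) .nil)) .nil)) .nil)))) .nil)) .nil)) .nil)) .nil)) (.cons 419 (.leaf 395 2590 (.cons 325 (.leaf 301 2405 (.cons 347 (.leaf 345 2569 (.cons 420 (.leaf 443 2782 (.cons 371 (.leaf 444 2783 (.cons 369 (.leaf 368 2753 (.leaf 397 2952 .nil)) .nil)) .nil)) .nil)) .nil)) .nil)) .nil))))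
noncomputable def t131 : T := .cons 349 (.leaf 347 2762 (.leaf 371 2761 .nil)) (.cons 347 (.leaf 349 2762 (.cons 368 (.leaf 345 2754 (.leaf 367 2745 .nil)) .nil)) (.cons 371 (.cons 345 (.leaf 344 2755 (.cons 393 (.leaf 392 2946 (.cons 396 (.leaf 397 2952 (.cons 368 (.leaf 347 2753 (.leaf 395 2944 .nil)) .nil)) .nil)) .nil)) (.cons 345 (.leaf 344 2755 (.cons 393 (.leaf 392 2946 (.cons 396 (.leaf 397 2952 (.cons 417 (.leaf 441 2765 (.cons 416 (.leaf 440 2758 (.cons 394 (.leaf 395 3138 (.cons 418 (.leaf 321 2572 (.leaf 442 2764 .nil)) .nil)) .nil)) .nil)) .nil)) .nil)) .nil)) (.cons 347 (.leaf 368 2753 (.cons 393 (.leaf 392 2946 (.cons 396 (.leaf 397 2952 (.cons 420 (.leaf 444 2783 (.cons 417 (.leaf 441 2765 (.cons 421 (.leaf 445 2788 (.cons 394 (.leaf 395 3144 (.cons 418 (.leaf 442 2773 (.leaf 419 3147 .nil)) .nil)) .nil)) .nil)) .nil)) .nil)) .nil)) .nil)) (.cons 344 (.leaf 345 2755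 (.cons 368 (.leaf 343 2747 (.leaf 347 2753 .nil)) .nil)) .nil)))) (.cons 371 (.leaf 349 2761 (.cons 345 (.leaf 344 2755 (.cons 393 (.leaf 392 2946 (.cons 396 (.leaf 397 2952 (.cons 417 (.leaf 441 2765 (.cons 416 (.leaf 440 2758 (.cons 394 (.leaf 395 3138 (.cons 418 (.leaf 321 2572 (.leaf 442 2764 .nil)) .nil)) .nil)) .nil)) .nil)) .nil)) .nil)) .nil)) .nil)))
noncomputable def t132 : T := .cons 324 (.leaf 300 2207 (.cons 396 (.cons 301 (.leaf 325 2405 (.cons 419 (.leaf 395 2590 (.cons 397 (.leaf 421 2596 (.cons 369 (.leaf 371 2952 (.cons 347 (.leaf 349 2762 (.cons 368 (.leaf 345 2754 (.leaf 367 2745 .nil)) .nil)) .nil)) .nil)) .nil)) .nil)) (.cons 395 (.leaf 419 2590 (.cons 397 (.leaf 421 2596 (.cons 398 (.leaf 371 2963 (.cons 375 (.leaf 374 2969 (.cons 399 (.leaf 376 2977 (.cons 423 (.leaf 422 3160 (.leaf 424 3168 .nil)) .nil)) .nil)) .nil)) .nil)) .nil)) (.cons 325 (.leaf 301 2405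 (.cons 420 (.leaf 349 2597 (.cons 421 (.leaf 397 2596 (.leaf 445 2788 .nil)) .nil)) .nil)) (.cons 325 (.leaf 301 2405 (.cons 419 (.leaf 395 2590 (.cons 420 (.leaf 349 2597 (.leaf 443 2782 .nil)) .nil)) .nil)) .nil)))) .nil)) (.cons 369 t131 (.cons 324 (.leaf 300 2207 (.cons 396 (.cons 395 (.leaf 419 2590 (.cons 397 (.leaf 421 2596 (.cons 398 (.leaf 371 2963 (.cons 375 (.leaf 374 2969 (.cons 399 (.leaf 376 2977 (.cons 423 (.leaf 422 3160 (.leaf 424 3168 .nil)) .nil)) .nil)) .nil)) .nil)) .nil)) (.cons 325 (.leaf 301 2405 (.cons 420 (.leaf 349 2597 (.cons 421 (.leaf 397 2596 (.leaf 445 2788 .nil)) .nil)) .nil)) (.cons 325 (.leaf 301 2405 (.cons 419 (.leaf 395 2590 (.cons 420 (.leaf 349 2597 (.leaf 443 2782 .nil)) .nil)) .nil)) .nil))) .nil)) (.cons 324 (.leaf 300 2207 (.cons 396 (.cons 395 (.leaf 419 2590 (.cons 397 (.leaf 421 2596 (.cons 369 (.leaf 394 2955 (.cons 347 (.leaf 349 2762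 (.cons 368 (.leaf 345 2754 (.leaf 367 2745 .nil)) .nil)) .nil)) .nil)) .nil)) (.cons 325 (.leaf 301 2405 (.cons 420 (.leaf 349 2597 (.cons 421 (.leaf 397 2596 (.leaf 445 2788 .nil)) .nil)) .nil)) (.cons 325 (.leaf 301 2405 (.cons 419 (.leaf 395 2590 (.cons 420 (.leaf 349 2597 (.leaf 443 2782 .nil)) .nil)) .nil)) (.cons 301 (.leaf 325 2405 (.cons 419 (.leaf 395 2590 (.cons 420 (.leaf 443 2782 (.cons 421 (.leaf 397 2596 (.leaf 445 2788 .nil)) .nil)) .nil)) .nil)) .nil)))) .nil)) (.cons 324 (.leaf 300 2207 (.cons 396 t130 .nil)) (.cons 324 (.leaf 300 2207 (.cons 347 (.cons 349 (.leaf 369 2762 (.cons 350 (.leaf 371 2770 (.cons 327 (.leaf 326 2585 (.cons 325 (.leaf 345 2569 (.cons 351 (.leaf 328 2593 (.leaf 352 2595 .nil)) .nil)) .nil)) .nil)) .nil)) (.cons 345 (.leaf 325 2569 (.cons 320 (.leaf 321 2563 (.cons 344 (.leaf 319 2555 (.leaf 371 2752 .nil)) .nil)) .nil)) (.cons 349 (.leaf 369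 2762 (.cons 350 (.leaf 371 2770 (.cons 327 (.leaf 326 2585 (.cons 351 (.leaf 328 2593 (.cons 375 (.leaf 374 2776 (.leaf 376 2784 .nil)) .nil)) .nil)) .nil)) .nil)) (.cons 325 (.leaf 345 2569 (.cons 326 (.leaf 349 2577 (.leaf 327 2586 .nil)) .nil)) .nil)))) .nil)) .nil)))))
noncomputable def t133 : T := .cons 419 (.leaf 395 2590 (.cons 420 (.leaf 443 2782 (.cons 421 (.leaf 397 2596 (.leaf 445 2788 .nil)) .nil)) .nil)) (.cons 325 (.leaf 301 2405 (.cons 345 (.leaf 347 2569 (.cons 395 (.leaf 419 2590 (.cons 394 (.cons 321 (.leaf 418 2575 (.cons 297 (.leaf 273 2188 (.leaf 369 2380 .nil)) .nil)) (.cons 321 (.leaf 418 2575 (.cons 373 (.leaf 393 2953 (.cons 374 (.leaf 375 2970 (.leaf 397 2961 .nil)) .nil)) .nil)) (.cons 369 (.leaf 397 2955 (.cons 368 (.leaf 367 2936 (.leaf 393 2947 .nil)) .nil)) .nil))) .nil)) .nil)) .nil)) (.cons 325 (.leaf 301 2405 (.cons 394 (.cons 345 (.leaf 347 2569 (.cons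 321 (.leaf 418 2575 (.cons 297 (.leaf 273 2188 (.leaf 369 2380 .nil)) .nil)) .nil)) (.cons 397 (.leaf 421 2596 (.cons 395 (.leaf 369 2955 (.cons 373 (.leaf 393 2953 (.leaf 374 2961 .nil)) .nil)) .nil)) (.cons 345 (.leaf 347 2569 (.cons 418 (.leaf 321 2575 (.cons 397 (.leaf 421 2596 (.cons 417 (.leaf 441 2766 (.leaf 395 3146 .nil)) .nil)) .nil)) .nil)) .nil))) .nil)) (.cons 325 (.leaf 301 2405 (.cons 421 (.leaf 397 2596 (.cons 420 (.leaf 445 2788 (.cons 419 (.leaf 443 2782 (.cons 418 (.cons 345 (.leaf 347 2569 (.cons 394 (.leaf 321 2575 (.leaf 393 3147 .nil)) .nil)) (.cons 393 (.leaf 394 3147 (.cons 417 (.leaf 392 3139 (.cons 441 (.leaf 369 2765 (.leaf 442 3338 .nil)) .nil)) .nil)) (.cons 441 (.leaf 442 3338 (.cons 417 (.leaf 440 3330 (.cons 393 (.leaf 369 2765 (.leaf 392 3139 .nil)) .nil)) .nil)) (.cons 345 (.leaf 347 2569 (.cons 394 (.leaf 321 2575 (.cons 441 (.leaf 417 2766 (.leaf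 442 3338 .nil)) .nil)) .nil)) .nil)))) .nil)) .nil)) .nil)) .nil)) (.cons 325 (.leaf 301 2405 (.cons 419 (.leaf 395 2590 (.cons 420 (.leaf 443 2782 (.cons 421 (.leaf 445 2788 (.cons 418 (.cons 345 (.leaf 347 2569 (.cons 394 (.leaf 321 2575 (.leaf 393 3147 .nil)) .nil)) (.cons 393 (.leaf 394 3147 (.cons 417 (.leaf 392 3139 (.cons 441 (.leaf 369 2765 (.leaf 440 3330 .nil)) .nil)) .nil)) (.cons 441 (.leaf 442 3338 (.cons 417 (.leaf 440 3330 (.cons 393 (.leaf 369 2765 (.leaf 392 3139 .nil)) .nil)) .nil)) (.cons 345 (.leaf 347 2569 (.cons 394 (.leaf 321 2575 (.cons 441 (.leaf 417 2766 (.leaf 442 3338 .nil)) .nil)) .nil)) .nil)))) .nil)) .nil)) .nil)) .nil)) .nil))))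
noncomputable def t134 : T := .cons 324 (.leaf 300 2207 (.cons 396 (.cons 325 (.leaf 301 2405 (.cons 345 (.leaf 347 2569 (.cons 419 (.leaf 395 2590 (.cons 420 (.leaf 349 2597 (.leaf 443 2782 .nil)) .nil)) .nil)) .nil)) (.cons 395 (.leaf 419 2590 (.cons 397 (.leaf 421 2596 (.cons 369 (.leaf 394 2955 (.cons 347 (.leaf 349 2762 (.cons 368 (.leaf 345 2754 (.leaf 367 2745 .nil)) .nil)) .nil)) .nil)) .nil)) (.cons 325 (.leaf 301 2405 (.cons 345 (.leaf 347 2569 (.cons 420 (.leaf 349 2597 (.cons 421 (.leaf 397 2596 (.leaf 445 2788 .nil)) .nil)) .nil)) .nil)) (.cons 301 (.leaf 325 2405 (.cons 395 (.leaf 419 2590 (.cons 397 (.leaf 421 2596 (.cons 394 (.leaf 369 2955 (.cons 373 (.leaf 393 2953 (.leaf 374 2961 .nil)) .nil)) .nil)) .nil)) .nil)) .nil)))) .nil)) (.cons 347 (.cons 349 (.leaf 369 2762 (.cons 325 (.leaf 326 2577 (.cons 301 (.leaf 277 2214 (.cons 373 (.leaf 345 2760 (.leaf 374 2768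 .nil)) .nil)) .nil)) .nil)) (.cons 349 (.leaf 369 2762 (.cons 325 (.leaf 326 2577 (.cons 301 (.leaf 277 2214 (.cons 373 (.leaf 374 2768 (.leaf 396 2406 .nil)) .nil)) .nil)) .nil)) (.cons 345 (.leaf 373 2760 (.cons 320 (.leaf 321 2563 (.cons 368 (.leaf 369 2754 (.cons 344 (.leaf 319 2555 (.leaf 367 2746 .nil)) .nil)) .nil)) .nil)) (.cons 373 (.leaf 345 2760 (.cons 374 (.leaf 349 2768 (.leaf 375 2779 .nil)) .nil)) (.cons 369 (.leaf 349 2762 (.cons 368 (.leaf 345 2754 (.leaf 367 2745 .nil)) .nil)) .nil))))) (.cons 324 (.leaf 300 2207 (.cons 396 (.cons 325 (.leaf 301 2405 (.cons 420 (.leaf 349 2597 (.cons 421 (.leaf 397 2596 (.leaf 445 2788 .nil)) .nil)) .nil)) (.cons 325 (.leaf 301 2405 (.cons 419 (.leaf 395 2590 (.cons 420 (.leaf 349 2597 (.leaf 443 2782 .nil)) .nil)) .nil)) (.cons 395 (.leaf 419 2590 (.cons 397 (.leaf 421 2596 (.cons 394 (.leaf 369 2955 (.cons 373 (.leaf 393 2953 (.leaf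 374 2961 .nil)) .nil)) .nil)) .nil)) .nil))) .nil)) (.cons 324 (.leaf 300 2207 (.cons 396 (.cons 325 (.leaf 301 2405 (.cons 420 (.leaf 349 2597 (.cons 421 (.leaf 397 2596 (.leaf 445 2788 .nil)) .nil)) .nil)) (.cons 419 (.leaf 395 2590 (.cons 420 (.leaf 443 2782 (.cons 421 (.leaf 397 2596 (.leaf 445 2788 .nil)) .nil)) .nil)) (.cons 325 (.leaf 301 2405 (.cons 347 (.leaf 345 2569 (.cons 326 (.leaf 349 2577 (.leaf 327 2586 .nil)) .nil)) .nil)) .nil))) .nil)) (.cons 324 (.leaf 300 2207 (.cons 396 t133 .nil)) (.cons 300 (.leaf 324 2207 (.cons 347 (.cons 349 (.leaf 369 2762 (.cons 325 (.leaf 326 2577 (.cons 373 (.leaf 345 2760 (.leaf 374 2768 .nil)) .nil)) .nil)) (.cons 349 (.leaf 369 2762 (.cons 350 (.cons 327 (.leaf 326 2585 (.cons 351 (.leaf 328 2593 (.cons 373 (.leaf 374 2768 (.leaf 352 2786 .nil)) .nil)) .nil)) (.cons 326 (.leaf 325 2577 (.leaf 327 2585 .nil)) (.cons 374 (.leaf 373 2768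 (.leaf 375 2776 .nil)) .nil))) .nil)) (.cons 345 (.leaf 373 2760 (.cons 321 (.leaf 320 2563 (.cons 273 (.leaf 297 2188 (.cons 274 (.leaf 272 2176 (.cons 301 (.leaf 302 2195 (.leaf 298 2187 .nil)) .nil)) .nil)) .nil)) .nil)) (.cons 349 (.leaf 369 2762 (.cons 325 (.leaf 326 2577 (.cons 301 (.leaf 277 2214 (.cons 274 (.leaf 302 2195 (.cons 273 (.leaf 272 2176 (.leaf 298 2187 .nil)) .nil)) .nil)) .nil)) .nil)) .nil)))) .nil)) (.cons 300 (.leaf 324 2207 (.cons 347 (.cons 373 (.leaf 345 2760 (.cons 374 (.leaf 349 2768 (.leaf 375 2779 .nil)) .nil)) (.cons 349 (.leaf 369 2762 (.cons 350 (.cons 327 (.leaf 326 2585 (.cons 351 (.leaf 328 2593 (.cons 373 (.leaf 374 2768 (.leaf 352 2786 .nil)) .nil)) .nil)) (.cons 327 (.leaf 326 2585 (.cons 351 (.leaf 328 2593 (.cons 352 (.leaf 373 2786 (.cons 376 (.leaf 375 2784 (.leaf 377 2792 .nil)) .nil)) .nil)) .nil)) (.cons 327 (.leaf 326 2585 (.cons 351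 (.leaf 328 2593 (.cons 375 (.leaf 374 2776 (.leaf 376 2784 .nil)) .nil)) .nil)) (.cons 374 (.leaf 373 2768 (.leaf 375 2776 .nil)) .nil)))) .nil)) (.cons 369 (.leaf 349 2762 (.cons 368 (.leaf 345 2754 (.leaf 367 2745 .nil)) .nil)) (.cons 345 (.leaf 373 2760 (.cons 321 (.leaf 320 2563 (.cons 273 (.leaf 297 2188 (.cons 274 (.leaf 272 2176 (.cons 301 (.leaf 302 2195 (.leaf 298 2187 .nil)) .nil)) .nil)) .nil)) .nil)) .nil)))) .nil)) (.cons 324 (.leaf 300 2207 (.cons 347 (.cons 325 (.leaf 345 2569 (.cons 326 (.leaf 349 2577 (.leaf 327 2586 .nil)) .nil)) (.cons 349 (.leaf 369 2762 (.cons 325 (.leaf 326 2577 (.cons 374 (.leaf 373 2768 (.cons 396 (.leaf 420 2597 (.cons 375 (.leaf 350 2776 (.cons 395 (.leaf 419 2590 (.cons 397 (.leaf 421 2596 (.leaf 398 2969 .nil)) .nil)) .nil)) .nil)) .nil)) .nil)) .nil)) (.cons 345 (.leaf 325 2569 (.leaf 373 2760 .nil)) (.cons 345 (.leaf 373 2760 (.cons 369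 (.leaf 368 2754 (.leaf 349 2762 .nil)) .nil)) .nil)))) .nil)) .nil)))))))
noncomputable def t135 : T := .cons 347 (.leaf 374 2771 (.cons 349 (.leaf 350 2769 (.cons 348 (.leaf 369 2761 (.cons 325 (.leaf 326 2577 (.cons 301 (.leaf 277 2214 (.leaf 396 2406 .nil)) .nil)) .nil)) .nil)) .nil)) (.cons 349 (.leaf 350 2769 (.cons 348 (.leaf 369 2761 (.cons 300 (.leaf 324 2207 (.cons 397 (.leaf 398 2960 (.cons 421 (.leaf 445 2791 (.cons 394 (.leaf 393 2954 (.cons 420 (.leaf 444 2790 (.cons 325 (.leaf 396 2597 (.cons 326 (.leaf 347 2577 (.leaf 302 2413 .nil)) .nil)) .nil)) .nil)) .nil)) .nil)) .nil)) .nil)) .nil)) (.cons 347 (.leaf 374 2771 (.cons 394 (.leaf 393 2954 (.cons 397 (.leaf 398 2960 (.cons 418 (.leaf 442 2773 (.cons 417 (.leaf 441 2766 (.cons 396 (.leaf 369 2952 (.leaf 395 3146 .nil)) .nil)) .nil)) .nil)) .nil)) .nil)) (.cons 349 (.leaf 350 2769 (.cons 348 (.leaf 369 2761 (.cons 300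 (.leaf 324 2207 (.cons 397 (.leaf 398 2960 (.cons 421 (.leaf 445 2791 (.cons 394 (.leaf 393 2954 (.cons 395 (.leaf 374 2962 (.cons 419 (.leaf 443 2781 (.cons 422 (.leaf 446 2796 (.leaf 396 3152 .nil)) .nil)) .nil)) .nil)) .nil)) .nil)) .nil)) .nil)) .nil)) (.cons 347 (.leaf 374 2771 (.cons 394 (.leaf 393 2954 (.cons 397 (.leaf 398 2960 (.cons 418 (.leaf 442 2773 (.cons 417 (.leaf 441 2766 (.cons 396 (.leaf 395 3146 (.cons 419 (.leaf 443 2772 (.leaf 420 3145 .nil)) .nil)) .nil)) .nil)) .nil)) .nil)) .nil)) (.cons 349 (.leaf 350 2769 (.cons 348 (.leaf 369 2761 (.cons 300 (.leaf 324 2207 (.cons 374 (.leaf 347 2768 (.cons 398 (.leaf 397 2960 (.leaf 399 2968 .nil)) .nil)) .nil)) .nil)) .nil)) .nil)))))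
noncomputable def t136 : T := .cons 373 (.leaf 345 2763 (.cons 347 (.leaf 374 2771 (.cons 349 (.leaf 350 2769 (.cons 348 (.leaf 369 2761 (.cons 325 (.leaf 326 2577 (.cons 301 (.leaf 277 2214 (.leaf 396 2406 .nil)) .nil)) .nil)) .nil)) .nil)) .nil)) (.cons 369 (.cons 344 (.leaf 345 2755 (.cons 348 (.leaf 349 2761 (.cons 324 (.leaf 300 2207 (.cons 392 (.leaf 393 2946 (.cons 368 (.leaf 343 2747 (.leaf 347 2753 .nil)) .nil)) .nil)) .nil)) .nil)) (.cons 344 (.leaf 345 2755 (.cons 368 (.leaf 343 2747 (.cons 392 (.leaf 391 2938 (.leaf 393 2946 .nil)) .nil)) .nil)) (.cons 348 (.leaf 349 2761 (.cons 300 (.leaf 324 2207 (.cons 368 (.leaf 347 2753 (.cons 392 (.leaf 391 2938 (.leaf 393 2946 .nil)) .nil)) .nil)) .nil)) (.cons 345 (.leaf 344 2755 (.cons 393 (.leaf 392 2946 (.cons 396 (.leaf 397 2952 (.cons 348 (.leaf 349 2761 (.cons 324 (.leaf 300 2207 (.cons 325 (.leaf 347 2569 (.leaf 301 2405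 .nil)) .nil)) .nil)) .nil)) .nil)) .nil)) (.cons 344 (.leaf 345 2755 (.cons 348 (.leaf 349 2761 (.cons 368 (.leaf 343 2747 (.leaf 347 2753 .nil)) .nil)) .nil)) .nil))))) (.cons 373 t135 (.cons 373 (.leaf 345 2763 (.cons 347 (.leaf 374 2771 (.cons 394 (.leaf 393 2954 (.cons 397 (.leaf 398 2960 (.cons 418 (.leaf 442 2773 (.cons 417 (.leaf 441 2766 (.cons 396 (.leaf 395 3146 (.cons 419 (.leaf 443 2772 (.leaf 420 3145 .nil)) .nil)) .nil)) .nil)) .nil)) .nil)) .nil)) .nil)) (.cons 373 (.leaf 345 2763 (.cons 349 (.leaf 350 2769 (.cons 348 (.leaf 369 2761 (.cons 300 (.leaf 324 2207 (.cons 397 (.leaf 398 2960 (.cons 421 (.leaf 445 2791 (.cons 394 (.leaf 393 2954 (.cons 395 (.leaf 374 2962 (.cons 419 (.leaf 443 2781 (.cons 422 (.leaf 446 2796 (.leaf 396 3152 .nil)) .nil)) .nil)) .nil)) .nil)) .nil)) .nil)) .nil)) .nil)) .nil)) (.cons 373 (.leaf 345 2763 (.cons 349 (.leaf 350 2769 (.cons 348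 (.leaf 369 2761 (.cons 300 (.leaf 324 2207 (.cons 374 (.leaf 347 2768 (.cons 398 (.leaf 397 2960 (.leaf 399 2968 .nil)) .nil)) .nil)) .nil)) .nil)) .nil)) .nil)))))
noncomputable def t137 : T := .cons 321 (.leaf 297 2383 (.cons 418 (.leaf 345 2575 (.cons 417 (.leaf 393 2574 (.leaf 441 2766 .nil)) .nil)) .nil)) (.cons 417 (.leaf 393 2574 (.cons 418 (.leaf 441 2766 (.cons 419 (.leaf 395 2580 (.leaf 443 2772 .nil)) .nil)) .nil)) (.cons 321 (.leaf 297 2383 (.cons 418 (.leaf 345 2575 (.cons 419 (.leaf 395 2580 (.leaf 443 2772 .nil)) .nil)) .nil)) (.cons 395 (.leaf 419 2580 (.cons 393 (.leaf 417 2574 (.cons 321 (.leaf 297 2383 (.cons 392 (.cons 391 (.leaf 371 2937 (.cons 415 (.leaf 414 3122 (.leaf 416 3130 .nil)) .nil)) (.cons 368 (.leaf 367 2939 (.cons 369 (.leaf 396 2947 (.cons 391 (.leaf 390 2929 (.cons 416 (.leaf 415 3130 (.leaf 345 2566 .nil)) .nil)) .nil)) .nil)) (.cons 368 (.leaf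 367 2939 (.cons 372 (.leaf 371 2945 (.cons 416 (.leaf 415 3130 (.cons 344 (.leaf 345 2565 (.cons 319 (.leaf 343 2559 (.cons 320 (.leaf 347 2552 (.leaf 295 2367 .nil)) .nil)) .nil)) .nil)) .nil)) .nil)) (.cons 367 (.leaf 368 2939 (.cons 391 (.leaf 371 2937 (.leaf 366 2931 .nil)) .nil)) .nil)))) .nil)) .nil)) .nil)) .nil)))
noncomputable def t138 : T := .cons 322 (.leaf 298 2197 (.cons 394 t137 .nil)) (.cons 372 (.cons 371 t136 (.cons 348 (t134) (.cons 348 t132 (.cons 348 t129 (.cons 371 t123 (.cons 348 t122 (.cons 371 t117 (.cons 371 t116 (.cons 371 t115 (.cons 371 t114 (.cons 371 t113 (.cons 371 t112 (.cons 371 t111 (.cons 371 t110 .nil)))))))))))))) (.cons 394 (.cons 418 (.cons 321 (.leaf 345 2575 (.cons 441 (.leaf 417 2766 (.cons 442 (.leaf 465 2958 (.cons 443 (.leaf 419 2772 (.leaf 467 2964 .nil)) .nil)) .nil)) .nil)) (.cons 321 (.leaf 345 2575 (.cons 322 (.leaf 297 2383 (.cons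 419 (.leaf 395 2580 (.leaf 443 2772 .nil)) .nil)) .nil)) (.cons 345 (.leaf 321 2575 (.cons 442 (.leaf 369 2767 (.cons 347 (.leaf 371 2773 (.cons 465 (.leaf 441 2958 (.cons 466 (.leaf 489 3150 (.cons 467 (.leaf 443 2964 (.leaf 491 3156 .nil)) .nil)) .nil)) .nil)) .nil)) .nil)) (.cons 419 (.leaf 443 2772 (.cons 322 (.leaf 395 2580 (.cons 417 (.leaf 393 2574 (.leaf 441 2766 .nil)) .nil)) .nil)) (.cons 345 (.leaf 321 2575 (.cons 442 (.leaf 369 2767 (.cons 371 (.leaf 347 2773 (.cons 343 (.leaf 344 2744 (.cons 372 (.leaf 373 2763 (.cons 465 (.leaf 441 2958 (.cons 466 (.leaf 395 2965 (.leaf 489 3150 .nil)) .nil)) .nil)) .nil)) .nil)) .nil)) .nil)) .nil))))) t109) t99))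
noncomputable def t139 : T := .cons 322 (.leaf 323 2006 (.cons 298 (.leaf 274 2005 (.leaf 370 2197 .nil)) .nil)) (.cons 298 (.cons 301 (.cons 274 (.leaf 322 2005 (.leaf 302 2195 .nil)) (.cons 277 (.leaf 278 2193 (.cons 325 (.leaf 326 2384 (.cons 297 (.leaf 324 2376 (.cons 272 (.leaf 273 2179 (.cons 296 (.leaf 271 2171 (.cons 320 (.leaf 319 2362 (.leaf 321 2370 .nil)) .nil)) .nil)) .nil)) .nil)) .nil)) .nil)) (.cons 301 (.cons 274 (.leaf 302 2195 (.leaf 273 2187 .nil)) (.cons 277 (.leaf 278 2193 (.cons 325 (.leaf 326 2384 (.cons 297 (.leaf 324 2376 (.cons 272 (.leaf 273 2179 (.cons 296 (.leaf 271 2171 (.cons 320 (.leaf 319 2362 (.leaf 321 2370 .nil)) .nil)) .nil)) .nil)) .nil)) .nil)) (.cons 302 (.leaf 274 2195 (.cons 278 (.leaf 277 2193 (.leaf 279 2201 .nil)) .nil)) .nil))) (.cons 322 (.leaf 370 2197 (.cons 301 (.leaf 321 2378 (.cons 325 (.leaf 326 2384 (.cons 277 (.leaf 278 2193 (.cons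 324 (.leaf 297 2376 (.cons 348 (.leaf 372 2213 (.leaf 253 2022 .nil)) .nil)) .nil)) .nil)) .nil)) .nil)) (.cons 322 (.leaf 274 2005 (.leaf 370 2197 .nil)) .nil)))) (.cons 324 t71 (.cons 323 (.leaf 322 2006 (.cons 228 (.leaf 252 1821 (.cons 347 (.leaf 370 2198 (.cons 348 (.leaf 324 2012 (.leaf 372 2204 .nil)) .nil)) .nil)) .nil)) .nil)))
noncomputable def t140 : T := .cons 229 (.leaf 253 1252 (.cons 205 (.leaf 132 1060 (.cons 157 (.leaf 133 1061 (.cons 230 (.cons 231 (.leaf 203 1627 (.leaf 232 1635 .nil)) (.cons 203 (.leaf 202 1616 (.cons 155 (.leaf 131 1055 (.cons 181 (.leaf 254 1260 (.cons 182 (.leaf 183 1434 (.leaf 154 1232 .nil)) .nil)) .nil)) .nil)) (.cons 231 (.leaf 232 1635 (.cons 181 (.leaf 254 1260 (.cons 207 (.leaf 208 1633 (.cons 206 (.leaf 179 1435 (.cons 183 (.leaf 184 1441 (.cons 159 (.leaf 135 1078 (.cons 160 (.leaf 182 1249 (.leaf 136 1085 .nil)) .nil)) .nil)) .nil))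 .nil)) .nil)) .nil)) .nil))) .nil)) .nil)) .nil)) (.cons 133 (.leaf 157 1061 (.cons 131 (.leaf 155 1055 (.cons 132 (.leaf 107 863 (.leaf 109 869 .nil)) .nil)) .nil)) (.cons 229 (.leaf 253 1252 (.cons 131 (.leaf 155 1055 (.cons 132 (.leaf 107 863 (.leaf 205 1060 .nil)) .nil)) .nil)) (.cons 229 (.leaf 253 1252 (.cons 132 (.leaf 205 1060 (.cons 133 (.leaf 109 869 (.leaf 157 1061 .nil)) .nil)) .nil)) (.cons 155 (.leaf 131 1055 (.cons 157 (.leaf 133 1061 (.cons 229 (.leaf 253 1252 (.cons 154 (.cons 181 (.leaf 153 1224 (.leaf 182 1232 .nil)) (.cons 177 (.leaf 178 1226 (.cons 129 (.leaf 130 1035 (.cons 153 (.leaf 128 1027 (.leaf 176 1218 .nil)) .nil)) .nil)) (.cons 181 (.leaf 182 1232 (.cons 178 (.leaf 177 1226 (.cons 130 (.leaf 129 1035 (.cons 106 (.cons 179 (.leaf 82 660 (.leaf 203 852 .nil)) (.cons 81 (.leaf 105 655 (.cons 82 (.leaf 57 463 (.cons 83 (.leaf 59 469 (.leaf 107 661 .nil))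 .nil)) .nil)) (.cons 81 (.leaf 105 655 (.cons 203 (.leaf 179 852 (.cons 202 (.leaf 201 1608 (.cons 230 (.leaf 205 1616 (.leaf 231 1627 .nil)) .nil)) .nil)) .nil)) .nil))) .nil)) .nil)) .nil)) .nil))) .nil)) .nil)) .nil)) .nil))))
noncomputable def t141 : T := .cons 157 (.leaf 133 1061 (.cons 229 (.leaf 253 1252 (.cons 158 (.cons 159 (.leaf 179 1242 (.cons 135 (.leaf 136 1057 (.cons 160 (.leaf 181 1250 (.cons 184 (.leaf 183 1248 (.leaf 185 1256 .nil)) .nil)) .nil)) .nil)) (.cons 155 (.leaf 131 1055 (.cons 132 (.leaf 205 1060 (.cons 134 (.leaf 135 1049 (.cons 178 (.leaf 179 1234 (.cons 154 (.leaf 177 1226 (.cons 181 (.leaf 153 1224 (.leaf 182 1232 .nil)) .nil)) .nil)) .nil)) .nil)) .nil)) (.cons 155 (.leaf 131 1055 (.cons 132 (.leaf 205 1060 (.cons 134 (.leaf 135 1049 (.cons 182 (.leaf 183 1240 (.cons 154 (.leaf 181 1232 (.cons 129 (.leaf 130 1035 (.cons 153 (.leaf 128 1027 (.cons 177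 (.leaf 176 1218 (.leaf 178 1226 .nil)) .nil)) .nil)) .nil)) .nil)) .nil)) .nil)) .nil)) (.cons 155 (.leaf 131 1055 (.cons 179 (.leaf 159 1242 (.leaf 178 1234 .nil)) .nil)) .nil)))) .nil)) .nil)) (.cons 157 (.leaf 133 1061 (.cons 155 (.leaf 131 1055 (.cons 154 (.cons 129 (.leaf 130 1035 (.cons 128 (.leaf 153 1027 (.cons 182 (.leaf 181 1232 (.cons 158 (.leaf 183 1240 (.cons 178 (.leaf 177 1226 (.leaf 179 1234 .nil)) .nil)) .nil)) .nil)) .nil)) (.cons 178 (.leaf 177 1226 (.cons 129 (.leaf 130 1035 (.cons 158 (.leaf 179 1234 (.cons 135 (.leaf 134 1049 (.cons 159 (.leaf 136 1057 (.cons 183 (.leaf 182 1240 (.leaf 184 1248 .nil)) .nil)) .nil)) .nil)) .nil)) .nil)) (.cons 129 (.leaf 130 1035 (.cons 153 (.leaf 181 1224 (.leaf 128 1027 .nil)) .nil)) (.cons 181 (.leaf 153 1224 (.leaf 182 1232 .nil)) .nil)))) .nil)) .nil)) (.cons 229 (.leaf 253 1252 (.cons 132 (.leaf 205 1060 (.cons 109 (.leaf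 133 869 (.cons 108 (.leaf 85 677 (.cons 155 (.leaf 131 1055 (.cons 179 (.leaf 203 862 (.leaf 84 670 .nil)) .nil)) .nil)) .nil)) .nil)) .nil)) (.cons 229 (.leaf 253 1252 (.cons 205 (.leaf 132 1060 (.cons 155 (.leaf 131 1055 (.cons 203 (.cons 230 (.leaf 202 1616 (.leaf 231 1627 .nil)) (.cons 230 (.leaf 231 1627 (.cons 181 (.cons 182 (.leaf 183 1434 (.cons 154 (.leaf 153 1224 (.leaf 179 1235 .nil)) .nil)) (.cons 153 (.leaf 154 1224 (.cons 254 (.leaf 157 1260 (.cons 278 (.leaf 302 1647 (.leaf 206 1455 .nil)) .nil)) .nil)) (.cons 182 (.leaf 183 1434 (.cons 254 (.leaf 157 1260 (.cons 278 (.leaf 302 1647 (.leaf 206 1455 .nil)) .nil)) .nil)) .nil))) .nil)) (.cons 202 (.leaf 201 1608 (.cons 177 (.leaf 178 1419 (.cons 182 (.leaf 181 1425 (.cons 206 (.leaf 183 1433 (.cons 207 (.leaf 179 1435 (.leaf 208 1634 .nil)) .nil)) .nil)) .nil)) .nil)) .nil))) .nil)) .nil)) .nil)) (.cons 229 (.leaf 253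 1252 (.cons 132 (.leaf 205 1060 (.cons 133 (.leaf 109 869 (.leaf 157 1061 .nil)) .nil)) .nil)) .nil))))
noncomputable def t142 : T := .cons 155 (.leaf 131 1055 (.cons 229 (.leaf 253 1252 (.cons 132 (.leaf 205 1060 (.cons 109 (.leaf 133 869 (.cons 108 (.leaf 85 677 (.cons 179 (.leaf 203 862 (.leaf 84 670 .nil)) .nil)) .nil)) .nil)) .nil)) .nil)) (.cons 131 (.leaf 155 1055 (.cons 132 (.leaf 107 863 (.cons 133 (.leaf 109 869 (.leaf 157 1061 .nil)) .nil)) .nil)) (.cons 229 (.leaf 253 1252 (.cons 131 (.leaf 155 1055 (.cons 132 (.leaf 107 863 (.leaf 205 1060 .nil)) .nil)) .nil)) (.cons 229 (.leaf 253 1252 (.cons 132 (.leaf 205 1060 (.cons 133 (.leaf 109 869 (.leaf 157 1061 .nil)) .nil)) .nil)) (.cons 155 (.leaf 131 1055 (.cons 157 (.leaf 133 1061 (.cons 229 (.leaf 253 1252 (.cons 154 (.cons 129 (.leaf 130 1035 (.cons 153 (.leaf 181 1224 (.leaf 128 1027 .nil)) .nil)) (.cons 129 (.leaf 130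 1035 (.cons 153 (.leaf 128 1027 (.cons 152 (.leaf 179 1216 (.cons 176 (.leaf 177 1218 (.leaf 175 1210 .nil)) .nil)) .nil)) .nil)) (.cons 129 (.leaf 130 1035 (.cons 182 (.leaf 181 1232 (.cons 158 (.leaf 183 1240 (.cons 134 (.leaf 135 1049 (.cons 206 (.leaf 205 1070 (.cons 231 (.leaf 207 1076 (.cons 230 (.leaf 203 1627 (.leaf 255 1268 .nil)) .nil)) .nil)) .nil)) .nil)) .nil)) .nil)) (.cons 181 (.leaf 153 1224 (.leaf 182 1232 .nil)) .nil)))) .nil)) .nil)) .nil)) .nil))))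
noncomputable def t143 : T := .cons 229 (.leaf 277 1447 (.cons 254 (.leaf 274 2002 (.cons 279 (.leaf 278 2008 (.cons 255 (.leaf 280 2016 (.cons 231 (.leaf 232 1825 (.cons 207 (.cons 206 (.leaf 179 1435 (.leaf 182 1463 .nil)) (.cons 184 (.leaf 208 1469 (.cons 183 (.leaf 160 1277 (.cons 158 (.leaf 182 1271 (.cons 156 (.leaf 132 1060 (.leaf 181 1255 .nil)) .nil)) .nil)) .nil)) (.cons 132 (.leaf 156 1060 (.cons 184 (.leaf 208 1469 (.cons 183 (.leaf 206 1441 (.leaf 160 1277 .nil)) .nil)) .nil)) .nil))) .nil)) .nil)) .nil)) .nil)) .nil)) (.cons 254 (.leaf 274 2002 (.cons 279 (.leaf 278 2008 (.cons 255 (.leaf 280 2016 (.cons 231 (.leaf 232 1825 (.cons 207 (.cons 206 (.leaf 179 1435 (.leaf 182 1463 .nil)) (.cons 184 (.leaf 208 1469 (.cons 183 (.leaf 160 1277 (.cons 182 (.leaf 181 1442 (.leaf 158 1271 .nil)) .nil)) .nil)) (.cons 184 (.leaf 208 1469 (.cons 183 (.leaf 206 1441 (.leaf 160 1277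 .nil)) .nil)) .nil))) .nil)) .nil)) .nil)) .nil)) (.cons 229 (.leaf 277 1447 (.cons 156 (.leaf 132 1060 (.leaf 181 1255 .nil)) .nil)) (.cons 229 (.leaf 277 1447 (.cons 254 (.leaf 274 2002 (.cons 279 (.leaf 278 2008 (.cons 255 (.leaf 280 2016 (.cons 231 (.leaf 232 1825 (.cons 207 (.cons 206 (.leaf 179 1435 (.leaf 182 1463 .nil)) (.cons 184 (.leaf 208 1469 (.cons 183 (.leaf 160 1277 (.cons 158 (.leaf 182 1271 (.cons 156 (.leaf 132 1060 (.cons 159 (.leaf 134 1079 (.leaf 157 1248 .nil)) .nil)) .nil)) .nil)) .nil)) (.cons 132 (.leaf 156 1060 (.cons 184 (.leaf 208 1469 (.cons 183 (.leaf 206 1441 (.leaf 160 1277 .nil)) .nil)) .nil)) .nil))) .nil)) .nil)) .nil)) .nil)) .nil)) .nil)))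
noncomputable def t144 : T := .cons 206 (.leaf 207 1435 (.cons 203 (.leaf 178 1427 (.cons 182 (.leaf 183 1433 (.cons 230 (.leaf 231 1624 (.cons 229 (.leaf 202 1616 (.cons 253 (.leaf 277 1453 (.leaf 158 1262 .nil)) .nil)) .nil)) .nil)) .nil)) .nil)) (.cons 206 (.leaf 207 1435 (.cons 203 (.cons 182 (.leaf 183 1433 (.cons 230 (.leaf 231 1624 (.cons 229 (.leaf 202 1616 (.cons 253 (.leaf 277 1453 (.leaf 158 1262 .nil)) .nil)) .nil)) .nil)) (.cons 230 (.leaf 231 1624 (.cons 202 (.leaf 229 1616 (.cons 201 (.leaf 181 1417 (.leaf 200 1409 .nil)) .nil)) .nil)) (.cons 182 (.leaf 183 1433 (.cons 230 (.leaf 231 1624 (.cons 229 (.cons 253 (.leaf 277 1453 (.leaf 158 1262 .nil)) (.cons 132 (.leaf 156 1060 (.cons 158 (.leaf 134 1070 (.cons 159 (.leaf 181 1241 (.leaf 135 1077 .nil)) .nil)) .nil)) (.cons 253 (.leaf 277 1453 (.cons 156 (.leaf 132 1060 (.leaf 181 1255 .nil)) .nil)) .nil))) .nil)) .nil))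 (.cons 182 (.leaf 183 1433 (.cons 181 (.leaf 202 1425 (.cons 154 (.leaf 155 1235 (.cons 158 (.leaf 159 1241 (.cons 134 (.leaf 110 878 (.leaf 229 1070 .nil)) .nil)) .nil)) .nil)) .nil)) (.cons 182 (.leaf 183 1433 (.cons 202 (.leaf 181 1425 (.cons 201 (.leaf 200 1409 (.cons 225 (.leaf 224 1602 (.leaf 226 1610 .nil)) .nil)) .nil)) .nil)) .nil))))) .nil)) (.cons 178 (.leaf 177 1416 (.cons 181 (.cons 158 (.leaf 157 1233 (.cons 153 (.leaf 154 1227 (.cons 182 (.leaf 159 1241 (.cons 183 (.leaf 203 1434 (.leaf 184 1442 .nil)) .nil)) .nil)) .nil)) (.cons 202 (.leaf 201 1418 (.cons 154 (.leaf 153 1227 (.cons 131 (.cons 107 (.leaf 155 860 (.leaf 130 853 .nil)) (.cons 130 (.leaf 107 853 (.cons 105 (.leaf 129 847 (.cons 106 (.leaf 203 852 (.leaf 81 655 .nil)) .nil)) .nil)) (.cons 226 (.leaf 155 1045 (.cons 225 (.leaf 203 1610 (.leaf 249 1230 .nil)) .nil)) .nil))) .nil)) .nil)) (.cons 202 (.leaf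 201 1418 (.cons 182 (.leaf 203 1425 (.cons 158 (.leaf 157 1233 (.leaf 159 1241 .nil)) .nil)) .nil)) (.cons 158 (.leaf 157 1233 (.cons 153 (.leaf 154 1227 (.cons 182 (.leaf 159 1241 (.cons 110 (.leaf 134 878 (.cons 183 (.leaf 184 1442 (.cons 156 (.leaf 155 1243 (.cons 132 (.leaf 229 1060 (.leaf 108 868 .nil)) .nil)) .nil)) .nil)) .nil)) .nil)) .nil)) .nil)))) .nil)) (.cons 178 (.leaf 177 1416 (.cons 206 (.leaf 207 1435 (.leaf 181 1424 .nil)) .nil)) .nil)))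
noncomputable def t145 : T := .cons 178 (.leaf 177 1416 (.cons 181 (.leaf 206 1424 (.cons 202 (.leaf 201 1418 (.cons 154 (.leaf 153 1227 (.cons 131 (.cons 107 (.leaf 155 860 (.leaf 130 853 .nil)) (.cons 130 (.leaf 107 853 (.cons 105 (.leaf 129 847 (.cons 106 (.leaf 203 852 (.leaf 81 655 .nil)) .nil)) .nil)) (.cons 226 (.leaf 155 1045 (.cons 225 (.leaf 203 1610 (.leaf 249 1230 .nil)) .nil)) .nil))) .nil)) .nil)) .nil)) .nil)) (.cons 206 (.leaf 207 1435 (.cons 203 (.cons 182 (.leaf 183 1433 (.cons 202 (.leaf 181 1425 (.cons 201 (.leaf 200 1409 (.cons 225 (.leaf 224 1602 (.leaf 226 1610 .nil)) .nil)) .nil)) .nil)) (.cons 230 (.leaf 231 1624 (.cons 202 (.leaf 229 1616 (.cons 201 (.leaf 181 1417 (.leaf 200 1409 .nil)) .nil)) .nil)) (.cons 182 (.leaf 183 1433 (.cons 230 (.leaf 231 1624 (.cons 254 (.cons 253 (.leaf 274 2002 (.leaf 277 1454 .nil)) (.cons 278 (.leaf 181 1455 (.cons 279 (.leaf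 255 1460 (.leaf 303 1652 .nil)) .nil)) .nil)) .nil)) .nil)) (.cons 230 (.leaf 231 1624 (.cons 182 (.leaf 183 1433 (.cons 202 (.leaf 229 1616 (.cons 201 (.leaf 200 1409 (.cons 225 (.leaf 224 1602 (.leaf 226 1610 .nil)) .nil)) .nil)) .nil)) .nil)) .nil)))) .nil)) (.cons 178 (.leaf 177 1416 (.cons 181 (.cons 202 (.leaf 201 1418 (.cons 154 (.leaf 153 1227 (.cons 131 (.cons 107 (.leaf 155 860 (.leaf 130 853 .nil)) (.cons 130 (.leaf 107 853 (.cons 105 (.leaf 129 847 (.cons 106 (.leaf 203 852 (.leaf 81 655 .nil)) .nil)) .nil)) (.cons 226 (.leaf 155 1045 (.cons 225 (.leaf 203 1610 (.leaf 249 1230 .nil)) .nil)) .nil))) .nil)) .nil)) (.cons 158 (.leaf 157 1233 (.cons 153 (.leaf 154 1227 (.cons 182 (.leaf 159 1241 (.cons 183 (.leaf 203 1434 (.leaf 184 1442 .nil)) .nil)) .nil)) .nil)) (.cons 202 (.leaf 201 1418 (.cons 182 (.leaf 203 1425 (.cons 158 (.leaf 157 1233 (.leaf 159 1241 .nil)) .nil))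 .nil)) (.cons 158 (.leaf 157 1233 (.cons 153 (.leaf 154 1227 (.cons 182 (.leaf 159 1241 (.cons 110 (.leaf 134 878 (.cons 183 (.leaf 184 1442 (.cons 207 (.leaf 208 1440 (.cons 231 (.leaf 255 1271 (.cons 253 (.leaf 229 1261 (.cons 254 (.leaf 274 2002 (.leaf 230 1817 .nil)) .nil)) .nil)) .nil)) .nil)) .nil)) .nil)) .nil)) .nil)) .nil)))) .nil)) (.cons 178 (.leaf 177 1416 (.cons 206 (.leaf 203 1427 (.leaf 207 1435 .nil)) .nil)) (.cons 178 (.leaf 177 1416 (.cons 206 (.leaf 207 1435 (.leaf 181 1424 .nil)) .nil)) .nil))))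
noncomputable def t146 : T := .cons 229 (.leaf 277 1447 (.cons 254 (.leaf 274 2002 (.cons 230 (.leaf 231 1817 (.cons 278 (.leaf 279 2008 (.leaf 302 1647 .nil)) .nil)) .nil)) .nil)) (.cons 229 (.leaf 277 1447 (.cons 156 (.leaf 132 1060 (.cons 206 (.cons 207 (.leaf 179 1435 (.cons 183 (.leaf 184 1441 (.cons 232 (.leaf 231 1632 (.cons 208 (.leaf 233 1640 (.cons 135 (.leaf 159 1084 (.cons 209 (.leaf 230 1642 (.cons 186 (.leaf 185 1457 (.cons 210 (.leaf 182 1459 (.leaf 187 1465 .nil)) .nil)) .nil)) .nil)) .nil)) .nil)) .nil)) .nil)) (.cons 182 (.cons 158 (.leaf 134 1070 (.leaf 230 1262 .nil)) (.cons 203 (.leaf 183 1433 (.cons 230 (.leaf 202 1616 (.leaf 231 1624 .nil)) .nil)) (.cons 158 (.leaf 134 1070 (.cons 183 (.leaf 203 1433 (.cons 157 (.leaf 155 1240 (.cons 184 (.leaf 185 1450 (.leaf 159 1248 .nil)) .nil)) .nil)) .nil)) .nil))) (.cons 179 (.leaf 207 1435 (.cons 178 (.leaf 177 1416 (.leaf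 203 1427 .nil)) .nil)) .nil))) .nil)) .nil)) (.cons 254 (.leaf 274 2002 (.cons 231 (.leaf 230 1817 (.cons 255 (.leaf 232 1825 (.cons 279 (.leaf 278 2008 (.leaf 280 2016 .nil)) .nil)) .nil)) .nil)) (.cons 229 (.leaf 277 1447 (.cons 132 (.leaf 156 1060 (.cons 254 (.leaf 274 2002 (.cons 278 (.leaf 279 2008 (.cons 302 (.leaf 230 1647 (.leaf 326 1839 .nil)) .nil)) .nil)) .nil)) .nil)) (.cons 229 (.leaf 277 1447 (.cons 254 (.leaf 274 2002 (.cons 279 (.leaf 278 2008 (.cons 255 (.leaf 280 2016 (.cons 231 (.leaf 232 1825 (.cons 207 (.cons 206 (.leaf 179 1435 (.leaf 182 1463 .nil)) (.cons 184 (.leaf 208 1469 (.cons 183 (.leaf 160 1277 (.cons 158 (.leaf 182 1271 (.cons 156 (.leaf 132 1060 (.cons 159 (.leaf 134 1079 (.leaf 157 1248 .nil)) .nil)) .nil)) .nil)) .nil)) (.cons 132 (.leaf 156 1060 (.cons 184 (.leaf 208 1469 (.cons 183 (.leaf 206 1441 (.leaf 160 1277 .nil)) .nil)) .nil)) .nil))) .nil))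 .nil)) .nil)) .nil)) .nil)) .nil))))
noncomputable def t147 : T := .cons 206 (.leaf 207 1435 (.cons 203 (.leaf 178 1427 (.cons 182 (.leaf 183 1433 (.cons 202 (.leaf 181 1425 (.cons 201 (.leaf 200 1409 (.cons 225 (.leaf 224 1602 (.leaf 226 1610 .nil)) .nil)) .nil)) .nil)) .nil)) .nil)) (.cons 206 (.leaf 207 1435 (.cons 203 (.cons 182 (.leaf 183 1433 (.cons 202 (.leaf 181 1425 (.cons 201 (.leaf 200 1409 (.cons 225 (.leaf 224 1602 (.leaf 226 1610 .nil)) .nil)) .nil)) .nil)) (.cons 230 (.leaf 231 1624 (.cons 202 (.leaf 229 1616 (.cons 201 (.leaf 181 1417 (.leaf 200 1409 .nil)) .nil)) .nil)) (.cons 182 (.leaf 183 1433 (.cons 230 (.leaf 231 1624 (.cons 181 (.cons 254 (.leaf 278 1455 (.leaf 157 1263 .nil)) (.cons 154 (.leaf 155 1235 (.cons 158 (.leaf 159 1241 (.cons 134 (.leaf 110 878 (.leaf 229 1070 .nil)) .nil)) .nil)) .nil)) .nil)) .nil)) (.cons 230 (.leaf 231 1624 (.cons 182 (.leaf 183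 1433 (.cons 202 (.leaf 229 1616 (.cons 201 (.leaf 200 1409 (.cons 225 (.leaf 224 1602 (.leaf 226 1610 .nil)) .nil)) .nil)) .nil)) .nil)) .nil)))) .nil)) (.cons 178 (.leaf 177 1416 (.cons 181 (.cons 202 (.leaf 201 1418 (.cons 154 (.leaf 153 1227 (.cons 131 (.cons 107 (.leaf 155 860 (.leaf 130 853 .nil)) (.cons 130 (.leaf 107 853 (.cons 105 (.leaf 129 847 (.cons 106 (.leaf 203 852 (.leaf 81 655 .nil)) .nil)) .nil)) (.cons 226 (.leaf 155 1045 (.cons 225 (.leaf 203 1610 (.leaf 249 1230 .nil)) .nil)) .nil))) .nil)) .nil)) (.cons 158 (.leaf 157 1233 (.cons 153 (.leaf 154 1227 (.cons 182 (.leaf 159 1241 (.cons 183 (.leaf 203 1434 (.leaf 184 1442 .nil)) .nil)) .nil)) .nil)) (.cons 202 (.leaf 201 1418 (.cons 182 (.leaf 203 1425 (.cons 158 (.leaf 157 1233 (.leaf 159 1241 .nil)) .nil)) .nil)) (.cons 158 (.leaf 157 1233 (.cons 153 (.leaf 154 1227 (.cons 182 (.leaf 159 1241 (.cons 110 (.leaf 134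 878 (.cons 183 (.leaf 184 1442 (.cons 156 (.leaf 155 1243 (.cons 132 (.leaf 229 1060 (.leaf 108 868 .nil)) .nil)) .nil)) .nil)) .nil)) .nil)) .nil)) .nil)))) .nil)) (.cons 178 (.leaf 177 1416 (.cons 206 (.leaf 203 1427 (.leaf 207 1435 .nil)) .nil)) (.cons 178 (.leaf 177 1416 (.cons 206 (.leaf 207 1435 (.leaf 181 1424 .nil)) .nil)) .nil))))
noncomputable def t148 : T := .cons 179 (.leaf 178 1427 (.cons 182 (.leaf 183 1433 (.cons 202 (.leaf 181 1425 (.cons 201 (.leaf 200 1409 (.cons 225 (.leaf 224 1602 (.leaf 226 1610 .nil)) .nil)) .nil)) .nil)) .nil)) (.cons 182 (.leaf 183 1433 (.cons 202 (.leaf 181 1425 (.cons 225 (.leaf 226 1610 (.cons 177 (.leaf 178 1419 (.cons 201 (.leaf 176 1411 (.leaf 224 1602 .nil)) .nil)) .nil)) .nil)) .nil)) (.cons 182 (.leaf 183 1433 (.cons 181 (.leaf 202 1425 (.cons 230 (.leaf 231 1624 (.cons 254 (.leaf 278 1455 (.leaf 157 1263 .nil)) .nil)) .nil)) .nil))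 (.cons 178 (.leaf 179 1427 (.cons 202 (.leaf 177 1419 (.cons 201 (.leaf 181 1417 (.cons 225 (.leaf 224 1602 (.leaf 226 1610 .nil)) .nil)) .nil)) .nil)) (.cons 230 (.leaf 231 1624 (.cons 182 (.leaf 183 1433 (.cons 202 (.cons 225 (.leaf 226 1610 (.cons 201 (.leaf 224 1602 (.cons 176 (.leaf 177 1411 (.cons 200 (.leaf 179 1409 (.leaf 175 1403 .nil)) .nil)) .nil)) .nil)) (.cons 225 (.leaf 226 1610 (.cons 177 (.leaf 178 1419 (.cons 201 (.leaf 176 1411 (.leaf 224 1602 .nil)) .nil)) .nil)) (.cons 179 (.leaf 178 1427 (.cons 201 (.leaf 200 1409 (.cons 225 (.leaf 224 1602 (.leaf 226 1610 .nil)) .nil)) .nil)) (.cons 178 (.leaf 177 1419 (.leaf 179 1427 .nil)) .nil)))) .nil)) .nil)) (.cons 179 (.leaf 178 1427 (.cons 182 (.leaf 183 1433 (.cons 230 (.leaf 231 1624 (.cons 254 (.cons 253 (.leaf 274 2002 (.leaf 277 1454 .nil)) (.cons 278 (.leaf 181 1455 (.cons 279 (.leaf 255 1460 (.leaf 303 1652 .nil))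 .nil)) .nil)) .nil)) .nil)) .nil)) .nil)))))
noncomputable def t149 : T := .cons 178 (.leaf 177 1416 (.cons 181 (.leaf 206 1424 (.cons 202 (.leaf 201 1418 (.cons 154 (.leaf 153 1227 (.cons 131 (.cons 107 (.leaf 155 860 (.leaf 130 853 .nil)) (.cons 130 (.leaf 107 853 (.cons 105 (.leaf 129 847 (.cons 106 (.leaf 203 852 (.leaf 81 655 .nil)) .nil)) .nil)) (.cons 226 (.leaf 155 1045 (.cons 225 (.leaf 203 1610 (.leaf 249 1230 .nil)) .nil)) .nil))) .nil)) .nil)) .nil)) .nil)) (.cons 206 (.leaf 207 1435 (.cons 203 (.cons 182 (.leaf 183 1433 (.cons 202 (.leaf 181 1425 (.cons 201 (.leaf 200 1409 (.cons 225 (.leaf 224 1602 (.leaf 226 1610 .nil)) .nil)) .nil)) .nil)) (.cons 230 (.leaf 231 1624 (.cons 202 (.leaf 229 1616 (.cons 201 (.leaf 181 1417 (.leaf 200 1409 .nil)) .nil)) .nil)) (.cons 182 (.leaf 183 1433 (.cons 230 (.leaf 231 1624 (.cons 181 (.cons 254 (.leaf 278 1455 (.leaf 157 1263 .nil))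 (.cons 154 (.leaf 155 1235 (.cons 158 (.leaf 159 1241 (.cons 134 (.leaf 110 878 (.leaf 229 1070 .nil)) .nil)) .nil)) .nil)) .nil)) .nil)) (.cons 230 (.leaf 231 1624 (.cons 182 (.leaf 183 1433 (.cons 229 (.leaf 202 1616 (.cons 253 (.leaf 277 1453 (.leaf 158 1262 .nil)) .nil)) .nil)) .nil)) .nil)))) .nil)) (.cons 178 (.leaf 177 1416 (.cons 181 (.cons 202 (.leaf 201 1418 (.cons 154 (.leaf 153 1227 (.cons 131 (.cons 107 (.leaf 155 860 (.leaf 130 853 .nil)) (.cons 130 (.leaf 107 853 (.cons 105 (.leaf 129 847 (.cons 106 (.leaf 203 852 (.leaf 81 655 .nil)) .nil)) .nil)) (.cons 226 (.leaf 155 1045 (.cons 225 (.leaf 203 1610 (.leaf 249 1230 .nil)) .nil)) .nil))) .nil)) .nil)) (.cons 158 (.leaf 157 1233 (.cons 153 (.leaf 154 1227 (.cons 182 (.leaf 159 1241 (.cons 183 (.leaf 203 1434 (.leaf 184 1442 .nil)) .nil)) .nil)) .nil)) (.cons 202 (.leaf 201 1418 (.cons 182 (.leaf 203 1425 (.cons 158 (.leaf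 157 1233 (.leaf 159 1241 .nil)) .nil)) .nil)) (.cons 158 (.leaf 157 1233 (.cons 153 (.leaf 154 1227 (.cons 182 (.leaf 159 1241 (.cons 110 (.leaf 134 878 (.cons 183 (.leaf 184 1442 (.cons 156 (.leaf 155 1243 (.cons 132 (.leaf 229 1060 (.leaf 108 868 .nil)) .nil)) .nil)) .nil)) .nil)) .nil)) .nil)) .nil)))) .nil)) (.cons 178 (.leaf 177 1416 (.cons 206 (.leaf 203 1427 (.leaf 207 1435 .nil)) .nil)) (.cons 206 (.leaf 207 1435 (.cons 253 (.cons 254 (.leaf 274 2002 (.cons 278 (.leaf 279 2008 (.cons 230 (.leaf 231 1817 (.leaf 181 1455 .nil)) .nil)) .nil)) (.cons 229 (.leaf 277 1447 (.cons 156 (.leaf 132 1060 (.leaf 181 1255 .nil)) .nil)) (.cons 229 (.leaf 277 1447 (.cons 254 (.leaf 274 2002 (.cons 230 (.leaf 231 1817 (.cons 278 (.leaf 279 2008 (.leaf 302 1647 .nil)) .nil)) .nil)) .nil)) .nil))) .nil)) .nil))))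
noncomputable def t150 : T := .cons 179 t149 (.cons 253 (.cons 254 (.leaf 274 2002 (.cons 230 (.leaf 231 1817 (.cons 278 (.leaf 279 2008 (.cons 206 (.leaf 181 1455 (.cons 277 (.leaf 229 1447 (.leaf 182 1454 .nil)) .nil)) .nil)) .nil)) .nil)) (.cons 254 (.leaf 274 2002 (.cons 230 (.leaf 231 1817 (.cons 278 (.leaf 279 2008 (.cons 206 (.leaf 181 1455 (.cons 277 (.leaf 182 1454 (.leaf 301 1646 .nil)) .nil)) .nil)) .nil)) .nil)) (.cons 229 (.leaf 277 1447 (.cons 156 (.leaf 132 1060 (.leaf 181 1255 .nil)) .nil)) (.cons 254 (.leaf 274 2002 (.cons 230 (.leaf 231 1817 (.cons 278 (.leaf 279 2008 (.cons 181 (.leaf 206 1455 (.leaf 229 1452 .nil)) .nil)) .nil)) .nil)) (.cons 229 (.leaf 277 1447 (.cons 132 (.leaf 156 1060 (.cons 254 (.leaf 274 2002 (.cons 230 (.leaf 231 1817 (.cons 278 (.leaf 279 2008 (.leaf 302 1647 .nil)) .nil)) .nil)) .nil)) .nil)) .nil))))) (.cons 253 (.cons 254 (.leaf 274 2002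 (.cons 231 (.leaf 230 1817 (.cons 255 (.leaf 232 1825 (.cons 279 (.leaf 278 2008 (.leaf 280 2016 .nil)) .nil)) .nil)) .nil)) (.cons 229 (.leaf 277 1447 (.cons 156 (.leaf 132 1060 (.leaf 181 1255 .nil)) .nil)) .nil)) (.cons 206 (.cons 207 (.leaf 179 1435 (.cons 183 (.leaf 184 1441 (.cons 182 (.leaf 203 1433 (.cons 231 (.leaf 232 1632 (.cons 158 (.leaf 134 1076 (.leaf 255 1271 .nil)) .nil)) .nil)) .nil)) .nil)) (.cons 203 t148 (.cons 207 (.cons 183 (.leaf 184 1441 (.cons 182 (.leaf 203 1433 (.cons 231 (.leaf 232 1632 (.cons 158 (.leaf 134 1076 (.leaf 255 1271 .nil)) .nil)) .nil)) .nil)) (.cons 181 (.leaf 208 1443 (.cons 231 (.leaf 232 1632 (.cons 203 (.leaf 230 1624 (.cons 202 (.leaf 201 1417 (.leaf 182 1425 .nil)) .nil)) .nil)) .nil)) (.cons 181 (.leaf 208 1443 (.cons 183 (.leaf 184 1441 (.cons 182 (.leaf 203 1433 (.cons 155 (.leaf 156 1243 (.cons 159 (.leaf 160 1249 (.cons 135 (.leaf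 111 886 (.leaf 230 1078 .nil)) .nil)) .nil)) .nil)) .nil)) .nil)) (.cons 208 (.leaf 181 1443 (.cons 232 (.leaf 231 1632 (.leaf 233 1640 .nil)) .nil)) .nil)))) (.cons 179 (.leaf 207 1435 (.cons 178 (.leaf 177 1416 (.leaf 181 1424 .nil)) .nil)) .nil)))) (.cons 179 t147 (.cons 253 t146 (.cons 179 t145 (.cons 179 t144 (.cons 253 (.cons 229 (.leaf 277 1447 (.cons 156 (.leaf 132 1060 (.leaf 181 1255 .nil)) .nil)) (.cons 254 (.leaf 274 2002 (.cons 279 (.leaf 278 2008 (.cons 255 (.leaf 280 2016 (.cons 206 (.cons 179 (.leaf 207 1435 (.cons 178 (.leaf 177 1416 (.leaf 203 1427 .nil)) .nil)) (.cons 182 (.leaf 230 1460 (.cons 183 (.leaf 203 1433 (.cons 184 (.leaf 181 1442 (.leaf 207 1441 .nil)) .nil)) .nil)) (.cons 182 (.leaf 230 1460 (.cons 183 (.leaf 203 1433 (.cons 184 (.leaf 181 1442 (.leaf 185 1450 .nil)) .nil)) .nil)) (.cons 179 (.leaf 207 1435 (.cons 178 (.leaf 177 1416 (.leaf 181 1424 .nil))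 .nil)) .nil)))) .nil)) .nil)) .nil)) (.cons 229 (.leaf 277 1447 (.cons 132 (.leaf 156 1060 (.cons 254 (.leaf 274 2002 (.cons 278 (.leaf 279 2008 (.cons 302 (.leaf 230 1647 (.leaf 326 1839 .nil)) .nil)) .nil)) .nil)) .nil)) .nil))) (.cons 253 t143 .nil)))))))))
noncomputable def t151 : T := .cons 253 (.leaf 156 1252 (.leaf 277 1447 .nil)) (.cons 156 (.leaf 132 1060 (.cons 157 (.leaf 133 1061 (.cons 230 (.cons 181 (.leaf 254 1260 (.cons 134 (.leaf 158 1069 (.cons 231 (.leaf 203 1627 (.leaf 232 1635 .nil)) .nil)) .nil)) (.cons 203 (.leaf 202 1616 (.cons 254 (.leaf 181 1260 (.cons 278 (.leaf 302 1647 (.cons 206 (.cons 183 (.leaf 182 1433 (.leaf 207 1461 .nil)) (.cons 178 (.leaf 179 1427 (.cons 182 (.leaf 183 1433 (.cons 279 (.leaf 255 1460 (.leaf 303 1652 .nil)) .nil)) .nil)) (.cons 179 (.leaf 178 1427 (.leaf 207 1435 .nil)) .nil))) .nil)) .nil)) .nil)) (.cons 181 (.leaf 254 1260 (.cons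 134 (.leaf 158 1069 (.cons 231 (.leaf 232 1635 (.cons 207 (.leaf 208 1633 (.cons 206 (.leaf 179 1435 (.cons 255 (.leaf 256 1824 (.cons 279 (.leaf 303 1655 (.leaf 182 1463 .nil)) .nil)) .nil)) .nil)) .nil)) .nil)) .nil)) (.cons 231 (.leaf 203 1627 (.leaf 232 1635 .nil)) .nil)))) .nil)) .nil)) (.cons 253 (.leaf 277 1447 (.cons 203 (.cons 230 (.leaf 202 1616 (.leaf 231 1627 .nil)) (.cons 230 (.leaf 231 1627 (.cons 206 (.cons 179 (.leaf 178 1427 (.leaf 207 1435 .nil)) (.cons 182 (.leaf 183 1433 (.leaf 158 1262 .nil)) .nil)) .nil)) (.cons 202 (.leaf 201 1608 (.cons 177 (.leaf 178 1419 (.cons 182 (.leaf 181 1425 (.cons 206 (.leaf 183 1433 (.cons 207 (.leaf 179 1435 (.leaf 208 1634 .nil)) .nil)) .nil)) .nil)) .nil)) .nil))) .nil)) .nil))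
noncomputable def t152 : T := .cons 133 (.leaf 157 1061 (.cons 132 (.leaf 109 869 (.leaf 229 1060 .nil)) .nil)) (.cons 133 (.leaf 157 1061 (.cons 132 (.leaf 109 869 (.cons 108 (.leaf 181 868 (.cons 83 (.leaf 107 671 (.cons 84 (.leaf 59 479 (.cons 179 (.leaf 203 862 (.leaf 155 670 .nil)) .nil)) .nil)) .nil)) .nil)) .nil)) (.cons 229 (.leaf 253 1252 (.cons 157 (.leaf 133 1061 (.cons 230 (.cons 231 (.leaf 203 1627 (.leaf 232 1635 .nil)) (.cons 203 (.leaf 202 1616 (.cons 254 (.leaf 181 1260 (.cons 278 (.leaf 302 1647 (.cons 206 (.cons 183 (.leaf 182 1433 (.leaf 207 1461 .nil)) (.cons 178 (.leaf 179 1427 (.cons 182 (.leaf 183 1433 (.cons 279 (.leaf 255 1460 (.leaf 303 1652 .nil)) .nil)) .nil)) (.cons 179 (.leaf 178 1427 (.leaf 207 1435 .nil)) .nil))) .nil)) .nil)) .nil)) (.cons 231 (.leaf 232 1635 (.cons 181 (.leaf 254 1260 (.cons 207 (.leaf 208 1633 (.cons 206 (.leaf 179 1435 (.cons 183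 (.leaf 184 1441 (.cons 159 (.leaf 135 1078 (.cons 160 (.leaf 182 1249 (.leaf 136 1085 .nil)) .nil)) .nil)) .nil)) .nil)) .nil)) .nil)) .nil))) .nil)) .nil)) (.cons 229 (.leaf 132 1060 (.leaf 253 1252 .nil)) .nil)))
noncomputable def t153 : T := .cons 132 (.leaf 156 1060 (.cons 134 (.leaf 158 1069 (.cons 230 (.leaf 254 1260 (.cons 231 (.leaf 232 1635 (.cons 207 (.leaf 208 1633 (.cons 206 (.leaf 179 1435 (.cons 183 (.leaf 184 1441 (.cons 159 (.leaf 135 1078 (.cons 160 (.leaf 182 1249 (.leaf 136 1085 .nil)) .nil)) .nil)) .nil)) .nil)) .nil)) .nil)) .nil)) .nil)) (.cons 158 (.leaf 134 1069 (.cons 159 (.leaf 160 1250 (.cons 179 (.leaf 178 1233 (.leaf 182 1241 .nil)) .nil)) .nil)) (.cons 156 (.leaf 132 1060 (.cons 230 (.leaf 254 1260 (.cons 231 (.leaf 232 1635 (.cons 207 (.leaf 208 1633 (.cons 206 (.leaf 179 1435 (.cons 183 (.leaf 184 1441 (.cons 159 (.leaf 135 1078 (.cons 160 (.leaf 182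 1249 (.leaf 136 1085 .nil)) .nil)) .nil)) .nil)) .nil)) .nil)) .nil)) .nil)) (.cons 156 (.leaf 132 1060 (.cons 158 (.leaf 134 1069 (.cons 159 (.leaf 160 1250 (.cons 135 (.leaf 136 1057 (.cons 183 (.leaf 184 1248 (.cons 155 (.leaf 182 1240 (.cons 230 (.leaf 254 1260 (.cons 207 (.leaf 206 1078 (.cons 208 (.leaf 231 1633 (.leaf 232 1084 .nil)) .nil)) .nil)) .nil)) .nil)) .nil)) .nil)) .nil)) .nil)) (.cons 156 (.leaf 132 1060 (.cons 158 (.leaf 134 1069 (.cons 159 (.leaf 179 1242 (.leaf 160 1250 .nil)) .nil)) .nil)) (.cons 156 (.leaf 132 1060 (.cons 134 (.leaf 158 1069 (.cons 230 (.leaf 254 1260 (.cons 231 (.leaf 232 1635 (.cons 207 (.leaf 208 1633 (.cons 206 (.leaf 179 1435 (.cons 255 (.leaf 256 1824 (.cons 279 (.leaf 303 1655 (.leaf 182 1463 .nil)) .nil)) .nil)) .nil)) .nil)) .nil)) .nil)) .nil)) .nil)))))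
noncomputable def t154 : T := .cons 157 (.leaf 133 1062 (.cons 179 (.cons 206 (.leaf 207 1435 (.leaf 178 1424 .nil)) (.cons 206 (.leaf 207 1435 (.cons 182 (.cons 155 (.leaf 154 1235 (.cons 183 (.leaf 203 1433 (.leaf 184 1442 .nil)) .nil)) (.cons 155 (.leaf 154 1235 (.cons 183 (.leaf 184 1442 (.leaf 156 1243 .nil)) .nil)) (.cons 203 (.leaf 202 1425 (.cons 230 (.leaf 231 1624 (.leaf 254 1263 .nil)) .nil)) .nil))) .nil)) (.cons 178 (.leaf 177 1416 (.leaf 158 1233 .nil)) .nil))) .nil)) (.cons 182 (.cons 183 (.leaf 203 1434 (.leaf 184 1442 .nil)) (.cons 203 (.leaf 202 1425 (.cons 206 (.cons 207 (.leaf 179 1432 (.leaf 208 1443 .nil)) (.cons 207 (.leaf 208 1443 (.cons 231 (.leaf 230 1624 (.leaf 232 1632 .nil)) .nil)) (.cons 179 (.leaf 178 1424 (.cons 158 (.leaf 159 1241 (.cons 134 (.leaf 110 878 (.leaf 229 1070 .nil)) .nil)) .nil)) .nil))) .nil)) (.cons 183 (.leaf 184 1442 (.cons 155 (.leaf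 156 1243 (.cons 159 (.leaf 160 1249 (.cons 179 (.leaf 154 1235 (.leaf 158 1241 .nil)) .nil)) .nil)) .nil)) .nil))) (.cons 157 (.leaf 133 1062 (.cons 229 (.cons 134 (.leaf 158 1069 (.cons 230 (.leaf 254 1260 (.cons 203 (.leaf 202 1616 (.leaf 231 1627 .nil)) .nil)) .nil)) (.cons 156 (.leaf 132 1060 (.cons 158 (.leaf 134 1069 (.cons 159 (.leaf 179 1242 (.leaf 160 1250 .nil)) .nil)) .nil)) (.cons 132 (.leaf 156 1060 (.cons 230 (.leaf 254 1260 (.cons 203 (.leaf 202 1616 (.leaf 231 1627 .nil)) .nil)) .nil)) .nil))) .nil)) (.cons 157 (.leaf 133 1062 (.cons 229 (.cons 156 (.leaf 132 1060 (.cons 158 (.leaf 134 1069 (.cons 159 (.leaf 160 1250 (.cons 183 (.leaf 184 1248 (.cons 182 (.leaf 203 1434 (.leaf 155 1240 .nil)) .nil)) .nil)) .nil)) .nil)) (.cons 230 (.leaf 254 1260 (.cons 203 (.leaf 202 1616 (.leaf 231 1627 .nil)) .nil)) (.cons 132 (.leaf 156 1060 (.cons 158 (.leaf 134 1069 (.cons 159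 (.leaf 160 1250 (.cons 230 (.leaf 254 1260 (.cons 231 (.leaf 232 1635 (.cons 255 (.leaf 256 1824 (.cons 182 (.leaf 206 1268 (.cons 183 (.leaf 184 1442 (.leaf 207 1271 .nil)) .nil)) .nil)) .nil)) .nil)) .nil)) .nil)) .nil)) .nil))) .nil)) (.cons 157 (.leaf 133 1062 (.cons 229 t153 .nil)) (.cons 157 (.leaf 133 1062 (.cons 158 (.cons 159 (.leaf 160 1250 (.cons 134 (.leaf 229 1069 (.cons 110 (.leaf 182 878 (.leaf 86 686 .nil)) .nil)) .nil)) (.cons 134 (.leaf 229 1069 (.cons 110 (.leaf 86 686 (.cons 159 (.leaf 160 1250 (.cons 179 (.leaf 178 1233 (.cons 207 (.leaf 206 1435 (.cons 183 (.leaf 231 1079 (.leaf 135 887 .nil)) .nil)) .nil)) .nil)) .nil)) .nil)) (.cons 159 (.leaf 160 1250 (.cons 179 (.leaf 178 1233 (.leaf 182 1241 .nil)) .nil)) (.cons 134 (.leaf 229 1069 (.cons 110 (.leaf 182 878 (.leaf 86 686 .nil)) .nil)) .nil)))) .nil)) (.cons 157 (.leaf 133 1062 (.cons 182 (.cons 203 (.leaf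 183 1434 (.leaf 202 1425 .nil)) (.cons 203 (.leaf 202 1425 (.cons 206 (.cons 230 (.leaf 231 1624 (.leaf 254 1263 .nil)) (.cons 179 (.leaf 178 1424 (.leaf 207 1432 .nil)) .nil)) .nil)) (.cons 183 (.leaf 184 1442 (.cons 155 (.leaf 156 1243 (.cons 159 (.leaf 160 1249 (.cons 179 (.leaf 154 1235 (.cons 206 (.leaf 207 1432 (.leaf 178 1424 .nil)) .nil)) .nil)) .nil)) .nil)) .nil))) .nil)) (.cons 157 (.leaf 133 1062 (.cons 158 (.cons 159 (.leaf 160 1250 (.cons 134 (.leaf 229 1069 (.cons 110 (.leaf 182 878 (.leaf 86 686 .nil)) .nil)) .nil)) (.cons 134 (.leaf 229 1069 (.cons 86 (.leaf 110 686 (.cons 159 (.leaf 160 1250 (.cons 179 (.leaf 156 1242 (.leaf 178 1233 .nil)) .nil)) .nil)) .nil)) (.cons 179 (.leaf 178 1233 (.cons 134 (.leaf 229 1069 (.cons 110 (.leaf 182 878 (.leaf 86 686 .nil)) .nil)) .nil)) (.cons 159 (.leaf 160 1250 (.cons 179 (.leaf 156 1242 (.leaf 178 1233 .nil)) .nil)) .nil))))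 .nil)) .nil)))))))
noncomputable def t155 : T := .cons 156 (.leaf 132 1060 (.leaf 253 1252 .nil)) (.cons 156 (.leaf 132 1060 (.cons 157 (.leaf 133 1061 (.cons 179 (.cons 178 (.leaf 177 1416 (.cons 206 (.leaf 207 1435 (.leaf 181 1424 .nil)) .nil)) (.cons 158 (.leaf 159 1242 (.cons 134 (.leaf 181 1069 (.cons 206 (.leaf 207 1435 (.leaf 182 1070 .nil)) .nil)) .nil)) (.cons 178 (.leaf 177 1416 (.cons 158 (.leaf 159 1242 (.leaf 181 1233 .nil)) .nil)) (.cons 178 (.leaf 177 1416 (.cons 158 (.leaf 159 1242 (.leaf 155 1234 .nil)) .nil)) .nil)))) .nil)) .nil)) (.cons 253 (.leaf 277 1447 (.cons 181 (.cons 157 (.leaf 133 1062 (.cons 254 (.leaf 230 1260 (.leaf 278 1452 .nil)) .nil)) (.cons 182 (.leaf 158 1261 (.cons 183 (.leaf 184 1442 (.cons 159 (.leaf 160 1249 (.cons 207 (.leaf 208 1440 (.cons 179 (.leaf 206 1432 (.cons 178 (.leaf 177 1416 (.cons 254 (.leaf 278 1452 (.cons 231 (.leaf 230 1270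 (.cons 256 (.leaf 255 1827 (.leaf 232 1276 .nil)) .nil)) .nil)) .nil)) .nil)) .nil)) .nil)) .nil)) .nil)) (.cons 157 (.leaf 133 1062 (.cons 158 (.leaf 134 1069 (.leaf 182 1261 .nil)) .nil)) .nil))) .nil)) .nil))
noncomputable def t156 : T := .cons 156 (.leaf 132 1060 (.leaf 253 1252 .nil)) (.cons 156 (.leaf 132 1060 (.cons 203 (.cons 230 (.leaf 202 1616 (.leaf 231 1627 .nil)) (.cons 230 (.leaf 231 1627 (.cons 206 (.cons 179 (.leaf 178 1427 (.leaf 207 1435 .nil)) (.cons 179 (.leaf 178 1427 (.cons 182 (.leaf 183 1433 (.cons 158 (.leaf 134 1070 (.cons 159 (.leaf 181 1241 (.leaf 135 1077 .nil)) .nil)) .nil)) .nil)) (.cons 183 (.leaf 182 1433 (.cons 207 (.leaf 184 1441 (.leaf 208 1634 .nil)) .nil)) .nil))) .nil)) (.cons 202 (.leaf 201 1608 (.cons 177 (.leaf 178 1419 (.cons 182 (.leaf 181 1425 (.cons 206 (.leaf 183 1433 (.cons 207 (.leaf 179 1435 (.leaf 208 1634 .nil)) .nil)) .nil)) .nil))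 .nil)) .nil))) .nil)) (.cons 253 (.leaf 277 1447 (.cons 203 (.cons 230 (.leaf 202 1616 (.leaf 231 1627 .nil)) (.cons 230 (.leaf 231 1627 (.cons 206 (.cons 179 (.leaf 178 1427 (.leaf 207 1435 .nil)) (.cons 182 (.leaf 183 1433 (.leaf 158 1262 .nil)) .nil)) .nil)) (.cons 202 (.leaf 201 1608 (.cons 177 (.leaf 178 1419 (.cons 182 (.leaf 181 1425 (.cons 206 (.leaf 183 1433 (.cons 207 (.leaf 179 1435 (.leaf 208 1634 .nil)) .nil)) .nil)) .nil)) .nil)) .nil))) .nil)) .nil))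
noncomputable def t157 : T := .cons 230 (.leaf 231 1624 (.cons 182 (.leaf 183 1433 (.cons 202 (.leaf 181 1425 (.leaf 229 1616 .nil)) .nil)) .nil)) (.cons 230 (.leaf 231 1624 (.cons 202 (.leaf 229 1616 (.cons 201 (.leaf 181 1417 (.leaf 200 1409 .nil)) .nil)) .nil)) (.cons 182 (.leaf 183 1433 (.cons 181 (.leaf 202 1425 (.cons 158 (.leaf 159 1241 (.cons 134 (.leaf 110 878 (.leaf 229 1070 .nil)) .nil)) .nil)) .nil)) (.cons 182 (.leaf 183 1433 (.cons 230 (.leaf 231 1624 (.cons 181 (.cons 157 (.leaf 133 1068 (.leaf 254 1263 .nil)) (.cons 154 (.leaf 155 1235 (.cons 158 (.leaf 159 1241 (.cons 229 (.leaf 134 1070 (.leaf 253 1261 .nil)) .nil)) .nil)) .nil)) .nil)) .nil)) (.cons 230 (.leaf 231 1624 (.cons 182 (.leaf 183 1433 (.cons 229 (.leaf 202 1616 (.cons 253 (.leaf 277 1453 (.leaf 158 1262 .nil)) .nil)) .nil)) .nil)) (.cons 182 (.leaf 183 1433 (.cons 181 (.leaf 202 1425 (.cons 133 (.leaf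 157 1062 (.cons 154 (.leaf 155 1235 (.cons 158 (.leaf 159 1241 (.cons 134 (.leaf 110 878 (.leaf 109 879 .nil)) .nil)) .nil)) .nil)) .nil)) .nil)) .nil)))))
noncomputable def t158 : T := .cons 179 (.leaf 178 1427 (.cons 182 (.leaf 183 1433 (.cons 230 (.leaf 231 1624 (.cons 181 (.leaf 202 1425 (.cons 157 (.leaf 133 1068 (.leaf 254 1263 .nil)) .nil)) .nil)) .nil)) .nil)) (.cons 182 (.leaf 183 1433 (.cons 181 (.leaf 202 1425 (.cons 157 (.leaf 133 1062 (.cons 230 (.leaf 231 1624 (.leaf 254 1263 .nil)) .nil)) .nil)) .nil)) (.cons 178 (.leaf 179 1427 (.cons 202 (.leaf 177 1419 (.cons 201 (.leaf 181 1417 (.cons 225 (.leaf 224 1602 (.leaf 226 1610 .nil)) .nil)) .nil)) .nil)) (.cons 182 (.leaf 183 1433 (.cons 230 (.leaf 231 1624 (.cons 202 (.cons 177 (.leaf 178 1419 (.cons 201 (.leaf 176 1411 (.cons 225 (.leaf 224 1602 (.leaf 226 1610 .nil)) .nil)) .nil)) (.cons 225 (.leaf 226 1610 (.cons 201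 (.leaf 224 1602 (.cons 176 (.leaf 177 1411 (.cons 200 (.leaf 179 1409 (.leaf 175 1403 .nil)) .nil)) .nil)) .nil)) (.cons 225 (.leaf 226 1610 (.cons 179 (.leaf 178 1427 (.cons 201 (.leaf 224 1602 (.leaf 200 1409 .nil)) .nil)) .nil)) (.cons 178 (.leaf 177 1419 (.leaf 179 1427 .nil)) .nil)))) .nil)) .nil)) (.cons 179 (.leaf 178 1427 (.cons 182 (.leaf 183 1433 (.cons 230 (.leaf 231 1624 (.cons 157 (.cons 133 (.leaf 156 1061 (.leaf 181 1068 .nil)) (.cons 254 (.leaf 181 1263 (.cons 277 (.leaf 253 1454 (.cons 278 (.leaf 301 1646 (.cons 279 (.leaf 255 1460 (.leaf 303 1652 .nil)) .nil)) .nil)) .nil)) (.cons 133 (.leaf 156 1061 (.leaf 158 1071 .nil)) .nil))) .nil)) .nil)) .nil)) .nil))))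
noncomputable def t159 : T := .cons 207 (.leaf 179 1435 (.cons 181 (.leaf 208 1443 (.cons 133 (.leaf 157 1062 (.cons 183 (.leaf 184 1441 (.cons 182 (.leaf 203 1433 (.cons 159 (.leaf 160 1249 (.cons 135 (.leaf 111 886 (.leaf 230 1078 .nil)) .nil)) .nil)) .nil)) .nil)) .nil)) .nil)) (.cons 203 t158 (.cons 207 (.cons 181 (.leaf 208 1443 (.cons 133 (.leaf 157 1062 (.cons 183 (.leaf 184 1441 (.cons 182 (.leaf 203 1433 (.cons 159 (.leaf 160 1249 (.cons 135 (.leaf 111 886 (.leaf 230 1078 .nil)) .nil)) .nil)) .nil)) .nil)) .nil)) (.cons 208 (.leaf 181 1443 (.cons 232 (.leaf 231 1632 (.leaf 233 1640 .nil)) .nil)) (.cons 183 (.leaf 184 1441 (.cons 182 (.leaf 203 1433 (.cons 231 (.leaf 232 1632 (.cons 158 (.leaf 134 1076 (.leaf 255 1271 .nil)) .nil)) .nil)) .nil)) .nil))) (.cons 207 (.leaf 179 1435 (.cons 183 (.leaf 184 1441 (.cons 182 (.leaf 203 1433 (.cons 231 (.leaf 232 1632 (.cons 158 (.leaf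 134 1076 (.leaf 255 1271 .nil)) .nil)) .nil)) .nil)) .nil)) (.cons 207 (.leaf 179 1435 (.cons 183 (.leaf 184 1441 (.cons 208 (.leaf 181 1443 (.cons 232 (.leaf 231 1632 (.leaf 233 1640 .nil)) .nil)) .nil)) .nil)) (.cons 179 (.leaf 207 1435 (.cons 178 (.leaf 177 1416 (.leaf 203 1427 .nil)) .nil)) .nil)))))
noncomputable def t160 : T := .cons 156 (.cons 229 (.leaf 132 1060 (.leaf 253 1252 .nil)) (.cons 133 (.leaf 157 1061 (.cons 132 (.leaf 109 869 (.cons 108 (.leaf 181 868 (.cons 83 (.leaf 107 671 (.cons 84 (.leaf 59 479 (.cons 179 (.leaf 203 862 (.leaf 155 670 .nil)) .nil)) .nil)) .nil)) .nil)) .nil)) (.cons 229 (.leaf 253 1252 (.cons 157 (.leaf 133 1061 (.cons 230 (.cons 181 (.leaf 254 1260 (.cons 158 (.leaf 134 1069 (.cons 159 (.leaf 179 1242 (.leaf 160 1250 .nil)) .nil)) .nil)) (.cons 203 (.leaf 202 1616 (.leaf 231 1627 .nil)) .nil)) .nil)) .nil)) .nil))) (.cons 206 t159 (.cons 156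 (.cons 229 (.leaf 132 1060 (.leaf 253 1252 .nil)) (.cons 179 (.cons 178 (.leaf 177 1416 (.cons 206 (.leaf 203 1427 (.leaf 207 1435 .nil)) .nil)) (.cons 133 (.leaf 157 1061 (.cons 132 (.leaf 109 869 (.cons 108 (.leaf 203 862 (.cons 83 (.leaf 107 671 (.cons 84 (.leaf 59 479 (.leaf 155 670 .nil)) .nil)) .nil)) .nil)) .nil)) (.cons 157 (.leaf 133 1061 (.cons 178 (.leaf 177 1416 (.cons 158 (.leaf 159 1242 (.leaf 155 1234 .nil)) .nil)) .nil)) .nil))) (.cons 229 (.leaf 253 1252 (.cons 157 (.leaf 133 1061 (.cons 179 (.cons 178 (.leaf 177 1416 (.cons 206 (.leaf 203 1427 (.leaf 207 1435 .nil)) .nil)) (.cons 158 (.leaf 159 1242 (.cons 206 (.leaf 207 1435 (.cons 182 (.leaf 134 1070 (.cons 203 (.leaf 183 1433 (.cons 230 (.leaf 202 1616 (.leaf 231 1624 .nil)) .nil)) .nil)) .nil)) .nil)) (.cons 178 (.leaf 177 1416 (.cons 158 (.leaf 159 1242 (.leaf 155 1234 .nil)) .nil)) .nil))) .nil)) .nil)) .nil)))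 (.cons 179 (.cons 206 (.leaf 207 1435 (.cons 178 (.leaf 177 1416 (.leaf 203 1427 .nil)) .nil)) (.cons 178 (.leaf 177 1416 (.cons 181 (.cons 157 (.leaf 133 1062 (.leaf 158 1233 .nil)) (.cons 153 (.leaf 154 1227 (.cons 202 (.leaf 201 1418 (.cons 182 (.leaf 203 1425 (.cons 183 (.leaf 184 1442 (.cons 159 (.leaf 158 1241 (.leaf 160 1249 .nil)) .nil)) .nil)) .nil)) .nil)) (.cons 133 (.leaf 157 1062 (.cons 154 (.leaf 153 1227 (.cons 182 (.leaf 155 1235 (.cons 202 (.leaf 203 1425 (.leaf 201 1418 .nil)) .nil)) .nil)) .nil)) .nil))) .nil)) (.cons 206 (.leaf 207 1435 (.cons 203 t157 .nil)) (.cons 206 (.leaf 207 1435 (.cons 178 (.leaf 177 1416 (.leaf 181 1424 .nil)) .nil)) .nil)))) (.cons 229 (.cons 253 (.leaf 156 1252 (.leaf 277 1447 .nil)) (.cons 156 (.leaf 132 1060 (.cons 157 (.leaf 133 1061 (.cons 230 (.cons 181 (.leaf 254 1260 (.cons 158 (.leaf 134 1069 (.cons 159 (.leaf 160 1250 (.cons 135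 (.leaf 136 1057 (.cons 182 (.leaf 206 1077 (.cons 183 (.leaf 203 1434 (.leaf 184 1248 .nil)) .nil)) .nil)) .nil)) .nil)) .nil)) (.cons 181 (.leaf 254 1260 (.cons 158 (.leaf 134 1069 (.cons 159 (.leaf 160 1250 (.cons 135 (.leaf 136 1057 (.cons 182 (.leaf 206 1077 (.cons 183 (.leaf 184 1248 (.leaf 155 1240 .nil)) .nil)) .nil)) .nil)) .nil)) .nil)) (.cons 231 (.leaf 203 1627 (.leaf 232 1635 .nil)) .nil))) .nil)) .nil)) (.cons 253 (.leaf 277 1447 (.cons 181 (.cons 157 (.leaf 133 1062 (.cons 254 (.leaf 230 1260 (.leaf 278 1452 .nil)) .nil)) (.cons 182 (.leaf 158 1261 (.cons 183 (.leaf 203 1434 (.leaf 184 1442 .nil)) .nil)) .nil)) .nil)) .nil))) (.cons 229 t156 (.cons 229 t155 (.cons 181 t154 (.cons 156 (.cons 229 (.leaf 132 1060 (.leaf 253 1252 .nil)) (.cons 133 (.leaf 157 1061 (.cons 132 (.leaf 109 869 (.cons 108 (.leaf 181 868 (.cons 83 (.leaf 107 671 (.cons 84 (.leaf 59 479 (.cons 179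 (.leaf 203 862 (.leaf 155 670 .nil)) .nil)) .nil)) .nil)) .nil)) .nil)) (.cons 229 (.leaf 253 1252 (.cons 157 (.leaf 133 1061 (.cons 179 (.cons 178 (.leaf 177 1416 (.cons 206 (.leaf 203 1427 (.leaf 207 1435 .nil)) .nil)) (.cons 158 (.leaf 159 1242 (.cons 134 (.leaf 181 1069 (.cons 206 (.leaf 207 1435 (.leaf 182 1070 .nil)) .nil)) .nil)) (.cons 178 (.leaf 177 1416 (.cons 158 (.leaf 159 1242 (.leaf 181 1233 .nil)) .nil)) .nil))) .nil)) .nil)) .nil))) (.cons 156 t152 (.cons 229 t151 .nil))))))))))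
noncomputable def t161 : T := .cons 107 (.leaf 131 863 (.cons 108 (.leaf 83 671 (.cons 85 (.leaf 109 677 (.cons 84 (.leaf 61 485 (.cons 181 (.leaf 205 868 (.leaf 157 676 .nil)) .nil)) .nil)) .nil)) .nil)) (.cons 108 (.cons 179 (.leaf 203 862 (.cons 181 (.leaf 205 868 (.cons 107 (.leaf 83 671 (.cons 109 (.leaf 85 677 (.cons 178 (.cons 157 (.leaf 177 1225 (.leaf 158 1233 .nil)) (.cons 153 (.leaf 154 1227 (.cons 177 (.leaf 152 1219 (.cons 201 (.leaf 200 1410 (.leaf 202 1418 .nil)) .nil)) .nil)) (.cons 153 (.leaf 154 1227 (.cons 158 (.leaf 157 1233 (.cons 182 (.leaf 159 1241 (.cons 183 (.leaf 155 1243 (.cons 207 (.leaf 206 1432 (.leaf 208 1440 .nil)) .nil)) .nil)) .nil)) .nil)) .nil))) .nil)) .nil)) .nil)) .nil)) (.cons 179 (.leaf 203 862 (.cons 84 (.leaf 155 670 (.cons 83 (.leaf 107 671 (.leaf 59 479 .nil)) .nil)) .nil)) (.cons 181 (.leaf 205 868 (.cons 83 (.leaf 107 671 (.cons 84 (.leaf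 59 479 (.leaf 157 676 .nil)) .nil)) .nil)) (.cons 179 (.leaf 203 862 (.cons 84 (.leaf 155 670 (.cons 181 (.leaf 205 868 (.leaf 157 676 .nil)) .nil)) .nil)) .nil)))) (.cons 155 (.leaf 131 1055 (.cons 108 (.cons 85 (.leaf 109 677 (.cons 61 (.leaf 84 485 (.cons 181 (.leaf 205 868 (.cons 154 (.leaf 153 1224 (.cons 182 (.leaf 179 1235 (.leaf 183 1243 .nil)) .nil)) .nil)) .nil)) .nil)) (.cons 85 (.leaf 109 677 (.cons 61 (.leaf 84 485 (.cons 181 (.leaf 205 868 (.cons 154 (.leaf 153 1224 (.cons 182 (.leaf 183 1243 (.leaf 157 1232 .nil)) .nil)) .nil)) .nil)) .nil)) (.cons 179 (.leaf 203 862 (.leaf 84 670 .nil)) (.cons 85 (.leaf 109 677 (.cons 179 (.leaf 203 862 (.cons 181 (.leaf 205 868 (.cons 154 (.leaf 153 1224 (.leaf 182 1235 .nil)) .nil)) .nil)) .nil)) .nil)))) .nil)) (.cons 131 (.leaf 107 863 (.leaf 155 1055 .nil)) .nil)))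
noncomputable def t162 : T := .cons 108 (.cons 179 (.leaf 203 862 (.cons 181 (.leaf 205 868 (.cons 107 (.leaf 83 671 (.cons 109 (.leaf 133 869 (.leaf 85 677 .nil)) .nil)) .nil)) .nil)) (.cons 179 (.leaf 203 862 (.cons 181 (.leaf 205 868 (.cons 107 (.leaf 83 671 (.cons 109 (.leaf 85 677 (.cons 178 (.cons 157 (.leaf 177 1225 (.leaf 158 1233 .nil)) (.cons 153 (.leaf 154 1227 (.cons 177 (.leaf 152 1219 (.cons 201 (.leaf 200 1410 (.leaf 202 1418 .nil)) .nil)) .nil)) (.cons 153 (.leaf 154 1227 (.cons 158 (.leaf 157 1233 (.cons 182 (.leaf 159 1241 (.cons 183 (.leaf 155 1243 (.cons 207 (.leaf 206 1432 (.leaf 208 1440 .nil)) .nil)) .nil)) .nil)) .nil)) .nil))) .nil)) .nil)) .nil)) .nil)) (.cons 181 (.leaf 205 868 (.cons 83 (.leaf 107 671 (.cons 84 (.leaf 59 479 (.leaf 157 676 .nil)) .nil)) .nil)) (.cons 179 (.leaf 203 862 (.cons 84 (.leaf 155 670 (.cons 133 (.leaf 109 869 (.leaf 157 1061 .nil))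 .nil)) .nil)) .nil)))) (.cons 108 (.cons 179 (.leaf 203 862 (.cons 181 (.leaf 205 868 (.cons 107 (.leaf 83 671 (.cons 109 (.leaf 85 677 (.cons 178 (.cons 157 (.leaf 177 1225 (.leaf 158 1233 .nil)) (.cons 153 (.leaf 154 1227 (.cons 177 (.leaf 152 1219 (.cons 201 (.leaf 200 1410 (.leaf 202 1418 .nil)) .nil)) .nil)) (.cons 153 (.leaf 154 1227 (.cons 158 (.leaf 157 1233 (.cons 182 (.leaf 159 1241 (.cons 183 (.leaf 155 1243 (.cons 207 (.leaf 206 1432 (.leaf 208 1440 .nil)) .nil)) .nil)) .nil)) .nil)) .nil))) .nil)) .nil)) .nil)) .nil)) (.cons 179 (.leaf 203 862 (.cons 84 (.leaf 155 670 (.cons 83 (.leaf 107 671 (.leaf 59 479 .nil)) .nil)) .nil)) (.cons 181 (.leaf 205 868 (.cons 83 (.leaf 107 671 (.cons 84 (.leaf 59 479 (.leaf 157 676 .nil)) .nil)) .nil)) (.cons 179 (.leaf 203 862 (.cons 84 (.leaf 155 670 (.cons 181 (.leaf 205 868 (.leaf 157 676 .nil)) .nil)) .nil)) .nil)))) (.cons 109 (.leaf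 133 869 (.cons 108 (.leaf 85 677 (.cons 83 (.leaf 107 671 (.cons 84 (.leaf 59 479 (.cons 179 (.leaf 203 862 (.leaf 155 670 .nil)) .nil)) .nil)) .nil)) .nil)) (.cons 157 (.leaf 133 1061 (.cons 108 (.cons 181 (.leaf 205 868 (.leaf 84 676 .nil)) (.cons 179 (.leaf 203 862 (.cons 83 (.leaf 107 671 (.cons 84 (.leaf 59 479 (.leaf 155 670 .nil)) .nil)) .nil)) (.cons 179 (.leaf 203 862 (.cons 83 (.leaf 107 671 (.cons 158 (.leaf 159 1242 (.cons 178 (.leaf 177 1225 (.leaf 181 1233 .nil)) .nil)) .nil)) .nil)) .nil))) .nil)) (.cons 133 (.leaf 109 869 (.leaf 157 1061 .nil)) .nil))))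
noncomputable def t163 : T := .cons 133 (.leaf 157 1061 (.cons 131 (.leaf 155 1055 (.cons 132 (.leaf 107 863 (.leaf 109 869 .nil)) .nil)) .nil)) (.cons 132 t162 (.cons 132 t161 (.cons 132 (.cons 109 (.leaf 133 869 (.cons 108 (.leaf 85 677 (.cons 155 (.leaf 131 1055 (.cons 179 (.leaf 203 862 (.leaf 84 670 .nil)) .nil)) .nil)) .nil)) (.cons 109 (.leaf 133 869 (.cons 108 (.leaf 85 677 (.cons 83 (.leaf 107 671 (.cons 84 (.leaf 59 479 (.cons 179 (.leaf 203 862 (.leaf 155 670 .nil)) .nil)) .nil)) .nil)) .nil)) (.cons 107 (.leaf 131 863 (.cons 108 (.leaf 83 671 (.cons 109 (.leaf 133 869 (.leaf 85 677 .nil)) .nil)) .nil)) (.cons 131 (.leaf 107 863 (.leaf 155 1055 .nil)) .nil)))) (.cons 132 (.cons 107 (.leaf 131 863 (.cons 108 (.leaf 83 671 (.cons 157 (.leaf 133 1061 (.cons 179 (.leaf 203 862 (.cons 158 (.leaf 159 1242 (.cons 181 (.leaf 205 868 (.leaf 178 1233 .nil)) .nil)) .nil)) .nil)) .nil))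 .nil)) (.cons 107 (.leaf 131 863 (.cons 108 (.leaf 83 671 (.cons 85 (.leaf 109 677 (.cons 84 (.leaf 61 485 (.cons 181 (.leaf 205 868 (.leaf 157 676 .nil)) .nil)) .nil)) .nil)) .nil)) (.cons 107 (.leaf 131 863 (.cons 108 (.leaf 83 671 (.cons 109 (.leaf 133 869 (.leaf 85 677 .nil)) .nil)) .nil)) (.cons 133 (.leaf 109 869 (.leaf 157 1061 .nil)) .nil)))) (.cons 155 (.leaf 131 1055 (.cons 157 (.leaf 133 1061 (.cons 154 (.cons 129 (.leaf 130 1035 (.cons 128 (.leaf 153 1027 (.cons 182 (.leaf 181 1232 (.cons 158 (.leaf 183 1240 (.cons 178 (.leaf 177 1226 (.leaf 179 1234 .nil)) .nil)) .nil)) .nil)) .nil)) (.cons 178 (.leaf 177 1226 (.cons 129 (.leaf 130 1035 (.cons 158 (.leaf 179 1234 (.cons 135 (.leaf 134 1049 (.cons 159 (.leaf 136 1057 (.cons 183 (.leaf 182 1240 (.leaf 184 1248 .nil)) .nil)) .nil)) .nil)) .nil)) .nil)) (.cons 129 (.leaf 130 1035 (.cons 153 (.leaf 181 1224 (.leaf 128 1027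 .nil)) .nil)) (.cons 181 (.leaf 153 1224 (.leaf 182 1232 .nil)) .nil)))) .nil)) .nil)) .nil)))))
noncomputable def t164 : T := .cons 178 (.leaf 177 1416 (.cons 206 (.leaf 203 1427 (.leaf 207 1435 .nil)) .nil)) (.cons 206 (.leaf 207 1435 (.cons 230 (.cons 254 (.cons 278 (.leaf 181 1455 (.cons 253 (.leaf 274 2002 (.leaf 231 1817 .nil)) .nil)) (.cons 181 (.leaf 278 1455 (.cons 203 (.leaf 231 1624 (.cons 182 (.leaf 183 1433 (.leaf 202 1425 .nil)) .nil)) .nil)) (.cons 278 (.leaf 181 1455 (.cons 253 (.leaf 274 2002 (.leaf 279 2008 .nil)) .nil)) (.cons 253 (.leaf 274 2002 (.leaf 231 1817 .nil)) .nil)))) (.cons 254 (.cons 278 (.leaf 181 1455 (.cons 253 (.leaf 274 2002 (.leaf 279 2008 .nil)) .nil)) (.cons 253 (.leaf 274 2002 (.cons 229 (.leaf 277 1447 (.cons 278 (.leaf 279 2008 (.leaf 302 1647 .nil)) .nil)) .nil)) (.cons 253 (.leaf 274 2002 (.cons 229 (.leaf 277 1447 (.cons 181 (.leaf 156 1255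 (.leaf 157 1260 .nil)) .nil)) .nil)) (.cons 181 (.leaf 278 1455 (.cons 157 (.leaf 133 1068 (.leaf 229 1260 .nil)) .nil)) .nil)))) (.cons 231 (.leaf 203 1624 (.cons 232 (.leaf 229 1635 (.leaf 233 1643 .nil)) .nil)) .nil))) .nil)) (.cons 178 (.leaf 177 1416 (.cons 253 (.cons 229 (.leaf 277 1447 (.cons 181 (.leaf 156 1255 (.cons 254 (.leaf 274 2002 (.leaf 278 1452 .nil)) .nil)) .nil)) (.cons 229 (.leaf 277 1447 (.cons 181 (.leaf 156 1255 (.cons 153 (.leaf 154 1227 (.cons 202 (.leaf 201 1418 (.cons 203 (.leaf 182 1425 (.leaf 230 1616 .nil)) .nil)) .nil)) .nil)) .nil)) (.cons 254 (.leaf 274 2002 (.cons 231 (.leaf 230 1817 (.cons 255 (.leaf 232 1825 (.cons 279 (.leaf 278 2008 (.leaf 280 2016 .nil)) .nil)) .nil)) .nil)) .nil))) .nil)) (.cons 178 (.leaf 177 1416 (.cons 206 (.leaf 207 1435 (.leaf 181 1424 .nil)) .nil)) .nil)))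
noncomputable def t165 : T := .cons 178 (.leaf 177 1416 (.cons 181 (.leaf 206 1424 (.cons 157 (.leaf 158 1233 (.cons 133 (.leaf 109 870 (.cons 134 (.leaf 110 877 (.cons 154 (.leaf 153 1227 (.cons 155 (.leaf 182 1235 (.leaf 156 1041 .nil)) .nil)) .nil)) .nil)) .nil)) .nil)) .nil)) (.cons 206 (.leaf 207 1435 (.cons 253 (.cons 254 (.leaf 274 2002 (.cons 278 (.leaf 279 2008 (.cons 230 (.leaf 181 1455 (.cons 277 (.leaf 229 1447 (.leaf 182 1454 .nil)) .nil)) .nil)) .nil)) (.cons 254 (.leaf 274 2002 (.cons 278 (.leaf 279 2008 (.cons 230 (.leaf 181 1455 (.cons 277 (.leaf 182 1454 (.leaf 301 1646 .nil)) .nil)) .nil)) .nil)) (.cons 229 (.leaf 277 1447 (.cons 181 (.leaf 156 1255 (.cons 158 (.leaf 182 1261 (.cons 157 (.leaf 134 1069 (.cons 133 (.leaf 109 870 (.leaf 230 1068 .nil)) .nil)) .nil)) .nil)) .nil)) (.cons 254 (.leaf 274 2002 (.cons 278 (.leaf 279 2008 (.cons 181 (.leaf 230 1455 (.leaf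 229 1452 .nil)) .nil)) .nil)) (.cons 229 (.leaf 277 1447 (.cons 254 (.leaf 274 2002 (.cons 278 (.leaf 279 2008 (.cons 302 (.leaf 230 1647 (.leaf 326 1839 .nil)) .nil)) .nil)) .nil)) (.cons 229 (.leaf 277 1447 (.cons 181 (.leaf 156 1255 (.cons 254 (.leaf 274 2002 (.leaf 278 1452 .nil)) .nil)) .nil)) .nil)))))) .nil)) (.cons 178 (.leaf 177 1416 (.cons 181 (.cons 157 (.leaf 158 1233 (.cons 133 (.leaf 109 870 (.cons 134 (.leaf 110 877 (.cons 154 (.leaf 153 1227 (.cons 155 (.leaf 182 1235 (.leaf 156 1041 .nil)) .nil)) .nil)) .nil)) .nil)) (.cons 157 (.leaf 158 1233 (.cons 133 (.leaf 109 870 (.cons 134 (.leaf 110 877 (.cons 154 (.leaf 153 1227 (.cons 155 (.leaf 156 1041 (.cons 131 (.leaf 107 860 (.cons 202 (.leaf 201 1418 (.leaf 226 1045 .nil)) .nil)) .nil)) .nil)) .nil)) .nil)) .nil)) (.cons 154 (.leaf 153 1227 (.cons 182 (.leaf 155 1235 (.cons 183 (.leaf 203 1434 (.leaf 184 1442 .nil))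 .nil)) .nil)) (.cons 202 (.leaf 201 1418 (.cons 182 (.leaf 203 1425 (.cons 158 (.leaf 157 1233 (.leaf 159 1241 .nil)) .nil)) .nil)) .nil)))) .nil)) (.cons 178 (.leaf 177 1416 (.cons 206 (.leaf 203 1427 (.leaf 207 1435 .nil)) .nil)) .nil)))
noncomputable def t166 : T := .cons 254 (.leaf 274 2002 (.cons 277 (.leaf 229 1447 (.cons 255 (.cons 232 (.leaf 231 1825 (.cons 256 (.leaf 233 1833 (.cons 257 (.leaf 278 2026 (.cons 281 (.leaf 280 2024 (.leaf 282 2032 .nil)) .nil)) .nil)) .nil)) (.cons 232 (.leaf 231 1825 (.cons 256 (.leaf 233 1833 (.cons 280 (.leaf 279 2016 (.leaf 281 2024 .nil)) .nil)) .nil)) (.cons 232 (.leaf 231 1825 (.cons 256 (.leaf 233 1833 (.cons 278 (.leaf 279 2008 (.leaf 257 2026 .nil)) .nil)) .nil)) (.cons 279 (.leaf 278 2008 (.leaf 280 2016 .nil)) .nil)))) .nil)) .nil)) (.cons 254 (.leaf 274 2002 (.cons 279 (.leaf 278 2008 (.cons 255 (.leaf 280 2016 (.cons 231 (.leaf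 232 1825 (.cons 207 (.cons 206 (.leaf 179 1435 (.leaf 182 1463 .nil)) (.cons 184 (.leaf 208 1469 (.cons 183 (.leaf 160 1277 (.cons 182 (.leaf 181 1442 (.leaf 158 1271 .nil)) .nil)) .nil)) (.cons 184 (.leaf 208 1469 (.cons 183 (.leaf 206 1441 (.leaf 160 1277 .nil)) .nil)) .nil))) .nil)) .nil)) .nil)) .nil)) (.cons 229 (.leaf 277 1447 (.cons 181 (.leaf 156 1255 (.cons 182 (.leaf 158 1261 (.cons 183 (.leaf 203 1434 (.leaf 184 1442 .nil)) .nil)) .nil)) .nil)) .nil))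
noncomputable def t167 : T := .cons 254 (.cons 253 (.leaf 274 2002 (.leaf 231 1817 .nil)) (.cons 181 (.leaf 278 1455 (.cons 157 (.leaf 133 1068 (.leaf 229 1260 .nil)) .nil)) .nil)) (.cons 254 (.cons 253 (.leaf 274 2002 (.cons 229 (.leaf 277 1447 (.cons 278 (.leaf 279 2008 (.leaf 181 1452 .nil)) .nil)) .nil)) (.cons 253 (.leaf 274 2002 (.cons 229 (.leaf 277 1447 (.cons 181 (.leaf 156 1255 (.leaf 157 1260 .nil)) .nil)) .nil)) (.cons 181 (.leaf 278 1455 (.cons 157 (.leaf 133 1068 (.leaf 229 1260 .nil)) .nil)) (.cons 253 (.leaf 274 2002 (.cons 229 (.leaf 277 1447 (.cons 278 (.leaf 279 2008 (.leaf 302 1647 .nil)) .nil)) .nil)) (.cons 278 (.leaf 181 1455 (.cons 253 (.leaf 274 2002 (.leaf 279 2008 .nil)) .nil)) .nil))))) (.cons 231 (.leaf 203 1624 (.cons 232 (.leaf 229 1635 (.leaf 233 1643 .nil)) .nil)) (.cons 231 (.leaf 203 1624 (.cons 232 (.leaf 233 1643 (.cons 254 (.leaf 253 1817 (.cons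 278 (.leaf 181 1455 (.cons 301 (.leaf 277 1646 (.cons 302 (.leaf 325 1838 (.cons 326 (.leaf 255 1845 (.cons 327 (.leaf 303 1844 (.leaf 351 2036 .nil)) .nil)) .nil)) .nil)) .nil)) .nil)) .nil)) .nil)) .nil)))
noncomputable def t168 : T := .cons 178 (.leaf 177 1416 (.cons 253 (.cons 229 (.leaf 277 1447 (.cons 181 (.leaf 156 1255 (.leaf 206 1424 .nil)) .nil)) (.cons 229 (.leaf 277 1447 (.cons 181 (.leaf 156 1255 (.cons 154 (.leaf 153 1227 (.cons 157 (.leaf 158 1233 (.cons 202 (.leaf 201 1418 (.cons 203 (.leaf 230 1616 (.cons 130 (.leaf 106 852 (.cons 131 (.leaf 107 853 (.cons 226 (.leaf 225 1610 (.leaf 155 1045 .nil)) .nil)) .nil)) .nil)) .nil)) .nil)) .nil)) .nil)) .nil)) (.cons 254 (.leaf 274 2002 (.cons 231 (.leaf 230 1817 (.cons 255 (.leaf 232 1825 (.cons 279 (.leaf 278 2008 (.leaf 280 2016 .nil)) .nil)) .nil)) .nil)) .nil))) .nil)) (.cons 206 (.leaf 207 1435 (.cons 230 t167 .nil))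 (.cons 178 (.leaf 177 1416 (.cons 253 (.cons 229 (.leaf 277 1447 (.cons 181 (.leaf 156 1255 (.cons 154 (.leaf 153 1227 (.cons 157 (.leaf 158 1233 (.cons 202 (.leaf 201 1418 (.cons 203 (.leaf 230 1616 (.cons 130 (.leaf 106 852 (.cons 131 (.leaf 107 853 (.cons 226 (.leaf 225 1610 (.leaf 155 1045 .nil)) .nil)) .nil)) .nil)) .nil)) .nil)) .nil)) .nil)) .nil)) (.cons 254 (.leaf 274 2002 (.cons 231 (.leaf 230 1817 (.cons 255 (.leaf 232 1825 (.cons 279 (.leaf 278 2008 (.leaf 280 2016 .nil)) .nil)) .nil)) .nil)) (.cons 229 (.leaf 277 1447 (.cons 181 (.leaf 156 1255 (.cons 254 (.leaf 274 2002 (.leaf 278 1452 .nil)) .nil)) .nil)) .nil))) .nil)) (.cons 178 (.leaf 177 1416 (.cons 206 (.leaf 203 1427 (.leaf 207 1435 .nil)) .nil)) (.cons 178 (.leaf 177 1416 (.cons 206 (.leaf 207 1435 (.leaf 181 1424 .nil)) .nil)) .nil))))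
noncomputable def t169 : T := .cons 230 (.leaf 231 1624 (.cons 182 (.leaf 183 1433 (.cons 181 (.leaf 202 1425 (.cons 133 (.leaf 157 1068 (.cons 155 (.leaf 154 1235 (.cons 131 (.leaf 107 860 (.cons 158 (.leaf 159 1241 (.cons 134 (.leaf 110 878 (.leaf 229 1070 .nil)) .nil)) .nil)) .nil)) .nil)) .nil)) .nil)) .nil)) (.cons 230 (.leaf 231 1624 (.cons 202 (.leaf 229 1616 (.cons 201 (.leaf 181 1417 (.leaf 200 1409 .nil)) .nil)) .nil)) (.cons 182 (.leaf 183 1433 (.cons 230 (.leaf 231 1624 (.cons 158 (.cons 134 (.leaf 229 1070 (.cons 109 (.leaf 133 879 (.cons 110 (.leaf 181 878 (.leaf 85 687 .nil)) .nil)) .nil)) (.cons 133 (.leaf 157 1071 (.cons 134 (.leaf 109 879 (.cons 135 (.leaf 111 885 (.leaf 159 1077 .nil)) .nil)) .nil)) (.cons 159 (.leaf 181 1241 (.leaf 135 1077 .nil)) .nil))) .nil)) .nil)) (.cons 182 (.leaf 183 1433 (.cons 181 (.leaf 202 1425 (.cons 154 (.leaf 155 1235 (.cons 158 (.leaf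 159 1241 (.cons 134 (.leaf 110 878 (.leaf 229 1070 .nil)) .nil)) .nil)) .nil)) .nil)) (.cons 230 (.leaf 231 1624 (.cons 182 (.leaf 183 1433 (.cons 202 (.leaf 229 1616 (.cons 201 (.leaf 200 1409 (.cons 225 (.leaf 224 1602 (.leaf 226 1610 .nil)) .nil)) .nil)) .nil)) .nil)) (.cons 182 (.leaf 183 1433 (.cons 181 (.leaf 202 1425 (.cons 154 (.leaf 155 1235 (.cons 158 (.leaf 159 1241 (.cons 134 (.leaf 110 878 (.cons 111 (.leaf 135 885 (.cons 133 (.leaf 109 879 (.cons 230 (.leaf 231 1624 (.leaf 157 1068 .nil)) .nil)) .nil)) .nil)) .nil)) .nil)) .nil)) .nil)) .nil)))))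
noncomputable def t170 : T := .cons 206 (.leaf 207 1435 (.cons 203 (.leaf 178 1427 (.cons 230 (.leaf 231 1624 (.cons 182 (.leaf 183 1433 (.cons 181 (.leaf 202 1425 (.cons 133 (.leaf 157 1068 (.cons 155 (.leaf 154 1235 (.cons 131 (.leaf 107 860 (.cons 158 (.leaf 159 1241 (.cons 134 (.leaf 110 878 (.leaf 229 1070 .nil)) .nil)) .nil)) .nil)) .nil)) .nil)) .nil)) .nil)) .nil)) .nil)) (.cons 206 (.leaf 207 1435 (.cons 203 t169 .nil)) (.cons 178 (.leaf 177 1416 (.cons 181 (.cons 157 (.leaf 158 1233 (.cons 133 (.leaf 109 870 (.cons 134 (.leaf 110 877 (.cons 154 (.leaf 153 1227 (.cons 155 (.leaf 182 1235 (.leaf 156 1041 .nil)) .nil)) .nil)) .nil)) .nil)) (.cons 157 (.leaf 158 1233 (.cons 133 (.leaf 109 870 (.cons 134 (.leaf 110 877 (.cons 154 (.leaf 153 1227 (.cons 155 (.leaf 156 1041 (.cons 131 (.leaf 107 860 (.cons 202 (.leaf 201 1418 (.leaf 226 1045 .nil)) .nil)) .nil)) .nil)) .nil)) .nil))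 .nil)) (.cons 154 (.leaf 153 1227 (.cons 182 (.leaf 155 1235 (.cons 183 (.leaf 203 1434 (.leaf 184 1442 .nil)) .nil)) .nil)) (.cons 202 (.leaf 201 1418 (.cons 182 (.leaf 203 1425 (.cons 158 (.leaf 157 1233 (.leaf 159 1241 .nil)) .nil)) .nil)) .nil)))) .nil)) (.cons 178 (.leaf 177 1416 (.cons 206 (.leaf 203 1427 (.leaf 207 1435 .nil)) .nil)) (.cons 178 (.leaf 177 1416 (.cons 206 (.leaf 207 1435 (.leaf 181 1424 .nil)) .nil)) .nil))))
noncomputable def t171 : T := .cons 231 (.leaf 203 1624 (.cons 232 (.leaf 233 1643 (.cons 254 (.leaf 253 1817 (.cons 278 (.leaf 181 1455 (.cons 279 (.leaf 303 1652 (.cons 255 (.leaf 182 1460 (.cons 301 (.leaf 277 1646 (.cons 302 (.leaf 325 1838 (.leaf 326 1845 .nil)) .nil)) .nil)) .nil)) .nil)) .nil)) .nil)) .nil)) (.cons 254 (.cons 253 (.leaf 274 2002 (.cons 182 (.leaf 277 1454 (.cons 183 (.leaf 203 1433 (.leaf 159 1269 .nil)) .nil)) .nil)) (.cons 253 (.leaf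 274 2002 (.cons 278 (.leaf 279 2008 (.leaf 181 1455 .nil)) .nil)) (.cons 181 (.leaf 278 1455 (.cons 157 (.leaf 133 1068 (.leaf 182 1263 .nil)) .nil)) .nil))) (.cons 254 (.cons 253 (.leaf 274 2002 (.leaf 231 1817 .nil)) (.cons 181 (.leaf 278 1455 (.cons 157 (.leaf 133 1068 (.leaf 182 1263 .nil)) .nil)) .nil)) (.cons 203 (.leaf 231 1624 (.cons 182 (.leaf 183 1433 (.cons 181 (.leaf 202 1425 (.cons 133 (.leaf 157 1068 (.cons 155 (.leaf 154 1235 (.cons 131 (.leaf 107 860 (.cons 158 (.leaf 159 1241 (.cons 134 (.leaf 110 878 (.leaf 109 879 .nil)) .nil)) .nil)) .nil)) .nil)) .nil)) .nil)) .nil)) (.cons 231 (.leaf 203 1624 (.cons 232 (.leaf 233 1643 (.cons 254 (.leaf 253 1817 (.cons 278 (.leaf 181 1455 (.cons 301 (.leaf 277 1646 (.cons 302 (.leaf 325 1838 (.cons 326 (.leaf 255 1845 (.cons 327 (.leaf 303 1844 (.leaf 351 2036 .nil)) .nil)) .nil)) .nil)) .nil)) .nil)) .nil)) .nil)) (.cons 231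 (.leaf 203 1624 (.cons 254 (.leaf 253 1817 (.cons 278 (.cons 233 (.leaf 232 1643 (.cons 279 (.leaf 303 1652 (.cons 182 (.leaf 255 1460 (.cons 159 (.leaf 183 1269 (.cons 158 (.leaf 135 1077 (.cons 157 (.leaf 156 1242 (.leaf 133 1071 .nil)) .nil)) .nil)) .nil)) .nil)) .nil)) (.cons 301 (.leaf 277 1646 (.cons 302 (.leaf 325 1838 (.cons 232 (.leaf 233 1643 (.cons 326 (.leaf 255 1845 (.cons 327 (.leaf 303 1844 (.leaf 351 2036 .nil)) .nil)) .nil)) .nil)) .nil)) (.cons 301 (.leaf 277 1646 (.cons 302 (.leaf 325 1838 (.cons 255 (.leaf 326 1845 (.cons 182 (.leaf 158 1268 (.leaf 279 1460 .nil)) .nil)) .nil)) .nil)) (.cons 232 (.leaf 233 1643 (.cons 301 (.leaf 277 1646 (.cons 302 (.leaf 325 1838 (.cons 303 (.leaf 279 1652 (.leaf 327 1844 .nil)) .nil)) .nil)) .nil)) .nil)))) .nil)) .nil)) .nil)))))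
noncomputable def t172 : T := .cons 206 (.leaf 207 1435 (.cons 230 (.cons 203 (.leaf 178 1427 (.leaf 231 1624 .nil)) (.cons 203 (.leaf 231 1624 (.cons 182 (.leaf 183 1433 (.cons 181 (.leaf 202 1425 (.cons 157 (.leaf 133 1068 (.leaf 254 1263 .nil)) .nil)) .nil)) .nil)) (.cons 178 (.leaf 177 1416 (.leaf 181 1424 .nil)) .nil))) .nil)) (.cons 206 (.leaf 207 1435 (.cons 230 t171 .nil)) (.cons 178 (.leaf 177 1416 (.cons 181 (.cons 153 (.leaf 154 1227 (.cons 158 (.leaf 157 1233 (.cons 182 (.leaf 159 1241 (.cons 183 (.leaf 203 1434 (.leaf 184 1442 .nil)) .nil)) .nil)) .nil)) (.cons 157 (.leaf 158 1233 (.cons 133 (.leaf 109 870 (.cons 134 (.leaf 110 877 (.cons 154 (.leaf 153 1227 (.cons 155 (.leaf 156 1041 (.cons 131 (.leaf 107 860 (.cons 202 (.leaf 201 1418 (.leaf 226 1045 .nil)) .nil)) .nil)) .nil)) .nil)) .nil)) .nil)) (.cons 202 (.leaf 201 1418 (.cons 182 (.leaf 203 1425 (.cons 158 (.leaf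 157 1233 (.leaf 159 1241 .nil)) .nil)) .nil)) (.cons 154 (.leaf 153 1227 (.cons 182 (.leaf 155 1235 (.cons 183 (.leaf 203 1434 (.leaf 184 1442 .nil)) .nil)) .nil)) .nil)))) .nil)) (.cons 178 (.leaf 177 1416 (.cons 206 (.leaf 203 1427 (.leaf 207 1435 .nil)) .nil)) (.cons 178 (.leaf 177 1416 (.cons 206 (.leaf 207 1435 (.leaf 181 1424 .nil)) .nil)) .nil))))
noncomputable def t173 : T := .cons 230 (.leaf 231 1624 (.cons 182 (.leaf 183 1433 (.cons 202 (.leaf 229 1616 (.cons 225 (.leaf 226 1610 (.cons 201 (.leaf 224 1602 (.cons 176 (.leaf 177 1411 (.cons 200 (.leaf 179 1409 (.leaf 175 1403 .nil)) .nil)) .nil)) .nil)) .nil)) .nil)) .nil)) (.cons 182 (.leaf 183 1433 (.cons 202 (.cons 179 (.leaf 178 1427 (.cons 201 (.leaf 200 1409 (.cons 225 (.leaf 224 1602 (.leaf 226 1610 .nil)) .nil)) .nil)) (.cons 225 (.leaf 226 1610 (.cons 201 (.leaf 224 1602 (.cons 176 (.leaf 177 1411 (.cons 200 (.leaf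 179 1409 (.leaf 175 1403 .nil)) .nil)) .nil)) .nil)) (.cons 225 (.leaf 226 1610 (.cons 177 (.leaf 178 1419 (.cons 201 (.leaf 176 1411 (.leaf 224 1602 .nil)) .nil)) .nil)) (.cons 178 (.leaf 177 1419 (.leaf 179 1427 .nil)) .nil)))) .nil)) (.cons 230 (.leaf 231 1624 (.cons 182 (.leaf 183 1433 (.cons 202 (.leaf 229 1616 (.cons 225 (.leaf 226 1610 (.cons 177 (.leaf 178 1419 (.cons 201 (.leaf 176 1411 (.leaf 224 1602 .nil)) .nil)) .nil)) .nil)) .nil)) .nil)) (.cons 178 (.leaf 179 1427 (.cons 202 (.leaf 177 1419 (.cons 230 (.leaf 229 1616 (.leaf 231 1624 .nil)) .nil)) .nil)) (.cons 179 (.leaf 178 1427 (.cons 230 (.leaf 231 1624 (.cons 182 (.leaf 183 1433 (.cons 253 (.cons 229 (.leaf 277 1453 (.leaf 158 1262 .nil)) (.cons 254 (.leaf 274 2002 (.leaf 277 1454 .nil)) (.cons 158 (.leaf 229 1262 (.cons 135 (.leaf 159 1077 (.cons 134 (.leaf 111 885 (.cons 109 (.leaf 133 879 (.cons 254 (.leaf 274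 2002 (.cons 279 (.leaf 278 2008 (.leaf 255 1460 .nil)) .nil)) .nil)) .nil)) .nil)) .nil)) .nil))) .nil)) .nil)) .nil)) .nil))))
noncomputable def t174 : T := .cons 203 (.cons 230 (.leaf 231 1624 (.cons 182 (.leaf 183 1433 (.cons 202 (.leaf 229 1616 (.cons 225 (.leaf 226 1610 (.cons 201 (.leaf 224 1602 (.cons 176 (.leaf 177 1411 (.cons 200 (.leaf 179 1409 (.leaf 175 1403 .nil)) .nil)) .nil)) .nil)) .nil)) .nil)) .nil)) (.cons 230 (.leaf 231 1624 (.cons 182 (.leaf 183 1433 (.cons 202 (.leaf 229 1616 (.cons 225 (.leaf 226 1610 (.cons 177 (.leaf 178 1419 (.cons 201 (.leaf 176 1411 (.leaf 224 1602 .nil)) .nil)) .nil)) .nil)) .nil)) .nil)) (.cons 179 (.leaf 178 1427 (.leaf 207 1435 .nil)) .nil))) (.cons 203 t173 (.cons 253 (.cons 254 (.leaf 274 2002 (.cons 230 (.leaf 231 1817 (.cons 182 (.leaf 277 1454 (.cons 183 (.leaf 203 1433 (.leaf 159 1269 .nil)) .nil)) .nil)) .nil)) (.cons 229 (.leaf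 277 1447 (.cons 182 (.cons 158 (.leaf 134 1070 (.leaf 230 1262 .nil)) (.cons 183 (.leaf 203 1433 (.cons 184 (.leaf 207 1441 (.leaf 185 1450 .nil)) .nil)) .nil)) .nil)) (.cons 254 (.leaf 274 2002 (.cons 230 (.leaf 231 1817 (.cons 278 (.leaf 279 2008 (.cons 183 (.leaf 207 1461 (.cons 182 (.leaf 203 1433 (.leaf 159 1269 .nil)) .nil)) .nil)) .nil)) .nil)) (.cons 277 (.leaf 229 1447 (.cons 254 (.leaf 274 2002 (.cons 279 (.leaf 278 2008 (.cons 255 (.leaf 280 2016 (.cons 231 (.leaf 232 1825 (.cons 207 (.leaf 182 1463 (.cons 184 (.leaf 183 1441 (.leaf 208 1469 .nil)) .nil)) .nil)) .nil)) .nil)) .nil)) .nil)) (.cons 254 (.leaf 274 2002 (.cons 229 (.leaf 277 1447 (.cons 230 (.leaf 231 1817 (.cons 278 (.leaf 279 2008 (.leaf 302 1647 .nil)) .nil)) .nil)) .nil)) .nil))))) (.cons 207 (.leaf 179 1435 (.cons 184 (.leaf 183 1441 (.cons 208 (.leaf 185 1449 (.cons 232 (.leaf 231 1632 (.leaf 233 1640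 .nil)) .nil)) .nil)) .nil)) (.cons 179 (.leaf 207 1435 (.cons 178 (.leaf 177 1416 (.leaf 203 1427 .nil)) .nil)) .nil))))
noncomputable def t175 : T := .cons 178 (.leaf 177 1416 (.cons 181 (.leaf 206 1424 (.cons 153 (.leaf 154 1227 (.cons 158 (.leaf 157 1233 (.cons 182 (.leaf 159 1241 (.cons 183 (.leaf 203 1434 (.leaf 184 1442 .nil)) .nil)) .nil)) .nil)) .nil)) .nil)) (.cons 206 (.leaf 207 1435 (.cons 203 (.cons 230 (.leaf 231 1624 (.cons 182 (.leaf 183 1433 (.cons 181 (.leaf 202 1425 (.cons 157 (.leaf 133 1068 (.leaf 254 1263 .nil)) .nil)) .nil)) .nil)) (.cons 230 (.leaf 231 1624 (.cons 202 (.leaf 229 1616 (.cons 201 (.leaf 181 1417 (.leaf 200 1409 .nil)) .nil)) .nil)) (.cons 182 (.leaf 183 1433 (.cons 230 (.leaf 231 1624 (.cons 181 (.cons 157 (.leaf 133 1068 (.leaf 254 1263 .nil)) (.cons 154 (.leaf 155 1235 (.cons 158 (.leaf 159 1241 (.cons 134 (.leaf 110 878 (.leaf 229 1070 .nil))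 .nil)) .nil)) .nil)) .nil)) .nil)) (.cons 182 (.leaf 183 1433 (.cons 181 (.leaf 202 1425 (.cons 154 (.leaf 155 1235 (.cons 158 (.leaf 159 1241 (.cons 134 (.leaf 110 878 (.leaf 229 1070 .nil)) .nil)) .nil)) .nil)) .nil)) (.cons 230 (.leaf 231 1624 (.cons 182 (.leaf 183 1433 (.cons 202 (.leaf 229 1616 (.cons 201 (.leaf 200 1409 (.cons 225 (.leaf 224 1602 (.leaf 226 1610 .nil)) .nil)) .nil)) .nil)) .nil)) .nil))))) .nil)) (.cons 178 (.leaf 177 1416 (.cons 181 (.cons 153 (.leaf 154 1227 (.cons 158 (.leaf 157 1233 (.cons 182 (.leaf 159 1241 (.cons 183 (.leaf 203 1434 (.leaf 184 1442 .nil)) .nil)) .nil)) .nil)) (.cons 154 (.leaf 153 1227 (.cons 157 (.leaf 158 1233 (.cons 133 (.leaf 109 870 (.cons 134 (.leaf 110 877 (.cons 155 (.leaf 156 1041 (.cons 131 (.leaf 107 860 (.cons 202 (.leaf 201 1418 (.leaf 226 1045 .nil)) .nil)) .nil)) .nil)) .nil)) .nil)) .nil)) (.cons 153 (.leaf 154 1227 (.cons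 202 (.leaf 201 1418 (.cons 182 (.leaf 203 1425 (.cons 159 (.leaf 158 1241 (.cons 183 (.leaf 184 1442 (.leaf 160 1249 .nil)) .nil)) .nil)) .nil)) .nil)) (.cons 202 (.leaf 201 1418 (.cons 182 (.leaf 203 1425 (.cons 158 (.leaf 157 1233 (.leaf 159 1241 .nil)) .nil)) .nil)) (.cons 154 (.leaf 153 1227 (.cons 182 (.leaf 155 1235 (.cons 183 (.leaf 203 1434 (.leaf 184 1442 .nil)) .nil)) .nil)) .nil))))) .nil)) (.cons 178 (.leaf 177 1416 (.cons 206 (.leaf 203 1427 (.leaf 207 1435 .nil)) .nil)) (.cons 178 (.leaf 177 1416 (.cons 206 (.leaf 207 1435 (.leaf 181 1424 .nil)) .nil)) .nil))))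
noncomputable def t176 : T := .cons 178 (.leaf 177 1416 (.cons 253 (.cons 229 (.leaf 277 1447 (.cons 181 (.leaf 156 1255 (.leaf 206 1424 .nil)) .nil)) (.cons 229 (.leaf 277 1447 (.cons 181 (.leaf 156 1255 (.cons 154 (.leaf 153 1227 (.cons 157 (.leaf 158 1233 (.cons 202 (.leaf 201 1418 (.cons 203 (.leaf 182 1425 (.leaf 230 1616 .nil)) .nil)) .nil)) .nil)) .nil)) .nil)) (.cons 254 (.leaf 274 2002 (.cons 231 (.leaf 230 1817 (.cons 255 (.leaf 232 1825 (.cons 279 (.leaf 278 2008 (.leaf 280 2016 .nil)) .nil)) .nil)) .nil)) .nil))) .nil)) (.cons 206 (.leaf 207 1435 (.cons 230 (.cons 231 (.leaf 203 1624 (.cons 232 (.leaf 229 1635 (.leaf 233 1643 .nil)) .nil)) (.cons 254 (.cons 253 (.leaf 274 2002 (.cons 229 (.leaf 277 1447 (.cons 278 (.leaf 279 2008 (.leaf 181 1452 .nil)) .nil)) .nil)) (.cons 253 (.leaf 274 2002 (.cons 229 (.leaf 277 1447 (.cons 278 (.leaf 279 2008 (.leaf 302 1647 .nil)) .nil))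 .nil)) (.cons 253 (.leaf 274 2002 (.cons 229 (.leaf 277 1447 (.cons 181 (.leaf 156 1255 (.leaf 157 1260 .nil)) .nil)) .nil)) (.cons 181 (.leaf 278 1455 (.cons 157 (.leaf 133 1068 (.leaf 229 1260 .nil)) .nil)) (.cons 181 (.leaf 278 1455 (.cons 157 (.leaf 133 1068 (.leaf 182 1263 .nil)) .nil)) .nil))))) (.cons 231 (.leaf 203 1624 (.cons 232 (.leaf 233 1643 (.cons 254 (.leaf 253 1817 (.cons 278 (.leaf 181 1455 (.cons 279 (.leaf 303 1652 (.cons 255 (.leaf 182 1460 (.cons 301 (.leaf 277 1646 (.cons 302 (.leaf 325 1838 (.leaf 326 1845 .nil)) .nil)) .nil)) .nil)) .nil)) .nil)) .nil)) .nil)) .nil))) .nil)) (.cons 178 (.leaf 177 1416 (.cons 253 (.cons 229 (.leaf 277 1447 (.cons 181 (.leaf 156 1255 (.cons 154 (.leaf 153 1227 (.cons 157 (.leaf 158 1233 (.cons 202 (.leaf 201 1418 (.cons 203 (.leaf 182 1425 (.leaf 230 1616 .nil)) .nil)) .nil)) .nil)) .nil)) .nil)) (.cons 254 (.leaf 274 2002 (.cons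 231 (.leaf 230 1817 (.cons 255 (.leaf 232 1825 (.cons 279 (.leaf 278 2008 (.leaf 280 2016 .nil)) .nil)) .nil)) .nil)) (.cons 229 (.leaf 277 1447 (.cons 181 (.leaf 156 1255 (.cons 254 (.leaf 274 2002 (.leaf 278 1452 .nil)) .nil)) .nil)) .nil))) .nil)) (.cons 178 (.leaf 177 1416 (.cons 206 (.leaf 203 1427 (.leaf 207 1435 .nil)) .nil)) (.cons 206 (.leaf 207 1435 (.cons 253 (.cons 254 (.leaf 274 2002 (.cons 278 (.leaf 279 2008 (.cons 230 (.leaf 231 1817 (.leaf 181 1455 .nil)) .nil)) .nil)) (.cons 229 (.leaf 277 1447 (.cons 254 (.leaf 274 2002 (.cons 230 (.leaf 231 1817 (.cons 278 (.leaf 279 2008 (.leaf 302 1647 .nil)) .nil)) .nil)) .nil)) (.cons 178 (.leaf 177 1416 (.leaf 181 1424 .nil)) .nil))) .nil)) .nil))))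
noncomputable def t177 : T := .cons 179 t176 (.cons 253 (.cons 254 (.leaf 274 2002 (.cons 277 (.leaf 229 1447 (.cons 255 (.cons 232 (.leaf 231 1825 (.cons 256 (.leaf 233 1833 (.cons 257 (.leaf 278 2026 (.cons 281 (.leaf 280 2024 (.leaf 282 2032 .nil)) .nil)) .nil)) .nil)) (.cons 279 (.leaf 278 2008 (.leaf 280 2016 .nil)) (.cons 232 (.leaf 231 1825 (.cons 256 (.leaf 233 1833 (.cons 280 (.leaf 279 2016 (.leaf 281 2024 .nil)) .nil)) .nil)) (.cons 232 (.leaf 231 1825 (.cons 256 (.leaf 233 1833 (.cons 278 (.leaf 279 2008 (.leaf 257 2026 .nil)) .nil)) .nil)) .nil)))) .nil)) .nil)) (.cons 229 (.leaf 277 1447 (.cons 181 (.leaf 156 1255 (.cons 182 (.leaf 158 1261 (.cons 183 (.leaf 203 1434 (.leaf 184 1442 .nil)) .nil)) .nil)) .nil)) (.cons 254 (.leaf 274 2002 (.cons 231 (.leaf 230 1817 (.cons 255 (.leaf 232 1825 (.cons 279 (.leaf 278 2008 (.leaf 280 2016 .nil)) .nil)) .nil)) .nil)) .nil)))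 (.cons 179 t175 (.cons 206 t174 (.cons 253 (.cons 254 (.leaf 274 2002 (.cons 277 (.leaf 229 1447 (.cons 255 (.cons 232 (.leaf 231 1825 (.cons 256 (.leaf 233 1833 (.cons 257 (.leaf 278 2026 (.cons 281 (.leaf 280 2024 (.leaf 282 2032 .nil)) .nil)) .nil)) .nil)) (.cons 279 (.leaf 278 2008 (.leaf 280 2016 .nil)) (.cons 232 (.leaf 231 1825 (.cons 256 (.leaf 233 1833 (.cons 280 (.leaf 279 2016 (.leaf 281 2024 .nil)) .nil)) .nil)) (.cons 232 (.leaf 231 1825 (.cons 256 (.leaf 233 1833 (.cons 278 (.leaf 279 2008 (.leaf 257 2026 .nil)) .nil)) .nil)) .nil)))) .nil)) .nil)) (.cons 229 (.leaf 277 1447 (.cons 181 (.leaf 156 1255 (.cons 158 (.leaf 182 1261 (.cons 157 (.leaf 134 1069 (.cons 133 (.leaf 109 870 (.cons 179 (.leaf 178 1233 (.cons 206 (.leaf 207 1435 (.leaf 230 1068 .nil)) .nil)) .nil)) .nil)) .nil)) .nil)) .nil)) (.cons 254 (.leaf 274 2002 (.cons 231 (.leaf 230 1817 (.cons 255 (.leaf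 232 1825 (.cons 279 (.leaf 278 2008 (.leaf 280 2016 .nil)) .nil)) .nil)) .nil)) .nil))) (.cons 179 t172 (.cons 179 t170 (.cons 179 t168 (.cons 253 t166 (.cons 179 t165 (.cons 179 t164 .nil))))))))))
noncomputable def t178 : T := .cons 133 (.leaf 157 1061 (.cons 132 (.leaf 109 869 (.cons 205 (.leaf 229 1060 (.cons 107 (.leaf 131 863 (.cons 108 (.leaf 83 671 (.leaf 181 868 .nil)) .nil)) .nil)) .nil)) .nil)) (.cons 131 (.leaf 155 1055 (.cons 132 (.leaf 107 863 (.cons 109 (.leaf 133 869 (.cons 108 (.leaf 85 677 (.cons 205 (.leaf 229 1060 (.leaf 181 868 .nil)) .nil)) .nil)) .nil)) .nil)) (.cons 133 (.leaf 157 1061 (.cons 132 (.leaf 109 869 (.cons 205 (.leaf 229 1060 (.cons 108 (.leaf 181 868 (.cons 83 (.leaf 107 671 (.cons 84 (.leaf 59 479 (.cons 179 (.leaf 203 862 (.leaf 155 670 .nil)) .nil)) .nil)) .nil)) .nil)) .nil)) .nil)) (.cons 131 (.leaf 155 1055 (.cons 132 (.leaf 107 863 (.cons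 205 (.leaf 229 1060 (.cons 179 (.cons 178 (.leaf 177 1416 (.cons 206 (.leaf 203 1427 (.leaf 207 1435 .nil)) .nil)) (.cons 108 (.leaf 203 862 (.leaf 181 868 .nil)) (.cons 178 (.leaf 177 1416 (.cons 181 (.leaf 108 868 (.leaf 206 1424 .nil)) .nil)) .nil))) .nil)) .nil)) .nil)) (.cons 155 (.leaf 131 1055 (.cons 157 (.leaf 133 1061 (.cons 154 (.cons 129 (.leaf 130 1035 (.cons 128 (.leaf 153 1027 (.cons 178 (.leaf 177 1226 (.cons 158 (.leaf 179 1234 (.cons 135 (.leaf 134 1049 (.cons 159 (.leaf 136 1057 (.cons 183 (.leaf 182 1240 (.leaf 184 1248 .nil)) .nil)) .nil)) .nil)) .nil)) .nil)) .nil)) (.cons 129 (.leaf 130 1035 (.cons 177 (.leaf 178 1226 (.cons 182 (.leaf 181 1232 (.cons 158 (.leaf 183 1240 (.cons 135 (.leaf 134 1049 (.cons 159 (.leaf 179 1242 (.leaf 136 1057 .nil)) .nil)) .nil)) .nil)) .nil)) .nil)) (.cons 129 (.leaf 130 1035 (.cons 153 (.leaf 181 1224 (.leaf 128 1027 .nil)) .nil))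 (.cons 181 (.leaf 153 1224 (.leaf 182 1232 .nil)) .nil)))) .nil)) .nil)) (.cons 131 (.leaf 155 1055 (.cons 132 (.leaf 107 863 (.cons 133 (.leaf 109 869 (.leaf 157 1061 .nil)) .nil)) .nil)) .nil)))))
noncomputable def t179 : T := .cons 253 (.leaf 156 1252 (.leaf 277 1447 .nil)) (.cons 156 (.leaf 132 1060 (.cons 157 (.leaf 133 1061 (.cons 230 (.cons 231 (.leaf 203 1627 (.leaf 232 1635 .nil)) (.cons 203 (.leaf 202 1616 (.cons 254 (.leaf 181 1260 (.cons 278 (.leaf 302 1647 (.cons 206 (.cons 183 (.leaf 182 1433 (.leaf 207 1461 .nil)) (.cons 178 (.leaf 179 1427 (.cons 182 (.leaf 183 1433 (.cons 279 (.leaf 255 1460 (.leaf 303 1652 .nil)) .nil)) .nil)) (.cons 179 (.leaf 178 1427 (.leaf 207 1435 .nil)) .nil))) .nil)) .nil)) .nil)) (.cons 231 (.leaf 232 1635 (.cons 181 (.leaf 254 1260 (.cons 134 (.leaf 158 1069 (.cons 207 (.leaf 208 1633 (.cons 206 (.leaf 179 1435 (.cons 255 (.leaf 256 1824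 (.cons 279 (.leaf 303 1655 (.leaf 182 1463 .nil)) .nil)) .nil)) .nil)) .nil)) .nil)) .nil)) .nil))) .nil)) .nil)) (.cons 253 (.leaf 277 1447 (.cons 203 (.cons 230 (.leaf 202 1616 (.leaf 231 1627 .nil)) (.cons 230 (.leaf 231 1627 (.cons 206 (.cons 179 (.leaf 178 1427 (.leaf 207 1435 .nil)) (.cons 182 (.leaf 183 1433 (.leaf 158 1262 .nil)) .nil)) .nil)) (.cons 202 (.leaf 201 1608 (.cons 177 (.leaf 178 1419 (.cons 182 (.leaf 181 1425 (.cons 206 (.leaf 183 1433 (.cons 207 (.leaf 179 1435 (.leaf 208 1634 .nil)) .nil)) .nil)) .nil)) .nil)) .nil))) .nil)) .nil))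
noncomputable def t180 : T := .cons 157 (.leaf 133 1062 (.cons 158 (.cons 134 (.leaf 229 1069 (.cons 110 (.leaf 182 878 (.leaf 86 686 .nil)) .nil)) (.cons 159 (.leaf 160 1250 (.cons 179 (.leaf 156 1242 (.leaf 178 1233 .nil)) .nil)) .nil)) .nil)) (.cons 203 (.cons 202 (.leaf 201 1417 (.leaf 182 1425 .nil)) (.cons 182 (.leaf 183 1434 (.cons 206 (.cons 207 (.leaf 179 1432 (.leaf 208 1443 .nil)) (.cons 207 (.leaf 208 1443 (.cons 231 (.leaf 230 1624 (.leaf 232 1632 .nil)) .nil)) (.cons 179 (.leaf 178 1424 (.cons 158 (.leaf 159 1241 (.cons 134 (.leaf 110 878 (.leaf 229 1070 .nil)) .nil)) .nil)) .nil))) .nil)) (.cons 202 (.leaf 201 1417 (.cons 177 (.leaf 178 1419 (.cons 225 (.leaf 226 1610 (.cons 230 (.leaf 229 1616 (.cons 206 (.leaf 231 1624 (.cons 207 (.leaf 179 1435 (.leaf 208 1443 .nil)) .nil)) .nil)) .nil)) .nil)) .nil)) .nil))) (.cons 157 (.leaf 133 1062 (.cons 229 (.cons 156 (.leaf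 132 1060 (.cons 158 (.leaf 134 1069 (.cons 159 (.leaf 179 1242 (.leaf 160 1250 .nil)) .nil)) .nil)) (.cons 230 (.leaf 254 1260 (.cons 203 (.leaf 202 1616 (.leaf 231 1627 .nil)) .nil)) .nil)) .nil)) (.cons 157 (.leaf 133 1062 (.cons 229 (.cons 132 (.leaf 156 1060 (.cons 230 (.leaf 254 1260 (.cons 203 (.leaf 202 1616 (.leaf 231 1627 .nil)) .nil)) .nil)) (.cons 230 (.leaf 254 1260 (.cons 203 (.leaf 202 1616 (.leaf 231 1627 .nil)) .nil)) (.cons 156 (.leaf 132 1060 (.cons 158 (.leaf 134 1069 (.cons 159 (.leaf 160 1250 (.cons 183 (.leaf 184 1248 (.cons 182 (.leaf 203 1434 (.cons 207 (.leaf 208 1440 (.cons 135 (.leaf 136 1057 (.cons 111 (.leaf 87 694 (.leaf 206 886 .nil)) .nil)) .nil)) .nil)) .nil)) .nil)) .nil)) .nil)) (.cons 132 (.leaf 156 1060 (.cons 158 (.leaf 134 1069 (.cons 159 (.leaf 160 1250 (.cons 230 (.leaf 254 1260 (.cons 231 (.leaf 232 1635 (.cons 255 (.leaf 256 1824 (.cons 182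 (.leaf 206 1268 (.cons 183 (.leaf 184 1442 (.leaf 207 1271 .nil)) .nil)) .nil)) .nil)) .nil)) .nil)) .nil)) .nil)) .nil)))) .nil)) (.cons 157 (.leaf 133 1062 (.cons 179 (.cons 178 (.leaf 177 1416 (.leaf 158 1233 .nil)) (.cons 206 (.leaf 207 1435 (.cons 182 (.cons 203 (.leaf 183 1433 (.leaf 202 1425 .nil)) (.cons 159 (.leaf 158 1241 (.cons 183 (.leaf 184 1442 (.leaf 160 1249 .nil)) .nil)) (.cons 203 (.leaf 202 1425 (.cons 230 (.leaf 231 1624 (.leaf 254 1263 .nil)) .nil)) .nil))) .nil)) (.cons 206 (.leaf 207 1435 (.leaf 178 1424 .nil)) .nil))) .nil)) (.cons 157 (.leaf 133 1062 (.cons 203 (.cons 202 (.leaf 201 1417 (.leaf 182 1425 .nil)) (.cons 182 (.leaf 183 1434 (.cons 206 (.cons 230 (.leaf 231 1624 (.leaf 254 1263 .nil)) (.cons 179 (.leaf 178 1424 (.leaf 207 1432 .nil)) .nil)) .nil)) (.cons 202 (.leaf 201 1417 (.cons 177 (.leaf 178 1419 (.cons 225 (.leaf 226 1610 (.cons 230 (.leaf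 229 1616 (.cons 206 (.leaf 231 1624 (.cons 207 (.leaf 179 1435 (.leaf 208 1443 .nil)) .nil)) .nil)) .nil)) .nil)) .nil)) .nil))) .nil)) .nil)))))
noncomputable def t181 : T := .cons 253 (.leaf 156 1252 (.leaf 277 1447 .nil)) (.cons 156 (.leaf 132 1060 (.cons 157 (.leaf 133 1061 (.cons 158 (.cons 134 (.leaf 181 1069 (.cons 206 (.leaf 182 1070 (.cons 207 (.leaf 179 1435 (.leaf 208 1634 .nil)) .nil)) .nil)) (.cons 159 (.leaf 179 1242 (.cons 135 (.leaf 136 1057 (.cons 184 (.leaf 183 1248 (.cons 160 (.leaf 185 1256 (.cons 208 (.leaf 232 1087 (.cons 206 (.leaf 207 1634 (.cons 182 (.leaf 134 1070 (.leaf 230 1077 .nil)) .nil)) .nil)) .nil)) .nil)) .nil)) .nil)) (.cons 134 (.leaf 181 1069 (.cons 206 (.leaf 182 1070 (.cons 207 (.leaf 208 1634 (.cons 183 (.leaf 184 1441 (.cons 231 (.leaf 232 1632 (.leaf 159 1079 .nil)) .nil)) .nil)) .nil)) .nil)) (.cons 159 (.leaf 179 1242 (.cons 135 (.leaf 136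 1057 (.cons 160 (.leaf 181 1250 (.cons 184 (.leaf 183 1248 (.leaf 185 1256 .nil)) .nil)) .nil)) .nil)) .nil)))) .nil)) .nil)) (.cons 253 (.leaf 277 1447 (.cons 181 (.cons 133 (.leaf 157 1062 (.cons 182 (.leaf 158 1261 (.cons 183 (.leaf 184 1442 (.cons 159 (.leaf 160 1249 (.cons 207 (.leaf 208 1440 (.cons 206 (.leaf 179 1432 (.cons 135 (.leaf 111 886 (.leaf 230 1078 .nil)) .nil)) .nil)) .nil)) .nil)) .nil)) .nil)) (.cons 182 (.leaf 158 1261 (.cons 183 (.leaf 184 1442 (.cons 159 (.leaf 160 1249 (.cons 207 (.leaf 208 1440 (.cons 179 (.leaf 206 1432 (.cons 178 (.leaf 177 1416 (.cons 254 (.leaf 278 1452 (.cons 231 (.leaf 230 1270 (.cons 256 (.leaf 255 1827 (.leaf 232 1276 .nil)) .nil)) .nil)) .nil)) .nil)) .nil)) .nil)) .nil)) .nil)) (.cons 157 (.leaf 133 1062 (.cons 254 (.leaf 230 1260 (.leaf 278 1452 .nil)) .nil)) (.cons 157 (.leaf 133 1062 (.cons 158 (.leaf 134 1069 (.leaf 182 1261 .nil))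 .nil)) .nil)))) .nil)) .nil))
noncomputable def t182 : T := .cons 253 (.leaf 156 1252 (.leaf 277 1447 .nil)) (.cons 156 (.leaf 132 1060 (.cons 203 (.cons 230 (.leaf 202 1616 (.leaf 231 1627 .nil)) (.cons 230 (.leaf 231 1627 (.cons 206 (.cons 179 (.leaf 178 1427 (.leaf 207 1435 .nil)) (.cons 179 (.leaf 178 1427 (.cons 182 (.leaf 183 1433 (.cons 158 (.leaf 134 1070 (.cons 159 (.leaf 181 1241 (.leaf 135 1077 .nil)) .nil)) .nil)) .nil)) (.cons 183 (.leaf 182 1433 (.cons 207 (.leaf 184 1441 (.leaf 208 1634 .nil)) .nil)) .nil))) .nil)) (.cons 202 (.leaf 201 1608 (.cons 177 (.leaf 178 1419 (.cons 182 (.leaf 181 1425 (.cons 206 (.leaf 183 1433 (.cons 207 (.leaf 179 1435 (.leaf 208 1634 .nil)) .nil)) .nil)) .nil)) .nil)) .nil))) .nil)) (.cons 253 (.leaf 277 1447 (.cons 203 (.cons 230 (.leaf 202 1616 (.leaf 231 1627 .nil)) (.cons 230 (.leaf 231 1627 (.cons 206 (.cons 179 (.leaf 178 1427 (.leaf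 207 1435 .nil)) (.cons 182 (.leaf 183 1433 (.leaf 158 1262 .nil)) .nil)) .nil)) (.cons 202 (.leaf 201 1608 (.cons 177 (.leaf 178 1419 (.cons 182 (.leaf 181 1425 (.cons 206 (.leaf 183 1433 (.cons 207 (.leaf 179 1435 (.leaf 208 1634 .nil)) .nil)) .nil)) .nil)) .nil)) .nil))) .nil)) .nil))
noncomputable def t183 : T := .cons 253 (.leaf 156 1252 (.leaf 277 1447 .nil)) (.cons 156 (.leaf 132 1060 (.cons 203 (.cons 230 (.leaf 202 1616 (.leaf 231 1627 .nil)) (.cons 230 (.leaf 231 1627 (.cons 206 (.cons 179 (.leaf 178 1427 (.leaf 207 1435 .nil)) (.cons 179 (.leaf 178 1427 (.cons 182 (.leaf 183 1433 (.cons 158 (.leaf 134 1070 (.cons 159 (.leaf 157 1242 (.leaf 181 1241 .nil)) .nil)) .nil)) .nil)) (.cons 183 (.leaf 182 1433 (.cons 207 (.leaf 184 1441 (.leaf 208 1634 .nil)) .nil)) .nil))) .nil)) (.cons 202 (.leaf 201 1608 (.cons 177 (.leaf 178 1419 (.cons 182 (.leaf 181 1425 (.cons 206 (.leaf 183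 1433 (.cons 207 (.leaf 179 1435 (.leaf 208 1634 .nil)) .nil)) .nil)) .nil)) .nil)) .nil))) .nil)) (.cons 253 (.leaf 277 1447 (.cons 203 (.cons 230 (.leaf 202 1616 (.leaf 231 1627 .nil)) (.cons 230 (.leaf 231 1627 (.cons 206 (.cons 179 (.leaf 178 1427 (.leaf 207 1435 .nil)) (.cons 182 (.leaf 183 1433 (.leaf 158 1262 .nil)) .nil)) .nil)) (.cons 202 (.leaf 201 1608 (.cons 177 (.leaf 178 1419 (.cons 182 (.leaf 181 1425 (.cons 206 (.leaf 183 1433 (.cons 207 (.leaf 179 1435 (.leaf 208 1634 .nil)) .nil)) .nil)) .nil)) .nil)) .nil))) .nil)) .nil))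
noncomputable def t184 : T := .cons 156 (.leaf 132 1060 (.leaf 253 1252 .nil)) (.cons 156 (.leaf 132 1060 (.cons 157 (.leaf 133 1061 (.cons 203 (.cons 202 (.leaf 201 1608 (.leaf 230 1616 .nil)) (.cons 202 (.leaf 201 1608 (.cons 178 (.leaf 177 1419 (.cons 206 (.leaf 179 1427 (.cons 183 (.leaf 182 1433 (.cons 207 (.leaf 184 1441 (.leaf 208 1634 .nil)) .nil)) .nil)) .nil)) .nil)) (.cons 230 (.leaf 231 1627 (.cons 206 (.cons 179 (.leaf 178 1427 (.leaf 207 1435 .nil)) (.cons 183 (.leaf 182 1433 (.cons 207 (.leaf 184 1441 (.leaf 208 1634 .nil)) .nil)) (.cons 179 (.leaf 178 1427 (.cons 158 (.leaf 159 1242 (.cons 182 (.leaf 183 1433 (.leaf 134 1070 .nil)) .nil)) .nil)) .nil))) .nil)) .nil))) .nil)) .nil)) (.cons 253 (.leaf 277 1447 (.cons 203 (.cons 230 (.leaf 202 1616 (.leaf 231 1627 .nil)) (.cons 202 (.leaf 201 1608 (.cons 178 (.leaf 177 1419 (.cons 206 (.leaf 179 1427 (.cons 183 (.leaf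 182 1433 (.cons 207 (.leaf 184 1441 (.leaf 208 1634 .nil)) .nil)) .nil)) .nil)) .nil)) (.cons 230 (.leaf 231 1627 (.cons 206 (.cons 179 (.leaf 178 1427 (.leaf 207 1435 .nil)) (.cons 182 (.leaf 183 1433 (.leaf 158 1262 .nil)) .nil)) .nil)) .nil))) .nil)) .nil))
noncomputable def t185 : T := .cons 157 (.leaf 133 1062 (.cons 158 (.cons 159 (.leaf 160 1250 (.cons 179 (.leaf 178 1233 (.leaf 182 1241 .nil)) .nil)) (.cons 229 (.leaf 134 1069 (.cons 253 (.leaf 277 1447 (.leaf 182 1261 .nil)) .nil)) (.cons 159 (.leaf 160 1250 (.cons 178 (.leaf 179 1233 (.cons 229 (.leaf 134 1069 (.cons 230 (.leaf 254 1260 (.cons 203 (.leaf 202 1616 (.leaf 231 1627 .nil)) .nil)) .nil)) .nil)) .nil)) .nil))) .nil)) (.cons 203 (.cons 202 (.leaf 201 1417 (.leaf 182 1425 .nil)) (.cons 182 (.leaf 183 1434 (.cons 206 (.cons 178 (.leaf 179 1424 (.cons 230 (.leaf 231 1624 (.cons 254 (.leaf 278 1455 (.cons 253 (.leaf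 277 1454 (.cons 158 (.leaf 229 1261 (.cons 134 (.leaf 110 878 (.cons 135 (.leaf 111 885 (.leaf 159 1077 .nil)) .nil)) .nil)) .nil)) .nil)) .nil)) .nil)) (.cons 207 (.leaf 208 1443 (.cons 231 (.leaf 230 1624 (.leaf 232 1632 .nil)) .nil)) (.cons 179 (.leaf 178 1424 (.leaf 207 1432 .nil)) .nil))) .nil)) (.cons 202 (.leaf 201 1417 (.cons 177 (.leaf 178 1419 (.cons 225 (.leaf 226 1610 (.cons 230 (.leaf 229 1616 (.cons 206 (.leaf 231 1624 (.cons 207 (.leaf 179 1435 (.leaf 208 1443 .nil)) .nil)) .nil)) .nil)) .nil)) .nil)) .nil))) (.cons 157 (.leaf 133 1062 (.cons 206 (.cons 178 (.leaf 179 1424 (.cons 203 (.cons 202 (.leaf 177 1419 (.leaf 201 1417 .nil)) (.cons 230 (.leaf 231 1624 (.cons 254 (.leaf 229 1260 (.leaf 278 1455 .nil)) .nil)) .nil)) .nil)) (.cons 207 (.leaf 208 1443 (.cons 183 (.leaf 184 1441 (.cons 231 (.leaf 232 1632 (.cons 230 (.leaf 203 1624 (.cons 254 (.leaf 229 1260 (.leaf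 278 1461 .nil)) .nil)) .nil)) .nil)) .nil)) (.cons 179 (.leaf 207 1435 (.leaf 178 1424 .nil)) .nil))) .nil)) (.cons 157 (.leaf 133 1062 (.cons 158 (.cons 159 (.leaf 160 1250 (.cons 179 (.leaf 178 1233 (.leaf 182 1241 .nil)) .nil)) (.cons 229 (.leaf 134 1069 (.cons 253 (.leaf 277 1447 (.leaf 182 1261 .nil)) .nil)) (.cons 159 (.leaf 160 1250 (.cons 178 (.leaf 179 1233 (.cons 229 (.leaf 134 1069 (.cons 253 (.leaf 277 1447 (.cons 254 (.leaf 230 1260 (.leaf 278 1452 .nil)) .nil)) .nil)) .nil)) .nil)) .nil))) .nil)) (.cons 157 (.leaf 133 1062 (.cons 229 (.cons 158 (.leaf 134 1069 (.cons 253 (.leaf 277 1447 (.leaf 182 1261 .nil)) .nil)) (.cons 230 (.leaf 254 1260 (.cons 203 (.leaf 202 1616 (.leaf 231 1627 .nil)) .nil)) .nil)) .nil)) (.cons 157 (.leaf 133 1062 (.cons 179 (.cons 178 (.leaf 177 1416 (.leaf 158 1233 .nil)) (.cons 206 (.leaf 207 1435 (.cons 182 (.cons 203 (.leaf 183 1433 (.leaf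 202 1425 .nil)) (.cons 159 (.leaf 158 1241 (.cons 183 (.leaf 184 1442 (.leaf 160 1249 .nil)) .nil)) (.cons 203 (.leaf 202 1425 (.cons 230 (.leaf 231 1624 (.leaf 254 1263 .nil)) .nil)) .nil))) .nil)) (.cons 206 (.leaf 207 1435 (.leaf 178 1424 .nil)) .nil))) .nil)) (.cons 157 (.leaf 133 1062 (.cons 158 (.cons 159 (.leaf 160 1250 (.cons 179 (.leaf 178 1233 (.leaf 182 1241 .nil)) .nil)) (.cons 229 (.leaf 134 1069 (.cons 253 (.leaf 277 1447 (.leaf 182 1261 .nil)) .nil)) (.cons 134 (.leaf 229 1069 (.cons 110 (.leaf 86 686 (.cons 159 (.leaf 160 1250 (.cons 179 (.leaf 178 1233 (.cons 207 (.leaf 206 1435 (.cons 183 (.leaf 231 1079 (.leaf 135 887 .nil)) .nil)) .nil)) .nil)) .nil)) .nil)) .nil))) .nil)) .nil))))))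
noncomputable def t186 : T := .cons 178 (.leaf 179 1427 (.cons 182 (.leaf 183 1433 (.cons 202 (.leaf 177 1419 (.leaf 181 1425 .nil)) .nil)) .nil)) (.cons 182 (.leaf 183 1433 (.cons 181 (.leaf 202 1425 (.cons 157 (.leaf 133 1062 (.cons 230 (.leaf 231 1624 (.leaf 254 1263 .nil)) .nil)) .nil)) .nil)) (.cons 178 (.leaf 179 1427 (.cons 202 (.leaf 177 1419 (.cons 201 (.leaf 181 1417 (.cons 225 (.leaf 224 1602 (.leaf 226 1610 .nil)) .nil)) .nil)) .nil)) (.cons 182 (.leaf 183 1433 (.cons 230 (.leaf 231 1624 (.cons 202 (.cons 177 (.leaf 178 1419 (.cons 201 (.leaf 176 1411 (.cons 225 (.leaf 224 1602 (.leaf 226 1610 .nil)) .nil)) .nil)) (.cons 225 (.leaf 226 1610 (.cons 201 (.leaf 224 1602 (.cons 176 (.leaf 177 1411 (.cons 200 (.leaf 179 1409 (.leaf 175 1403 .nil)) .nil)) .nil)) .nil)) (.cons 179 (.leaf 178 1427 (.cons 201 (.leaf 200 1409 (.cons 225 (.leaf 224 1602 (.leaf 226 1610 .nil)) .nil))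 .nil)) (.cons 178 (.leaf 177 1419 (.leaf 179 1427 .nil)) .nil)))) .nil)) .nil)) (.cons 179 (.leaf 178 1427 (.cons 182 (.leaf 183 1433 (.cons 230 (.leaf 231 1624 (.cons 157 (.cons 133 (.leaf 156 1061 (.leaf 181 1068 .nil)) (.cons 254 (.leaf 181 1263 (.cons 277 (.leaf 253 1454 (.cons 278 (.leaf 301 1646 (.cons 279 (.leaf 255 1460 (.leaf 303 1652 .nil)) .nil)) .nil)) .nil)) (.cons 133 (.leaf 156 1061 (.leaf 158 1071 .nil)) .nil))) .nil)) .nil)) .nil)) .nil))))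
noncomputable def t187 : T := .cons 156 (.cons 133 (.leaf 157 1061 (.cons 132 (.leaf 109 869 (.leaf 229 1060 .nil)) .nil)) (.cons 133 (.leaf 157 1061 (.cons 132 (.leaf 109 869 (.cons 107 (.leaf 131 863 (.cons 108 (.leaf 83 671 (.leaf 181 868 .nil)) .nil)) .nil)) .nil)) (.cons 229 (.leaf 253 1252 (.cons 157 (.leaf 133 1061 (.cons 230 (.cons 231 (.leaf 203 1627 (.leaf 232 1635 .nil)) (.cons 181 (.leaf 254 1260 (.cons 158 (.leaf 134 1069 (.cons 159 (.leaf 179 1242 (.leaf 160 1250 .nil)) .nil)) .nil)) .nil)) .nil)) .nil)) (.cons 229 (.leaf 132 1060 (.leaf 253 1252 .nil)) .nil)))) (.cons 206 (.cons 179 (.leaf 207 1435 (.cons 178 (.leaf 177 1416 (.leaf 203 1427 .nil)) .nil)) (.cons 203 t186 (.cons 207 (.cons 181 (.leaf 208 1443 (.cons 133 (.leaf 157 1062 (.cons 183 (.leaf 184 1441 (.cons 182 (.leaf 203 1433 (.cons 159 (.leaf 160 1249 (.cons 135 (.leaf 111 886 (.leaf 230 1078 .nil)) .nil))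 .nil)) .nil)) .nil)) .nil)) (.cons 181 (.leaf 208 1443 (.cons 133 (.leaf 157 1062 (.cons 231 (.leaf 232 1632 (.cons 203 (.leaf 230 1624 (.cons 202 (.leaf 201 1417 (.leaf 182 1425 .nil)) .nil)) .nil)) .nil)) .nil)) (.cons 183 (.leaf 184 1441 (.cons 182 (.leaf 203 1433 (.cons 231 (.leaf 232 1632 (.cons 158 (.leaf 134 1076 (.leaf 255 1271 .nil)) .nil)) .nil)) .nil)) (.cons 183 (.leaf 184 1441 (.cons 208 (.leaf 181 1443 (.cons 232 (.leaf 231 1632 (.leaf 233 1640 .nil)) .nil)) .nil)) .nil)))) (.cons 179 (.leaf 207 1435 (.cons 178 (.leaf 177 1416 (.leaf 181 1424 .nil)) .nil)) .nil)))) (.cons 181 t185 (.cons 229 t184 (.cons 229 (.cons 156 (.leaf 132 1060 (.leaf 253 1252 .nil)) (.cons 156 (.leaf 132 1060 (.cons 157 (.leaf 133 1061 (.cons 230 (.cons 181 (.leaf 254 1260 (.cons 203 (.leaf 202 1616 (.leaf 231 1627 .nil)) .nil)) (.cons 181 (.leaf 254 1260 (.cons 158 (.leaf 134 1069 (.cons 159 (.leaf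 160 1250 (.cons 135 (.leaf 136 1057 (.cons 182 (.leaf 206 1077 (.cons 183 (.leaf 203 1434 (.leaf 184 1248 .nil)) .nil)) .nil)) .nil)) .nil)) .nil)) (.cons 181 (.leaf 254 1260 (.cons 158 (.leaf 134 1069 (.cons 159 (.leaf 160 1250 (.cons 135 (.leaf 136 1057 (.cons 182 (.leaf 206 1077 (.cons 183 (.leaf 184 1248 (.cons 207 (.leaf 208 1440 (.cons 231 (.leaf 232 1635 (.leaf 255 1271 .nil)) .nil)) .nil)) .nil)) .nil)) .nil)) .nil)) .nil)) (.cons 203 (.leaf 202 1616 (.leaf 231 1627 .nil)) .nil)))) .nil)) .nil)) (.cons 253 (.leaf 277 1447 (.cons 181 (.cons 157 (.leaf 133 1062 (.cons 254 (.leaf 230 1260 (.leaf 278 1452 .nil)) .nil)) (.cons 182 (.leaf 158 1261 (.cons 183 (.leaf 203 1434 (.leaf 184 1442 .nil)) .nil)) .nil)) .nil)) .nil))) (.cons 229 t183 (.cons 229 t182 (.cons 229 t181 (.cons 181 t180 (.cons 156 (.cons 133 (.leaf 157 1061 (.cons 132 (.leaf 109 869 (.leaf 229 1060 .nil)) .nil))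 (.cons 133 (.leaf 157 1061 (.cons 132 (.leaf 109 869 (.cons 107 (.leaf 131 863 (.cons 108 (.leaf 83 671 (.leaf 181 868 .nil)) .nil)) .nil)) .nil)) (.cons 229 (.leaf 253 1252 (.cons 157 (.leaf 133 1061 (.cons 179 (.cons 178 (.leaf 177 1416 (.cons 206 (.leaf 203 1427 (.leaf 207 1435 .nil)) .nil)) (.cons 158 (.leaf 159 1242 (.cons 134 (.leaf 181 1069 (.cons 206 (.leaf 207 1435 (.leaf 182 1070 .nil)) .nil)) .nil)) (.cons 178 (.leaf 177 1416 (.cons 158 (.leaf 159 1242 (.leaf 181 1233 .nil)) .nil)) .nil))) .nil)) .nil)) (.cons 229 (.leaf 132 1060 (.leaf 253 1252 .nil)) .nil)))) (.cons 156 (.cons 229 (.leaf 132 1060 (.leaf 253 1252 .nil)) (.cons 133 (.leaf 157 1061 (.cons 132 (.leaf 109 869 (.cons 107 (.leaf 131 863 (.cons 108 (.leaf 83 671 (.leaf 181 868 .nil)) .nil)) .nil)) .nil)) (.cons 229 (.leaf 253 1252 (.cons 157 (.leaf 133 1061 (.cons 230 (.cons 231 (.leaf 203 1627 (.leaf 232 1635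 .nil)) (.cons 203 (.leaf 202 1616 (.cons 254 (.leaf 181 1260 (.cons 278 (.leaf 302 1647 (.cons 206 (.cons 183 (.leaf 182 1433 (.leaf 207 1461 .nil)) (.cons 178 (.leaf 179 1427 (.cons 182 (.leaf 183 1433 (.cons 279 (.leaf 255 1460 (.leaf 303 1652 .nil)) .nil)) .nil)) (.cons 179 (.leaf 178 1427 (.leaf 207 1435 .nil)) .nil))) .nil)) .nil)) .nil)) (.cons 231 (.leaf 232 1635 (.cons 181 (.leaf 254 1260 (.cons 207 (.leaf 208 1633 (.cons 206 (.leaf 179 1435 (.cons 183 (.leaf 184 1441 (.cons 159 (.leaf 135 1078 (.cons 160 (.leaf 182 1249 (.leaf 136 1085 .nil)) .nil)) .nil)) .nil)) .nil)) .nil)) .nil)) .nil))) .nil)) .nil)) .nil))) (.cons 229 t179 .nil)))))))))))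
noncomputable def t188 : T := .cons 254 (.leaf 274 2002 (.cons 277 (.leaf 229 1447 (.cons 255 (.cons 232 (.leaf 231 1825 (.cons 256 (.leaf 233 1833 (.cons 257 (.leaf 278 2026 (.cons 281 (.leaf 280 2024 (.leaf 282 2032 .nil)) .nil)) .nil)) .nil)) (.cons 232 (.leaf 231 1825 (.cons 256 (.leaf 233 1833 (.cons 280 (.leaf 279 2016 (.leaf 281 2024 .nil)) .nil)) .nil)) (.cons 232 (.leaf 231 1825 (.cons 256 (.leaf 233 1833 (.cons 278 (.leaf 279 2008 (.leaf 257 2026 .nil)) .nil)) .nil)) (.cons 279 (.leaf 278 2008 (.leaf 280 2016 .nil)) .nil)))) .nil)) .nil)) (.cons 254 (.leaf 274 2002 (.cons 279 (.leaf 278 2008 (.cons 255 (.leaf 280 2016 (.cons 231 (.leaf 232 1825 (.cons 207 (.cons 206 (.leaf 179 1435 (.leaf 182 1463 .nil)) (.cons 184 (.leaf 208 1469 (.cons 183 (.leaf 160 1277 (.cons 182 (.leaf 181 1442 (.leaf 158 1271 .nil)) .nil)) .nil)) (.cons 184 (.leaf 208 1469 (.cons 183 (.leaf 206 1441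 (.leaf 160 1277 .nil)) .nil)) .nil))) .nil)) .nil)) .nil)) .nil)) (.cons 229 (.leaf 277 1447 (.cons 156 (.leaf 132 1060 (.leaf 181 1255 .nil)) .nil)) .nil))
noncomputable def t189 : T := .cons 178 (.leaf 177 1416 (.cons 206 (.leaf 203 1427 (.leaf 207 1435 .nil)) .nil)) (.cons 178 (.leaf 177 1416 (.cons 181 (.cons 154 (.leaf 153 1227 (.cons 182 (.leaf 155 1235 (.cons 183 (.leaf 203 1434 (.leaf 184 1442 .nil)) .nil)) .nil)) (.cons 202 (.leaf 201 1418 (.cons 154 (.leaf 153 1227 (.cons 131 (.cons 107 (.leaf 155 860 (.leaf 130 853 .nil)) (.cons 130 (.leaf 107 853 (.cons 105 (.leaf 129 847 (.cons 106 (.leaf 203 852 (.leaf 81 655 .nil)) .nil)) .nil)) (.cons 226 (.leaf 155 1045 (.cons 225 (.leaf 203 1610 (.leaf 249 1230 .nil)) .nil)) .nil))) .nil)) .nil)) (.cons 202 (.leaf 201 1418 (.cons 182 (.leaf 203 1425 (.cons 158 (.leaf 159 1241 (.cons 110 (.leaf 134 878 (.cons 183 (.leaf 184 1442 (.cons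 207 (.leaf 208 1440 (.cons 253 (.leaf 229 1261 (.cons 231 (.leaf 255 1271 (.cons 254 (.leaf 274 2002 (.leaf 230 1817 .nil)) .nil)) .nil)) .nil)) .nil)) .nil)) .nil)) .nil)) .nil)) (.cons 154 (.leaf 153 1227 (.cons 155 (.leaf 182 1235 (.cons 131 (.leaf 107 860 (.cons 202 (.leaf 201 1418 (.leaf 226 1045 .nil)) .nil)) .nil)) .nil)) .nil)))) .nil)) (.cons 206 (.leaf 207 1435 (.cons 203 (.cons 230 (.leaf 231 1624 (.cons 202 (.leaf 229 1616 (.cons 201 (.leaf 181 1417 (.leaf 200 1409 .nil)) .nil)) .nil)) (.cons 182 (.leaf 183 1433 (.cons 230 (.leaf 231 1624 (.cons 254 (.cons 253 (.leaf 274 2002 (.leaf 277 1454 .nil)) (.cons 278 (.leaf 181 1455 (.cons 279 (.leaf 255 1460 (.leaf 303 1652 .nil)) .nil)) .nil)) .nil)) .nil)) (.cons 182 (.leaf 183 1433 (.cons 181 (.leaf 202 1425 (.cons 154 (.leaf 155 1235 (.cons 158 (.leaf 159 1241 (.cons 134 (.leaf 110 878 (.leaf 229 1070 .nil)) .nil)) .nil))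 .nil)) .nil)) (.cons 230 (.leaf 231 1624 (.cons 182 (.leaf 183 1433 (.cons 253 (.cons 229 (.leaf 277 1453 (.leaf 202 1616 .nil)) (.cons 254 (.leaf 274 2002 (.leaf 277 1454 .nil)) (.cons 158 (.leaf 229 1262 (.cons 135 (.leaf 159 1077 (.cons 134 (.leaf 111 885 (.cons 109 (.leaf 133 879 (.cons 254 (.leaf 274 2002 (.cons 279 (.leaf 278 2008 (.leaf 255 1460 .nil)) .nil)) .nil)) .nil)) .nil)) .nil)) .nil))) .nil)) .nil)) .nil)))) .nil)) (.cons 178 (.leaf 177 1416 (.cons 206 (.leaf 203 1427 (.leaf 181 1424 .nil)) .nil)) (.cons 206 (.leaf 207 1435 (.cons 178 (.leaf 177 1416 (.leaf 181 1424 .nil)) .nil)) .nil))))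
noncomputable def t190 : T := .cons 253 (.leaf 277 1447 (.cons 254 (.leaf 274 2002 (.cons 279 (.leaf 278 2008 (.cons 255 (.leaf 280 2016 (.cons 231 (.leaf 230 1817 (.leaf 232 1825 .nil)) .nil)) .nil)) .nil)) .nil)) (.cons 156 (.leaf 132 1060 (.cons 183 (.cons 207 (.leaf 184 1441 (.cons 231 (.leaf 232 1632 (.cons 182 (.leaf 203 1433 (.cons 158 (.leaf 134 1076 (.leaf 255 1271 .nil)) .nil)) .nil)) .nil)) (.cons 203 (.leaf 182 1433 (.cons 230 (.leaf 202 1616 (.leaf 231 1624 .nil)) .nil)) (.cons 207 (.leaf 184 1441 (.cons 231 (.leaf 232 1632 (.cons 230 (.leaf 203 1624 (.cons 159 (.leaf 135 1078 (.leaf 254 1270 .nil)) .nil)) .nil)) .nil)) (.cons 207 (.leaf 184 1441 (.cons 232 (.leaf 231 1632 (.cons 208 (.leaf 233 1640 (.cons 135 (.leaf 159 1084 (.cons 209 (.leaf 230 1642 (.cons 186 (.leaf 185 1457 (.cons 210 (.leaf 182 1459 (.leaf 187 1465 .nil)) .nil)) .nil)) .nil)) .nil)) .nil)) .nil))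 (.cons 182 (.leaf 203 1433 (.cons 184 (.leaf 207 1441 (.leaf 185 1450 .nil)) .nil)) .nil))))) .nil)) (.cons 253 (.leaf 277 1447 (.cons 254 (.leaf 274 2002 (.cons 279 (.leaf 278 2008 (.cons 255 (.leaf 280 2016 (.cons 231 (.leaf 232 1825 (.cons 207 (.leaf 182 1463 (.cons 184 (.leaf 183 1441 (.leaf 208 1469 .nil)) .nil)) .nil)) .nil)) .nil)) .nil)) .nil)) (.cons 253 (.leaf 277 1447 (.cons 132 (.leaf 156 1060 (.cons 254 (.leaf 274 2002 (.cons 278 (.leaf 279 2008 (.cons 302 (.leaf 230 1647 (.leaf 326 1839 .nil)) .nil)) .nil)) .nil)) .nil)) (.cons 253 (.leaf 277 1447 (.cons 156 (.leaf 132 1060 (.cons 182 (.cons 158 (.leaf 134 1070 (.leaf 230 1262 .nil)) (.cons 203 (.leaf 183 1433 (.cons 230 (.leaf 202 1616 (.leaf 231 1624 .nil)) .nil)) (.cons 134 (.leaf 158 1070 (.cons 183 (.leaf 203 1433 (.cons 184 (.leaf 207 1441 (.leaf 185 1450 .nil)) .nil)) .nil)) .nil))) .nil)) .nil)) .nil))))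
noncomputable def t191 : T := .cons 179 (.leaf 178 1427 (.cons 230 (.leaf 231 1624 (.cons 182 (.leaf 183 1433 (.cons 202 (.leaf 229 1616 (.cons 201 (.leaf 200 1409 (.cons 225 (.leaf 224 1602 (.leaf 226 1610 .nil)) .nil)) .nil)) .nil)) .nil)) .nil)) (.cons 230 (.leaf 231 1624 (.cons 182 (.leaf 183 1433 (.cons 202 (.leaf 229 1616 (.cons 225 (.leaf 226 1610 (.cons 201 (.leaf 224 1602 (.cons 176 (.leaf 177 1411 (.cons 200 (.leaf 179 1409 (.leaf 175 1403 .nil)) .nil)) .nil)) .nil)) .nil)) .nil)) .nil)) (.cons 182 (.leaf 183 1433 (.cons 202 (.cons 179 (.leaf 178 1427 (.cons 201 (.leaf 200 1409 (.cons 225 (.leaf 224 1602 (.leaf 226 1610 .nil)) .nil)) .nil)) (.cons 225 (.leaf 226 1610 (.cons 201 (.leaf 224 1602 (.cons 176 (.leaf 177 1411 (.cons 200 (.leaf 179 1409 (.leaf 175 1403 .nil)) .nil)) .nil)) .nil)) (.cons 177 (.leaf 178 1419 (.cons 201 (.leaf 176 1411 (.cons 225 (.leaf 224 1602 (.leaf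 226 1610 .nil)) .nil)) .nil)) (.cons 178 (.leaf 177 1419 (.leaf 179 1427 .nil)) .nil)))) .nil)) (.cons 230 (.leaf 231 1624 (.cons 182 (.leaf 183 1433 (.cons 202 (.leaf 229 1616 (.cons 225 (.leaf 226 1610 (.cons 177 (.leaf 178 1419 (.cons 201 (.leaf 176 1411 (.leaf 224 1602 .nil)) .nil)) .nil)) .nil)) .nil)) .nil)) (.cons 178 (.leaf 179 1427 (.cons 202 (.leaf 177 1419 (.cons 230 (.leaf 229 1616 (.leaf 231 1624 .nil)) .nil)) .nil)) (.cons 179 (.leaf 178 1427 (.cons 230 (.leaf 231 1624 (.cons 182 (.leaf 183 1433 (.cons 253 (.cons 229 (.leaf 277 1453 (.leaf 158 1262 .nil)) (.cons 254 (.leaf 274 2002 (.leaf 277 1454 .nil)) (.cons 158 (.leaf 229 1262 (.cons 135 (.leaf 159 1077 (.cons 134 (.leaf 111 885 (.cons 109 (.leaf 133 879 (.cons 254 (.leaf 274 2002 (.cons 279 (.leaf 278 2008 (.leaf 255 1460 .nil)) .nil)) .nil)) .nil)) .nil)) .nil)) .nil))) .nil)) .nil)) .nil)) .nil)))))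
noncomputable def t192 : T := .cons 178 (.leaf 179 1427 (.cons 202 (.leaf 177 1419 (.cons 201 (.leaf 181 1417 (.cons 225 (.leaf 224 1602 (.leaf 226 1610 .nil)) .nil)) .nil)) .nil)) (.cons 182 (.leaf 183 1433 (.cons 181 (.leaf 202 1425 (.cons 230 (.leaf 231 1624 (.cons 254 (.leaf 278 1455 (.cons 253 (.leaf 274 2002 (.leaf 277 1454 .nil)) .nil)) .nil)) .nil)) .nil)) (.cons 179 (.leaf 178 1427 (.cons 182 (.leaf 183 1433 (.cons 230 (.leaf 231 1624 (.cons 254 (.cons 253 (.leaf 274 2002 (.leaf 277 1454 .nil)) (.cons 278 (.leaf 181 1455 (.cons 279 (.leaf 255 1460 (.leaf 303 1652 .nil)) .nil)) .nil)) .nil)) .nil)) .nil)) (.cons 230 (.leaf 231 1624 (.cons 182 (.leaf 183 1433 (.cons 202 (.cons 179 (.leaf 178 1427 (.cons 201 (.leaf 200 1409 (.cons 225 (.leaf 224 1602 (.leaf 226 1610 .nil)) .nil)) .nil)) (.cons 225 (.leaf 226 1610 (.cons 201 (.leaf 224 1602 (.cons 176 (.leaf 177 1411 (.cons 200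 (.leaf 179 1409 (.leaf 175 1403 .nil)) .nil)) .nil)) .nil)) (.cons 177 (.leaf 178 1419 (.cons 201 (.leaf 176 1411 (.cons 225 (.leaf 224 1602 (.leaf 226 1610 .nil)) .nil)) .nil)) (.cons 178 (.leaf 177 1419 (.leaf 179 1427 .nil)) .nil)))) .nil)) .nil)) .nil)))
noncomputable def t193 : T := .cons 202 (.leaf 201 1418 (.cons 182 (.leaf 203 1425 (.cons 158 (.leaf 159 1241 (.cons 110 (.leaf 134 878 (.cons 183 (.leaf 184 1442 (.cons 156 (.leaf 155 1243 (.cons 132 (.leaf 229 1060 (.leaf 108 868 .nil)) .nil)) .nil)) .nil)) .nil)) .nil)) .nil)) (.cons 154 (.leaf 153 1227 (.cons 182 (.leaf 155 1235 (.cons 183 (.leaf 203 1434 (.leaf 184 1442 .nil)) .nil)) .nil)) (.cons 202 (.leaf 201 1418 (.cons 154 (.leaf 153 1227 (.cons 131 (.cons 107 (.leaf 155 860 (.leaf 130 853 .nil)) (.cons 226 (.leaf 155 1045 (.cons 225 (.leaf 203 1610 (.leaf 249 1230 .nil)) .nil)) (.cons 130 (.leaf 107 853 (.cons 105 (.leaf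 129 847 (.cons 106 (.leaf 203 852 (.leaf 81 655 .nil)) .nil)) .nil)) .nil))) .nil)) .nil)) (.cons 154 (.leaf 153 1227 (.cons 155 (.leaf 182 1235 (.cons 131 (.leaf 107 860 (.cons 202 (.leaf 201 1418 (.leaf 226 1045 .nil)) .nil)) .nil)) .nil)) (.cons 202 (.leaf 201 1418 (.cons 182 (.leaf 203 1425 (.cons 153 (.leaf 154 1227 (.cons 159 (.leaf 158 1241 (.cons 183 (.leaf 184 1442 (.leaf 160 1249 .nil)) .nil)) .nil)) .nil)) .nil)) .nil))))
noncomputable def t194 : T := .cons 230 (.leaf 231 1624 (.cons 202 (.leaf 229 1616 (.cons 201 (.leaf 181 1417 (.leaf 200 1409 .nil)) .nil)) .nil)) (.cons 182 (.leaf 183 1433 (.cons 230 (.leaf 231 1624 (.cons 158 (.cons 134 (.leaf 229 1070 (.cons 109 (.leaf 133 879 (.cons 110 (.leaf 181 878 (.leaf 85 687 .nil)) .nil)) .nil)) (.cons 159 (.leaf 181 1241 (.leaf 135 1077 .nil)) (.cons 134 (.leaf 229 1070 (.cons 135 (.leaf 111 885 (.leaf 159 1077 .nil)) .nil))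 .nil))) .nil)) .nil)) (.cons 182 (.leaf 183 1433 (.cons 181 (.leaf 202 1425 (.cons 155 (.leaf 154 1235 (.cons 107 (.leaf 131 860 (.cons 158 (.leaf 159 1241 (.cons 134 (.leaf 110 878 (.leaf 229 1070 .nil)) .nil)) .nil)) .nil)) .nil)) .nil)) (.cons 230 (.leaf 231 1624 (.cons 182 (.leaf 183 1433 (.cons 202 (.leaf 229 1616 (.cons 201 (.leaf 200 1409 (.cons 225 (.leaf 224 1602 (.leaf 226 1610 .nil)) .nil)) .nil)) .nil)) .nil)) (.cons 182 (.leaf 183 1433 (.cons 181 (.leaf 202 1425 (.cons 155 (.leaf 154 1235 (.cons 107 (.leaf 131 860 (.cons 158 (.leaf 159 1241 (.cons 134 (.leaf 110 878 (.cons 133 (.leaf 109 879 (.cons 135 (.leaf 111 885 (.cons 132 (.leaf 156 1050 (.leaf 108 859 .nil)) .nil)) .nil)) .nil)) .nil)) .nil)) .nil)) .nil)) .nil)) .nil))))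
noncomputable def t195 : T := .cons 182 (.leaf 183 1433 (.cons 181 (.leaf 202 1425 (.cons 154 (.leaf 155 1235 (.cons 158 (.leaf 159 1241 (.cons 134 (.leaf 110 878 (.leaf 229 1070 .nil)) .nil)) .nil)) .nil)) .nil)) (.cons 230 (.leaf 231 1624 (.cons 202 (.leaf 229 1616 (.cons 201 (.leaf 181 1417 (.leaf 200 1409 .nil)) .nil)) .nil)) (.cons 182 (.leaf 183 1433 (.cons 230 (.leaf 231 1624 (.cons 253 (.cons 229 (.leaf 277 1453 (.leaf 158 1262 .nil)) (.cons 254 (.leaf 274 2002 (.leaf 277 1454 .nil)) (.cons 158 (.leaf 229 1262 (.cons 135 (.leaf 159 1077 (.cons 134 (.leaf 111 885 (.cons 109 (.leaf 133 879 (.cons 254 (.leaf 274 2002 (.cons 279 (.leaf 278 2008 (.leaf 255 1460 .nil)) .nil)) .nil)) .nil)) .nil)) .nil)) .nil))) .nil)) .nil)) (.cons 182 (.leaf 183 1433 (.cons 181 (.leaf 202 1425 (.cons 154 (.leaf 155 1235 (.cons 158 (.leaf 159 1241 (.cons 134 (.leaf 110 878 (.cons 109 (.leaf 133 879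 (.cons 230 (.leaf 231 1624 (.cons 254 (.leaf 278 1455 (.cons 253 (.leaf 274 2002 (.leaf 277 1454 .nil)) .nil)) .nil)) .nil)) .nil)) .nil)) .nil)) .nil)) .nil)) .nil)))
noncomputable def t196 : T := .cons 179 (.cons 206 (.leaf 207 1435 (.cons 203 (.leaf 178 1427 (.cons 182 (.leaf 183 1433 (.cons 181 (.leaf 202 1425 (.cons 154 (.leaf 155 1235 (.cons 158 (.leaf 159 1241 (.cons 134 (.leaf 110 878 (.leaf 229 1070 .nil)) .nil)) .nil)) .nil)) .nil)) .nil)) .nil)) (.cons 178 (.leaf 177 1416 (.cons 253 (.cons 229 (.leaf 277 1447 (.cons 156 (.leaf 132 1060 (.leaf 181 1255 .nil)) .nil)) (.cons 254 (.leaf 274 2002 (.cons 231 (.leaf 230 1817 (.cons 255 (.leaf 232 1825 (.cons 279 (.leaf 278 2008 (.leaf 280 2016 .nil)) .nil)) .nil)) .nil)) .nil)) .nil)) (.cons 206 (.leaf 207 1435 (.cons 203 t195 .nil)) (.cons 178 (.leaf 177 1416 (.cons 206 (.leaf 203 1427 (.leaf 207 1435 .nil)) .nil)) .nil)))) (.cons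 253 (.cons 254 (.leaf 274 2002 (.cons 277 (.leaf 229 1447 (.cons 255 (.cons 232 (.leaf 231 1825 (.cons 256 (.leaf 233 1833 (.cons 257 (.leaf 278 2026 (.cons 281 (.leaf 280 2024 (.leaf 282 2032 .nil)) .nil)) .nil)) .nil)) (.cons 279 (.leaf 278 2008 (.leaf 280 2016 .nil)) (.cons 232 (.leaf 231 1825 (.cons 256 (.leaf 233 1833 (.cons 280 (.leaf 279 2016 (.leaf 281 2024 .nil)) .nil)) .nil)) (.cons 232 (.leaf 231 1825 (.cons 256 (.leaf 233 1833 (.cons 278 (.leaf 279 2008 (.leaf 257 2026 .nil)) .nil)) .nil)) .nil)))) .nil)) .nil)) (.cons 254 (.leaf 274 2002 (.cons 230 (.leaf 231 1817 (.cons 278 (.leaf 279 2008 (.cons 206 (.leaf 181 1455 (.cons 277 (.leaf 182 1454 (.leaf 301 1646 .nil)) .nil)) .nil)) .nil)) .nil)) (.cons 229 (.leaf 277 1447 (.cons 156 (.leaf 132 1060 (.leaf 181 1255 .nil)) .nil)) (.cons 254 (.leaf 274 2002 (.cons 230 (.leaf 231 1817 (.cons 278 (.leaf 279 2008 (.cons 181 (.leaf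 206 1455 (.leaf 229 1452 .nil)) .nil)) .nil)) .nil)) .nil)))) (.cons 253 (.cons 229 (.leaf 277 1447 (.cons 156 (.leaf 132 1060 (.leaf 181 1255 .nil)) .nil)) (.cons 254 (.leaf 274 2002 (.cons 231 (.leaf 230 1817 (.cons 255 (.leaf 232 1825 (.cons 279 (.leaf 278 2008 (.leaf 280 2016 .nil)) .nil)) .nil)) .nil)) .nil)) (.cons 179 (.cons 206 (.leaf 207 1435 (.cons 203 (.leaf 178 1427 (.cons 230 (.leaf 231 1624 (.cons 202 (.leaf 229 1616 (.cons 201 (.leaf 181 1417 (.leaf 200 1409 .nil)) .nil)) .nil)) .nil)) .nil)) (.cons 206 (.leaf 207 1435 (.cons 203 t194 .nil)) (.cons 178 (.leaf 177 1416 (.cons 181 t193 .nil)) (.cons 178 (.leaf 177 1416 (.cons 206 (.leaf 203 1427 (.leaf 207 1435 .nil)) .nil)) (.cons 178 (.leaf 177 1416 (.cons 206 (.leaf 207 1435 (.leaf 181 1424 .nil)) .nil)) .nil))))) (.cons 206 (.cons 207 (.leaf 179 1435 (.cons 183 (.leaf 184 1441 (.cons 182 (.leaf 203 1433 (.cons 231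 (.leaf 232 1632 (.cons 158 (.leaf 134 1076 (.leaf 255 1271 .nil)) .nil)) .nil)) .nil)) .nil)) (.cons 203 t192 (.cons 207 (.cons 183 (.leaf 184 1441 (.cons 182 (.leaf 203 1433 (.cons 231 (.leaf 232 1632 (.cons 158 (.leaf 134 1076 (.leaf 255 1271 .nil)) .nil)) .nil)) .nil)) (.cons 208 (.leaf 181 1443 (.cons 232 (.leaf 231 1632 (.leaf 233 1640 .nil)) .nil)) (.cons 181 (.leaf 208 1443 (.cons 183 (.leaf 184 1441 (.cons 182 (.leaf 203 1433 (.cons 155 (.leaf 156 1243 (.cons 159 (.leaf 160 1249 (.cons 135 (.leaf 111 886 (.leaf 230 1078 .nil)) .nil)) .nil)) .nil)) .nil)) .nil)) .nil))) (.cons 207 (.leaf 179 1435 (.cons 183 (.leaf 184 1441 (.cons 208 (.leaf 181 1443 (.cons 232 (.leaf 231 1632 (.leaf 233 1640 .nil)) .nil)) .nil)) .nil)) (.cons 179 (.leaf 207 1435 (.cons 178 (.leaf 177 1416 (.leaf 203 1427 .nil)) .nil)) .nil))))) (.cons 206 (.cons 179 (.leaf 207 1435 (.cons 178 (.leaf 177 1416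 (.leaf 203 1427 .nil)) .nil)) (.cons 203 t191 (.cons 229 t190 (.cons 207 (.leaf 179 1435 (.cons 184 (.leaf 183 1441 (.cons 208 (.leaf 185 1449 (.cons 232 (.leaf 231 1632 (.leaf 233 1640 .nil)) .nil)) .nil)) .nil)) .nil)))) (.cons 179 t189 (.cons 253 (.cons 229 (.leaf 277 1447 (.cons 156 (.leaf 132 1060 (.leaf 181 1255 .nil)) .nil)) (.cons 254 (.leaf 274 2002 (.cons 279 (.leaf 278 2008 (.cons 255 (.leaf 280 2016 (.cons 206 (.cons 179 (.leaf 207 1435 (.cons 178 (.leaf 177 1416 (.leaf 203 1427 .nil)) .nil)) (.cons 182 (.leaf 230 1460 (.cons 183 (.leaf 203 1433 (.cons 184 (.leaf 181 1442 (.leaf 207 1441 .nil)) .nil)) .nil)) (.cons 182 (.leaf 230 1460 (.cons 183 (.leaf 203 1433 (.cons 184 (.leaf 181 1442 (.leaf 185 1450 .nil)) .nil)) .nil)) (.cons 179 (.leaf 207 1435 (.cons 178 (.leaf 177 1416 (.leaf 181 1424 .nil)) .nil)) .nil)))) .nil)) .nil)) .nil)) (.cons 229 (.leaf 277 1447 (.cons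 132 (.leaf 156 1060 (.cons 254 (.leaf 274 2002 (.cons 278 (.leaf 279 2008 (.cons 302 (.leaf 230 1647 (.leaf 326 1839 .nil)) .nil)) .nil)) .nil)) .nil)) .nil))) (.cons 253 t188 .nil))))))))
noncomputable def t197 : T := .cons 155 (.leaf 131 1055 (.cons 154 (.leaf 153 1224 (.leaf 182 1235 .nil)) .nil)) (.cons 182 (.cons 159 (.leaf 158 1241 (.cons 183 (.leaf 160 1249 (.cons 207 (.leaf 206 1432 (.leaf 208 1440 .nil)) .nil)) .nil)) (.cons 207 (.leaf 206 1432 (.cons 183 (.leaf 208 1440 (.cons 160 (.leaf 159 1249 (.cons 184 (.leaf 157 1251 (.leaf 161 1257 .nil)) .nil)) .nil)) .nil)) (.cons 207 (.leaf 206 1432 (.cons 183 (.leaf 208 1440 (.cons 157 (.leaf 184 1251 (.cons 178 (.leaf 177 1225 (.leaf 158 1233 .nil)) .nil)) .nil)) .nil)) (.cons 158 (.leaf 159 1241 (.cons 178 (.leaf 157 1233 (.cons 201 (.leaf 202 1418 (.cons 153 (.leaf 154 1227 (.cons 177 (.leaf 152 1219 (.leaf 200 1410 .nil)) .nil))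 .nil)) .nil)) .nil)) .nil)))) (.cons 131 (.leaf 155 1055 (.cons 107 (.leaf 132 863 (.cons 178 (.cons 154 (.leaf 153 1227 (.cons 202 (.leaf 201 1418 (.leaf 130 853 .nil)) .nil)) (.cons 157 (.leaf 177 1225 (.leaf 158 1233 .nil)) .nil)) .nil)) .nil)) (.cons 155 (.leaf 131 1055 (.cons 182 (.leaf 183 1243 (.cons 158 (.leaf 159 1241 (.cons 178 (.leaf 157 1233 (.cons 177 (.leaf 176 1217 (.cons 201 (.leaf 200 1410 (.leaf 202 1418 .nil)) .nil)) .nil)) .nil)) .nil)) .nil)) .nil)))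
noncomputable def t198 : T := .cons 158 (.leaf 157 1233 (.cons 153 (.leaf 154 1227 (.cons 182 (.leaf 159 1241 (.cons 207 (.leaf 206 1432 (.cons 183 (.leaf 203 1434 (.leaf 155 1243 .nil)) .nil)) .nil)) .nil)) .nil)) (.cons 202 (.leaf 201 1418 (.cons 153 (.leaf 154 1227 (.cons 182 (.leaf 203 1426 (.cons 183 (.leaf 155 1243 (.cons 207 (.leaf 206 1432 (.leaf 208 1440 .nil)) .nil)) .nil)) .nil)) .nil)) (.cons 202 (.leaf 201 1418 (.cons 157 (.leaf 158 1233 (.cons 182 (.leaf 203 1426 (.cons 183 (.leaf 155 1243 (.leaf 184 1251 .nil)) .nil)) .nil)) .nil)) (.cons 202 (.leaf 201 1418 (.cons 154 (.leaf 153 1227 (.cons 130 (.cons 106 (.leaf 203 852 (.cons 105 (.leaf 81 655 (.leaf 129 847 .nil)) .nil)) (.cons 157 (.leaf 158 1233 (.cons 129 (.leaf 155 1035 (.leaf 105 847 .nil)) .nil)) (.cons 106 (.leaf 203 852 (.cons 82 (.leaf 155 660 (.cons 81 (.leaf 105 655 (.leaf 57 463 .nil)) .nil)) .nil)) (.cons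 106 (.leaf 203 852 (.cons 157 (.leaf 158 1233 (.cons 155 (.leaf 129 1035 (.leaf 82 660 .nil)) .nil)) .nil)) .nil)))) .nil)) .nil)) (.cons 158 (.leaf 157 1233 (.cons 153 (.leaf 154 1227 (.cons 182 (.leaf 159 1241 (.cons 207 (.leaf 206 1432 (.cons 183 (.leaf 155 1243 (.leaf 208 1440 .nil)) .nil)) .nil)) .nil)) .nil)) (.cons 202 (.leaf 201 1418 (.cons 157 (.leaf 158 1233 (.cons 182 (.leaf 203 1426 (.cons 153 (.leaf 154 1227 (.cons 183 (.leaf 184 1251 (.cons 207 (.leaf 206 1432 (.leaf 208 1440 .nil)) .nil)) .nil)) .nil)) .nil)) .nil)) .nil)))))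
noncomputable def t199 : T := .cons 202 (.leaf 201 1418 (.cons 153 (.leaf 154 1227 (.cons 182 (.leaf 203 1426 (.cons 159 (.leaf 158 1241 (.cons 183 (.leaf 160 1249 (.cons 207 (.leaf 206 1432 (.leaf 208 1440 .nil)) .nil)) .nil)) .nil)) .nil)) .nil)) (.cons 158 (.leaf 157 1233 (.cons 153 (.leaf 154 1227 (.cons 182 (.leaf 159 1241 (.cons 207 (.leaf 206 1432 (.cons 183 (.leaf 203 1434 (.leaf 208 1440 .nil)) .nil)) .nil)) .nil)) .nil)) (.cons 202 (.leaf 201 1418 (.cons 154 (.leaf 153 1227 (.cons 203 (.leaf 182 1426 (.cons 130 (.leaf 106 852 (.cons 132 (.leaf 108 862 (.cons 131 (.leaf 107 853 (.cons 129 (.leaf 157 1032 (.leaf 105 847 .nil)) .nil)) .nil)) .nil)) .nil)) .nil)) .nil)) (.cons 154 (.leaf 153 1227 (.cons 182 (.cons 159 (.leaf 158 1241 (.cons 183 (.leaf 160 1249 (.cons 207 (.leaf 206 1432 (.leaf 208 1440 .nil)) .nil)) .nil)) (.cons 207 (.leaf 206 1432 (.cons 183 (.leaf 208 1440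 (.cons 160 (.leaf 159 1249 (.cons 184 (.leaf 157 1251 (.leaf 161 1257 .nil)) .nil)) .nil)) .nil)) (.cons 207 (.leaf 206 1432 (.cons 157 (.leaf 158 1233 (.cons 183 (.leaf 208 1440 (.leaf 184 1251 .nil)) .nil)) .nil)) (.cons 158 (.leaf 157 1233 (.leaf 159 1241 .nil)) .nil)))) .nil)) (.cons 202 (.leaf 201 1418 (.cons 157 (.leaf 158 1233 (.cons 154 (.leaf 153 1227 (.cons 130 (.cons 105 (.leaf 129 847 (.cons 106 (.leaf 203 852 (.leaf 81 655 .nil)) .nil)) (.cons 129 (.leaf 105 847 (.cons 131 (.leaf 132 1032 (.leaf 107 853 .nil)) .nil)) (.cons 106 (.leaf 203 852 (.cons 107 (.leaf 83 661 (.leaf 131 853 .nil)) .nil)) .nil))) .nil)) .nil)) .nil)) (.cons 202 (.leaf 201 1418 (.cons 157 (.leaf 158 1233 (.cons 182 (.leaf 203 1426 (.cons 183 (.leaf 184 1251 (.cons 207 (.leaf 206 1432 (.leaf 208 1440 .nil)) .nil)) .nil)) .nil)) .nil)) .nil)))))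
noncomputable def t200 : T := .cons 155 (.leaf 131 1055 (.cons 154 (.leaf 153 1224 (.leaf 182 1235 .nil)) .nil)) (.cons 178 (.cons 157 (.leaf 177 1225 (.leaf 158 1233 .nil)) (.cons 153 (.leaf 154 1227 (.cons 152 (.leaf 177 1219 (.cons 202 (.leaf 201 1418 (.cons 182 (.leaf 203 1426 (.cons 159 (.leaf 158 1241 (.cons 183 (.leaf 160 1249 (.cons 207 (.leaf 206 1432 (.leaf 208 1440 .nil)) .nil)) .nil)) .nil)) .nil)) .nil)) .nil)) (.cons 202 (.leaf 201 1418 (.cons 157 (.leaf 158 1233 (.cons 154 (.leaf 153 1227 (.cons 203 (.leaf 182 1426 (.cons 130 (.leaf 106 852 (.cons 129 (.leaf 105 847 (.cons 131 (.leaf 132 1032 (.leaf 107 853 .nil)) .nil)) .nil)) .nil)) .nil)) .nil)) .nil)) (.cons 153 (.leaf 154 1227 (.cons 177 (.leaf 152 1219 (.leaf 157 1225 .nil)) .nil)) .nil)))) (.cons 178 (.cons 157 (.leaf 177 1225 (.leaf 158 1233 .nil)) (.cons 202 (.leaf 201 1418 (.cons 153 (.leaf 154 1227 (.cons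 182 (.leaf 203 1426 (.cons 159 (.leaf 158 1241 (.cons 183 (.leaf 155 1243 (.leaf 160 1249 .nil)) .nil)) .nil)) .nil)) .nil)) (.cons 153 (.leaf 154 1227 (.cons 202 (.leaf 201 1418 (.cons 182 (.leaf 203 1426 (.cons 183 (.leaf 155 1243 (.cons 207 (.leaf 206 1432 (.leaf 208 1440 .nil)) .nil)) .nil)) .nil)) .nil)) .nil))) (.cons 131 (.leaf 155 1055 (.cons 107 (.leaf 132 863 (.cons 178 (.cons 154 (.leaf 153 1227 (.cons 202 (.leaf 201 1418 (.leaf 130 853 .nil)) .nil)) (.cons 157 (.leaf 177 1225 (.leaf 158 1233 .nil)) .nil)) .nil)) .nil)) (.cons 155 (.leaf 131 1055 (.cons 182 (.leaf 183 1243 (.cons 158 (.leaf 159 1241 (.cons 178 (.leaf 157 1233 (.cons 177 (.leaf 176 1217 (.cons 201 (.leaf 200 1410 (.leaf 202 1418 .nil)) .nil)) .nil)) .nil)) .nil)) .nil)) .nil))))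
noncomputable def t201 : T := .cons 181 t200 (.cons 178 (.cons 177 (.leaf 157 1225 (.cons 152 (.leaf 153 1219 (.cons 176 (.leaf 203 1408 (.leaf 151 1211 .nil)) .nil)) .nil)) (.cons 181 t199 (.cons 201 (.cons 202 (.leaf 203 1608 (.leaf 181 1418 .nil)) (.cons 177 (.leaf 200 1410 (.cons 152 (.leaf 153 1219 (.cons 176 (.leaf 203 1408 (.leaf 151 1211 .nil)) .nil)) .nil)) (.cons 177 (.leaf 200 1410 (.cons 153 (.leaf 152 1219 (.cons 181 (.leaf 154 1227 (.leaf 202 1418 .nil)) .nil)) .nil)) .nil))) (.cons 177 (.leaf 157 1225 (.cons 152 (.leaf 153 1219 (.cons 176 (.leaf 151 1211 (.cons 200 (.leaf 201 1410 (.leaf 199 1402 .nil)) .nil)) .nil)) .nil)) (.cons 177 (.leaf 157 1225 (.cons 176 (.leaf 203 1408 (.cons 200 (.leaf 201 1410 (.leaf 199 1402 .nil)) .nil)) .nil)) .nil))))) (.cons 178 (.cons 177 (.leaf 157 1225 (.cons 152 (.leaf 153 1219 (.cons 176 (.leaf 203 1408 (.leaf 155 1217 .nil)) .nil))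 .nil)) (.cons 181 t198 (.cons 177 (.cons 152 (.leaf 153 1219 (.cons 176 (.leaf 203 1408 (.leaf 155 1217 .nil)) .nil)) (.cons 152 (.leaf 153 1219 (.cons 201 (.leaf 200 1410 (.cons 202 (.leaf 203 1608 (.leaf 181 1418 .nil)) .nil)) .nil)) (.cons 152 (.leaf 153 1219 (.cons 176 (.leaf 155 1217 (.leaf 151 1211 .nil)) .nil)) (.cons 176 (.leaf 203 1408 (.leaf 155 1217 .nil)) .nil)))) (.cons 177 (.leaf 157 1225 (.cons 152 (.leaf 153 1219 (.cons 176 (.leaf 155 1217 (.leaf 151 1211 .nil)) .nil)) .nil)) (.cons 177 (.leaf 157 1225 (.cons 152 (.leaf 153 1219 (.cons 176 (.leaf 203 1408 (.leaf 151 1211 .nil)) .nil)) .nil)) (.cons 177 (.leaf 157 1225 (.cons 176 (.leaf 203 1408 (.leaf 155 1217 .nil)) .nil)) .nil)))))) (.cons 181 t197 (.cons 132 (.cons 108 (.leaf 203 862 (.cons 83 (.leaf 107 671 (.cons 84 (.leaf 59 479 (.leaf 155 670 .nil)) .nil)) .nil)) (.cons 107 (.leaf 131 863 (.cons 108 (.leaf 83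 671 (.leaf 203 862 .nil)) .nil)) (.cons 131 (.leaf 107 863 (.leaf 155 1055 .nil)) (.cons 108 (.leaf 203 862 (.cons 155 (.leaf 131 1055 (.leaf 84 670 .nil)) .nil)) .nil)))) .nil))))
noncomputable def t202 : T := .cons 109 (.leaf 85 677 (.cons 81 (.leaf 80 643 (.leaf 82 651 .nil)) .nil)) (.cons 80 (.leaf 81 643 (.cons 104 (.leaf 79 635 (.cons 128 (.leaf 129 834 (.leaf 127 826 .nil)) .nil)) .nil)) (.cons 129 (.leaf 128 834 (.cons 177 (.cons 153 (.leaf 82 653 (.cons 80 (.leaf 104 647 (.cons 178 (.leaf 202 844 (.cons 179 (.leaf 203 862 (.leaf 152 1219 .nil)) .nil)) .nil)) .nil)) (.cons 179 (.leaf 203 862 (.cons 178 (.leaf 157 1225 (.cons 176 (.leaf 155 1217 (.cons 200 (.leaf 201 1410 (.leaf 199 1402 .nil)) .nil)) .nil)) .nil)) (.cons 153 (.leaf 82 653 (.cons 80 (.leaf 104 647 (.cons 178 (.leaf 202 844 (.cons 179 (.leaf 152 1219 (.leaf 157 1225 .nil)) .nil)) .nil)) .nil)) (.cons 153 (.leaf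 82 653 (.cons 80 (.leaf 104 647 (.cons 202 (.leaf 178 844 (.cons 201 (.leaf 203 1608 (.leaf 226 1036 .nil)) .nil)) .nil)) .nil)) (.cons 153 (.leaf 82 653 (.cons 200 (.leaf 176 838 (.cons 201 (.leaf 224 1030 (.cons 202 (.leaf 203 1608 (.leaf 226 1036 .nil)) .nil)) .nil)) .nil)) .nil))))) .nil)) (.cons 109 (.leaf 85 677 (.cons 179 (.leaf 203 862 (.cons 177 (.cons 82 (.leaf 81 651 (.cons 129 (.leaf 128 834 (.leaf 153 653 .nil)) .nil)) (.cons 178 (.leaf 157 1225 (.cons 152 (.leaf 153 1219 (.cons 176 (.leaf 155 1217 (.leaf 151 1211 .nil)) .nil)) .nil)) (.cons 178 (.leaf 157 1225 (.cons 176 (.leaf 155 1217 (.cons 200 (.leaf 201 1410 (.leaf 199 1402 .nil)) .nil)) .nil)) .nil))) .nil)) .nil)) .nil)))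
noncomputable def t203 : T := .cons 80 (.leaf 81 643 (.cons 104 (.leaf 79 635 (.cons 128 (.leaf 129 834 (.leaf 127 826 .nil)) .nil)) .nil)) (.cons 81 (.leaf 80 643 (.cons 178 (.cons 130 (.leaf 154 655 (.cons 33 (.leaf 57 268 (.cons 157 (.leaf 177 1225 (.cons 158 (.leaf 159 1242 (.leaf 181 1233 .nil)) .nil)) .nil)) .nil)) (.cons 154 (.leaf 130 655 (.cons 153 (.leaf 181 1227 (.cons 152 (.leaf 155 1216 (.leaf 151 1208 .nil)) .nil)) .nil)) (.cons 157 (.leaf 177 1225 (.cons 158 (.leaf 159 1242 (.leaf 181 1233 .nil)) .nil)) (.cons 130 (.leaf 154 655 (.cons 33 (.leaf 57 268 (.cons 157 (.leaf 177 1225 (.cons 158 (.leaf 159 1242 (.leaf 155 1234 .nil)) .nil)) .nil)) .nil)) .nil)))) .nil)) (.cons 129 (.leaf 128 834 (.cons 177 (.cons 82 (.leaf 153 653 (.cons 178 (.leaf 157 1225 (.cons 176 (.leaf 155 1217 (.cons 200 (.leaf 201 1410 (.leaf 199 1402 .nil)) .nil)) .nil)) .nil)) (.cons 178 (.leaf 157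 1225 (.cons 176 (.leaf 155 1217 (.cons 200 (.leaf 201 1410 (.leaf 199 1402 .nil)) .nil)) .nil)) (.cons 153 (.leaf 82 653 (.cons 200 (.leaf 176 838 (.cons 201 (.leaf 130 845 (.leaf 224 1030 .nil)) .nil)) .nil)) (.cons 153 (.leaf 82 653 (.cons 178 (.leaf 152 1219 (.leaf 157 1225 .nil)) .nil)) .nil)))) .nil)) .nil))
noncomputable def t204 : T := .cons 109 (.leaf 85 677 (.cons 129 (.leaf 130 842 (.cons 105 (.leaf 128 834 (.cons 179 (.leaf 203 862 (.cons 81 (.leaf 80 643 (.leaf 82 651 .nil)) .nil)) .nil)) .nil)) .nil)) (.cons 179 (.leaf 203 862 (.cons 105 t203 .nil)) (.cons 109 (.leaf 85 677 (.cons 81 (.leaf 82 651 (.cons 105 (.leaf 80 643 (.cons 129 (.leaf 128 834 (.leaf 130 842 .nil)) .nil)) .nil)) .nil)) (.cons 109 (.leaf 85 677 (.cons 82 (.leaf 81 651 (.cons 130 (.leaf 129 842 (.cons 179 (.leaf 203 862 (.cons 154 (.leaf 155 660 (.cons 177 (.leaf 153 654 (.cons 178 (.leaf 157 1225 (.leaf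 201 846 .nil)) .nil)) .nil)) .nil)) .nil)) .nil)) .nil)) (.cons 109 (.leaf 85 677 (.cons 81 (.leaf 82 651 (.cons 105 (.leaf 80 643 (.cons 179 (.leaf 203 862 (.cons 178 (.cons 130 (.leaf 154 655 (.cons 157 (.leaf 177 1225 (.cons 158 (.leaf 159 1242 (.leaf 181 1233 .nil)) .nil)) .nil)) (.cons 154 (.leaf 130 655 (.cons 153 (.leaf 181 1227 (.cons 152 (.leaf 155 1216 (.leaf 151 1208 .nil)) .nil)) .nil)) (.cons 157 (.leaf 177 1225 (.cons 158 (.leaf 159 1242 (.leaf 181 1233 .nil)) .nil)) (.cons 157 (.leaf 177 1225 (.cons 158 (.leaf 159 1242 (.leaf 155 1234 .nil)) .nil)) .nil)))) .nil)) .nil)) .nil)) .nil)) (.cons 109 (.leaf 85 677 (.cons 129 (.leaf 130 842 (.cons 105 (.leaf 128 834 (.cons 177 (.cons 153 (.leaf 82 653 (.cons 80 (.leaf 104 647 (.cons 178 (.leaf 202 844 (.cons 179 (.leaf 203 862 (.leaf 152 1219 .nil)) .nil)) .nil)) .nil)) (.cons 179 (.leaf 203 862 (.cons 178 (.leaf 157 1225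 (.cons 176 (.leaf 155 1217 (.cons 200 (.leaf 201 1410 (.leaf 199 1402 .nil)) .nil)) .nil)) .nil)) (.cons 153 (.leaf 82 653 (.cons 176 (.leaf 200 838 (.cons 202 (.leaf 178 844 (.cons 201 (.leaf 203 1411 (.leaf 226 1036 .nil)) .nil)) .nil)) .nil)) (.cons 153 (.leaf 82 653 (.cons 178 (.leaf 202 844 (.cons 179 (.leaf 152 1219 (.leaf 157 1225 .nil)) .nil)) .nil)) (.cons 153 (.leaf 82 653 (.cons 203 (.leaf 179 862 (.cons 201 (.cons 202 (.leaf 176 1411 (.leaf 181 1417 .nil)) (.cons 200 (.leaf 176 838 (.leaf 224 1030 .nil)) (.cons 202 (.leaf 181 1417 (.leaf 229 1608 .nil)) .nil))) .nil)) .nil)) .nil))))) .nil)) .nil)) .nil)) (.cons 229 (.leaf 253 1252 (.cons 105 t202 .nil)) (.cons 109 (.leaf 85 677 (.cons 129 (.leaf 130 842 (.cons 105 (.leaf 128 834 (.cons 179 (.leaf 203 862 (.cons 177 (.cons 178 (.leaf 157 1225 (.cons 176 (.leaf 155 1217 (.cons 200 (.leaf 201 1410 (.leaf 153 838 .nil)) .nil))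 .nil)) (.cons 80 (.leaf 81 643 (.cons 104 (.leaf 79 635 (.leaf 153 647 .nil)) .nil)) (.cons 178 (.leaf 157 1225 (.cons 176 (.leaf 155 1217 (.cons 200 (.leaf 201 1410 (.leaf 199 1402 .nil)) .nil)) .nil)) .nil))) .nil)) .nil)) .nil)) .nil)) .nil)))))))
noncomputable def t205 : T := .cons 157 (.leaf 133 1061 (.cons 229 (.leaf 253 1252 (.cons 108 (.cons 179 (.leaf 203 862 (.cons 84 (.leaf 155 670 (.leaf 181 676 .nil)) .nil)) (.cons 179 (.leaf 203 862 (.cons 83 (.leaf 107 671 (.cons 85 (.leaf 109 677 (.cons 158 (.leaf 159 1242 (.cons 178 (.leaf 177 1225 (.leaf 181 1233 .nil)) .nil)) .nil)) .nil)) .nil)) (.cons 84 (.leaf 181 676 (.cons 83 (.leaf 107 671 (.leaf 59 479 .nil)) .nil)) (.cons 179 (.leaf 203 862 (.cons 83 (.leaf 107 671 (.cons 85 (.leaf 109 677 (.cons 158 (.leaf 159 1242 (.cons 178 (.leaf 177 1225 (.leaf 155 1234 .nil)) .nil)) .nil)) .nil)) .nil)) .nil)))) .nil)) .nil)) (.cons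 108 (.cons 179 (.leaf 203 862 (.cons 83 (.leaf 107 671 (.cons 84 (.leaf 59 479 (.leaf 155 670 .nil)) .nil)) .nil)) (.cons 83 (.leaf 107 671 (.cons 84 (.leaf 59 479 (.cons 85 (.leaf 109 677 (.leaf 61 485 .nil)) .nil)) .nil)) (.cons 179 (.leaf 203 862 (.cons 84 (.leaf 155 670 (.cons 85 (.leaf 109 677 (.leaf 61 485 .nil)) .nil)) .nil)) (.cons 107 (.leaf 83 671 (.cons 106 t204 .nil)) .nil)))) (.cons 157 (.leaf 133 1061 (.cons 229 (.leaf 253 1252 (.cons 108 (.cons 179 (.leaf 203 862 (.cons 84 (.leaf 155 670 (.leaf 181 676 .nil)) .nil)) (.cons 84 (.leaf 181 676 (.cons 83 (.leaf 107 671 (.leaf 59 479 .nil)) .nil)) (.cons 179 (.leaf 203 862 (.cons 83 (.leaf 107 671 (.cons 158 (.leaf 159 1242 (.cons 178 (.leaf 177 1225 (.leaf 181 1233 .nil)) .nil)) .nil)) .nil)) (.cons 179 (.leaf 203 862 (.cons 83 (.leaf 107 671 (.cons 158 (.leaf 159 1242 (.cons 178 (.leaf 177 1225 (.leaf 155 1234 .nil)) .nil))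 .nil)) .nil)) .nil)))) .nil)) .nil)) (.cons 109 (.leaf 133 869 (.cons 108 (.leaf 85 677 (.cons 83 (.leaf 107 671 (.cons 84 (.leaf 59 479 (.cons 179 (.leaf 203 862 (.leaf 155 670 .nil)) .nil)) .nil)) .nil)) .nil)) (.cons 133 (.leaf 109 869 (.leaf 157 1061 .nil)) .nil))))
noncomputable def t206 : T := .cons 183 (.leaf 208 1440 (.cons 86 (.leaf 87 666 (.cons 159 (.leaf 160 1249 (.cons 179 (.leaf 158 1241 (.leaf 206 1432 .nil)) .nil)) .nil)) .nil)) (.cons 206 (.leaf 179 1432 (.cons 253 (.cons 228 (.leaf 252 1438 (.leaf 229 1252 .nil)) (.cons 230 (.cons 158 (.leaf 229 1262 (.cons 231 (.leaf 134 1076 (.leaf 255 1268 .nil)) .nil)) (.cons 254 (.leaf 277 1454 (.cons 252 (.leaf 274 2002 (.leaf 231 1817 .nil)) .nil)) (.cons 229 (.leaf 158 1262 (.cons 277 (.leaf 254 1454 (.leaf 301 1645 .nil)) .nil)) .nil))) (.cons 229 (.leaf 228 1252 (.cons 230 (.leaf 158 1262 (.cons 277 (.leaf 254 1454 (.leaf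 301 1645 .nil)) .nil)) .nil)) (.cons 252 (.leaf 228 1438 (.cons 254 (.leaf 274 2002 (.cons 230 (.leaf 231 1817 (.leaf 277 1454 .nil)) .nil)) .nil)) .nil)))) .nil)) (.cons 183 (.leaf 208 1440 (.cons 86 (.leaf 87 666 (.cons 159 (.leaf 160 1249 (.cons 158 (.leaf 179 1241 (.cons 134 (.leaf 110 884 (.leaf 231 1079 .nil)) .nil)) .nil)) .nil)) .nil)) (.cons 183 (.leaf 208 1440 (.cons 159 (.leaf 160 1249 (.cons 135 (.cons 206 (.leaf 111 886 (.leaf 230 1078 .nil)) (.cons 110 (.leaf 134 887 (.cons 86 (.leaf 87 666 (.leaf 111 695 .nil)) .nil)) (.cons 231 (.cons 134 (.leaf 110 887 (.leaf 158 1079 .nil)) (.cons 230 (.leaf 206 1078 (.leaf 254 1270 .nil)) .nil)) .nil))) .nil)) .nil)) (.cons 183 (.leaf 208 1440 (.cons 86 (.leaf 87 666 (.cons 159 (.leaf 160 1249 (.cons 206 (.leaf 179 1432 (.cons 135 (.leaf 111 886 (.leaf 230 1078 .nil)) .nil)) .nil)) .nil)) .nil)) .nil))))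
noncomputable def t207 : T := .cons 179 (.leaf 203 862 (.cons 228 (.leaf 252 1438 (.cons 86 (.leaf 87 666 (.cons 159 (.leaf 158 1241 (.cons 183 (.leaf 160 1249 (.cons 207 (.leaf 206 1432 (.leaf 208 1440 .nil)) .nil)) .nil)) .nil)) .nil)) .nil)) (.cons 207 t206 (.cons 183 (.leaf 203 1434 (.cons 86 (.leaf 87 666 (.cons 105 (.leaf 106 649 (.cons 160 (.leaf 159 1249 (.cons 184 (.leaf 161 1257 (.cons 208 (.leaf 207 1440 (.leaf 209 1448 .nil)) .nil)) .nil)) .nil)) .nil)) .nil)) (.cons 179 (.leaf 203 862 (.cons 206 (.leaf 207 1432 (.cons 253 (.cons 252 (.leaf 228 1438 (.cons 254 (.leaf 274 2002 (.cons 230 (.leaf 231 1817 (.leaf 277 1454 .nil)) .nil)) .nil)) (.cons 230 (.cons 158 (.leaf 159 1241 (.leaf 229 1262 .nil)) (.cons 254 (.leaf 277 1454 (.cons 252 (.leaf 274 2002 (.leaf 231 1817 .nil)) .nil)) .nil)) (.cons 158 (.leaf 159 1241 (.cons 229 (.leaf 228 1252 (.leaf 230 1262 .nil)) .nil))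 (.cons 228 (.leaf 252 1438 (.leaf 229 1252 .nil)) .nil)))) .nil)) .nil)) (.cons 203 (.leaf 183 1434 (.leaf 179 862 .nil)) .nil))))
noncomputable def t208 : T := .cons 131 (.leaf 107 863 (.cons 133 (.leaf 109 869 (.cons 130 (.cons 105 (.leaf 106 843 (.cons 104 (.leaf 129 835 (.cons 154 (.leaf 153 1034 (.cons 134 (.leaf 155 1042 (.cons 111 (.leaf 110 857 (.cons 135 (.leaf 112 865 (.cons 159 (.leaf 158 1048 (.leaf 160 1056 .nil)) .nil)) .nil)) .nil)) .nil)) .nil)) .nil)) (.cons 105 (.leaf 106 843 (.cons 153 (.leaf 154 1034 (.cons 158 (.leaf 157 1040 (.cons 134 (.leaf 159 1048 (.cons 111 (.leaf 110 857 (.cons 135 (.leaf 155 1050 (.leaf 112 865 .nil)) .nil)) .nil)) .nil)) .nil)) .nil)) (.cons 105 (.leaf 106 843 (.cons 129 (.leaf 157 1032 (.leaf 104 835 .nil)) .nil)) (.cons 157 (.leaf 129 1032 (.leaf 158 1040 .nil)) .nil)))) .nil)) .nil)) (.cons 109 (.leaf 133 869 (.cons 108 (.leaf 85 677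 (.cons 179 (.leaf 203 862 (.cons 157 (.cons 84 (.leaf 155 670 (.leaf 181 676 .nil)) (.cons 158 (.leaf 159 1242 (.cons 178 (.leaf 177 1225 (.leaf 181 1233 .nil)) .nil)) (.cons 158 (.leaf 159 1242 (.cons 178 (.leaf 177 1225 (.leaf 155 1234 .nil)) .nil)) .nil))) .nil)) .nil)) .nil)) (.cons 107 (.leaf 131 863 (.cons 108 (.leaf 83 671 (.cons 179 (.leaf 203 862 (.cons 84 (.leaf 155 670 (.cons 61 (.leaf 85 485 (.cons 60 (.leaf 37 293 (.cons 157 (.leaf 181 676 (.leaf 133 484 .nil)) .nil)) .nil)) .nil)) .nil)) .nil)) .nil)) (.cons 107 (.leaf 131 863 (.cons 108 (.leaf 83 671 (.cons 85 (.leaf 109 677 (.cons 84 (.leaf 61 485 (.cons 179 (.leaf 203 862 (.leaf 155 670 .nil)) .nil)) .nil)) .nil)) .nil)) (.cons 109 (.leaf 133 869 (.cons 107 (.leaf 131 863 (.cons 108 (.leaf 83 671 (.leaf 85 677 .nil)) .nil)) .nil)) .nil))))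
noncomputable def t209 : T := .cons 228 (.leaf 252 1438 (.cons 229 (.leaf 253 1252 (.cons 132 (.cons 131 (.leaf 107 863 (.leaf 155 1055 .nil)) (.cons 133 (.leaf 109 869 (.leaf 157 1061 .nil)) .nil)) .nil)) .nil)) (.cons 132 t208 (.cons 228 (.leaf 252 1438 (.cons 155 (.leaf 131 1055 (.cons 157 (.leaf 133 1061 (.cons 229 (.leaf 253 1252 (.cons 154 (.cons 129 (.leaf 130 1035 (.cons 153 (.leaf 181 1224 (.leaf 128 1027 .nil)) .nil)) (.cons 129 (.leaf 130 1035 (.cons 153 (.leaf 128 1027 (.cons 177 (.leaf 176 1218 (.leaf 178 1226 .nil)) .nil)) .nil)) (.cons 129 (.leaf 130 1035 (.cons 182 (.leaf 181 1232 (.cons 158 (.leaf 183 1240 (.cons 178 (.leaf 177 1226 (.leaf 179 1234 .nil)) .nil)) .nil)) .nil)) (.cons 181 (.leaf 153 1224 (.leaf 182 1232 .nil)) .nil)))) .nil)) .nil)) .nil)) .nil)) (.cons 132 (.cons 228 (.leaf 252 1438 (.cons 133 (.leaf 109 869 (.leaf 157 1061 .nil)) .nil)) (.cons 109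 (.leaf 133 869 (.cons 107 (.leaf 131 863 (.cons 108 (.leaf 83 671 (.leaf 85 677 .nil)) .nil)) .nil)) (.cons 107 (.leaf 131 863 (.cons 108 (.leaf 83 671 (.cons 85 (.leaf 109 677 (.cons 84 (.leaf 61 485 (.cons 181 (.leaf 157 676 (.cons 182 t207 .nil)) .nil)) .nil)) .nil)) .nil)) (.cons 228 (.leaf 252 1438 (.cons 107 (.leaf 131 863 (.cons 108 (.leaf 83 671 (.cons 157 (.leaf 133 1061 (.cons 179 (.leaf 203 862 (.cons 158 (.leaf 159 1242 (.cons 178 (.leaf 177 1225 (.leaf 181 1233 .nil)) .nil)) .nil)) .nil)) .nil)) .nil)) .nil)) .nil)))) (.cons 228 (.leaf 252 1438 (.cons 229 (.leaf 253 1252 (.cons 132 (.cons 107 (.leaf 131 863 (.cons 108 (.leaf 83 671 (.cons 109 (.leaf 133 869 (.leaf 85 677 .nil)) .nil)) .nil)) (.cons 109 (.leaf 133 869 (.cons 108 (.leaf 85 677 (.cons 83 (.leaf 107 671 (.cons 84 (.leaf 59 479 (.cons 179 (.leaf 203 862 (.leaf 155 670 .nil)) .nil)) .nil)) .nil)) .nil)) (.cons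 109 (.leaf 133 869 (.cons 108 (.leaf 85 677 (.cons 155 (.leaf 131 1055 (.cons 179 (.leaf 203 862 (.leaf 84 670 .nil)) .nil)) .nil)) .nil)) (.cons 131 (.leaf 107 863 (.leaf 155 1055 .nil)) .nil)))) .nil)) .nil)) (.cons 228 (.leaf 252 1438 (.cons 132 t205 .nil)) (.cons 228 (.leaf 252 1438 (.cons 229 (.leaf 253 1252 (.cons 179 t201 .nil)) .nil)) .nil))))))
noncomputable def t210 : T := .cons 229 (.leaf 253 1252 (.cons 157 (.leaf 133 1061 (.cons 155 (.leaf 131 1055 (.cons 154 (.cons 177 (.leaf 178 1226 (.cons 129 (.leaf 130 1035 (.cons 153 (.leaf 181 1224 (.leaf 128 1027 .nil)) .nil)) .nil)) (.cons 177 (.leaf 178 1226 (.cons 129 (.leaf 130 1035 (.cons 153 (.leaf 128 1027 (.leaf 176 1218 .nil)) .nil)) .nil)) (.cons 129 (.leaf 130 1035 (.cons 181 (.leaf 182 1232 (.cons 205 (.leaf 132 1060 (.cons 134 (.leaf 158 1069 (.cons 230 (.leaf 254 1260 (.cons 203 (.leaf 202 1616 (.leaf 231 1627 .nil))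 .nil)) .nil)) .nil)) .nil)) .nil)) (.cons 181 (.leaf 153 1224 (.leaf 182 1232 .nil)) .nil)))) .nil)) .nil)) .nil)) (.cons 133 (.leaf 157 1061 (.cons 131 (.leaf 155 1055 (.cons 132 (.leaf 107 863 (.leaf 109 869 .nil)) .nil)) .nil)) (.cons 229 (.leaf 253 1252 (.cons 131 (.leaf 155 1055 (.cons 132 (.leaf 107 863 (.leaf 205 1060 .nil)) .nil)) .nil)) (.cons 229 (.leaf 253 1252 (.cons 132 (.leaf 205 1060 (.cons 133 (.leaf 109 869 (.leaf 157 1061 .nil)) .nil)) .nil)) (.cons 229 (.leaf 253 1252 (.cons 157 (.leaf 133 1061 (.cons 155 (.leaf 131 1055 (.cons 154 (.cons 177 (.leaf 178 1226 (.cons 129 (.leaf 130 1035 (.cons 153 (.leaf 181 1224 (.leaf 128 1027 .nil)) .nil)) .nil)) (.cons 177 (.leaf 178 1226 (.cons 129 (.leaf 130 1035 (.cons 153 (.leaf 128 1027 (.leaf 176 1218 .nil)) .nil)) .nil)) (.cons 129 (.leaf 130 1035 (.cons 182 (.leaf 181 1232 (.cons 158 (.leaf 183 1240 (.cons 134 (.leaf 135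 1049 (.cons 206 (.leaf 205 1070 (.cons 231 (.leaf 207 1076 (.cons 230 (.leaf 203 1627 (.leaf 255 1268 .nil)) .nil)) .nil)) .nil)) .nil)) .nil)) .nil)) (.cons 181 (.leaf 153 1224 (.leaf 182 1232 .nil)) .nil)))) .nil)) .nil)) .nil)) .nil))))
noncomputable def t211 : T := .leaf 274 2002 (.cons 255 (.cons 280 (.leaf 279 2016 (.cons 256 (.leaf 281 2024 (.cons 233 (.leaf 232 1833 (.cons 257 (.leaf 234 1841 (.cons 229 (.leaf 230 1835 (.cons 205 (.leaf 277 1447 (.cons 185 (.leaf 209 1478 (.cons 206 (.cons 179 (.leaf 207 1435 (.cons 178 (.leaf 177 1416 (.leaf 203 1427 .nil)) .nil)) (.cons 182 (.cons 158 (.leaf 181 1261 (.leaf 134 1070 .nil)) (.cons 183 (.leaf 203 1433 (.leaf 184 1450 .nil)) .nil)) (.cons 179 (.leaf 207 1435 (.cons 178 (.leaf 177 1416 (.leaf 181 1424 .nil)) .nil)) .nil))) .nil)) .nil)) .nil)) .nil)) .nil)) .nil)) .nil)) (.cons 280 (.leaf 279 2016 (.cons 230 (.leaf 231 1817 (.cons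 256 (.leaf 281 2024 (.cons 229 (.leaf 257 1835 (.cons 205 (.leaf 277 1447 (.cons 181 (.leaf 157 1260 (.cons 182 (.leaf 158 1261 (.cons 203 (.leaf 183 1434 (.leaf 202 1616 .nil)) .nil)) .nil)) .nil)) .nil)) .nil)) .nil)) .nil)) (.cons 232 (.leaf 231 1825 (.cons 256 (.leaf 233 1833 (.cons 280 (.leaf 279 2016 (.leaf 281 2024 .nil)) .nil)) .nil)) (.cons 231 (.leaf 230 1817 (.leaf 232 1825 .nil)) .nil)))) .nil)
noncomputable def t212 : T := .cons 232 (.leaf 231 1825 (.cons 256 (.leaf 233 1833 (.cons 277 (.leaf 229 1447 (.cons 257 (.leaf 278 2026 (.cons 281 (.leaf 280 2024 (.leaf 282 2032 .nil)) .nil)) .nil)) .nil)) .nil)) (.cons 207 (.cons 206 (.leaf 179 1435 (.cons 183 (.leaf 184 1441 (.cons 182 (.leaf 203 1433 (.cons 208 (.leaf 181 1440 (.cons 231 (.leaf 232 1632 (.leaf 278 1462 .nil)) .nil)) .nil)) .nil)) .nil)) (.cons 231 (.leaf 232 1825 (.cons 183 (.leaf 278 1462 (.cons 158 (.leaf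 182 1271 (.cons 159 (.leaf 134 1079 (.cons 160 (.leaf 184 1277 (.leaf 136 1085 .nil)) .nil)) .nil)) .nil)) .nil)) (.cons 206 (.leaf 179 1435 (.cons 183 (.leaf 184 1441 (.cons 182 (.leaf 203 1433 (.cons 208 (.leaf 181 1440 (.cons 209 (.leaf 210 1459 (.cons 233 (.leaf 232 1640 (.leaf 234 1648 .nil)) .nil)) .nil)) .nil)) .nil)) .nil)) (.cons 206 (.leaf 179 1435 (.cons 181 (.leaf 208 1443 (.cons 183 (.leaf 184 1441 (.cons 182 (.leaf 203 1433 (.cons 231 (.leaf 278 1462 (.leaf 158 1271 .nil)) .nil)) .nil)) .nil)) .nil)) (.cons 206 (.leaf 179 1435 (.cons 232 (.leaf 231 1632 (.cons 208 (.leaf 181 1443 (.leaf 233 1640 .nil)) .nil)) .nil)) .nil))))) (.cons 229 (.leaf 277 1447 (.cons 181 (.leaf 278 1452 (.cons 182 (.leaf 158 1261 (.cons 183 (.leaf 203 1434 (.leaf 184 1442 .nil)) .nil)) .nil)) .nil)) (.cons 232 (.leaf 231 1825 (.cons 256 (.leaf 233 1833 (.cons 281 (.leaf 280 2024 (.cons 257 (.leaf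 282 2032 (.cons 184 (.leaf 208 1476 (.cons 229 (.leaf 277 1447 (.cons 206 (.cons 183 (.leaf 207 1441 (.cons 182 (.leaf 181 1442 (.leaf 203 1433 .nil)) .nil)) (.cons 182 (.cons 183 (.leaf 181 1442 (.leaf 203 1433 .nil)) (.cons 158 (.leaf 181 1261 (.leaf 134 1070 .nil)) (.cons 183 (.leaf 203 1433 (.leaf 185 1450 .nil)) .nil))) (.cons 179 (.leaf 207 1435 (.cons 178 (.leaf 177 1416 (.leaf 203 1427 .nil)) .nil)) (.cons 179 (.leaf 207 1435 (.cons 178 (.leaf 177 1416 (.leaf 181 1424 .nil)) .nil)) .nil)))) .nil)) .nil)) .nil)) .nil)) .nil)) .nil)) .nil)))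
noncomputable def t213 : T := .cons 278 (.leaf 279 2008 (.cons 205 (.cons 207 (.cons 229 (.leaf 277 1447 (.leaf 181 1452 .nil)) (.cons 231 (.leaf 232 1825 (.leaf 183 1462 .nil)) .nil)) (.cons 207 (.cons 231 (.leaf 232 1825 (.leaf 183 1462 .nil)) (.cons 206 (.leaf 179 1435 (.cons 183 (.leaf 184 1441 (.cons 182 (.leaf 203 1433 (.cons 208 (.leaf 181 1440 (.cons 209 (.leaf 210 1459 (.cons 233 (.leaf 232 1640 (.leaf 234 1648 .nil)) .nil)) .nil)) .nil)) .nil)) .nil)) (.cons 206 (.leaf 179 1435 (.cons 232 (.leaf 231 1632 (.cons 208 (.leaf 181 1443 (.leaf 233 1640 .nil)) .nil)) .nil)) (.cons 206 (.leaf 179 1435 (.cons 183 (.leaf 184 1441 (.leaf 231 1462 .nil)) .nil)) .nil)))) (.cons 277 (.leaf 229 1447 (.cons 256 (.leaf 257 2026 (.cons 232 (.leaf 231 1825 (.leaf 233 1833 .nil)) .nil)) .nil)) (.cons 229 (.leaf 277 1447 (.leaf 181 1452 .nil)) .nil)))) .nil)) (.cons 205 t212 (.cons 232 (.leaf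 231 1825 (.cons 256 (.leaf 233 1833 (.cons 280 (.leaf 279 2016 (.leaf 281 2024 .nil)) .nil)) .nil)) (.cons 279 (.leaf 278 2008 (.leaf 280 2016 .nil)) .nil)))
noncomputable def t214 : T := .cons 203 (.cons 230 (.leaf 231 1624 (.cons 182 (.leaf 183 1433 (.cons 202 (.leaf 181 1425 (.leaf 229 1616 .nil)) .nil)) .nil)) (.cons 182 (.leaf 183 1433 (.cons 202 (.leaf 181 1425 (.cons 225 (.leaf 226 1610 (.cons 201 (.leaf 224 1602 (.cons 176 (.leaf 177 1411 (.cons 200 (.leaf 179 1409 (.leaf 175 1403 .nil)) .nil)) .nil)) .nil)) .nil)) .nil)) (.cons 230 (.leaf 231 1624 (.cons 181 (.leaf 278 1455 (.cons 157 (.leaf 229 1260 (.leaf 133 1068 .nil)) .nil)) .nil)) (.cons 182 (.leaf 183 1433 (.cons 230 (.leaf 231 1624 (.cons 202 (.leaf 229 1616 (.cons 177 (.leaf 178 1419 (.cons 201 (.leaf 176 1411 (.cons 225 (.leaf 224 1602 (.leaf 226 1610 .nil)) .nil)) .nil)) .nil)) .nil)) .nil)) .nil)))) (.cons 203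 (.cons 230 (.leaf 231 1624 (.cons 182 (.leaf 183 1433 (.cons 202 (.leaf 181 1425 (.leaf 229 1616 .nil)) .nil)) .nil)) (.cons 182 (.leaf 183 1433 (.cons 202 (.leaf 181 1425 (.cons 225 (.leaf 226 1610 (.cons 177 (.leaf 178 1419 (.cons 201 (.leaf 176 1411 (.leaf 224 1602 .nil)) .nil)) .nil)) .nil)) .nil)) (.cons 230 (.leaf 231 1624 (.cons 181 (.leaf 278 1455 (.cons 157 (.leaf 229 1260 (.leaf 133 1068 .nil)) .nil)) .nil)) (.cons 182 (.leaf 183 1433 (.cons 230 (.leaf 231 1624 (.cons 202 (.leaf 229 1616 (.cons 177 (.leaf 178 1419 (.cons 201 (.leaf 176 1411 (.cons 225 (.leaf 224 1602 (.leaf 226 1610 .nil)) .nil)) .nil)) .nil)) .nil)) .nil)) .nil)))) (.cons 179 (.leaf 207 1435 (.cons 178 (.leaf 177 1416 (.leaf 203 1427 .nil)) .nil)) (.cons 207 (.leaf 179 1435 (.cons 181 (.leaf 208 1443 (.cons 230 (.leaf 278 1455 (.cons 157 (.leaf 182 1263 (.leaf 229 1260 .nil)) .nil)) .nil)) .nil)) .nil)))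
noncomputable def t215 : T := .cons 207 (.leaf 179 1435 (.cons 181 (.leaf 208 1443 (.cons 183 (.leaf 184 1441 (.cons 182 (.leaf 203 1433 (.cons 159 (.leaf 160 1249 (.leaf 230 1269 .nil)) .nil)) .nil)) .nil)) .nil)) (.cons 181 (.cons 207 (.leaf 208 1443 (.cons 183 (.leaf 184 1441 (.cons 182 (.leaf 203 1433 (.cons 159 (.leaf 160 1249 (.leaf 230 1269 .nil)) .nil)) .nil)) .nil)) (.cons 207 (.leaf 208 1443 (.cons 183 (.leaf 184 1441 (.cons 182 (.leaf 203 1433 (.cons 159 (.leaf 160 1249 (.cons 135 (.leaf 111 886 (.cons 134 (.leaf 110 887 (.cons 158 (.leaf 229 1070 (.cons 136 (.leaf 112 893 (.cons 137 (.leaf 138 1074 (.leaf 157 1066 .nil)) .nil)) .nil)) .nil)) .nil)) .nil)) .nil)) .nil)) .nil)) (.cons 230 (.leaf 278 1455 (.cons 157 (.leaf 229 1260 (.leaf 133 1068 .nil)) .nil)) .nil))) (.cons 181 (.cons 179 (.leaf 178 1424 (.cons 182 (.cons 203 (.leaf 183 1433 (.leaf 202 1425 .nil)) (.cons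 154 (.leaf 155 1235 (.cons 158 (.leaf 159 1241 (.cons 134 (.leaf 229 1070 (.leaf 110 878 .nil)) .nil)) .nil)) .nil)) .nil)) (.cons 230 (.leaf 278 1455 (.cons 157 (.leaf 182 1263 (.leaf 229 1260 .nil)) .nil)) (.cons 230 (.leaf 278 1455 (.cons 157 (.leaf 229 1260 (.leaf 133 1068 .nil)) .nil)) (.cons 179 (.leaf 178 1424 (.cons 230 (.leaf 278 1455 (.cons 157 (.leaf 182 1263 (.leaf 133 1068 .nil)) .nil)) .nil)) .nil)))) (.cons 179 (.leaf 207 1435 (.cons 178 (.leaf 177 1416 (.leaf 203 1427 .nil)) .nil)) (.cons 207 (.leaf 179 1435 (.cons 181 (.leaf 208 1443 (.cons 230 (.leaf 278 1455 (.cons 157 (.leaf 182 1263 (.leaf 229 1260 .nil)) .nil)) .nil)) .nil)) .nil))))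
noncomputable def t216 : T := .cons 181 (.leaf 278 1455 (.cons 157 (.leaf 182 1263 (.leaf 229 1260 .nil)) .nil)) (.cons 278 (.cons 301 (.leaf 277 1646 (.cons 302 (.leaf 229 1647 (.leaf 325 1838 .nil)) .nil)) (.cons 279 (.leaf 303 1652 (.cons 182 (.leaf 255 1460 (.cons 159 (.leaf 183 1269 (.cons 158 (.leaf 135 1077 (.cons 133 (.leaf 157 1071 (.cons 134 (.leaf 109 879 (.leaf 229 1070 .nil)) .nil)) .nil)) .nil)) .nil)) .nil)) (.cons 279 (.leaf 303 1652 (.cons 255 (.leaf 182 1460 (.cons 301 (.leaf 277 1646 (.cons 302 (.leaf 325 1838 (.cons 326 (.leaf 231 1845 (.leaf 350 2037 .nil)) .nil)) .nil)) .nil)) .nil)) .nil))) (.cons 182 (.cons 159 (.leaf 183 1269 (.cons 158 (.leaf 135 1077 (.cons 133 (.leaf 157 1071 (.cons 134 (.leaf 109 879 (.leaf 229 1070 .nil)) .nil)) .nil)) .nil)) (.cons 159 (.leaf 183 1269 (.cons 158 (.leaf 135 1077 (.cons 255 (.leaf 279 1460 (.leaf 231 1268 .nil)) .nil))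 .nil)) (.cons 157 (.leaf 181 1263 (.cons 158 (.leaf 133 1071 (.cons 255 (.leaf 279 1460 (.leaf 231 1268 .nil)) .nil)) .nil)) (.cons 181 (.leaf 157 1263 (.cons 183 (.leaf 184 1442 (.leaf 159 1269 .nil)) .nil)) .nil)))) (.cons 181 (.leaf 278 1455 (.cons 157 (.leaf 229 1260 (.leaf 133 1068 .nil)) .nil)) (.cons 278 (.leaf 181 1455 (.cons 301 (.leaf 277 1646 (.cons 302 (.leaf 229 1647 (.leaf 325 1838 .nil)) .nil)) .nil)) (.cons 182 (.cons 159 (.leaf 183 1269 (.cons 158 (.leaf 135 1077 (.cons 255 (.leaf 279 1460 (.leaf 231 1268 .nil)) .nil)) .nil)) (.cons 157 (.leaf 181 1263 (.cons 158 (.leaf 133 1071 (.cons 255 (.leaf 279 1460 (.leaf 231 1268 .nil)) .nil)) .nil)) (.cons 181 (.leaf 157 1263 (.leaf 278 1455 .nil)) .nil))) .nil)))))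
noncomputable def t217 : T := .cons 203 (.cons 178 (.leaf 179 1427 (.cons 202 (.leaf 177 1419 (.cons 201 (.leaf 181 1417 (.cons 225 (.leaf 224 1602 (.leaf 226 1610 .nil)) .nil)) .nil)) .nil)) (.cons 182 (.leaf 183 1433 (.cons 230 (.leaf 231 1624 (.cons 202 (.leaf 181 1425 (.leaf 229 1616 .nil)) .nil)) .nil)) (.cons 178 (.leaf 179 1427 (.cons 202 (.leaf 177 1419 (.cons 230 (.leaf 229 1616 (.leaf 231 1624 .nil)) .nil)) .nil)) (.cons 178 (.leaf 179 1427 (.cons 182 (.leaf 183 1433 (.cons 230 (.leaf 231 1624 (.cons 157 (.leaf 181 1263 (.cons 158 (.leaf 133 1071 (.cons 134 (.leaf 229 1070 (.cons 135 (.leaf 111 885 (.leaf 159 1077 .nil)) .nil)) .nil)) .nil)) .nil)) .nil)) .nil)) .nil)))) (.cons 207 (.cons 181 (.leaf 208 1443 (.cons 231 (.leaf 232 1632 (.cons 203 (.leaf 230 1624 (.cons 182 (.leaf 183 1433 (.leaf 202 1425 .nil)) .nil)) .nil)) .nil)) (.cons 183 (.leaf 184 1441 (.cons 182 (.leaf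 203 1433 (.cons 231 (.leaf 232 1632 (.cons 255 (.leaf 279 1463 (.leaf 158 1271 .nil)) .nil)) .nil)) .nil)) (.cons 208 (.leaf 181 1443 (.cons 232 (.leaf 231 1632 (.leaf 233 1640 .nil)) .nil)) (.cons 208 (.leaf 181 1443 (.cons 185 (.leaf 184 1449 (.cons 209 (.leaf 186 1457 (.cons 233 (.leaf 232 1640 (.leaf 234 1648 .nil)) .nil)) .nil)) .nil)) (.cons 183 (.leaf 184 1441 (.cons 181 (.leaf 208 1443 (.cons 182 (.leaf 203 1433 (.cons 159 (.leaf 160 1249 (.leaf 230 1269 .nil)) .nil)) .nil)) .nil)) .nil))))) (.cons 207 (.leaf 179 1435 (.cons 183 (.leaf 184 1441 (.cons 182 (.leaf 203 1433 (.cons 231 (.leaf 232 1632 (.cons 255 (.leaf 279 1463 (.leaf 158 1271 .nil)) .nil)) .nil)) .nil)) .nil)) (.cons 207 (.leaf 179 1435 (.cons 208 (.leaf 181 1443 (.cons 232 (.leaf 231 1632 (.leaf 233 1640 .nil)) .nil)) .nil)) (.cons 179 (.leaf 207 1435 (.cons 178 (.leaf 177 1416 (.leaf 203 1427 .nil)) .nil)) .nil))))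
noncomputable def t218 : T := .cons 207 (.leaf 179 1435 (.cons 208 (.leaf 181 1443 (.cons 232 (.leaf 231 1632 (.leaf 233 1640 .nil)) .nil)) .nil)) (.cons 207 (.cons 208 (.leaf 181 1443 (.cons 232 (.leaf 231 1632 (.leaf 233 1640 .nil)) .nil)) (.cons 231 (.leaf 232 1632 (.cons 230 (.leaf 203 1624 (.cons 278 (.leaf 181 1455 (.leaf 302 1653 .nil)) .nil)) .nil)) (.cons 208 (.leaf 181 1443 (.cons 185 (.leaf 184 1449 (.cons 209 (.leaf 186 1457 (.cons 233 (.leaf 232 1640 (.leaf 234 1648 .nil)) .nil)) .nil)) .nil)) (.cons 231 (.leaf 232 1632 (.cons 230 (.leaf 203 1624 (.cons 278 (.leaf 302 1653 (.cons 277 (.leaf 301 1646 (.cons 279 (.leaf 303 1652 (.cons 255 (.leaf 182 1460 (.cons 208 (.leaf 184 1469 (.cons 209 (.leaf 229 1642 (.leaf 210 1650 .nil)) .nil)) .nil)) .nil)) .nil)) .nil)) .nil)) .nil)) (.cons 181 (.leaf 208 1443 (.cons 230 (.leaf 278 1455 (.cons 157 (.leaf 182 1263 (.leaf 229 1260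 .nil)) .nil)) .nil)) .nil))))) (.cons 203 (.cons 178 (.leaf 179 1427 (.cons 202 (.leaf 177 1419 (.cons 201 (.leaf 181 1417 (.cons 225 (.leaf 224 1602 (.leaf 226 1610 .nil)) .nil)) .nil)) .nil)) (.cons 230 (.leaf 231 1624 (.cons 181 (.leaf 278 1455 (.cons 157 (.leaf 182 1263 (.leaf 229 1260 .nil)) .nil)) .nil)) (.cons 178 (.leaf 179 1427 (.cons 202 (.leaf 177 1419 (.cons 230 (.leaf 229 1616 (.leaf 231 1624 .nil)) .nil)) .nil)) .nil))) (.cons 179 (.leaf 207 1435 (.cons 178 (.leaf 177 1416 (.leaf 203 1427 .nil)) .nil)) .nil)))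
noncomputable def t219 : T := .cons 207 (.leaf 179 1435 (.cons 183 (.leaf 184 1441 (.cons 230 (.leaf 278 1461 (.cons 231 (.leaf 203 1624 (.leaf 232 1632 .nil)) .nil)) .nil)) .nil)) (.cons 203 (.cons 178 (.leaf 179 1427 (.cons 202 (.leaf 177 1419 (.cons 201 (.leaf 181 1417 (.cons 225 (.leaf 224 1602 (.leaf 226 1610 .nil)) .nil)) .nil)) .nil)) (.cons 230 (.leaf 231 1624 (.cons 181 (.leaf 278 1455 (.cons 157 (.leaf 229 1260 (.leaf 133 1068 .nil)) .nil)) .nil)) (.cons 178 (.leaf 179 1427 (.cons 202 (.leaf 177 1419 (.cons 230 (.leaf 229 1616 (.leaf 231 1624 .nil)) .nil)) .nil)) .nil))) (.cons 207 (.cons 183 (.leaf 184 1441 (.cons 230 (.leaf 278 1461 (.cons 231 (.leaf 203 1624 (.leaf 232 1632 .nil)) .nil)) .nil)) (.cons 181 (.leaf 208 1443 (.cons 230 (.leaf 278 1455 (.cons 157 (.leaf 229 1260 (.leaf 133 1068 .nil)) .nil)) .nil)) (.cons 208 (.leaf 181 1443 (.cons 232 (.leaf 231 1632 (.leaf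 233 1640 .nil)) .nil)) .nil))) (.cons 207 (.leaf 179 1435 (.cons 208 (.leaf 181 1443 (.cons 232 (.leaf 231 1632 (.leaf 233 1640 .nil)) .nil)) .nil)) (.cons 207 (.leaf 179 1435 (.cons 181 (.leaf 208 1443 (.cons 230 (.leaf 278 1455 (.cons 157 (.leaf 229 1260 (.leaf 133 1068 .nil)) .nil)) .nil)) .nil)) .nil))))
noncomputable def t220 : T := .cons 179 (.leaf 178 1427 (.cons 182 (.leaf 183 1433 (.cons 230 (.leaf 231 1624 (.cons 279 (.leaf 255 1460 (.cons 278 (.leaf 303 1652 (.cons 301 (.leaf 277 1646 (.cons 302 (.leaf 229 1647 (.leaf 325 1838 .nil)) .nil)) .nil)) .nil)) .nil)) .nil)) .nil)) (.cons 182 (.leaf 183 1433 (.cons 202 (.cons 225 (.leaf 226 1610 (.cons 201 (.leaf 224 1602 (.cons 176 (.leaf 177 1411 (.cons 200 (.leaf 179 1409 (.leaf 175 1403 .nil)) .nil)) .nil)) .nil)) (.cons 225 (.leaf 226 1610 (.cons 177 (.leaf 178 1419 (.cons 201 (.leaf 176 1411 (.leaf 224 1602 .nil)) .nil))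 .nil)) (.cons 179 (.leaf 178 1427 (.cons 201 (.leaf 200 1409 (.cons 225 (.leaf 224 1602 (.leaf 226 1610 .nil)) .nil)) .nil)) (.cons 178 (.leaf 177 1419 (.leaf 179 1427 .nil)) .nil)))) .nil)) (.cons 230 (.leaf 231 1624 (.cons 182 (.leaf 183 1433 (.cons 202 (.leaf 229 1616 (.cons 225 (.leaf 226 1610 (.cons 201 (.leaf 224 1602 (.cons 176 (.leaf 177 1411 (.cons 200 (.leaf 179 1409 (.leaf 175 1403 .nil)) .nil)) .nil)) .nil)) .nil)) .nil)) .nil)) (.cons 230 (.leaf 231 1624 (.cons 182 (.leaf 183 1433 (.cons 202 (.leaf 229 1616 (.cons 177 (.leaf 178 1419 (.cons 201 (.leaf 176 1411 (.cons 225 (.leaf 224 1602 (.leaf 226 1610 .nil)) .nil)) .nil)) .nil)) .nil)) .nil)) (.cons 178 (.leaf 179 1427 (.cons 202 (.leaf 177 1419 (.cons 230 (.leaf 229 1616 (.leaf 231 1624 .nil)) .nil)) .nil)) .nil))))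
noncomputable def t221 : T := .cons 203 (.cons 230 (.leaf 231 1624 (.cons 182 (.leaf 183 1433 (.cons 202 (.leaf 229 1616 (.cons 177 (.leaf 178 1419 (.cons 201 (.leaf 176 1411 (.cons 225 (.leaf 224 1602 (.leaf 226 1610 .nil)) .nil)) .nil)) .nil)) .nil)) .nil)) (.cons 179 (.leaf 178 1427 (.leaf 207 1435 .nil)) (.cons 207 (.leaf 179 1435 (.cons 183 (.leaf 182 1433 (.leaf 184 1441 .nil)) .nil)) .nil))) (.cons 203 t220 (.cons 183 (.cons 207 (.leaf 184 1441 (.cons 230 (.leaf 278 1461 (.cons 231 (.leaf 203 1624 (.leaf 232 1632 .nil)) .nil)) .nil)) (.cons 182 (.leaf 203 1433 (.cons 184 (.leaf 185 1450 (.cons 230 (.leaf 159 1269 (.cons 279 (.leaf 255 1460 (.cons 278 (.leaf 303 1652 (.cons 302 (.leaf 229 1647 (.cons 301 (.leaf 277 1646 (.leaf 325 1838 .nil)) .nil)) .nil)) .nil)) .nil)) .nil)) .nil)) (.cons 182 (.leaf 203 1433 (.cons 230 (.leaf 159 1269 (.cons 207 (.leaf 278 1461 (.cons 231 (.leaf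 232 1632 (.cons 255 (.leaf 279 1460 (.leaf 158 1268 .nil)) .nil)) .nil)) .nil)) .nil)) (.cons 207 (.leaf 184 1441 (.cons 182 (.leaf 203 1433 (.cons 231 (.leaf 232 1632 (.cons 255 (.leaf 278 1462 (.leaf 279 1463 .nil)) .nil)) .nil)) .nil)) (.cons 207 (.leaf 184 1441 (.cons 230 (.leaf 278 1461 (.cons 159 (.leaf 182 1269 (.leaf 231 1270 .nil)) .nil)) .nil)) (.cons 207 (.leaf 184 1441 (.cons 182 (.leaf 203 1433 (.cons 231 (.leaf 232 1632 (.cons 255 (.leaf 279 1463 (.leaf 158 1271 .nil)) .nil)) .nil)) .nil)) .nil)))))) (.cons 207 (.leaf 179 1435 (.cons 183 (.leaf 184 1441 (.cons 230 (.leaf 278 1461 (.cons 159 (.leaf 182 1269 (.leaf 231 1270 .nil)) .nil)) .nil)) .nil)) (.cons 207 (.leaf 179 1435 (.cons 183 (.leaf 184 1441 (.cons 182 (.leaf 203 1433 (.cons 231 (.leaf 232 1632 (.cons 255 (.leaf 278 1462 (.leaf 279 1463 .nil)) .nil)) .nil)) .nil)) .nil)) (.cons 207 (.leaf 179 1435 (.cons 183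 (.leaf 184 1441 (.cons 230 (.leaf 278 1461 (.cons 159 (.leaf 182 1269 (.leaf 135 1078 .nil)) .nil)) .nil)) .nil)) (.cons 179 (.leaf 207 1435 (.cons 178 (.leaf 177 1416 (.leaf 203 1427 .nil)) .nil)) .nil))))))
noncomputable def t222 : T := .cons 278 (.cons 181 (.leaf 205 1455 (.cons 301 (.leaf 277 1646 (.cons 302 (.leaf 325 1838 (.cons 303 (.leaf 279 1652 (.leaf 327 1844 .nil)) .nil)) .nil)) .nil)) (.cons 183 (.leaf 207 1461 (.cons 301 (.leaf 277 1646 (.cons 302 (.leaf 325 1838 (.cons 303 (.leaf 279 1652 (.leaf 327 1844 .nil)) .nil)) .nil)) .nil)) (.cons 205 (.leaf 181 1455 (.cons 302 (.leaf 229 1647 (.cons 301 (.leaf 277 1646 (.leaf 325 1838 .nil)) .nil)) .nil)) (.cons 205 (.leaf 181 1455 (.cons 203 (.leaf 231 1624 (.cons 229 (.leaf 202 1616 (.leaf 302 1647 .nil)) .nil)) .nil)) (.cons 205 (.leaf 181 1455 (.cons 183 (.leaf 207 1461 (.cons 203 (.leaf 182 1433 (.leaf 231 1624 .nil)) .nil))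 .nil)) .nil))))) (.cons 182 (.cons 157 (.leaf 181 1263 (.cons 158 (.leaf 133 1071 (.cons 159 (.leaf 183 1269 (.leaf 135 1077 .nil)) .nil)) .nil)) (.cons 255 (.leaf 279 1460 (.cons 158 (.leaf 231 1268 (.cons 133 (.leaf 157 1071 (.cons 134 (.leaf 109 879 (.cons 135 (.leaf 111 885 (.leaf 159 1077 .nil)) .nil)) .nil)) .nil)) .nil)) (.cons 181 (.leaf 157 1263 (.cons 183 (.leaf 203 1434 (.cons 184 (.leaf 205 1442 (.cons 208 (.leaf 207 1440 (.leaf 209 1448 .nil)) .nil)) .nil)) .nil)) (.cons 183 (.leaf 159 1269 (.cons 203 (.leaf 181 1434 (.leaf 205 1433 .nil)) .nil)) .nil)))) (.cons 278 (.cons 205 (.leaf 181 1455 (.cons 302 (.leaf 229 1647 (.cons 301 (.leaf 277 1646 (.leaf 325 1838 .nil)) .nil)) .nil)) (.cons 183 (.leaf 207 1461 (.cons 301 (.leaf 277 1646 (.cons 302 (.leaf 325 1838 (.cons 303 (.leaf 279 1652 (.leaf 327 1844 .nil)) .nil)) .nil)) .nil)) (.cons 205 (.leaf 181 1455 (.cons 183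 (.leaf 207 1461 (.cons 203 (.leaf 231 1624 (.cons 202 (.leaf 229 1616 (.cons 177 (.leaf 178 1419 (.cons 201 (.leaf 176 1411 (.cons 225 (.leaf 224 1602 (.leaf 226 1610 .nil)) .nil)) .nil)) .nil)) .nil)) .nil)) .nil)) .nil))) (.cons 182 (.cons 159 (.leaf 183 1269 (.cons 158 (.leaf 135 1077 (.cons 255 (.leaf 279 1460 (.leaf 231 1268 .nil)) .nil)) .nil)) (.cons 157 (.leaf 181 1263 (.cons 158 (.leaf 133 1071 (.cons 255 (.leaf 279 1460 (.leaf 231 1268 .nil)) .nil)) .nil)) (.cons 183 (.leaf 159 1269 (.cons 278 (.leaf 207 1461 (.cons 301 (.leaf 277 1646 (.cons 302 (.leaf 325 1838 (.cons 303 (.leaf 279 1652 (.leaf 327 1844 .nil)) .nil)) .nil)) .nil)) .nil)) (.cons 183 (.leaf 159 1269 (.cons 181 (.leaf 203 1434 (.leaf 157 1263 .nil)) .nil)) .nil)))) (.cons 278 (.cons 181 (.leaf 205 1455 (.cons 301 (.leaf 277 1646 (.cons 302 (.leaf 325 1838 (.cons 303 (.leaf 279 1652 (.leaf 327 1844 .nil)) .nil))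 .nil)) .nil)) (.cons 279 (.leaf 303 1652 (.cons 255 (.leaf 182 1460 (.cons 301 (.leaf 277 1646 (.cons 302 (.leaf 325 1838 (.cons 326 (.leaf 231 1845 (.leaf 350 2037 .nil)) .nil)) .nil)) .nil)) .nil)) (.cons 205 (.leaf 181 1455 (.cons 302 (.leaf 229 1647 (.cons 301 (.leaf 277 1646 (.leaf 325 1838 .nil)) .nil)) .nil)) (.cons 181 (.leaf 205 1455 (.cons 182 (.leaf 157 1263 (.cons 279 (.leaf 255 1460 (.leaf 303 1652 .nil)) .nil)) .nil)) .nil)))) (.cons 278 (.cons 183 (.leaf 207 1461 (.cons 182 (.leaf 159 1269 (.cons 279 (.leaf 255 1460 (.leaf 303 1652 .nil)) .nil)) .nil)) (.cons 279 (.leaf 303 1652 (.cons 255 (.leaf 182 1460 (.cons 301 (.leaf 277 1646 (.cons 302 (.leaf 325 1838 (.cons 326 (.leaf 231 1845 (.leaf 350 2037 .nil)) .nil)) .nil)) .nil)) .nil)) (.cons 207 (.leaf 183 1461 (.cons 231 (.leaf 302 1653 (.cons 205 (.leaf 203 1624 (.leaf 232 1632 .nil)) .nil)) .nil)) .nil))) (.cons 278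 (.cons 181 (.leaf 205 1455 (.cons 301 (.leaf 277 1646 (.cons 302 (.leaf 325 1838 (.cons 303 (.leaf 279 1652 (.leaf 327 1844 .nil)) .nil)) .nil)) .nil)) (.cons 183 (.leaf 207 1461 (.cons 182 (.leaf 159 1269 (.cons 279 (.leaf 255 1460 (.leaf 303 1652 .nil)) .nil)) .nil)) (.cons 181 (.leaf 205 1455 (.cons 182 (.leaf 157 1263 (.cons 183 (.leaf 203 1434 (.leaf 159 1269 .nil)) .nil)) .nil)) .nil))) (.cons 205 (.cons 181 (.leaf 278 1455 (.cons 157 (.leaf 182 1263 (.leaf 229 1260 .nil)) .nil)) (.cons 203 (.leaf 231 1624 (.cons 182 (.leaf 183 1433 (.cons 202 (.leaf 229 1616 (.cons 177 (.leaf 178 1419 (.cons 201 (.leaf 176 1411 (.cons 225 (.leaf 224 1602 (.leaf 226 1610 .nil)) .nil)) .nil)) .nil)) .nil)) .nil)) (.cons 181 (.leaf 278 1455 (.cons 157 (.leaf 229 1260 (.leaf 133 1068 .nil)) .nil)) (.cons 181 (.leaf 278 1455 (.cons 157 (.leaf 182 1263 (.leaf 133 1068 .nil)) .nil)) .nil)))) .nil)))))))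
noncomputable def t223 : T := .cons 183 (.leaf 203 1434 (.cons 159 (.leaf 160 1249 (.cons 184 (.leaf 205 1442 (.cons 209 (.leaf 208 1448 (.cons 185 (.leaf 210 1456 (.cons 158 (.leaf 179 1241 (.leaf 157 1259 .nil)) .nil)) .nil)) .nil)) .nil)) .nil)) (.cons 179 (.cons 178 (.leaf 205 1424 (.cons 158 (.leaf 157 1233 (.leaf 159 1241 .nil)) .nil)) (.cons 155 (.leaf 154 1235 (.cons 131 (.leaf 107 860 (.cons 183 (.cons 159 (.leaf 158 1241 (.leaf 160 1249 .nil)) (.cons 184 (.leaf 205 1442 (.cons 161 (.leaf 160 1257 (.cons 185 (.leaf 162 1265 (.cons 209 (.leaf 208 1448 (.leaf 210 1456 .nil)) .nil)) .nil)) .nil)) (.cons 184 (.leaf 205 1442 (.cons 158 (.leaf 159 1241 (.cons 185 (.leaf 157 1259 (.cons 209 (.leaf 208 1448 (.leaf 210 1456 .nil)) .nil)) .nil)) .nil)) .nil))) .nil)) .nil)) (.cons 178 (.leaf 205 1424 (.cons 154 (.leaf 153 1227 (.leaf 155 1235 .nil)) .nil)) (.cons 158 (.leaf 159 1241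 (.cons 154 (.leaf 155 1235 (.cons 178 (.leaf 153 1227 (.leaf 157 1233 .nil)) .nil)) .nil)) .nil)))) (.cons 179 (.cons 178 (.leaf 205 1424 (.cons 158 (.leaf 157 1233 (.leaf 159 1241 .nil)) .nil)) (.cons 203 (.leaf 202 1426 (.cons 155 (.leaf 154 1235 (.cons 131 (.leaf 107 860 (.cons 158 (.leaf 159 1241 (.cons 130 (.leaf 106 855 (.cons 132 (.leaf 108 861 (.cons 133 (.leaf 157 1040 (.cons 109 (.leaf 134 879 (.leaf 110 849 .nil)) .nil)) .nil)) .nil)) .nil)) .nil)) .nil)) .nil)) (.cons 178 (.leaf 205 1424 (.cons 154 (.leaf 153 1227 (.leaf 155 1235 .nil)) .nil)) .nil))) (.cons 183 (.leaf 203 1434 (.cons 159 (.leaf 160 1249 (.cons 184 (.leaf 205 1442 (.cons 209 (.leaf 208 1448 (.cons 185 (.leaf 210 1456 (.cons 158 (.leaf 157 1259 (.leaf 186 1267 .nil)) .nil)) .nil)) .nil)) .nil)) .nil)) (.cons 203 (.leaf 183 1434 (.cons 202 (.leaf 201 1417 (.leaf 179 1426 .nil)) .nil)) .nil))))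
noncomputable def t224 : T := .cons 205 (.cons 183 (.leaf 203 1433 (.cons 184 (.leaf 207 1441 (.leaf 185 1450 .nil)) .nil)) (.cons 203 (.leaf 183 1433 (.cons 202 (.cons 179 (.leaf 178 1427 (.cons 201 (.leaf 200 1409 (.cons 225 (.leaf 224 1602 (.leaf 226 1610 .nil)) .nil)) .nil)) (.cons 225 (.leaf 226 1610 (.cons 201 (.leaf 224 1602 (.cons 176 (.leaf 177 1411 (.cons 200 (.leaf 179 1409 (.leaf 175 1403 .nil)) .nil)) .nil)) .nil)) (.cons 225 (.leaf 226 1610 (.cons 177 (.leaf 178 1419 (.cons 201 (.leaf 176 1411 (.leaf 224 1602 .nil)) .nil)) .nil)) (.cons 178 (.leaf 177 1419 (.leaf 179 1427 .nil)) .nil)))) .nil)) (.cons 179 (.leaf 207 1435 (.cons 178 (.leaf 177 1416 (.leaf 203 1427 .nil)) .nil)) (.cons 207 (.leaf 179 1435 (.cons 183 (.leaf 184 1441 (.cons 231 (.leaf 232 1632 (.cons 255 (.leaf 278 1462 (.leaf 279 1463 .nil)) .nil)) .nil)) .nil)) .nil)))) (.cons 181 (.cons 179 (.leaf 207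 1432 (.cons 203 (.leaf 183 1434 (.leaf 202 1426 .nil)) .nil)) (.cons 183 (.leaf 203 1434 (.cons 207 (.leaf 208 1440 (.cons 159 (.leaf 160 1249 (.cons 135 (.leaf 111 886 (.cons 134 (.leaf 110 887 (.cons 158 (.leaf 231 1076 (.cons 133 (.leaf 109 879 (.cons 136 (.leaf 112 893 (.cons 137 (.leaf 138 1074 (.leaf 157 1066 .nil)) .nil)) .nil)) .nil)) .nil)) .nil)) .nil)) .nil)) .nil)) (.cons 179 (.leaf 207 1432 (.cons 203 (.leaf 202 1426 (.cons 155 (.leaf 154 1235 (.cons 131 (.leaf 107 860 (.cons 158 (.leaf 159 1241 (.cons 130 (.leaf 106 855 (.cons 132 (.leaf 108 861 (.cons 133 (.leaf 157 1040 (.cons 109 (.leaf 134 879 (.leaf 110 849 .nil)) .nil)) .nil)) .nil)) .nil)) .nil)) .nil)) .nil)) .nil)) (.cons 203 (.leaf 183 1434 (.cons 202 (.leaf 201 1417 (.leaf 179 1426 .nil)) .nil)) (.cons 179 (.leaf 207 1432 (.cons 154 (.leaf 155 1235 (.cons 158 (.leaf 159 1241 (.cons 178 (.leaf 153 1227 (.leaf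 157 1233 .nil)) .nil)) .nil)) .nil)) .nil))))) (.cons 181 t223 (.cons 179 (.cons 205 (.leaf 207 1435 (.cons 178 (.leaf 177 1416 (.leaf 203 1427 .nil)) .nil)) (.cons 181 (.cons 178 (.leaf 205 1424 (.cons 158 (.leaf 157 1233 (.leaf 159 1241 .nil)) .nil)) (.cons 203 (.leaf 202 1426 (.cons 155 (.leaf 154 1235 (.cons 131 (.leaf 107 860 (.cons 158 (.leaf 159 1241 (.cons 130 (.leaf 106 855 (.cons 132 (.leaf 108 861 (.cons 133 (.leaf 157 1040 (.cons 109 (.leaf 134 879 (.leaf 110 849 .nil)) .nil)) .nil)) .nil)) .nil)) .nil)) .nil)) .nil)) (.cons 178 (.leaf 205 1424 (.cons 154 (.leaf 153 1227 (.leaf 155 1235 .nil)) .nil)) .nil))) (.cons 181 (.leaf 207 1432 (.cons 203 (.leaf 202 1426 (.cons 155 (.leaf 154 1235 (.cons 131 (.leaf 107 860 (.cons 158 (.leaf 159 1241 (.cons 130 (.leaf 106 855 (.cons 132 (.leaf 108 861 (.cons 133 (.leaf 157 1040 (.cons 109 (.leaf 134 879 (.leaf 110 849 .nil)) .nil))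 .nil)) .nil)) .nil)) .nil)) .nil)) .nil)) .nil)) (.cons 181 (.leaf 207 1432 (.cons 178 (.leaf 205 1424 (.cons 158 (.leaf 157 1233 (.leaf 159 1241 .nil)) .nil)) .nil)) .nil)))) (.cons 183 (.cons 181 (.leaf 203 1434 (.cons 160 (.leaf 159 1249 (.cons 184 (.leaf 205 1442 (.leaf 161 1257 .nil)) .nil)) .nil)) (.cons 205 (.leaf 203 1433 (.cons 184 (.leaf 207 1441 (.leaf 185 1450 .nil)) .nil)) (.cons 181 (.cons 160 (.leaf 159 1249 (.cons 184 (.leaf 205 1442 (.leaf 161 1257 .nil)) .nil)) (.cons 207 (.leaf 208 1440 (.cons 159 (.leaf 160 1249 (.cons 135 (.leaf 111 886 (.cons 134 (.leaf 110 887 (.cons 158 (.leaf 231 1076 (.cons 133 (.leaf 109 879 (.cons 136 (.leaf 112 893 (.cons 137 (.leaf 138 1074 (.leaf 157 1066 .nil)) .nil)) .nil)) .nil)) .nil)) .nil)) .nil)) .nil)) (.cons 184 (.leaf 205 1442 (.cons 208 (.leaf 207 1440 (.leaf 209 1448 .nil)) .nil)) .nil))) (.cons 181 (.leaf 203 1434 (.cons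 207 (.leaf 208 1440 (.cons 159 (.leaf 160 1249 (.cons 135 (.leaf 111 886 (.cons 134 (.leaf 110 887 (.cons 158 (.leaf 231 1076 (.cons 133 (.leaf 109 879 (.cons 136 (.leaf 112 893 (.cons 137 (.leaf 138 1074 (.leaf 157 1066 .nil)) .nil)) .nil)) .nil)) .nil)) .nil)) .nil)) .nil)) .nil)) .nil)))) (.cons 207 (.cons 205 (.leaf 179 1435 (.cons 183 (.leaf 184 1441 (.cons 231 (.leaf 232 1632 (.cons 255 (.leaf 278 1462 (.leaf 279 1463 .nil)) .nil)) .nil)) .nil)) (.cons 205 (.cons 183 (.leaf 184 1441 (.cons 231 (.leaf 232 1632 (.cons 255 (.leaf 278 1462 (.leaf 279 1463 .nil)) .nil)) .nil)) (.cons 208 (.leaf 181 1443 (.cons 232 (.leaf 231 1632 (.leaf 233 1640 .nil)) .nil)) (.cons 181 (.leaf 208 1443 (.cons 183 (.leaf 184 1441 (.cons 159 (.leaf 160 1249 (.cons 135 (.leaf 111 886 (.cons 134 (.leaf 110 887 (.cons 158 (.leaf 229 1070 (.cons 136 (.leaf 112 893 (.cons 137 (.leaf 138 1074 (.leaf 157 1066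 .nil)) .nil)) .nil)) .nil)) .nil)) .nil)) .nil)) .nil)) .nil))) (.cons 181 (.leaf 179 1432 (.cons 208 (.leaf 183 1440 (.leaf 209 1451 .nil)) .nil)) (.cons 179 (.leaf 205 1435 (.leaf 181 1432 .nil)) .nil)))) .nil)))))
noncomputable def t225 : T := .cons 183 (.cons 205 (.leaf 203 1433 (.cons 184 (.leaf 181 1442 (.leaf 207 1441 .nil)) .nil)) (.cons 205 (.leaf 203 1433 (.cons 184 (.leaf 207 1441 (.leaf 185 1450 .nil)) .nil)) (.cons 181 (.leaf 203 1434 (.cons 159 (.leaf 160 1249 (.cons 135 (.leaf 111 886 (.cons 207 (.leaf 179 1432 (.leaf 208 1440 .nil)) .nil)) .nil)) .nil)) (.cons 181 (.cons 159 (.leaf 160 1249 (.cons 179 (.leaf 158 1241 (.leaf 207 1432 .nil)) .nil)) (.cons 159 (.leaf 160 1249 (.cons 184 (.leaf 205 1442 (.cons 209 (.leaf 208 1448 (.cons 185 (.leaf 210 1456 (.cons 158 (.leaf 179 1241 (.leaf 157 1259 .nil)) .nil)) .nil)) .nil)) .nil)) (.cons 159 (.leaf 160 1249 (.cons 135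 (.leaf 111 886 (.cons 207 (.leaf 208 1440 (.cons 134 (.leaf 110 887 (.cons 158 (.leaf 231 1076 (.cons 133 (.leaf 109 879 (.cons 136 (.leaf 112 893 (.cons 137 (.leaf 138 1074 (.leaf 157 1066 .nil)) .nil)) .nil)) .nil)) .nil)) .nil)) .nil)) .nil)) (.cons 207 (.leaf 179 1432 (.leaf 208 1440 .nil)) .nil)))) (.cons 203 (.leaf 181 1434 (.leaf 205 1433 .nil)) .nil))))) t224
noncomputable def t226 : T := .cons 278 (.cons 301 (.leaf 277 1646 (.cons 302 (.leaf 325 1838 (.cons 303 (.leaf 279 1652 (.leaf 327 1844 .nil)) .nil)) .nil)) (.cons 205 (.leaf 181 1455 (.cons 203 (.leaf 231 1624 (.cons 229 (.leaf 202 1616 (.leaf 302 1647 .nil)) .nil)) .nil)) (.cons 205 (.leaf 181 1455 (.cons 203 (.leaf 231 1624 (.cons 178 (.leaf 179 1427 (.cons 202 (.leaf 177 1419 (.leaf 229 1616 .nil)) .nil)) .nil)) .nil)) .nil))) (.cons 182 (.cons 157 (.leaf 181 1263 (.cons 158 (.leaf 133 1071 (.cons 159 (.leaf 183 1269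 (.leaf 135 1077 .nil)) .nil)) .nil)) (.cons 159 (.leaf 183 1269 (.cons 158 (.leaf 135 1077 (.cons 255 (.leaf 279 1460 (.leaf 231 1268 .nil)) .nil)) .nil)) (.cons 157 (.leaf 181 1263 (.cons 158 (.leaf 133 1071 (.cons 255 (.leaf 279 1460 (.leaf 231 1268 .nil)) .nil)) .nil)) (.cons 181 (.leaf 157 1263 (.cons 183 (.leaf 203 1434 (.leaf 159 1269 .nil)) .nil)) .nil)))) (.cons 182 (.cons 183 (.leaf 159 1269 (.cons 205 (.leaf 203 1433 (.cons 184 (.leaf 185 1450 (.cons 279 (.leaf 255 1460 (.cons 278 (.leaf 303 1652 (.cons 302 (.leaf 229 1647 (.cons 301 (.leaf 277 1646 (.leaf 325 1838 .nil)) .nil)) .nil)) .nil)) .nil)) .nil)) .nil)) (.cons 205 (.cons 183 (.leaf 203 1433 (.leaf 159 1269 .nil)) (.cons 159 (.leaf 183 1269 (.cons 158 (.leaf 135 1077 (.cons 133 (.leaf 157 1071 (.cons 134 (.leaf 109 879 (.leaf 229 1070 .nil)) .nil)) .nil)) .nil)) (.cons 203 (.leaf 231 1624 (.cons 202 (.leaf 229 1616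 (.cons 177 (.leaf 178 1419 (.cons 201 (.leaf 176 1411 (.cons 225 (.leaf 224 1602 (.leaf 226 1610 .nil)) .nil)) .nil)) .nil)) .nil)) .nil))) (.cons 255 (.leaf 279 1460 (.cons 158 (.leaf 231 1268 (.cons 133 (.leaf 157 1071 (.cons 134 (.leaf 109 879 (.cons 135 (.leaf 111 885 (.leaf 159 1077 .nil)) .nil)) .nil)) .nil)) .nil)) (.cons 255 (.leaf 279 1460 (.cons 231 (.leaf 158 1268 (.cons 205 (.leaf 203 1624 (.cons 232 (.leaf 229 1635 (.leaf 233 1643 .nil)) .nil)) .nil)) .nil)) .nil)))) (.cons 205 (.cons 203 (.leaf 231 1624 (.cons 182 (.leaf 183 1433 (.cons 202 (.leaf 181 1425 (.leaf 229 1616 .nil)) .nil)) .nil)) (.cons 203 (.leaf 231 1624 (.cons 182 (.leaf 183 1433 (.cons 202 (.leaf 229 1616 (.cons 177 (.leaf 178 1419 (.cons 201 (.leaf 176 1411 (.cons 225 (.leaf 224 1602 (.leaf 226 1610 .nil)) .nil)) .nil)) .nil)) .nil)) .nil)) (.cons 278 (.leaf 181 1455 (.cons 302 (.leaf 229 1647 (.cons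 301 (.leaf 277 1646 (.leaf 325 1838 .nil)) .nil)) .nil)) (.cons 181 (.leaf 278 1455 (.cons 133 (.leaf 157 1068 (.cons 178 (.leaf 179 1424 (.cons 203 (.leaf 231 1624 (.cons 202 (.leaf 177 1419 (.leaf 201 1417 .nil)) .nil)) .nil)) .nil)) .nil)) .nil)))) (.cons 182 (.cons 159 (.leaf 183 1269 (.cons 158 (.leaf 135 1077 (.cons 255 (.leaf 279 1460 (.leaf 231 1268 .nil)) .nil)) .nil)) (.cons 157 (.leaf 181 1263 (.cons 158 (.leaf 133 1071 (.cons 159 (.leaf 183 1269 (.leaf 135 1077 .nil)) .nil)) .nil)) (.cons 181 (.leaf 157 1263 (.cons 205 (.leaf 278 1455 (.cons 178 (.leaf 179 1424 (.cons 255 (.leaf 279 1460 (.cons 158 (.leaf 231 1268 (.cons 134 (.leaf 229 1070 (.leaf 110 878 .nil)) .nil)) .nil)) .nil)) .nil)) .nil)) (.cons 159 (.leaf 183 1269 (.cons 181 (.leaf 157 1263 (.cons 278 (.leaf 205 1455 (.cons 279 (.leaf 255 1460 (.leaf 303 1652 .nil)) .nil)) .nil)) .nil)) .nil)))) (.cons 182 (.cons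 181 (.leaf 157 1263 (.cons 205 (.leaf 278 1455 (.cons 179 (.leaf 178 1424 (.cons 203 (.leaf 183 1433 (.leaf 202 1425 .nil)) .nil)) .nil)) .nil)) (.cons 183 (.leaf 159 1269 (.cons 205 (.leaf 203 1433 (.cons 184 (.leaf 185 1450 (.cons 279 (.leaf 255 1460 (.cons 278 (.leaf 303 1652 (.cons 302 (.leaf 229 1647 (.cons 301 (.leaf 277 1646 (.leaf 325 1838 .nil)) .nil)) .nil)) .nil)) .nil)) .nil)) .nil)) (.cons 181 (.leaf 157 1263 (.cons 205 (.leaf 278 1455 (.cons 179 (.leaf 178 1424 (.cons 202 (.leaf 203 1425 (.cons 154 (.leaf 155 1235 (.cons 158 (.leaf 159 1241 (.cons 134 (.leaf 229 1070 (.leaf 110 878 .nil)) .nil)) .nil)) .nil)) .nil)) .nil)) .nil)) (.cons 181 (.leaf 157 1263 (.cons 183 (.leaf 203 1434 (.leaf 159 1269 .nil)) .nil)) (.cons 181 (.leaf 157 1263 (.cons 159 (.leaf 183 1269 (.cons 278 (.leaf 205 1455 (.cons 279 (.leaf 255 1460 (.leaf 303 1652 .nil)) .nil)) .nil)) .nil)) .nil)))))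 .nil)))))
noncomputable def t227 : T := .cons 230 (.leaf 157 1263 (.cons 278 (.cons 301 (.leaf 277 1646 (.cons 302 (.leaf 325 1838 (.cons 207 (.leaf 179 1432 (.leaf 231 1653 .nil)) .nil)) .nil)) (.cons 301 (.leaf 277 1646 (.cons 302 (.leaf 325 1838 (.cons 279 (.leaf 255 1460 (.leaf 303 1652 .nil)) .nil)) .nil)) (.cons 255 (.leaf 279 1460 (.cons 231 (.leaf 158 1268 (.cons 302 (.leaf 207 1653 (.leaf 326 1845 .nil)) .nil)) .nil)) (.cons 279 (.leaf 255 1460 (.leaf 303 1652 .nil)) .nil)))) .nil)) (.cons 230 (.leaf 157 1263 (.cons 278 (.cons 301 (.leaf 277 1646 (.cons 302 (.leaf 325 1838 (.cons 279 (.leaf 255 1460 (.leaf 303 1652 .nil)) .nil)) .nil)) (.cons 301 (.leaf 277 1646 (.cons 302 (.leaf 325 1838 (.cons 231 (.leaf 207 1653 (.cons 255 (.leaf 326 1845 (.leaf 158 1268 .nil)) .nil)) .nil)) .nil)) (.cons 301 (.leaf 277 1646 (.cons 302 (.leaf 325 1838 (.cons 303 (.leaf 279 1652 (.leaf 327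 1844 .nil)) .nil)) .nil)) (.cons 279 (.leaf 255 1460 (.leaf 303 1652 .nil)) .nil)))) .nil)) (.cons 179 (.leaf 207 1432 (.cons 154 (.leaf 155 1235 (.cons 158 (.leaf 159 1241 (.cons 178 (.leaf 153 1227 (.cons 202 (.leaf 201 1418 (.leaf 203 1426 .nil)) .nil)) .nil)) .nil)) .nil)) (.cons 230 (.leaf 157 1263 (.cons 255 (.leaf 279 1460 (.cons 158 (.leaf 231 1268 (.cons 159 (.leaf 179 1241 (.leaf 135 1077 .nil)) .nil)) .nil)) .nil)) (.cons 179 (.leaf 207 1432 (.cons 154 (.leaf 155 1235 (.cons 157 (.leaf 230 1263 (.cons 109 (.leaf 133 876 (.cons 178 (.leaf 153 1227 (.cons 202 (.leaf 201 1418 (.leaf 203 1426 .nil)) .nil)) .nil)) .nil)) .nil)) .nil)) .nil))))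
noncomputable def t228 : T := .cons 230 (.cons 279 (.leaf 255 1460 (.cons 278 (.leaf 303 1652 (.cons 207 (.leaf 183 1461 (.cons 301 (.leaf 277 1646 (.cons 302 (.leaf 231 1653 (.leaf 325 1838 .nil)) .nil)) .nil)) .nil)) .nil)) (.cons 183 (.leaf 159 1269 (.cons 278 (.leaf 207 1461 (.cons 301 (.leaf 277 1646 (.cons 302 (.leaf 325 1838 (.cons 303 (.leaf 279 1652 (.leaf 327 1844 .nil)) .nil)) .nil)) .nil)) .nil)) (.cons 255 (.leaf 279 1460 (.cons 158 (.leaf 231 1268 (.cons 133 (.leaf 157 1071 (.cons 134 (.leaf 109 879 (.cons 135 (.leaf 111 885 (.leaf 159 1077 .nil)) .nil)) .nil)) .nil)) .nil)) (.cons 159 (.leaf 183 1269 (.cons 158 (.leaf 135 1077 (.cons 133 (.leaf 157 1071 (.cons 134 (.leaf 109 879 (.cons 231 (.leaf 207 1076 (.leaf 255 1268 .nil)) .nil)) .nil)) .nil)) .nil)) .nil)))) (.cons 181 (.cons 179 (.leaf 207 1432 (.cons 203 (.leaf 183 1434 (.leaf 202 1426 .nil)) .nil)) (.cons 183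 (.leaf 203 1434 (.cons 159 (.leaf 160 1249 (.cons 135 (.leaf 111 886 (.cons 207 (.leaf 208 1440 (.cons 134 (.leaf 110 887 (.cons 158 (.leaf 231 1076 (.cons 133 (.leaf 109 879 (.cons 136 (.leaf 112 893 (.cons 137 (.leaf 138 1074 (.leaf 157 1066 .nil)) .nil)) .nil)) .nil)) .nil)) .nil)) .nil)) .nil)) .nil)) (.cons 179 (.leaf 207 1432 (.cons 154 (.leaf 155 1235 (.cons 158 (.leaf 159 1241 (.cons 178 (.leaf 153 1227 (.leaf 157 1233 .nil)) .nil)) .nil)) .nil)) (.cons 203 (.leaf 183 1434 (.cons 202 (.leaf 201 1417 (.leaf 179 1426 .nil)) .nil)) .nil)))) (.cons 181 t227 (.cons 230 (.cons 159 (.leaf 183 1269 (.cons 158 (.leaf 135 1077 (.cons 255 (.leaf 279 1460 (.leaf 231 1268 .nil)) .nil)) .nil)) (.cons 181 (.leaf 157 1263 (.cons 183 (.leaf 203 1434 (.leaf 159 1269 .nil)) .nil)) (.cons 157 (.leaf 181 1263 (.cons 158 (.leaf 133 1071 (.cons 255 (.leaf 279 1460 (.leaf 231 1268 .nil)) .nil)) .nil))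 .nil))) (.cons 181 (.cons 157 (.leaf 230 1263 (.cons 109 (.leaf 133 876 (.cons 207 (.leaf 179 1432 (.cons 208 (.leaf 183 1440 (.leaf 209 1451 .nil)) .nil)) .nil)) .nil)) (.cons 157 (.leaf 230 1263 (.cons 109 (.leaf 133 876 (.cons 203 (.leaf 183 1434 (.cons 202 (.leaf 201 1417 (.leaf 179 1426 .nil)) .nil)) .nil)) .nil)) (.cons 157 (.leaf 230 1263 (.cons 109 (.leaf 133 876 (.cons 183 (.leaf 203 1434 (.cons 208 (.leaf 207 1440 (.cons 184 (.leaf 209 1448 (.cons 161 (.leaf 160 1257 (.cons 185 (.leaf 158 1259 (.leaf 162 1265 .nil)) .nil)) .nil)) .nil)) .nil)) .nil)) .nil)) (.cons 207 (.leaf 179 1432 (.cons 183 (.leaf 203 1434 (.leaf 208 1440 .nil)) .nil)) (.cons 179 (.leaf 207 1432 (.cons 154 (.leaf 155 1235 (.cons 157 (.leaf 230 1263 (.cons 109 (.leaf 133 876 (.cons 178 (.leaf 153 1227 (.leaf 158 1233 .nil)) .nil)) .nil)) .nil)) .nil)) .nil))))) (.cons 181 (.cons 157 (.leaf 230 1263 (.cons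 109 (.leaf 133 876 (.cons 203 (.leaf 183 1434 (.cons 202 (.leaf 201 1417 (.leaf 179 1426 .nil)) .nil)) .nil)) .nil)) (.cons 179 (.leaf 207 1432 (.cons 154 (.leaf 155 1235 (.cons 157 (.leaf 230 1263 (.cons 109 (.leaf 133 876 (.cons 178 (.leaf 153 1227 (.cons 202 (.leaf 201 1418 (.leaf 203 1426 .nil)) .nil)) .nil)) .nil)) .nil)) .nil)) (.cons 183 (.leaf 203 1434 (.cons 207 (.leaf 179 1432 (.leaf 208 1440 .nil)) .nil)) (.cons 183 (.leaf 203 1434 (.cons 159 (.leaf 160 1249 (.leaf 230 1269 .nil)) .nil)) (.cons 230 (.leaf 157 1263 (.cons 159 (.leaf 183 1269 (.cons 207 (.leaf 179 1432 (.cons 279 (.leaf 255 1460 (.cons 278 (.leaf 303 1652 (.cons 208 (.leaf 209 1451 (.cons 301 (.leaf 277 1646 (.cons 302 (.leaf 231 1653 (.leaf 325 1838 .nil)) .nil)) .nil)) .nil)) .nil)) .nil)) .nil)) .nil)) .nil))))) (.cons 181 (.cons 179 (.leaf 207 1432 (.cons 154 (.leaf 155 1235 (.cons 153 (.leaf 178 1227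 (.cons 159 (.leaf 158 1241 (.cons 183 (.leaf 203 1434 (.leaf 160 1249 .nil)) .nil)) .nil)) .nil)) .nil)) (.cons 179 (.leaf 207 1432 (.cons 202 (.leaf 203 1426 (.cons 154 (.leaf 155 1235 (.cons 178 (.leaf 153 1227 (.leaf 201 1418 .nil)) .nil)) .nil)) .nil)) (.cons 183 (.leaf 203 1434 (.cons 159 (.leaf 160 1249 (.leaf 230 1269 .nil)) .nil)) (.cons 179 (.leaf 207 1432 (.cons 154 (.leaf 155 1235 (.cons 153 (.leaf 178 1227 (.cons 159 (.leaf 158 1241 (.cons 183 (.leaf 160 1249 (.leaf 230 1269 .nil)) .nil)) .nil)) .nil)) .nil)) .nil)))) .nil))))))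
noncomputable def t229 : T := .cons 207 (.leaf 179 1435 (.cons 231 (.leaf 232 1632 (.cons 230 (.leaf 203 1624 (.cons 278 (.leaf 181 1455 (.leaf 183 1461 .nil)) .nil)) .nil)) .nil)) (.cons 203 (.cons 182 (.leaf 183 1433 (.cons 230 (.leaf 231 1624 (.cons 202 (.leaf 181 1425 (.leaf 229 1616 .nil)) .nil)) .nil)) (.cons 182 (.leaf 183 1433 (.cons 202 (.leaf 181 1425 (.cons 179 (.leaf 178 1427 (.cons 201 (.leaf 200 1409 (.cons 225 (.leaf 224 1602 (.leaf 226 1610 .nil)) .nil)) .nil)) .nil)) .nil)) (.cons 178 (.leaf 179 1427 (.cons 202 (.leaf 177 1419 (.cons 201 (.leaf 181 1417 (.cons 225 (.leaf 224 1602 (.leaf 226 1610 .nil)) .nil)) .nil)) .nil)) (.cons 182 (.leaf 183 1433 (.cons 230 (.leaf 231 1624 (.cons 202 (.leaf 229 1616 (.cons 177 (.leaf 178 1419 (.cons 201 (.leaf 176 1411 (.cons 225 (.leaf 224 1602 (.leaf 226 1610 .nil)) .nil)) .nil)) .nil)) .nil)) .nil)) (.cons 230 (.leaf 231 1624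 (.cons 181 (.leaf 278 1455 (.cons 157 (.leaf 182 1263 (.leaf 229 1260 .nil)) .nil)) .nil)) .nil))))) (.cons 203 (.cons 182 (.leaf 183 1433 (.cons 230 (.leaf 231 1624 (.cons 202 (.leaf 181 1425 (.leaf 229 1616 .nil)) .nil)) .nil)) (.cons 182 (.leaf 183 1433 (.cons 202 (.leaf 181 1425 (.cons 177 (.leaf 178 1419 (.cons 201 (.leaf 176 1411 (.cons 225 (.leaf 224 1602 (.leaf 226 1610 .nil)) .nil)) .nil)) .nil)) .nil)) (.cons 230 (.leaf 231 1624 (.cons 181 (.leaf 278 1455 (.cons 157 (.leaf 229 1260 (.leaf 133 1068 .nil)) .nil)) .nil)) (.cons 182 (.leaf 183 1433 (.cons 230 (.leaf 231 1624 (.cons 202 (.leaf 229 1616 (.cons 177 (.leaf 178 1419 (.cons 201 (.leaf 176 1411 (.cons 225 (.leaf 224 1602 (.leaf 226 1610 .nil)) .nil)) .nil)) .nil)) .nil)) .nil)) .nil)))) (.cons 207 (.leaf 179 1435 (.cons 231 (.leaf 232 1632 (.cons 230 (.leaf 203 1624 (.cons 183 (.leaf 184 1441 (.leaf 159 1270 .nil))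 .nil)) .nil)) .nil)) (.cons 179 (.leaf 207 1435 (.cons 178 (.leaf 177 1416 (.leaf 203 1427 .nil)) .nil)) (.cons 207 (.leaf 179 1435 (.cons 208 (.leaf 181 1443 (.cons 232 (.leaf 231 1632 (.leaf 233 1640 .nil)) .nil)) .nil)) .nil)))))
noncomputable def t230 : T := .cons 205 t229 (.cons 182 (.cons 181 (.cons 157 (.leaf 230 1263 (.cons 109 (.leaf 133 876 (.cons 183 (.leaf 203 1434 (.cons 160 (.leaf 159 1249 (.cons 184 (.leaf 161 1257 (.cons 208 (.leaf 207 1440 (.leaf 209 1448 .nil)) .nil)) .nil)) .nil)) .nil)) .nil)) (.cons 179 (.leaf 207 1432 (.cons 154 (.leaf 155 1235 (.cons 157 (.leaf 230 1263 (.cons 109 (.leaf 133 876 (.cons 178 (.leaf 153 1227 (.leaf 158 1233 .nil)) .nil)) .nil)) .nil)) .nil)) (.cons 179 (.leaf 207 1432 (.cons 203 (.leaf 183 1434 (.leaf 202 1426 .nil)) .nil)) (.cons 230 (.leaf 157 1263 (.cons 183 (.leaf 203 1434 (.leaf 159 1269 .nil)) .nil)) .nil)))) t228) (.cons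 230 (.cons 182 (.cons 181 (.leaf 157 1263 (.cons 183 (.leaf 203 1434 (.leaf 159 1269 .nil)) .nil)) (.cons 255 (.leaf 279 1460 (.cons 158 (.leaf 231 1268 (.cons 133 (.leaf 157 1071 (.cons 134 (.leaf 109 879 (.cons 135 (.leaf 111 885 (.leaf 159 1077 .nil)) .nil)) .nil)) .nil)) .nil)) (.cons 183 (.leaf 159 1269 (.cons 205 (.leaf 203 1433 (.cons 184 (.leaf 181 1442 (.leaf 185 1450 .nil)) .nil)) .nil)) (.cons 181 (.leaf 157 1263 (.cons 183 (.leaf 203 1434 (.cons 205 (.leaf 184 1442 (.leaf 278 1455 .nil)) .nil)) .nil)) .nil)))) t226) (.cons 182 t225 (.cons 230 (t222) (.cons 205 t221 (.cons 205 t219 (.cons 205 t218 (.cons 205 t217 (.cons 205 (.cons 207 (.leaf 179 1435 (.cons 181 (.leaf 208 1443 (.cons 230 (.leaf 278 1455 (.cons 157 (.leaf 182 1263 (.leaf 229 1260 .nil)) .nil)) .nil)) .nil)) (.cons 230 t216 (.cons 207 (.leaf 179 1435 (.cons 183 (.leaf 184 1441 (.cons 230 (.leaf 278 1461 (.cons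 159 (.leaf 182 1269 (.leaf 231 1270 .nil)) .nil)) .nil)) .nil)) (.cons 207 (.leaf 179 1435 (.cons 181 (.leaf 208 1443 (.cons 183 (.leaf 184 1441 (.cons 231 (.leaf 232 1632 (.cons 255 (.leaf 278 1462 (.cons 182 (.leaf 279 1463 (.leaf 158 1271 .nil)) .nil)) .nil)) .nil)) .nil)) .nil)) (.cons 207 (.leaf 179 1435 (.cons 181 (.leaf 208 1443 (.cons 230 (.leaf 278 1455 (.cons 157 (.leaf 229 1260 (.leaf 133 1068 .nil)) .nil)) .nil)) .nil)) (.cons 207 (.leaf 179 1435 (.cons 181 (.leaf 208 1443 (.cons 183 (.leaf 184 1441 (.cons 231 (.leaf 232 1632 (.cons 159 (.leaf 230 1270 (.cons 160 (.leaf 182 1249 (.leaf 136 1085 .nil)) .nil)) .nil)) .nil)) .nil)) .nil)) .nil)))))) (.cons 205 t215 (.cons 205 t214 .nil)))))))))))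
noncomputable def t231 : T := .cons 253 (.leaf 274 2002 (.cons 278 (.leaf 279 2008 (.cons 205 (.cons 181 (.leaf 229 1452 (.cons 206 (.leaf 230 1455 (.cons 179 (.leaf 207 1435 (.leaf 178 1424 .nil)) .nil)) .nil)) (.cons 230 (.leaf 231 1817 (.cons 206 (.leaf 181 1455 (.cons 207 (.leaf 179 1435 (.leaf 183 1461 .nil)) .nil)) .nil)) (.cons 229 (.leaf 277 1447 (.leaf 181 1452 .nil)) (.cons 229 (.leaf 277 1447 (.cons 302 (.leaf 230 1647 (.leaf 326 1839 .nil)) .nil)) .nil)))) .nil)) .nil)) (.cons 206 t230 (.cons 253 (.leaf 274 2002 (.cons 255 t213 .nil)) (.cons 253 t211 (.cons 253 (.leaf 274 2002 (.cons 278 (.leaf 279 2008 (.cons 205 (.cons 229 (.leaf 277 1447 (.leaf 181 1452 .nil)) (.cons 206 (.cons 179 (.leaf 207 1435 (.cons 230 (.leaf 181 1455 (.cons 277 (.leaf 182 1454 (.leaf 301 1646 .nil)) .nil)) .nil)) (.cons 179 (.leaf 207 1435 (.cons 178 (.leaf 177 1416 (.leaf 203 1427 .nil)) .nil))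 (.cons 230 (.leaf 181 1455 (.cons 277 (.leaf 182 1454 (.leaf 301 1646 .nil)) .nil)) .nil))) (.cons 229 (.leaf 277 1447 (.cons 302 (.leaf 230 1647 (.leaf 326 1839 .nil)) .nil)) (.cons 181 (.leaf 229 1452 (.cons 206 (.leaf 230 1455 (.cons 179 (.leaf 207 1435 (.leaf 178 1424 .nil)) .nil)) .nil)) .nil)))) .nil)) .nil)) (.cons 253 (.leaf 274 2002 (.cons 230 (.leaf 231 1817 (.cons 206 (.cons 182 (.leaf 277 1454 (.cons 157 (.leaf 181 1263 (.cons 158 (.leaf 229 1262 (.leaf 133 1071 .nil)) .nil)) .nil)) (.cons 277 (.cons 301 (.leaf 278 1646 (.leaf 325 1837 .nil)) (.cons 205 (.leaf 229 1447 (.cons 179 (.leaf 207 1435 (.cons 178 (.leaf 177 1416 (.leaf 203 1427 .nil)) .nil)) .nil)) .nil)) (.cons 182 (.cons 157 (.leaf 181 1263 (.cons 158 (.leaf 229 1262 (.leaf 133 1071 .nil)) .nil)) (.cons 158 (.leaf 229 1262 (.cons 159 (.leaf 183 1269 (.leaf 135 1077 .nil)) .nil)) (.cons 157 (.leaf 181 1263 (.cons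 183 (.leaf 159 1269 (.cons 205 (.leaf 203 1433 (.cons 207 (.leaf 179 1435 (.leaf 184 1441 .nil)) .nil)) .nil)) .nil)) .nil))) (.cons 182 (.leaf 277 1454 (.cons 157 (.leaf 181 1263 (.cons 183 (.leaf 159 1269 (.cons 205 (.leaf 203 1433 (.cons 207 (.leaf 179 1435 (.leaf 184 1441 .nil)) .nil)) .nil)) .nil)) .nil)) .nil)))) .nil)) .nil)) (.cons 253 (.leaf 274 2002 (.cons 231 (.leaf 230 1817 (.cons 255 (.leaf 232 1825 (.cons 279 (.leaf 278 2008 (.leaf 280 2016 .nil)) .nil)) .nil)) .nil)) .nil))))))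
noncomputable def t232 : T := .cons 107 (.leaf 131 863 (.cons 205 (.leaf 229 1060 (.cons 108 (.leaf 181 868 (.cons 109 (.leaf 133 869 (.leaf 85 677 .nil)) .nil)) .nil)) .nil)) (.cons 205 (.leaf 229 1060 (.cons 108 (.leaf 181 868 (.cons 85 (.leaf 109 677 (.cons 179 (.leaf 203 862 (.cons 84 (.leaf 61 485 (.leaf 155 670 .nil)) .nil)) .nil)) .nil)) .nil)) (.cons 133 (.leaf 109 869 (.cons 131 (.leaf 107 863 (.cons 130 (.cons 158 (.leaf 157 1040 (.cons 105 (.leaf 106 843 (.cons 134 (.leaf 159 1048 (.cons 154 (.leaf 153 1034 (.leaf 155 1042 .nil)) .nil)) .nil)) .nil)) (.cons 155 (.leaf 228 1055 (.cons 154 (.leaf 153 1033 (.leaf 134 1042 .nil)) .nil)) (.cons 129 (.leaf 157 1032 (.cons 105 (.leaf 104 835 (.leaf 106 843 .nil)) .nil)) .nil))) .nil)) .nil)) (.cons 205 (.leaf 229 1060 (.cons 107 (.leaf 131 863 (.cons 108 (.leaf 181 868 (.cons 179 (.leaf 203 862 (.cons 155 (.leaf 84 670 (.cons 178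 (.leaf 177 1416 (.cons 157 (.leaf 158 1234 (.cons 133 (.leaf 228 1061 (.cons 134 (.leaf 135 1050 (.leaf 154 1041 .nil)) .nil)) .nil)) .nil)) .nil)) .nil)) .nil)) .nil)) .nil)) .nil)))
noncomputable def t233 : T := .cons 107 (.leaf 131 863 (.cons 133 (.leaf 109 869 (.cons 228 (.leaf 157 1061 (.cons 229 (.leaf 205 1060 (.leaf 253 1252 .nil)) .nil)) .nil)) .nil)) (.cons 133 (.leaf 109 869 (.cons 228 (.leaf 157 1061 (.cons 229 (.leaf 205 1060 (.leaf 253 1252 .nil)) .nil)) .nil)) (.cons 131 (.leaf 107 863 (.cons 228 (.leaf 155 1055 (.cons 229 (.leaf 205 1060 (.leaf 253 1252 .nil)) .nil)) .nil)) (.cons 131 (.leaf 107 863 (.cons 133 (.leaf 109 869 (.cons 130 (.cons 158 (.leaf 157 1040 (.cons 105 (.leaf 106 843 (.cons 134 (.leaf 159 1048 (.cons 154 (.leaf 153 1034 (.leaf 155 1042 .nil)) .nil)) .nil)) .nil)) (.cons 154 (.leaf 153 1034 (.cons 105 (.leaf 106 843 (.cons 104 (.leaf 129 835 (.cons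 134 (.leaf 155 1042 (.cons 111 (.leaf 110 857 (.cons 135 (.leaf 112 865 (.cons 159 (.leaf 158 1048 (.leaf 160 1056 .nil)) .nil)) .nil)) .nil)) .nil)) .nil)) .nil)) (.cons 129 (.leaf 157 1032 (.cons 105 (.leaf 104 835 (.leaf 106 843 .nil)) .nil)) (.cons 157 (.leaf 228 1061 (.leaf 129 1032 .nil)) .nil)))) .nil)) .nil)) (.cons 107 (.leaf 131 863 (.cons 108 (.leaf 83 671 (.cons 109 (.leaf 133 869 (.leaf 85 677 .nil)) .nil)) .nil)) .nil))))
noncomputable def t234 : T := .cons 132 (.cons 107 (.leaf 131 863 (.cons 133 (.leaf 109 869 (.cons 108 (.leaf 83 671 (.cons 105 (.leaf 106 840 (.cons 134 (.leaf 135 859 (.cons 157 (.leaf 228 1061 (.cons 84 (.leaf 181 676 (.leaf 60 484 .nil)) .nil)) .nil)) .nil)) .nil)) .nil)) .nil)) (.cons 107 (.leaf 131 863 (.cons 108 (.leaf 83 671 (.cons 205 (.leaf 229 1060 (.leaf 181 868 .nil)) .nil)) .nil)) (.cons 109 (.leaf 133 869 (.cons 108 (.leaf 85 677 (.cons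 205 (.leaf 229 1060 (.leaf 181 868 .nil)) .nil)) .nil)) (.cons 107 (.leaf 131 863 (.cons 133 (.leaf 109 869 (.cons 228 (.leaf 157 1061 (.cons 229 (.leaf 205 1060 (.leaf 253 1252 .nil)) .nil)) .nil)) .nil)) .nil)))) (.cons 132 (.cons 205 (.leaf 229 1060 (.cons 108 (.leaf 181 868 (.cons 179 (.leaf 203 862 (.cons 84 (.leaf 155 670 (.cons 59 (.leaf 83 479 (.cons 60 (.leaf 35 287 (.cons 61 (.leaf 85 485 (.leaf 37 293 .nil)) .nil)) .nil)) .nil)) .nil)) .nil)) .nil)) (.cons 131 (.leaf 107 863 (.cons 133 (.leaf 109 869 (.cons 130 (.cons 157 (.leaf 129 1032 (.leaf 158 1040 .nil)) (.cons 154 (.leaf 153 1034 (.cons 105 (.leaf 106 843 (.cons 104 (.leaf 129 835 (.cons 134 (.leaf 155 1042 (.cons 111 (.leaf 110 857 (.cons 135 (.leaf 112 865 (.cons 159 (.leaf 158 1048 (.leaf 160 1056 .nil)) .nil)) .nil)) .nil)) .nil)) .nil)) .nil)) (.cons 158 (.leaf 157 1040 (.cons 105 (.leaf 106 843 (.cons 134 (.leaf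 159 1048 (.cons 154 (.leaf 153 1034 (.leaf 155 1042 .nil)) .nil)) .nil)) .nil)) (.cons 129 (.leaf 157 1032 (.cons 105 (.leaf 104 835 (.leaf 106 843 .nil)) .nil)) .nil)))) .nil)) .nil)) (.cons 205 (.leaf 229 1060 (.cons 107 (.leaf 131 863 (.cons 108 (.leaf 83 671 (.leaf 181 868 .nil)) .nil)) .nil)) .nil))) (.cons 132 t233 (.cons 132 (.cons 133 (.leaf 109 869 (.cons 228 (.leaf 157 1061 (.cons 229 (.leaf 205 1060 (.leaf 253 1252 .nil)) .nil)) .nil)) (.cons 205 (.leaf 229 1060 (.cons 108 (.leaf 181 868 (.cons 179 (.leaf 203 862 (.cons 84 (.leaf 155 670 (.cons 59 (.leaf 83 479 (.cons 60 (.leaf 35 287 (.cons 61 (.leaf 85 485 (.leaf 37 293 .nil)) .nil)) .nil)) .nil)) .nil)) .nil)) .nil)) (.cons 133 (.leaf 109 869 (.cons 157 (.leaf 228 1061 (.cons 108 (.cons 84 (.leaf 181 676 (.leaf 60 484 .nil)) (.cons 179 (.leaf 203 862 (.cons 158 (.leaf 159 1242 (.cons 178 (.leaf 177 1225 (.leaf 181 1233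 .nil)) .nil)) .nil)) (.cons 179 (.leaf 203 862 (.cons 158 (.leaf 159 1242 (.cons 178 (.leaf 177 1225 (.leaf 155 1234 .nil)) .nil)) .nil)) .nil))) .nil)) .nil)) .nil))) (.cons 132 (.cons 131 (.leaf 107 863 (.cons 228 (.leaf 155 1055 (.cons 229 (.leaf 205 1060 (.leaf 253 1252 .nil)) .nil)) .nil)) (.cons 205 (.leaf 229 1060 (.cons 108 (.leaf 181 868 (.cons 179 (.leaf 203 862 (.cons 84 (.leaf 155 670 (.cons 59 (.leaf 83 479 (.cons 60 (.leaf 35 287 (.cons 61 (.leaf 85 485 (.leaf 37 293 .nil)) .nil)) .nil)) .nil)) .nil)) .nil)) .nil)) (.cons 107 (.leaf 131 863 (.cons 108 (.leaf 83 671 (.cons 179 (.leaf 203 862 (.cons 84 (.leaf 155 670 (.cons 61 (.leaf 85 485 (.cons 60 (.leaf 37 293 (.cons 157 (.leaf 181 676 (.leaf 133 484 .nil)) .nil)) .nil)) .nil)) .nil)) .nil)) .nil)) (.cons 107 (.leaf 131 863 (.cons 108 (.leaf 83 671 (.cons 205 (.leaf 229 1060 (.leaf 181 868 .nil)) .nil)) .nil)) .nil))))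 (.cons 132 t232 (.cons 132 (.cons 133 (.leaf 109 869 (.cons 107 (.leaf 131 863 (.cons 108 (.leaf 83 671 (.cons 105 (.leaf 106 840 (.cons 134 (.leaf 135 859 (.cons 157 (.leaf 228 1061 (.cons 84 (.leaf 181 676 (.leaf 60 484 .nil)) .nil)) .nil)) .nil)) .nil)) .nil)) .nil)) (.cons 133 (.leaf 109 869 (.cons 157 (.leaf 228 1061 (.cons 108 (.cons 84 (.leaf 181 676 (.leaf 60 484 .nil)) (.cons 179 (.leaf 203 862 (.cons 158 (.leaf 159 1242 (.cons 178 (.leaf 177 1225 (.leaf 155 1234 .nil)) .nil)) .nil)) .nil)) .nil)) .nil)) (.cons 107 (.leaf 131 863 (.cons 108 (.leaf 83 671 (.cons 205 (.leaf 229 1060 (.leaf 181 868 .nil)) .nil)) .nil)) (.cons 131 (.leaf 107 863 (.cons 133 (.leaf 109 869 (.cons 130 (.cons 155 (.leaf 228 1055 (.cons 154 (.leaf 153 1033 (.leaf 134 1042 .nil)) .nil)) (.cons 129 (.leaf 157 1032 (.cons 105 (.leaf 104 835 (.leaf 106 843 .nil)) .nil)) .nil)) .nil)) .nil)) .nil)))) .nil))))))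
noncomputable def t235 : T := .cons 131 (.leaf 107 863 (.cons 133 (.leaf 109 869 (.cons 130 (.cons 157 (.leaf 228 1061 (.leaf 129 1032 .nil)) (.cons 155 (.leaf 228 1055 (.cons 154 (.leaf 153 1033 (.leaf 134 1042 .nil)) .nil)) (.cons 157 (.leaf 129 1032 (.leaf 158 1040 .nil)) .nil))) .nil)) .nil)) (.cons 109 (.leaf 133 869 (.cons 108 (.leaf 85 677 (.cons 83 (.leaf 107 671 (.cons 84 (.leaf 59 479 (.cons 179 (.leaf 203 862 (.leaf 155 670 .nil)) .nil)) .nil)) .nil)) .nil)) (.cons 107 (.leaf 131 863 (.cons 108 (.leaf 83 671 (.cons 85 (.leaf 109 677 (.cons 84 (.leaf 61 485 (.cons 179 (.leaf 203 862 (.leaf 155 670 .nil)) .nil)) .nil)) .nil)) .nil)) (.cons 133 (.leaf 109 869 (.cons 157 (.leaf 228 1061 (.cons 108 (.cons 84 (.leaf 181 676 (.leaf 60 484 .nil)) (.cons 179 (.leaf 203 862 (.cons 158 (.leaf 159 1242 (.cons 178 (.leaf 177 1225 (.leaf 181 1233 .nil)) .nil)) .nil)) (.cons 179 (.leaf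 203 862 (.cons 158 (.leaf 159 1242 (.cons 178 (.leaf 177 1225 (.leaf 155 1234 .nil)) .nil)) .nil)) .nil))) .nil)) .nil)) (.cons 107 (.leaf 131 863 (.cons 108 (.leaf 83 671 (.cons 179 (.leaf 203 862 (.cons 84 (.leaf 155 670 (.cons 61 (.leaf 85 485 (.cons 60 (.leaf 37 293 (.cons 157 (.leaf 181 676 (.leaf 133 484 .nil)) .nil)) .nil)) .nil)) .nil)) .nil)) .nil)) (.cons 133 (.leaf 109 869 (.cons 107 (.leaf 131 863 (.cons 108 (.leaf 83 671 (.cons 105 (.leaf 106 840 (.cons 134 (.leaf 135 859 (.cons 157 (.leaf 228 1061 (.cons 84 (.leaf 181 676 (.leaf 60 484 .nil)) .nil)) .nil)) .nil)) .nil)) .nil)) .nil)) .nil)))))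
noncomputable def t236 : T := .cons 182 (.leaf 183 1243 (.cons 179 (.leaf 154 1235 (.cons 107 (.leaf 131 860 (.cons 158 (.leaf 159 1241 (.cons 157 (.leaf 178 1233 (.cons 109 (.leaf 133 870 (.cons 134 (.leaf 135 1049 (.cons 110 (.leaf 86 686 (.leaf 205 878 .nil)) .nil)) .nil)) .nil)) .nil)) .nil)) .nil)) .nil)) (.cons 154 (.leaf 153 1224 (.cons 157 (.cons 133 (.leaf 109 870 (.leaf 134 1041 .nil)) (.cons 129 (.leaf 130 1035 (.cons 178 (.leaf 177 1226 (.cons 158 (.leaf 179 1233 (.cons 135 (.leaf 134 1049 (.cons 159 (.leaf 160 1250 (.leaf 136 1057 .nil)) .nil)) .nil)) .nil)) .nil)) (.cons 109 (.leaf 133 870 (.cons 129 (.leaf 130 1035 (.cons 178 (.leaf 177 1226 (.cons 179 (.leaf 158 1233 (.cons 107 (.leaf 131 860 (.cons 205 (.leaf 206 1424 (.cons 229 (.leaf 253 1255 (.cons 202 (.leaf 201 1418 (.cons 230 (.leaf 203 1616 (.leaf 254 1260 .nil)) .nil)) .nil)) .nil)) .nil)) .nil)) .nil)) .nil))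 .nil)) .nil))) .nil)) (.cons 182 (.leaf 183 1243 (.cons 179 (.cons 107 (.leaf 131 860 (.cons 158 (.leaf 159 1241 (.cons 157 (.leaf 178 1233 (.cons 109 (.leaf 133 870 (.cons 134 (.leaf 135 1049 (.cons 110 (.leaf 86 686 (.leaf 205 878 .nil)) .nil)) .nil)) .nil)) .nil)) .nil)) (.cons 202 (.leaf 203 1426 (.cons 107 (.leaf 131 860 (.cons 178 (.leaf 201 1418 (.cons 177 (.leaf 205 1416 (.leaf 157 1225 .nil)) .nil)) .nil)) .nil)) (.cons 203 (.leaf 202 1426 (.cons 131 (.leaf 107 860 (.cons 130 (.leaf 106 855 (.cons 158 (.leaf 159 1241 (.leaf 157 1043 .nil)) .nil)) .nil)) .nil)) (.cons 202 (.leaf 203 1426 (.cons 107 (.leaf 131 860 (.cons 158 (.leaf 159 1241 (.cons 178 (.leaf 201 1418 (.cons 177 (.leaf 205 1416 (.leaf 176 1217 .nil)) .nil)) .nil)) .nil)) .nil)) (.cons 158 (.leaf 159 1241 (.cons 157 (.leaf 178 1233 (.cons 206 (.leaf 207 1432 (.cons 133 (.leaf 109 876 (.leaf 230 1071 .nil)) .nil))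 .nil)) .nil)) .nil))))) .nil)) (.cons 182 (.leaf 183 1243 (.cons 154 (.leaf 153 1224 (.leaf 157 1232 .nil)) .nil)) (.cons 182 (.leaf 183 1243 (.cons 154 (.leaf 153 1224 (.leaf 179 1235 .nil)) .nil)) .nil))))
noncomputable def t237 : T := .cons 154 (.cons 129 (.leaf 130 1035 (.cons 177 (.leaf 178 1226 (.cons 182 (.leaf 181 1232 (.cons 158 (.leaf 183 1240 (.cons 133 (.leaf 228 1061 (.leaf 134 1041 .nil)) .nil)) .nil)) .nil)) .nil)) (.cons 129 (.leaf 130 1035 (.cons 128 (.leaf 153 1027 (.cons 178 (.leaf 177 1226 (.cons 158 (.leaf 179 1234 (.cons 135 (.leaf 134 1049 (.cons 159 (.leaf 136 1057 (.cons 183 (.leaf 182 1240 (.leaf 184 1248 .nil)) .nil)) .nil)) .nil)) .nil)) .nil)) .nil)) (.cons 129 (.leaf 130 1035 (.cons 153 (.leaf 181 1224 (.leaf 128 1027 .nil)) .nil)) (.cons 181 (.leaf 153 1224 (.leaf 182 1232 .nil)) .nil)))) (.cons 154 (.cons 181 (.leaf 153 1224 (.leaf 182 1232 .nil)) (.cons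 178 (.leaf 177 1226 (.cons 129 (.leaf 130 1035 (.cons 128 (.leaf 153 1027 (.cons 158 (.leaf 179 1234 (.cons 135 (.leaf 134 1049 (.cons 159 (.leaf 136 1057 (.cons 183 (.leaf 182 1240 (.leaf 184 1248 .nil)) .nil)) .nil)) .nil)) .nil)) .nil)) .nil)) (.cons 182 (.leaf 181 1232 (.cons 129 (.leaf 130 1035 (.cons 158 (.leaf 183 1240 (.cons 178 (.leaf 177 1226 (.leaf 179 1234 .nil)) .nil)) .nil)) .nil)) (.cons 153 (.leaf 181 1224 (.cons 129 (.leaf 128 1027 (.leaf 130 1035 .nil)) .nil)) .nil)))) (.cons 133 (.leaf 228 1061 (.cons 85 (.leaf 109 678 (.cons 134 (.leaf 154 1041 (.cons 135 (.leaf 136 1058 (.leaf 158 1049 .nil)) .nil)) .nil)) .nil)) (.cons 133 (.leaf 228 1061 (.cons 109 (.leaf 181 870 (.leaf 85 678 .nil)) .nil)) .nil)))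
noncomputable def t238 : T := .cons 228 (.leaf 131 1055 (.cons 157 (.leaf 133 1061 (.cons 229 (.leaf 253 1252 (.cons 154 (.cons 177 (.leaf 178 1226 (.cons 129 (.leaf 130 1035 (.cons 182 (.leaf 181 1232 (.cons 158 (.leaf 183 1240 (.cons 153 (.leaf 128 1027 (.leaf 176 1218 .nil)) .nil)) .nil)) .nil)) .nil)) (.cons 177 (.leaf 178 1226 (.cons 129 (.leaf 130 1035 (.cons 153 (.leaf 128 1027 (.leaf 176 1218 .nil)) .nil)) .nil)) (.cons 129 (.leaf 130 1035 (.cons 182 (.leaf 181 1232 (.cons 158 (.leaf 183 1240 (.cons 178 (.leaf 177 1226 (.leaf 179 1234 .nil)) .nil)) .nil)) .nil)) (.cons 129 (.leaf 130 1035 (.cons 182 (.leaf 181 1232 (.cons 158 (.leaf 183 1240 (.cons 128 (.leaf 153 1027 (.cons 134 (.leaf 135 1049 (.cons 206 (.leaf 205 1070 (.cons 231 (.leaf 207 1076 (.cons 230 (.leaf 203 1627 (.leaf 255 1268 .nil)) .nil)) .nil)) .nil)) .nil)) .nil)) .nil)) .nil)) (.cons 181 (.leaf 153 1224 (.leaf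 182 1232 .nil)) .nil))))) .nil)) .nil)) .nil)) (.cons 157 t237 (.cons 181 t236 (.cons 131 (.leaf 228 1055 (.cons 107 (.leaf 179 860 (.leaf 83 668 .nil)) .nil)) (.cons 228 (.leaf 131 1055 (.cons 157 (.leaf 133 1061 (.cons 229 (.leaf 253 1252 (.cons 154 (.cons 177 (.leaf 178 1226 (.cons 129 (.leaf 130 1035 (.cons 153 (.leaf 181 1224 (.leaf 128 1027 .nil)) .nil)) .nil)) (.cons 177 (.leaf 178 1226 (.cons 129 (.leaf 130 1035 (.cons 153 (.leaf 128 1027 (.leaf 176 1218 .nil)) .nil)) .nil)) (.cons 129 (.leaf 130 1035 (.cons 182 (.leaf 181 1232 (.cons 158 (.leaf 183 1240 (.cons 134 (.leaf 135 1049 (.cons 206 (.leaf 205 1070 (.cons 231 (.leaf 207 1076 (.cons 230 (.leaf 203 1627 (.leaf 255 1268 .nil)) .nil)) .nil)) .nil)) .nil)) .nil)) .nil)) (.cons 181 (.leaf 153 1224 (.leaf 182 1232 .nil)) .nil)))) .nil)) .nil)) .nil)) .nil))))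
noncomputable def t239 : T := .cons 132 (.cons 133 (.leaf 109 869 (.cons 107 (.leaf 131 863 (.cons 108 (.leaf 83 671 (.cons 105 (.leaf 106 840 (.cons 134 (.leaf 135 859 (.cons 157 (.leaf 228 1061 (.cons 84 (.leaf 181 676 (.leaf 60 484 .nil)) .nil)) .nil)) .nil)) .nil)) .nil)) .nil)) (.cons 133 (.leaf 109 869 (.cons 228 (.leaf 157 1061 (.cons 229 (.leaf 205 1060 (.leaf 253 1252 .nil)) .nil)) .nil)) (.cons 205 (.leaf 229 1060 (.cons 108 (.leaf 181 868 (.cons 179 (.leaf 203 862 (.cons 84 (.leaf 155 670 (.cons 59 (.leaf 83 479 (.cons 60 (.leaf 35 287 (.cons 61 (.leaf 85 485 (.leaf 37 293 .nil)) .nil)) .nil)) .nil)) .nil)) .nil)) .nil)) .nil))) (.cons 155 t238 (.cons 132 (.cons 205 (.leaf 229 1060 (.cons 108 (.leaf 181 868 (.cons 179 (.leaf 203 862 (.cons 84 (.leaf 155 670 (.cons 59 (.leaf 83 479 (.cons 60 (.leaf 35 287 (.cons 61 (.leaf 85 485 (.leaf 37 293 .nil)) .nil)) .nil)) .nil)) .nil))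 .nil)) .nil)) (.cons 131 (.leaf 107 863 (.cons 109 (.leaf 133 869 (.cons 108 (.leaf 85 677 (.cons 110 (.leaf 111 858 (.cons 129 (.leaf 130 841 (.cons 155 (.leaf 228 1055 (.cons 179 (.leaf 203 861 (.leaf 84 670 .nil)) .nil)) .nil)) .nil)) .nil)) .nil)) .nil)) (.cons 131 (.leaf 107 863 (.cons 228 (.leaf 155 1055 (.cons 229 (.leaf 205 1060 (.leaf 253 1252 .nil)) .nil)) .nil)) (.cons 205 (.leaf 229 1060 (.cons 107 (.leaf 131 863 (.cons 108 (.leaf 83 671 (.leaf 181 868 .nil)) .nil)) .nil)) .nil)))) (.cons 132 (.cons 133 (.leaf 109 869 (.cons 228 (.leaf 157 1061 (.cons 229 (.leaf 205 1060 (.leaf 253 1252 .nil)) .nil)) .nil)) (.cons 109 (.leaf 133 869 (.cons 108 (.leaf 85 677 (.cons 83 (.leaf 107 671 (.cons 84 (.leaf 59 479 (.cons 179 (.leaf 203 862 (.leaf 155 670 .nil)) .nil)) .nil)) .nil)) .nil)) (.cons 205 (.leaf 229 1060 (.cons 108 (.leaf 181 868 (.cons 179 (.leaf 203 862 (.cons 84 (.leaf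 155 670 (.cons 59 (.leaf 83 479 (.cons 60 (.leaf 35 287 (.cons 61 (.leaf 85 485 (.leaf 37 293 .nil)) .nil)) .nil)) .nil)) .nil)) .nil)) .nil)) .nil))) (.cons 132 (.cons 131 (.leaf 107 863 (.cons 228 (.leaf 155 1055 (.cons 229 (.leaf 205 1060 (.leaf 253 1252 .nil)) .nil)) .nil)) (.cons 107 (.leaf 131 863 (.cons 108 (.leaf 83 671 (.cons 85 (.leaf 109 677 (.cons 84 (.leaf 61 485 (.cons 179 (.leaf 203 862 (.leaf 155 670 .nil)) .nil)) .nil)) .nil)) .nil)) (.cons 205 (.leaf 229 1060 (.cons 108 (.leaf 181 868 (.cons 179 (.leaf 203 862 (.cons 84 (.leaf 155 670 (.cons 59 (.leaf 83 479 (.cons 60 (.leaf 35 287 (.cons 61 (.leaf 85 485 (.leaf 37 293 .nil)) .nil)) .nil)) .nil)) .nil)) .nil)) .nil)) (.cons 107 (.leaf 131 863 (.cons 108 (.leaf 83 671 (.cons 205 (.leaf 229 1060 (.leaf 181 868 .nil)) .nil)) .nil)) .nil)))) (.cons 132 t235 t234)))))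
noncomputable def t240 : T := .cons 157 (.leaf 158 1233 (.cons 109 (.leaf 133 870 (.cons 202 (.leaf 201 1418 (.cons 182 (.leaf 203 1425 (.cons 183 (.leaf 184 1442 (.cons 156 (.leaf 155 1243 (.cons 132 (.leaf 229 1060 (.leaf 108 868 .nil)) .nil)) .nil)) .nil)) .nil)) .nil)) .nil)) (.cons 157 (.leaf 158 1233 (.cons 109 (.leaf 133 870 (.cons 154 (.leaf 153 1227 (.cons 182 (.leaf 155 1235 (.cons 183 (.leaf 203 1434 (.leaf 184 1442 .nil)) .nil)) .nil)) .nil)) .nil)) (.cons 153 (.leaf 154 1227 (.cons 157 (.leaf 158 1233 (.cons 133 (.leaf 109 870 (.cons 132 (.leaf 108 871 (.cons 229 (.leaf 156 1060 (.cons 201 (.leaf 202 1418 (.cons 253 (.leaf 277 1447 (.cons 254 (.leaf 230 1260 (.leaf 278 1452 .nil)) .nil)) .nil)) .nil)) .nil)) .nil)) .nil)) .nil)) (.cons 202 (.leaf 201 1418 (.cons 154 (.leaf 153 1227 (.cons 131 (.cons 107 (.leaf 155 860 (.leaf 130 853 .nil)) (.cons 130 (.leaf 107 853 (.cons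 105 (.leaf 129 847 (.cons 106 (.leaf 203 852 (.leaf 81 655 .nil)) .nil)) .nil)) (.cons 226 (.leaf 155 1045 (.cons 225 (.leaf 203 1610 (.leaf 249 1230 .nil)) .nil)) .nil))) .nil)) .nil)) .nil)))
noncomputable def t241 : T := .cons 230 (.leaf 231 1624 (.cons 202 (.leaf 229 1616 (.cons 201 (.leaf 181 1417 (.leaf 200 1409 .nil)) .nil)) .nil)) (.cons 182 (.leaf 183 1433 (.cons 181 (.leaf 202 1425 (.cons 155 (.leaf 154 1235 (.cons 131 (.leaf 107 860 (.cons 132 (.leaf 108 861 (.cons 156 (.leaf 229 1060 (.cons 130 (.leaf 106 855 (.cons 129 (.leaf 128 1024 (.leaf 157 1032 .nil)) .nil)) .nil)) .nil)) .nil)) .nil)) .nil)) .nil)) (.cons 182 (.leaf 183 1433 (.cons 230 (.leaf 231 1624 (.cons 181 (.cons 254 (.leaf 278 1455 (.leaf 157 1263 .nil)) (.cons 154 (.leaf 155 1235 (.cons 158 (.leaf 159 1241 (.cons 253 (.leaf 229 1261 (.cons 254 (.leaf 278 1455 (.leaf 277 1454 .nil)) .nil)) .nil)) .nil)) (.cons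 133 (.leaf 157 1068 (.cons 155 (.leaf 154 1235 (.cons 131 (.leaf 107 860 (.cons 106 (.leaf 130 855 (.cons 132 (.leaf 108 861 (.cons 156 (.leaf 109 869 (.leaf 229 1060 .nil)) .nil)) .nil)) .nil)) .nil)) .nil)) .nil))) .nil)) .nil)) (.cons 230 (.leaf 231 1624 (.cons 182 (.leaf 183 1433 (.cons 202 (.leaf 229 1616 (.cons 201 (.leaf 200 1409 (.cons 225 (.leaf 224 1602 (.leaf 226 1610 .nil)) .nil)) .nil)) .nil)) .nil)) (.cons 182 (.leaf 183 1433 (.cons 181 (.leaf 202 1425 (.cons 154 (.leaf 155 1235 (.cons 230 (.leaf 231 1624 (.cons 157 (.leaf 133 1068 (.leaf 254 1263 .nil)) .nil)) .nil)) .nil)) .nil)) .nil))))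
noncomputable def t242 : T := .cons 202 (.leaf 201 1418 (.cons 182 (.leaf 203 1425 (.cons 183 (.leaf 184 1442 (.cons 156 (.leaf 155 1243 (.cons 132 (.leaf 229 1060 (.leaf 108 868 .nil)) .nil)) .nil)) .nil)) .nil)) (.cons 154 (.leaf 153 1227 (.cons 182 (.leaf 155 1235 (.cons 183 (.leaf 203 1434 (.leaf 184 1442 .nil)) .nil)) .nil)) (.cons 202 (.leaf 201 1418 (.cons 154 (.leaf 153 1227 (.cons 131 (.cons 107 (.leaf 155 860 (.leaf 130 853 .nil)) (.cons 226 (.leaf 155 1045 (.cons 225 (.leaf 203 1610 (.leaf 249 1230 .nil)) .nil)) (.cons 130 (.leaf 107 853 (.cons 105 (.leaf 129 847 (.cons 106 (.leaf 203 852 (.leaf 81 655 .nil)) .nil)) .nil)) .nil))) .nil)) .nil)) (.cons 154 (.leaf 153 1227 (.cons 155 (.leaf 182 1235 (.cons 131 (.leaf 107 860 (.cons 202 (.leaf 201 1418 (.leaf 226 1045 .nil)) .nil)) .nil)) .nil)) (.cons 202 (.leaf 201 1418 (.cons 203 (.leaf 182 1425 (.cons 153 (.leaf 154 1227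 (.cons 225 (.leaf 226 1610 (.cons 229 (.leaf 230 1616 (.cons 156 (.leaf 132 1060 (.leaf 253 1255 .nil)) .nil)) .nil)) .nil)) .nil)) .nil)) .nil))))
noncomputable def t243 : T := .cons 182 (.leaf 183 1433 (.cons 181 (.leaf 202 1425 (.cons 155 (.leaf 154 1235 (.cons 131 (.leaf 107 860 (.cons 132 (.leaf 108 861 (.cons 229 (.leaf 156 1060 (.cons 253 (.leaf 277 1453 (.cons 106 (.leaf 130 855 (.cons 230 (.leaf 231 1624 (.cons 254 (.leaf 157 1260 (.leaf 278 1452 .nil)) .nil)) .nil)) .nil)) .nil)) .nil)) .nil)) .nil)) .nil)) .nil)) (.cons 230 (.leaf 231 1624 (.cons 202 (.leaf 229 1616 (.cons 201 (.leaf 181 1417 (.leaf 200 1409 .nil)) .nil)) .nil)) (.cons 182 (.leaf 183 1433 (.cons 230 (.leaf 231 1624 (.cons 155 (.cons 181 (.leaf 154 1235 (.cons 157 (.leaf 133 1068 (.leaf 254 1263 .nil)) .nil)) (.cons 131 (.leaf 107 860 (.cons 132 (.leaf 108 861 (.cons 156 (.leaf 229 1060 (.cons 130 (.leaf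 106 855 (.cons 129 (.leaf 128 1024 (.leaf 157 1032 .nil)) .nil)) .nil)) .nil)) .nil)) (.cons 131 (.leaf 107 860 (.cons 106 (.leaf 130 855 (.cons 132 (.leaf 108 861 (.cons 154 (.leaf 181 1235 (.cons 152 (.leaf 153 1216 (.cons 133 (.leaf 134 1042 (.cons 156 (.leaf 109 869 (.leaf 229 1060 .nil)) .nil)) .nil)) .nil)) .nil)) .nil)) .nil)) .nil))) .nil)) .nil)) (.cons 182 (.leaf 183 1433 (.cons 181 (.leaf 202 1425 (.cons 155 (.leaf 154 1235 (.cons 131 (.leaf 107 860 (.cons 132 (.leaf 108 861 (.cons 156 (.leaf 229 1060 (.cons 130 (.leaf 106 855 (.cons 129 (.leaf 128 1024 (.leaf 157 1032 .nil)) .nil)) .nil)) .nil)) .nil)) .nil)) .nil)) .nil)) (.cons 230 (.leaf 231 1624 (.cons 182 (.leaf 183 1433 (.cons 202 (.leaf 229 1616 (.cons 201 (.leaf 200 1409 (.cons 225 (.leaf 224 1602 (.leaf 226 1610 .nil)) .nil)) .nil)) .nil)) .nil)) (.cons 182 (.leaf 183 1433 (.cons 181 (.leaf 202 1425 (.cons 154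 (.leaf 155 1235 (.cons 230 (.leaf 231 1624 (.cons 157 (.leaf 133 1068 (.leaf 254 1263 .nil)) .nil)) .nil)) .nil)) .nil)) .nil)))))
noncomputable def t244 : T := .cons 182 (.leaf 183 1433 (.cons 181 (.leaf 202 1425 (.cons 155 (.leaf 154 1235 (.cons 158 (.leaf 159 1241 (.cons 134 (.leaf 110 878 (.leaf 229 1070 .nil)) .nil)) .nil)) .nil)) .nil)) (.cons 230 (.leaf 231 1624 (.cons 202 (.leaf 229 1616 (.cons 201 (.leaf 181 1417 (.leaf 200 1409 .nil)) .nil)) .nil)) (.cons 182 (.leaf 183 1433 (.cons 230 (.leaf 231 1624 (.cons 229 (.cons 253 (.leaf 277 1453 (.leaf 158 1262 .nil)) (.cons 132 (.leaf 156 1060 (.cons 158 (.leaf 134 1070 (.cons 159 (.leaf 181 1241 (.leaf 135 1077 .nil)) .nil)) .nil)) (.cons 253 (.leaf 277 1453 (.cons 156 (.leaf 132 1060 (.leaf 181 1255 .nil)) .nil)) .nil))) .nil)) .nil)) (.cons 230 (.leaf 231 1624 (.cons 182 (.leaf 183 1433 (.cons 229 (.leaf 202 1616 (.cons 253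 (.leaf 277 1453 (.leaf 158 1262 .nil)) .nil)) .nil)) .nil)) (.cons 182 (.leaf 183 1433 (.cons 181 (.leaf 202 1425 (.cons 155 (.leaf 154 1235 (.cons 107 (.leaf 131 860 (.cons 158 (.leaf 159 1241 (.cons 134 (.leaf 110 878 (.cons 135 (.leaf 111 885 (.cons 133 (.leaf 109 879 (.cons 132 (.leaf 156 1050 (.leaf 108 859 .nil)) .nil)) .nil)) .nil)) .nil)) .nil)) .nil)) .nil)) .nil)) .nil))))
noncomputable def t245 : T := .leaf 177 1416 (.cons 181 (.cons 154 (.leaf 153 1227 (.cons 155 (.leaf 182 1235 (.cons 131 (.leaf 107 860 (.cons 202 (.leaf 201 1418 (.leaf 226 1045 .nil)) .nil)) .nil)) .nil)) (.cons 154 (.leaf 153 1227 (.cons 182 (.leaf 155 1235 (.cons 183 (.leaf 203 1434 (.leaf 184 1442 .nil)) .nil)) .nil)) (.cons 202 (.leaf 201 1418 (.cons 154 (.leaf 153 1227 (.cons 131 (.cons 107 (.leaf 155 860 (.leaf 130 853 .nil)) (.cons 226 (.leaf 155 1045 (.cons 225 (.leaf 203 1610 (.leaf 249 1230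 .nil)) .nil)) (.cons 130 (.leaf 107 853 (.cons 105 (.leaf 129 847 (.cons 106 (.leaf 203 852 (.leaf 81 655 .nil)) .nil)) .nil)) .nil))) .nil)) .nil)) (.cons 202 (.leaf 201 1418 (.cons 182 (.leaf 203 1425 (.cons 183 (.leaf 184 1442 (.cons 156 (.leaf 155 1243 (.cons 132 (.leaf 229 1060 (.leaf 108 868 .nil)) .nil)) .nil)) .nil)) .nil)) (.cons 202 (.leaf 201 1418 (.cons 182 (.leaf 203 1425 (.cons 153 (.leaf 154 1227 (.cons 159 (.leaf 158 1241 (.cons 183 (.leaf 184 1442 (.leaf 160 1249 .nil)) .nil)) .nil)) .nil)) .nil)) .nil))))) .nil)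
noncomputable def t246 : T := .cons 253 (.leaf 277 1447 (.cons 156 (.leaf 132 1060 (.leaf 181 1255 .nil)) .nil)) (.cons 156 (.leaf 132 1060 (.cons 158 (.cons 159 (.leaf 157 1242 (.cons 182 (.leaf 181 1241 (.leaf 134 1070 .nil)) .nil)) (.cons 157 (.leaf 159 1242 (.cons 134 (.leaf 181 1069 (.cons 135 (.leaf 155 1049 (.cons 136 (.leaf 133 1058 (.leaf 137 1066 .nil)) .nil)) .nil)) .nil)) (.cons 182 (.leaf 134 1070 (.cons 159 (.leaf 181 1241 (.cons 135 (.leaf 230 1077 (.cons 111 (.leaf 183 886 (.leaf 87 694 .nil)) .nil)) .nil)) .nil)) (.cons 159 (.leaf 157 1242 (.cons 182 (.leaf 181 1241 (.cons 135 (.leaf 230 1077 (.cons 111 (.leaf 183 886 (.leaf 87 694 .nil)) .nil)) .nil)) .nil)) (.cons 182 (.leaf 134 1070 (.cons 183 (.leaf 203 1433 (.cons 155 (.leaf 181 1243 (.leaf 157 1240 .nil)) .nil)) .nil)) (.cons 182 (.leaf 134 1070 (.cons 157 (.leaf 159 1242 (.cons 183 (.leaf 203 1433 (.leaf 155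 1240 .nil)) .nil)) .nil)) .nil)))))) .nil)) (.cons 253 (.leaf 277 1447 (.cons 182 (.cons 183 (.leaf 203 1433 (.cons 184 (.leaf 181 1442 (.leaf 185 1450 .nil)) .nil)) (.cons 158 (.leaf 134 1070 (.leaf 230 1262 .nil)) .nil)) .nil)) (.cons 253 (.leaf 277 1447 (.cons 156 (.leaf 132 1060 (.cons 182 (.cons 203 (.leaf 183 1433 (.cons 158 (.leaf 134 1070 (.leaf 230 1262 .nil)) .nil)) (.cons 203 (.leaf 183 1433 (.cons 202 (.leaf 230 1616 (.cons 201 (.leaf 200 1409 (.cons 225 (.leaf 224 1602 (.leaf 226 1610 .nil)) .nil)) .nil)) .nil)) (.cons 158 (.leaf 134 1070 (.cons 157 (.leaf 159 1242 (.cons 155 (.leaf 183 1240 (.cons 131 (.leaf 107 860 (.leaf 130 1043 .nil)) .nil)) .nil)) .nil)) (.cons 158 (.leaf 134 1070 (.leaf 230 1262 .nil)) .nil)))) .nil)) .nil)) .nil)))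
noncomputable def t247 : T := .cons 178 (.leaf 177 1416 (.cons 206 (.leaf 203 1427 (.leaf 207 1435 .nil)) .nil)) (.cons 206 (.leaf 207 1435 (.cons 229 t246 .nil)) (.cons 178 (.leaf 177 1416 (.cons 181 (.cons 157 (.leaf 158 1233 (.cons 133 (.leaf 109 870 (.cons 110 (.leaf 134 877 (.cons 132 (.leaf 108 871 (.cons 156 (.leaf 229 1060 (.cons 131 (.leaf 107 863 (.cons 130 (.leaf 129 1032 (.cons 154 (.leaf 153 1034 (.cons 106 (.leaf 203 852 (.leaf 105 843 .nil)) .nil)) .nil)) .nil)) .nil)) .nil)) .nil)) .nil)) .nil)) (.cons 202 (.leaf 201 1418 (.cons 203 (.leaf 182 1425 (.cons 154 (.leaf 153 1227 (.cons 229 (.leaf 230 1616 (.cons 156 (.leaf 132 1060 (.leaf 253 1255 .nil)) .nil)) .nil)) .nil)) .nil)) (.cons 157 (.leaf 158 1233 (.cons 133 (.leaf 109 870 (.cons 110 (.leaf 134 877 (.cons 132 (.leaf 108 871 (.cons 229 (.leaf 156 1060 (.cons 201 (.leaf 202 1418 (.cons 253 (.leaf 277 1447 (.cons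 254 (.leaf 230 1260 (.leaf 278 1452 .nil)) .nil)) .nil)) .nil)) .nil)) .nil)) .nil)) .nil)) (.cons 202 (.leaf 201 1418 (.cons 182 (.leaf 203 1425 (.cons 158 (.leaf 157 1233 (.leaf 159 1241 .nil)) .nil)) .nil)) .nil)))) .nil)) (.cons 178 (.leaf 177 1416 (.cons 206 (.leaf 207 1435 (.leaf 181 1424 .nil)) .nil)) .nil)))
noncomputable def t248 : T := .cons 182 (.leaf 183 1433 (.cons 202 (.leaf 181 1425 (.cons 225 (.leaf 226 1610 (.cons 201 (.leaf 224 1602 (.cons 176 (.leaf 177 1411 (.cons 200 (.leaf 179 1409 (.leaf 175 1403 .nil)) .nil)) .nil)) .nil)) .nil)) .nil)) (.cons 182 (.leaf 183 1433 (.cons 202 (.leaf 181 1425 (.cons 177 (.leaf 178 1419 (.cons 201 (.leaf 176 1411 (.cons 225 (.leaf 224 1602 (.leaf 226 1610 .nil)) .nil)) .nil)) .nil)) .nil)) (.cons 178 (.leaf 179 1427 (.cons 202 (.leaf 177 1419 (.cons 201 (.leaf 181 1417 (.cons 225 (.leaf 224 1602 (.leaf 226 1610 .nil)) .nil)) .nil))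 .nil)) (.cons 182 (.leaf 183 1433 (.cons 202 (.cons 225 (.leaf 226 1610 (.cons 201 (.leaf 224 1602 (.cons 176 (.leaf 177 1411 (.cons 200 (.leaf 179 1409 (.leaf 175 1403 .nil)) .nil)) .nil)) .nil)) (.cons 225 (.leaf 226 1610 (.cons 177 (.leaf 178 1419 (.cons 201 (.leaf 176 1411 (.leaf 224 1602 .nil)) .nil)) .nil)) (.cons 179 (.leaf 178 1427 (.cons 201 (.leaf 200 1409 (.cons 225 (.leaf 224 1602 (.leaf 226 1610 .nil)) .nil)) .nil)) (.cons 178 (.leaf 177 1419 (.leaf 179 1427 .nil)) .nil)))) .nil)) (.cons 179 (.leaf 178 1427 (.cons 182 (.leaf 183 1433 (.cons 155 (.cons 131 (.leaf 107 860 (.cons 130 (.leaf 106 855 (.cons 132 (.leaf 108 861 (.cons 156 (.leaf 229 1060 (.cons 129 (.leaf 128 1024 (.leaf 157 1032 .nil)) .nil)) .nil)) .nil)) .nil)) (.cons 181 (.leaf 154 1235 (.cons 158 (.leaf 159 1241 (.cons 134 (.leaf 110 878 (.leaf 229 1070 .nil)) .nil)) .nil)) (.cons 107 (.leaf 131 860 (.cons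 181 (.leaf 154 1235 (.cons 158 (.leaf 159 1241 (.cons 134 (.leaf 110 878 (.cons 135 (.leaf 111 885 (.cons 133 (.leaf 109 879 (.cons 132 (.leaf 156 1050 (.leaf 108 859 .nil)) .nil)) .nil)) .nil)) .nil)) .nil)) .nil)) .nil))) .nil)) .nil)) .nil))))
noncomputable def t249 : T := .cons 207 (.leaf 179 1435 (.cons 181 (.leaf 208 1443 (.cons 183 (.leaf 184 1441 (.cons 182 (.leaf 203 1433 (.cons 155 (.leaf 156 1243 (.cons 159 (.leaf 160 1249 (.cons 135 (.leaf 111 886 (.cons 134 (.leaf 110 887 (.cons 158 (.leaf 229 1070 (.leaf 231 1076 .nil)) .nil)) .nil)) .nil)) .nil)) .nil)) .nil)) .nil)) .nil)) (.cons 207 (.cons 181 (.leaf 208 1443 (.cons 183 (.leaf 184 1441 (.cons 182 (.leaf 203 1433 (.cons 155 (.leaf 156 1243 (.cons 159 (.leaf 160 1249 (.cons 135 (.leaf 111 886 (.cons 134 (.leaf 110 887 (.cons 158 (.leaf 229 1070 (.leaf 231 1076 .nil)) .nil)) .nil)) .nil)) .nil)) .nil)) .nil)) .nil)) (.cons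 183 (.leaf 184 1441 (.cons 182 (.leaf 203 1433 (.cons 231 (.leaf 232 1632 (.cons 158 (.leaf 134 1076 (.leaf 255 1271 .nil)) .nil)) .nil)) .nil)) (.cons 208 (.leaf 181 1443 (.cons 232 (.leaf 231 1632 (.leaf 233 1640 .nil)) .nil)) (.cons 181 (.leaf 208 1443 (.cons 183 (.leaf 184 1441 (.cons 182 (.leaf 203 1433 (.cons 155 (.leaf 156 1243 (.cons 159 (.leaf 160 1249 (.cons 135 (.leaf 111 886 (.cons 134 (.leaf 110 887 (.cons 158 (.leaf 229 1070 (.cons 133 (.leaf 109 879 (.cons 132 (.leaf 131 1048 (.cons 108 (.leaf 157 871 (.leaf 107 859 .nil)) .nil)) .nil)) .nil)) .nil)) .nil)) .nil)) .nil)) .nil)) .nil)) .nil)) .nil)))) (.cons 203 t248 (.cons 207 (.leaf 179 1435 (.cons 183 (.leaf 184 1441 (.cons 182 (.leaf 203 1433 (.cons 231 (.leaf 232 1632 (.cons 158 (.leaf 134 1076 (.leaf 255 1271 .nil)) .nil)) .nil)) .nil)) .nil)) (.cons 207 (.leaf 179 1435 (.cons 208 (.leaf 181 1443 (.cons 184 (.leaf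 183 1441 (.leaf 185 1449 .nil)) .nil)) .nil)) (.cons 207 (.leaf 179 1435 (.cons 208 (.leaf 181 1443 (.cons 232 (.leaf 231 1632 (.leaf 233 1640 .nil)) .nil)) .nil)) .nil)))))
noncomputable def t250 : T := .cons 153 (.leaf 154 1227 (.cons 158 (.leaf 157 1233 (.cons 182 (.leaf 159 1241 (.cons 202 (.leaf 203 1425 (.leaf 201 1418 .nil)) .nil)) .nil)) .nil)) (.cons 157 (.leaf 158 1233 (.cons 133 (.leaf 109 870 (.cons 110 (.leaf 134 877 (.cons 132 (.leaf 108 871 (.cons 156 (.leaf 229 1060 (.cons 131 (.leaf 107 863 (.cons 130 (.leaf 129 1032 (.cons 154 (.leaf 153 1034 (.cons 106 (.leaf 203 852 (.leaf 105 843 .nil)) .nil)) .nil)) .nil)) .nil)) .nil)) .nil)) .nil)) .nil)) (.cons 153 (.leaf 154 1227 (.cons 202 (.leaf 201 1418 (.cons 203 (.leaf 182 1425 (.cons 225 (.leaf 226 1610 (.cons 229 (.leaf 230 1616 (.cons 156 (.leaf 132 1060 (.leaf 253 1255 .nil)) .nil)) .nil)) .nil)) .nil)) .nil)) (.cons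 202 (.leaf 201 1418 (.cons 182 (.leaf 203 1425 (.cons 158 (.leaf 157 1233 (.leaf 159 1241 .nil)) .nil)) .nil)) (.cons 157 (.leaf 158 1233 (.cons 133 (.leaf 109 870 (.cons 110 (.leaf 134 877 (.cons 132 (.leaf 108 871 (.cons 229 (.leaf 156 1060 (.cons 201 (.leaf 202 1418 (.cons 253 (.leaf 277 1447 (.cons 254 (.leaf 230 1260 (.leaf 278 1452 .nil)) .nil)) .nil)) .nil)) .nil)) .nil)) .nil)) .nil)) .nil))))
noncomputable def t251 : T := .cons 157 (.leaf 159 1242 (.cons 181 (.cons 133 (.leaf 109 870 (.leaf 230 1068 .nil)) (.cons 229 (.leaf 253 1255 (.leaf 134 1069 .nil)) .nil)) .nil)) (.cons 182 (.cons 134 (.leaf 229 1070 (.cons 181 (.leaf 159 1241 (.leaf 110 878 .nil)) .nil)) (.cons 134 (.leaf 229 1070 (.cons 109 (.leaf 133 879 (.cons 110 (.leaf 85 687 (.cons 111 (.leaf 135 885 (.leaf 87 693 .nil)) .nil)) .nil)) .nil)) (.cons 159 (.leaf 181 1241 (.cons 230 (.leaf 135 1077 (.cons 231 (.leaf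 203 1624 (.leaf 255 1268 .nil)) .nil)) .nil)) .nil))) (.cons 229 (.cons 253 (.leaf 277 1447 (.leaf 181 1255 .nil)) (.cons 134 (.leaf 182 1070 (.cons 157 (.leaf 181 1069 (.cons 135 (.leaf 155 1049 (.cons 136 (.leaf 133 1058 (.leaf 137 1066 .nil)) .nil)) .nil)) .nil)) (.cons 182 (.leaf 134 1070 (.cons 253 (.leaf 277 1453 (.leaf 230 1262 .nil)) .nil)) .nil))) (.cons 157 (.leaf 159 1242 (.cons 155 (.cons 131 (.leaf 107 860 (.leaf 130 1043 .nil)) (.cons 134 (.leaf 135 1049 (.cons 133 (.leaf 154 1041 (.cons 182 (.leaf 229 1070 (.leaf 109 879 .nil)) .nil)) .nil)) .nil)) .nil)) (.cons 157 (.leaf 159 1242 (.cons 155 (.cons 131 (.leaf 107 860 (.leaf 130 1043 .nil)) (.cons 134 (.leaf 135 1049 (.cons 133 (.leaf 154 1041 (.cons 182 (.leaf 109 879 (.leaf 230 1071 .nil)) .nil)) .nil)) .nil)) .nil)) (.cons 159 (.leaf 157 1242 (.cons 182 (.leaf 181 1241 (.cons 230 (.leaf 135 1077 (.cons 231 (.leaf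 203 1624 (.leaf 255 1268 .nil)) .nil)) .nil)) .nil)) .nil)))))
noncomputable def t252 : T := .cons 178 (.leaf 177 1416 (.cons 206 (.leaf 203 1427 (.leaf 207 1435 .nil)) .nil)) (.cons 206 (.leaf 207 1435 (.cons 156 (.cons 132 (.leaf 229 1060 (.cons 107 (.leaf 131 863 (.cons 108 (.leaf 83 671 (.leaf 203 862 .nil)) .nil)) .nil)) (.cons 158 t251 (.cons 132 (.cons 107 (.leaf 131 863 (.cons 108 (.leaf 83 671 (.leaf 203 862 .nil)) .nil)) (.cons 131 (.leaf 107 863 (.cons 133 (.leaf 109 869 (.cons 157 (.cons 158 (.leaf 159 1242 (.leaf 130 1040 .nil)) (.cons 130 (.leaf 129 1032 (.cons 105 (.leaf 106 843 (.cons 154 (.leaf 153 1034 (.cons 134 (.leaf 155 1041 (.cons 110 (.leaf 181 877 (.leaf 111 857 .nil)) .nil)) .nil)) .nil)) .nil)) (.cons 158 (.leaf 159 1242 (.cons 230 (.leaf 181 1068 (.leaf 182 1071 .nil)) .nil)) .nil))) .nil)) .nil)) (.cons 108 (.leaf 203 862 (.leaf 181 868 .nil)) .nil))) (.cons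 132 (.leaf 229 1060 (.cons 107 (.leaf 131 863 (.cons 108 (.leaf 83 671 (.leaf 181 868 .nil)) .nil)) .nil)) (.cons 132 (.leaf 229 1060 (.cons 108 (.leaf 203 862 (.leaf 181 868 .nil)) .nil)) .nil))))) .nil)) (.cons 178 (.leaf 177 1416 (.cons 181 t250 .nil)) (.cons 178 (.leaf 177 1416 (.cons 206 (.leaf 207 1435 (.leaf 181 1424 .nil)) .nil)) .nil)))
noncomputable def t253 : T := .cons 207 (.leaf 179 1435 (.cons 183 (.leaf 184 1441 (.cons 182 (.leaf 203 1433 (.cons 158 (.leaf 134 1070 (.leaf 230 1262 .nil)) .nil)) .nil)) .nil)) (.cons 230 (.cons 203 (.leaf 202 1616 (.leaf 231 1624 .nil)) (.cons 182 (.leaf 158 1262 (.cons 203 (.leaf 183 1433 (.leaf 202 1616 .nil)) .nil)) (.cons 182 (.leaf 158 1262 (.cons 231 (.leaf 232 1635 (.cons 254 (.leaf 252 1817 (.cons 159 (.leaf 183 1269 (.cons 278 (.leaf 302 1647 (.cons 279 (.leaf 255 1460 (.leaf 303 1652 .nil)) .nil)) .nil)) .nil)) .nil)) .nil))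 .nil))) (.cons 207 (.leaf 179 1435 (.cons 183 (.leaf 184 1441 (.cons 182 (.leaf 203 1433 (.cons 158 (.leaf 134 1070 (.cons 231 (.leaf 232 1632 (.leaf 255 1271 .nil)) .nil)) .nil)) .nil)) .nil)) (.cons 207 (.leaf 179 1435 (.cons 183 (.leaf 184 1441 (.cons 232 (.leaf 231 1632 (.cons 208 (.leaf 233 1640 (.cons 135 (.leaf 159 1084 (.cons 209 (.leaf 230 1642 (.cons 186 (.leaf 185 1457 (.cons 210 (.leaf 182 1459 (.leaf 187 1465 .nil)) .nil)) .nil)) .nil)) .nil)) .nil)) .nil)) .nil)) (.cons 207 (.leaf 179 1435 (.cons 183 (.leaf 184 1441 (.cons 231 (.leaf 232 1632 (.cons 230 (.leaf 203 1624 (.cons 254 (.leaf 252 1817 (.leaf 278 1461 .nil)) .nil)) .nil)) .nil)) .nil)) (.cons 207 (.leaf 179 1435 (.cons 231 (.leaf 232 1632 (.cons 230 (.leaf 203 1624 (.cons 158 (.leaf 182 1262 (.cons 208 (.leaf 209 1642 (.cons 184 (.leaf 185 1449 (.cons 254 (.leaf 252 1817 (.cons 278 (.leaf 302 1653 (.cons 279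 (.leaf 303 1652 (.leaf 255 1469 .nil)) .nil)) .nil)) .nil)) .nil)) .nil)) .nil)) .nil)) .nil)) .nil)))))
noncomputable def t254 : T := .cons 207 (.leaf 179 1435 (.cons 183 (.leaf 184 1441 (.cons 208 (.leaf 181 1443 (.cons 209 (.leaf 230 1642 (.cons 233 (.leaf 232 1640 (.leaf 234 1648 .nil)) .nil)) .nil)) .nil)) .nil)) (.cons 203 (.cons 179 (.leaf 178 1427 (.cons 182 (.leaf 183 1433 (.cons 158 (.leaf 134 1070 (.cons 159 (.leaf 157 1242 (.leaf 181 1241 .nil)) .nil)) .nil)) .nil)) (.cons 230 (.leaf 202 1616 (.leaf 231 1624 .nil)) .nil)) (.cons 183 (.cons 182 (.leaf 203 1433 (.cons 184 (.leaf 181 1442 (.leaf 207 1441 .nil)) .nil)) (.cons 207 (.leaf 184 1441 (.cons 208 (.leaf 181 1443 (.cons 209 (.leaf 230 1642 (.cons 233 (.leaf 232 1640 (.leaf 234 1648 .nil)) .nil)) .nil)) .nil)) (.cons 182 (.leaf 203 1433 (.cons 184 (.leaf 181 1442 (.leaf 185 1450 .nil)) .nil)) (.cons 182 (.leaf 203 1433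 (.cons 134 (.leaf 158 1070 (.cons 181 (.leaf 155 1243 (.cons 207 (.leaf 208 1440 (.cons 159 (.leaf 160 1249 (.cons 135 (.leaf 111 886 (.leaf 230 1078 .nil)) .nil)) .nil)) .nil)) .nil)) .nil)) (.cons 182 (.leaf 203 1433 (.cons 184 (.leaf 207 1441 (.leaf 185 1450 .nil)) .nil)) .nil))))) (.cons 207 (.leaf 179 1435 (.cons 183 (.leaf 184 1441 (.cons 182 (.leaf 203 1433 (.cons 134 (.leaf 158 1070 (.cons 231 (.leaf 232 1632 (.cons 255 (.leaf 279 1463 (.cons 254 (.leaf 278 1462 (.cons 159 (.leaf 230 1269 (.cons 135 (.leaf 111 886 (.leaf 110 887 .nil)) .nil)) .nil)) .nil)) .nil)) .nil)) .nil)) .nil)) .nil)) (.cons 207 (.leaf 179 1435 (.cons 181 (.leaf 208 1443 (.cons 183 (.leaf 184 1441 (.cons 182 (.leaf 203 1433 (.leaf 155 1243 .nil)) .nil)) .nil)) .nil)) (.cons 207 (.leaf 179 1435 (.cons 181 (.leaf 208 1443 (.cons 231 (.leaf 232 1632 (.cons 203 (.leaf 230 1624 (.cons 202 (.leaf 201 1417 (.leaf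 182 1425 .nil)) .nil)) .nil)) .nil)) .nil)) .nil)))))
noncomputable def t255 : T := .cons 203 (.leaf 201 1417 (.cons 229 (.leaf 230 1616 (.leaf 253 1255 .nil)) .nil)) (.cons 154 (.cons 153 (.leaf 155 1224 (.cons 129 (.leaf 226 1039 (.cons 105 (.leaf 81 652 (.leaf 130 847 .nil)) .nil)) .nil)) (.cons 201 (.leaf 203 1417 (.cons 130 (.leaf 225 1038 (.cons 105 (.leaf 129 847 (.cons 106 (.leaf 81 655 (.cons 107 (.leaf 83 661 (.leaf 131 853 .nil)) .nil)) .nil)) .nil)) .nil)) (.cons 153 (.leaf 155 1224 (.cons 203 (.leaf 201 1417 (.cons 226 (.leaf 225 1610 (.leaf 129 1039 .nil)) .nil)) .nil)) (.cons 153 (.leaf 155 1224 (.cons 201 (.leaf 203 1417 (.cons 225 (.leaf 130 1038 (.cons 249 (.leaf 226 1230 (.leaf 273 1421 .nil)) .nil)) .nil)) .nil)) .nil)))) (.cons 229 (.leaf 253 1255 (.cons 157 (.cons 133 (.leaf 109 870 (.cons 134 (.leaf 110 877 (.leaf 158 1069 .nil)) .nil)) (.cons 158 (.leaf 134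 1069 (.cons 159 (.leaf 160 1250 (.cons 135 (.leaf 136 1057 (.cons 230 (.leaf 254 1260 (.cons 183 (.leaf 184 1248 (.cons 207 (.leaf 206 1078 (.cons 232 (.leaf 231 1635 (.leaf 208 1084 .nil)) .nil)) .nil)) .nil)) .nil)) .nil)) .nil)) (.cons 133 (.leaf 109 870 (.cons 230 (.leaf 206 1068 (.leaf 254 1260 .nil)) .nil)) .nil))) .nil)) .nil))
noncomputable def t256 : T := .cons 107 (.leaf 131 853 (.cons 106 (.leaf 83 661 (.cons 201 (.leaf 177 846 (.leaf 225 1038 .nil)) .nil)) .nil)) (.cons 201 (.leaf 225 1038 (.cons 177 (.leaf 106 846 (.cons 156 (.cons 132 (.leaf 229 1060 (.cons 108 (.leaf 181 868 (.cons 109 (.leaf 133 869 (.leaf 85 677 .nil)) .nil)) .nil)) (.cons 155 (.leaf 157 1226 (.cons 153 (.leaf 181 1224 (.leaf 176 1218 .nil)) .nil)) (.cons 132 (.leaf 229 1060 (.cons 109 (.leaf 133 869 (.cons 155 (.leaf 157 1226 (.cons 176 (.leaf 175 1209 (.leaf 153 1218 .nil)) .nil)) .nil)) .nil)) .nil)))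 .nil)) .nil)) (.cons 131 (.leaf 107 853 (.cons 155 (.leaf 226 1045 (.cons 132 (.cons 133 (.leaf 153 1034 (.leaf 134 1042 .nil)) (.cons 152 (.leaf 153 1025 (.cons 156 (.leaf 229 1060 (.cons 157 (.leaf 177 1226 (.leaf 158 1043 .nil)) .nil)) .nil)) (.cons 133 (.leaf 134 1042 (.cons 109 (.leaf 156 869 (.leaf 110 849 .nil)) .nil)) .nil))) .nil)) .nil)) (.cons 131 (.leaf 107 853 (.cons 225 (.leaf 201 1038 (.cons 226 (.leaf 155 1045 (.leaf 249 1230 .nil)) .nil)) .nil)) .nil)))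
noncomputable def t257 : T := .cons 156 (.cons 132 (.leaf 229 1060 (.cons 107 (.leaf 131 863 (.cons 108 (.leaf 83 671 (.leaf 181 868 .nil)) .nil)) .nil)) (.cons 155 (.cons 153 (.leaf 181 1224 (.cons 129 (.leaf 226 1039 (.leaf 128 1027 .nil)) .nil)) (.cons 131 (.leaf 226 1045 (.cons 83 (.leaf 107 668 (.cons 157 (.leaf 177 1226 (.cons 133 (.leaf 134 1041 (.cons 109 (.leaf 181 870 (.leaf 85 678 .nil)) .nil)) .nil)) .nil)) .nil)) (.cons 153 (.leaf 181 1224 (.cons 177 (.leaf 157 1226 (.leaf 176 1218 .nil)) .nil)) (.cons 131 (.leaf 226 1045 (.cons 83 (.leaf 107 668 (.cons 177 (.leaf 157 1226 (.cons 176 (.leaf 175 1209 (.leaf 153 1218 .nil)) .nil)) .nil)) .nil)) .nil)))) (.cons 132 (.leaf 229 1060 (.cons 107 (.leaf 131 863 (.cons 83 (.leaf 108 671 (.cons 133 (.leaf 109 869 (.cons 155 (.leaf 153 1033 (.cons 134 (.leaf 157 1041 (.leaf 135 1050 .nil)) .nil)) .nil)) .nil)) .nil)) .nil)) (.cons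 132 (.leaf 229 1060 (.cons 108 (.leaf 181 868 (.cons 109 (.leaf 133 869 (.leaf 85 677 .nil)) .nil)) .nil)) .nil)))) (.cons 130 t256 (.cons 130 (.cons 201 (.leaf 225 1038 (.cons 106 (.leaf 177 846 (.cons 81 (.leaf 105 655 (.cons 82 (.leaf 57 463 (.cons 83 (.leaf 107 661 (.leaf 59 469 .nil)) .nil)) .nil)) .nil)) .nil)) (.cons 129 (.leaf 105 847 (.cons 153 (.leaf 226 1039 (.cons 156 (.cons 155 (.leaf 181 1224 (.leaf 128 1027 .nil)) (.cons 132 (.leaf 229 1060 (.cons 108 (.leaf 181 868 (.cons 109 (.leaf 133 869 (.leaf 85 677 .nil)) .nil)) .nil)) (.cons 155 (.leaf 128 1027 (.leaf 157 1035 .nil)) .nil))) .nil)) .nil)) (.cons 201 (.leaf 225 1038 (.cons 177 (.leaf 106 846 (.cons 156 (.cons 132 (.leaf 229 1060 (.cons 108 (.leaf 181 868 (.cons 109 (.leaf 133 869 (.leaf 85 677 .nil)) .nil)) .nil)) (.cons 155 (.leaf 157 1226 (.cons 153 (.leaf 181 1224 (.leaf 176 1218 .nil)) .nil)) (.cons 132 (.leaf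 229 1060 (.cons 109 (.leaf 133 869 (.cons 155 (.leaf 157 1226 (.cons 176 (.leaf 175 1209 (.leaf 153 1218 .nil)) .nil)) .nil)) .nil)) .nil))) .nil)) .nil)) .nil))) (.cons 130 (.cons 105 (.leaf 129 847 (.cons 106 (.leaf 81 655 (.cons 201 (.leaf 177 846 (.leaf 225 1038 .nil)) .nil)) .nil)) (.cons 201 (.leaf 225 1038 (.cons 177 (.leaf 106 846 (.cons 156 (.cons 132 (.leaf 229 1060 (.cons 108 (.leaf 181 868 (.cons 109 (.leaf 133 869 (.leaf 85 677 .nil)) .nil)) .nil)) (.cons 155 (.leaf 157 1226 (.cons 153 (.leaf 181 1224 (.leaf 176 1218 .nil)) .nil)) (.cons 132 (.leaf 229 1060 (.cons 109 (.leaf 133 869 (.cons 155 (.leaf 157 1226 (.cons 176 (.leaf 175 1209 (.leaf 153 1218 .nil)) .nil)) .nil)) .nil)) .nil))) .nil)) .nil)) (.cons 131 (.leaf 107 853 (.cons 129 (.leaf 105 847 (.cons 132 (.cons 153 (.leaf 133 1034 (.leaf 152 1026 .nil)) (.cons 156 (.leaf 229 1060 (.leaf 157 1032 .nil)) .nil)) .nil))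 .nil)) .nil))) (.cons 130 (.cons 105 (.leaf 129 847 (.cons 131 (.leaf 107 853 (.cons 225 (.leaf 201 1038 (.cons 226 (.leaf 155 1045 (.leaf 249 1230 .nil)) .nil)) .nil)) .nil)) (.cons 201 (.leaf 225 1038 (.cons 106 (.leaf 177 846 (.cons 81 (.leaf 105 655 (.cons 82 (.leaf 57 463 (.cons 83 (.leaf 107 661 (.leaf 59 469 .nil)) .nil)) .nil)) .nil)) .nil)) (.cons 201 (.leaf 225 1038 (.cons 105 (.leaf 129 847 (.cons 106 (.leaf 81 655 (.leaf 177 846 .nil)) .nil)) .nil)) (.cons 131 (.leaf 107 853 (.cons 225 (.leaf 201 1038 (.cons 226 (.leaf 155 1045 (.leaf 249 1230 .nil)) .nil)) .nil)) (.cons 131 (.leaf 107 853 (.cons 105 (.leaf 129 847 (.cons 106 (.leaf 81 655 (.cons 103 (.leaf 104 824 (.cons 132 (.leaf 133 843 (.cons 155 (.leaf 226 1045 (.cons 82 (.leaf 58 468 (.cons 156 (.leaf 229 1060 (.cons 157 (.leaf 177 1226 (.leaf 158 1043 .nil)) .nil)) .nil)) .nil)) .nil)) .nil)) .nil)) .nil)) .nil))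 .nil))))) (.cons 129 (.cons 130 (.leaf 105 847 (.cons 225 (.leaf 201 1038 (.cons 226 (.leaf 153 1039 (.leaf 249 1230 .nil)) .nil)) .nil)) (.cons 130 (.leaf 105 847 (.cons 225 (.leaf 201 1038 (.cons 226 (.leaf 249 1230 (.cons 155 (.leaf 131 1045 (.cons 156 (.leaf 157 1035 (.cons 132 (.leaf 229 1060 (.cons 108 (.leaf 181 868 (.cons 109 (.leaf 133 869 (.leaf 85 677 .nil)) .nil)) .nil)) .nil)) .nil)) .nil)) .nil)) .nil)) (.cons 226 (.leaf 153 1039 (.cons 155 (.leaf 131 1045 (.cons 225 (.leaf 249 1230 (.cons 130 (.leaf 201 1038 (.cons 156 (.leaf 157 1035 (.cons 132 (.leaf 229 1060 (.cons 108 (.leaf 181 868 (.cons 109 (.leaf 133 869 (.leaf 85 677 .nil)) .nil)) .nil)) .nil)) .nil)) .nil)) .nil)) .nil)) (.cons 153 (.leaf 226 1039 (.cons 105 (.leaf 81 652 (.leaf 177 844 .nil)) .nil)) (.cons 105 (.leaf 130 847 (.cons 153 (.leaf 81 652 (.leaf 177 844 .nil)) .nil)) .nil))))) (.cons 130 (.cons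 129 (.leaf 105 847 (.cons 225 (.leaf 201 1038 (.cons 226 (.leaf 153 1039 (.leaf 249 1230 .nil)) .nil)) .nil)) (.cons 131 (.leaf 107 853 (.cons 225 (.leaf 201 1038 (.cons 226 (.leaf 155 1045 (.leaf 249 1230 .nil)) .nil)) .nil)) (.cons 105 (.leaf 129 847 (.cons 106 (.leaf 81 655 (.cons 107 (.leaf 83 661 (.leaf 131 853 .nil)) .nil)) .nil)) .nil))) .nil))))))
noncomputable def t258 : T := .cons 203 (.leaf 177 1419 (.cons 181 (.leaf 201 1417 (.cons 225 (.leaf 226 1610 (.cons 229 (.leaf 230 1616 (.cons 156 (.leaf 132 1060 (.leaf 253 1255 .nil)) .nil)) .nil)) .nil)) .nil)) (.cons 154 (.cons 130 (.cons 107 (.leaf 131 853 (.cons 106 (.leaf 83 661 (.cons 201 (.leaf 177 846 (.leaf 225 1038 .nil)) .nil)) .nil)) (.cons 105 (.leaf 129 847 (.cons 106 (.leaf 81 655 (.cons 201 (.leaf 177 846 (.leaf 225 1038 .nil)) .nil)) .nil)) (.cons 105 (.leaf 129 847 (.cons 106 (.leaf 81 655 (.cons 107 (.leaf 83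 661 (.leaf 131 853 .nil)) .nil)) .nil)) (.cons 107 (.leaf 131 853 (.cons 129 (.leaf 105 847 (.cons 225 (.leaf 201 1038 (.cons 226 (.leaf 153 1039 (.leaf 249 1230 .nil)) .nil)) .nil)) .nil)) .nil)))) t257) (.cons 156 (.cons 132 (.leaf 229 1060 (.cons 107 (.leaf 131 863 (.cons 108 (.leaf 83 671 (.leaf 181 868 .nil)) .nil)) .nil)) (.cons 181 t255 (.cons 132 (.cons 108 (.leaf 181 868 (.cons 109 (.leaf 133 869 (.leaf 85 677 .nil)) .nil)) (.cons 131 (.leaf 107 863 (.cons 133 (.leaf 109 869 (.cons 130 (.cons 157 (.leaf 129 1032 (.leaf 158 1040 .nil)) (.cons 105 (.leaf 106 843 (.cons 129 (.leaf 154 847 (.leaf 104 835 .nil)) .nil)) (.cons 105 (.leaf 106 843 (.cons 154 (.leaf 153 1034 (.cons 155 (.leaf 226 1045 (.leaf 134 1042 .nil)) .nil)) .nil)) .nil))) .nil)) .nil)) (.cons 108 (.leaf 181 868 (.cons 107 (.leaf 131 863 (.leaf 83 671 .nil)) .nil)) .nil))) (.cons 132 (.leaf 229 1060 (.cons 107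 (.leaf 131 863 (.cons 108 (.leaf 83 671 (.cons 109 (.leaf 133 869 (.leaf 85 677 .nil)) .nil)) .nil)) .nil)) (.cons 229 (.leaf 132 1060 (.cons 253 (.leaf 277 1447 (.leaf 181 1255 .nil)) .nil)) .nil))))) (.cons 203 (.leaf 177 1419 (.cons 201 (.leaf 181 1417 (.cons 225 (.leaf 224 1602 (.leaf 226 1610 .nil)) .nil)) .nil)) (.cons 203 (.leaf 177 1419 (.cons 225 (.leaf 226 1610 (.cons 229 (.leaf 230 1616 (.cons 156 (.leaf 132 1060 (.cons 253 (.leaf 277 1447 (.leaf 181 1255 .nil)) .nil)) .nil)) .nil)) .nil)) (.cons 154 (.cons 203 (.leaf 177 1419 (.cons 225 (.leaf 226 1610 (.cons 201 (.leaf 224 1602 (.leaf 130 1038 .nil)) .nil)) .nil)) (.cons 130 (.cons 129 (.leaf 105 847 (.cons 225 (.leaf 201 1038 (.cons 226 (.leaf 153 1039 (.leaf 249 1230 .nil)) .nil)) .nil)) (.cons 131 (.leaf 107 853 (.cons 225 (.leaf 201 1038 (.cons 226 (.leaf 155 1045 (.leaf 249 1230 .nil)) .nil)) .nil)) (.cons 105 (.leaf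 129 847 (.cons 106 (.leaf 81 655 (.cons 107 (.leaf 83 661 (.leaf 131 853 .nil)) .nil)) .nil)) .nil))) (.cons 177 (.leaf 203 1419 (.cons 156 (.cons 132 (.leaf 229 1060 (.cons 107 (.leaf 131 863 (.cons 83 (.leaf 108 671 (.cons 133 (.leaf 109 869 (.cons 155 (.leaf 157 1226 (.leaf 153 1033 .nil)) .nil)) .nil)) .nil)) .nil)) (.cons 132 (.leaf 229 1060 (.cons 107 (.leaf 131 863 (.cons 108 (.leaf 83 671 (.cons 109 (.leaf 133 869 (.leaf 85 677 .nil)) .nil)) .nil)) .nil)) (.cons 155 (.leaf 157 1226 (.cons 176 (.leaf 175 1209 (.leaf 153 1218 .nil)) .nil)) .nil))) .nil)) .nil))) (.cons 203 (.leaf 177 1419 (.cons 181 (.leaf 201 1417 (.cons 229 (.leaf 230 1616 (.cons 156 (.leaf 132 1060 (.leaf 253 1255 .nil)) .nil)) .nil)) .nil)) .nil))))))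
noncomputable def t259 : T := .cons 179 (.leaf 177 1416 (.cons 181 (.leaf 206 1424 (.cons 202 (.leaf 201 1418 (.cons 154 (.leaf 153 1227 (.cons 131 (.cons 107 (.leaf 155 860 (.leaf 130 853 .nil)) (.cons 130 (.leaf 107 853 (.cons 105 (.leaf 129 847 (.cons 106 (.leaf 81 655 (.leaf 203 852 .nil)) .nil)) .nil)) (.cons 226 (.leaf 155 1045 (.cons 225 (.leaf 203 1610 (.leaf 249 1230 .nil)) .nil)) .nil))) .nil)) .nil)) .nil)) .nil)) (.cons 202 t258 (.cons 206 (.cons 179 (.leaf 203 1427 (.leaf 207 1435 .nil)) (.cons 207 (.cons 181 (.leaf 208 1443 (.cons 183 (.leaf 184 1441 (.cons 231 (.leaf 232 1632 (.cons 230 (.leaf 203 1624 (.cons 254 (.leaf 278 1461 (.leaf 159 1270 .nil)) .nil)) .nil)) .nil)) .nil)) (.cons 183 (.leaf 184 1441 (.cons 231 (.leaf 232 1632 (.cons 230 (.leaf 203 1624 (.cons 159 (.leaf 135 1078 (.leaf 254 1270 .nil)) .nil)) .nil)) .nil)) (.cons 184 (.leaf 183 1441 (.cons 208 (.leaf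 181 1443 (.leaf 185 1449 .nil)) .nil)) (.cons 181 (.leaf 208 1443 (.cons 231 (.leaf 232 1632 (.cons 230 (.leaf 203 1624 (.cons 133 (.leaf 157 1068 (.cons 254 (.leaf 278 1455 (.cons 253 (.leaf 252 1817 (.cons 229 (.leaf 277 1447 (.leaf 156 1255 .nil)) .nil)) .nil)) .nil)) .nil)) .nil)) .nil)) .nil)))) (.cons 179 (.leaf 203 1427 (.leaf 181 1424 .nil)) (.cons 179 (.leaf 207 1435 (.leaf 181 1424 .nil)) .nil)))) (.cons 179 (.leaf 177 1416 (.cons 181 (.cons 202 (.leaf 201 1418 (.cons 154 (.leaf 153 1227 (.cons 131 (.cons 107 (.leaf 155 860 (.leaf 130 853 .nil)) (.cons 130 (.leaf 107 853 (.cons 105 (.leaf 129 847 (.cons 106 (.leaf 81 655 (.leaf 203 852 .nil)) .nil)) .nil)) (.cons 226 (.leaf 155 1045 (.cons 225 (.leaf 203 1610 (.leaf 249 1230 .nil)) .nil)) .nil))) .nil)) .nil)) (.cons 157 (.leaf 158 1233 (.cons 133 (.leaf 109 870 (.cons 110 (.leaf 134 877 (.cons 132 (.leaf 108 871 (.cons 156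 (.leaf 229 1060 (.cons 131 (.leaf 107 863 (.cons 130 (.leaf 129 1032 (.cons 154 (.leaf 153 1034 (.cons 106 (.leaf 203 852 (.leaf 105 843 .nil)) .nil)) .nil)) .nil)) .nil)) .nil)) .nil)) .nil)) .nil)) (.cons 157 (.leaf 158 1233 (.cons 133 (.leaf 109 870 (.cons 110 (.leaf 134 877 (.cons 132 (.leaf 108 871 (.cons 229 (.leaf 156 1060 (.cons 201 (.leaf 202 1418 (.cons 253 (.leaf 277 1447 (.cons 254 (.leaf 230 1260 (.leaf 278 1452 .nil)) .nil)) .nil)) .nil)) .nil)) .nil)) .nil)) .nil)) .nil))) .nil)) (.cons 179 (.leaf 177 1416 (.cons 206 (.leaf 207 1435 (.leaf 181 1424 .nil)) .nil)) (.cons 179 (.leaf 177 1416 (.cons 206 (.leaf 203 1427 (.leaf 207 1435 .nil)) .nil)) .nil)))))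
noncomputable def t260 : T := .cons 178 (.leaf 177 1416 (.cons 132 (.leaf 229 1060 (.cons 108 (.leaf 83 671 (.leaf 84 670 .nil)) .nil)) .nil)) (.cons 132 (.leaf 229 1060 (.cons 108 (.leaf 83 671 (.leaf 84 670 .nil)) .nil)) (.cons 154 (.cons 178 (.leaf 177 1416 (.cons 157 (.leaf 158 1234 (.cons 129 (.leaf 130 1035 (.cons 153 (.leaf 152 1216 (.leaf 128 1027 .nil)) .nil)) .nil)) .nil)) (.cons 153 (.leaf 152 1216 (.cons 129 (.leaf 128 1027 (.cons 130 (.leaf 157 1035 (.cons 106 (.leaf 82 660 (.cons 177 (.leaf 176 1218 (.leaf 201 845 .nil)) .nil)) .nil)) .nil)) .nil)) (.cons 153 (.leaf 152 1216 (.cons 129 (.leaf 128 1027 (.cons 130 (.leaf 157 1035 (.cons 106 (.leaf 82 660 (.cons 178 (.leaf 83 661 (.cons 105 (.leaf 81 652 (.leaf 202 847 .nil)) .nil)) .nil)) .nil)) .nil)) .nil)) (.cons 178 (.leaf 177 1416 (.cons 157 (.leaf 158 1234 (.cons 130 (.leaf 129 1035 (.cons 106 (.leaf 82 660 (.leaf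 83 661 .nil)) .nil)) .nil)) .nil)) (.cons 153 (.leaf 152 1216 (.cons 177 (.leaf 178 1416 (.leaf 176 1218 .nil)) .nil)) .nil))))) (.cons 178 (.leaf 177 1416 (.cons 132 (.leaf 229 1060 (.cons 84 (.leaf 108 670 (.cons 133 (.leaf 109 869 (.cons 134 (.leaf 135 1050 (.cons 154 (.leaf 153 1033 (.leaf 157 1041 .nil)) .nil)) .nil)) .nil)) .nil)) .nil)) .nil)))
noncomputable def t261 : T := .cons 153 (.leaf 152 1216 (.cons 129 (.leaf 128 1027 (.cons 130 (.leaf 157 1035 (.cons 82 (.leaf 106 660 (.cons 177 (.leaf 178 1416 (.leaf 176 1218 .nil)) .nil)) .nil)) .nil)) .nil)) (.cons 153 (.leaf 152 1216 (.cons 129 (.leaf 128 1027 (.cons 130 (.leaf 157 1035 (.cons 82 (.leaf 106 660 (.cons 177 (.leaf 176 1218 (.cons 201 (.leaf 225 1037 (.cons 200 (.leaf 224 1030 (.cons 202 (.leaf 203 1409 (.leaf 226 1036 .nil)) .nil)) .nil)) .nil)) .nil)) .nil)) .nil)) .nil)) (.cons 153 (.leaf 152 1216 (.cons 129 (.leaf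 128 1027 (.cons 130 (.leaf 157 1035 (.cons 106 (.leaf 82 660 (.cons 178 (.leaf 203 852 (.cons 105 (.leaf 81 652 (.leaf 202 847 .nil)) .nil)) .nil)) .nil)) .nil)) .nil)) (.cons 178 (.leaf 177 1416 (.cons 157 (.leaf 158 1234 (.cons 130 (.leaf 129 1035 (.cons 106 (.leaf 82 660 (.leaf 203 852 .nil)) .nil)) .nil)) .nil)) (.cons 178 (.leaf 177 1416 (.cons 153 (.leaf 152 1216 (.cons 129 (.leaf 128 1027 (.cons 81 (.leaf 105 652 (.cons 203 (.leaf 206 1427 (.cons 202 (.leaf 226 1039 (.cons 130 (.leaf 106 852 (.cons 201 (.leaf 200 1409 (.leaf 225 1038 .nil)) .nil)) .nil)) .nil)) .nil)) .nil)) .nil)) .nil)) (.cons 177 (.leaf 178 1416 (.cons 153 (.leaf 152 1216 (.leaf 176 1218 .nil)) .nil)) .nil)))))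
noncomputable def t262 : T := .cons 178 (.leaf 177 1416 (.cons 131 (.leaf 107 860 (.cons 203 (.leaf 206 1427 (.cons 132 (.leaf 108 861 (.cons 156 (.leaf 229 1060 (.cons 109 (.leaf 133 869 (.cons 157 (.leaf 158 1234 (.cons 202 (.leaf 226 1046 (.cons 201 (.leaf 200 1409 (.cons 130 (.leaf 106 855 (.leaf 129 1032 .nil)) .nil)) .nil)) .nil)) .nil)) .nil)) .nil)) .nil)) .nil)) .nil)) (.cons 131 (.leaf 107 860 (.cons 203 (.cons 106 (.leaf 130 855 (.cons 132 (.leaf 108 861 (.cons 156 (.leaf 229 1060 (.cons 133 (.leaf 109 869 (.cons 134 (.leaf 154 1042 (.leaf 135 1050 .nil)) .nil)) .nil)) .nil)) .nil)) (.cons 202 (.leaf 226 1046 (.cons 130 (.leaf 106 855 (.cons 201 (.leaf 200 1409 (.cons 177 (.leaf 176 1411 (.cons 225 (.leaf 224 1602 (.cons 153 (.leaf 154 1037 (.cons 128 (.leaf 152 1031 (.cons 129 (.leaf 156 1024 (.leaf 104 839 .nil)) .nil)) .nil)) .nil)) .nil)) .nil)) .nil)) .nil)) (.cons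 202 (.leaf 226 1046 (.cons 132 (.leaf 108 861 (.cons 229 (.leaf 156 1060 (.leaf 230 1616 .nil)) .nil)) .nil)) (.cons 202 (.leaf 226 1046 (.cons 130 (.leaf 106 855 (.cons 132 (.leaf 108 861 (.cons 201 (.leaf 200 1409 (.cons 177 (.leaf 176 1411 (.cons 225 (.leaf 224 1602 (.cons 153 (.leaf 154 1037 (.cons 152 (.leaf 129 1026 (.leaf 128 1031 .nil)) .nil)) .nil)) .nil)) .nil)) .nil)) .nil)) .nil)) .nil)))) .nil)) (.cons 156 (.cons 132 (.leaf 229 1060 (.cons 108 (.leaf 203 862 (.leaf 84 670 .nil)) .nil)) (.cons 154 t261 (.cons 178 (.leaf 177 1416 (.cons 132 (.leaf 229 1060 (.cons 84 (.leaf 108 670 (.cons 133 (.leaf 109 869 (.cons 134 (.leaf 135 1050 (.cons 154 (.leaf 153 1033 (.leaf 157 1041 .nil)) .nil)) .nil)) .nil)) .nil)) .nil)) .nil))) (.cons 131 (.leaf 107 860 (.cons 203 (.cons 202 (.leaf 226 1046 (.cons 132 (.leaf 108 861 (.cons 229 (.leaf 156 1060 (.leaf 230 1616 .nil)) .nil)) .nil))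 (.cons 202 (.leaf 226 1046 (.cons 106 (.leaf 130 855 (.cons 200 (.leaf 201 1409 (.cons 206 (.leaf 178 1427 (.cons 230 (.leaf 229 1616 (.leaf 231 1624 .nil)) .nil)) .nil)) .nil)) .nil)) (.cons 132 (.leaf 108 861 (.cons 156 (.leaf 229 1060 (.cons 133 (.leaf 109 869 (.cons 134 (.leaf 154 1042 (.leaf 135 1050 .nil)) .nil)) .nil)) .nil)) (.cons 202 (.leaf 226 1046 (.cons 108 (.leaf 132 861 (.cons 130 (.leaf 106 855 (.cons 178 (.leaf 206 1427 (.cons 201 (.leaf 200 1409 (.cons 225 (.leaf 224 1602 (.leaf 154 1038 .nil)) .nil)) .nil)) .nil)) .nil)) .nil)) .nil)))) .nil)) (.cons 178 (.leaf 177 1416 (.cons 131 (.leaf 107 860 (.cons 203 (.leaf 206 1427 (.cons 108 (.leaf 132 861 (.cons 130 (.leaf 106 855 (.cons 202 (.leaf 226 1046 (.cons 201 (.leaf 200 1409 (.cons 225 (.leaf 224 1602 (.leaf 154 1038 .nil)) .nil)) .nil)) .nil)) .nil)) .nil)) .nil)) .nil)) (.cons 107 (.leaf 131 860 (.cons 156 t260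 .nil)) (.cons 178 (.leaf 177 1416 (.cons 131 (.leaf 107 860 (.cons 203 (.leaf 206 1427 (.cons 130 (.leaf 106 855 (.cons 202 (.leaf 226 1046 (.cons 201 (.leaf 200 1409 (.cons 225 (.leaf 224 1602 (.leaf 154 1038 .nil)) .nil)) .nil)) .nil)) .nil)) .nil)) .nil)) (.cons 178 (.leaf 177 1416 (.cons 131 (.leaf 107 860 (.cons 203 (.leaf 206 1427 (.cons 132 (.leaf 108 861 (.cons 156 (.leaf 229 1060 (.cons 133 (.leaf 109 869 (.cons 134 (.leaf 154 1042 (.leaf 135 1050 .nil)) .nil)) .nil)) .nil)) .nil)) .nil)) .nil)) .nil)))))))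
noncomputable def t263 : T := .cons 182 (.cons 203 (.leaf 183 1434 (.leaf 202 1425 .nil)) (.cons 155 (.leaf 154 1235 (.cons 183 (.leaf 184 1442 (.leaf 156 1243 .nil)) .nil)) (.cons 203 (.leaf 202 1425 (.cons 155 (.leaf 154 1235 (.cons 131 (.leaf 107 860 (.cons 132 (.leaf 108 861 (.cons 106 (.leaf 130 855 (.cons 156 (.leaf 229 1060 (.cons 158 (.leaf 159 1241 (.cons 133 (.leaf 109 869 (.cons 134 (.leaf 110 878 (.leaf 135 1050 .nil)) .nil)) .nil)) .nil)) .nil)) .nil)) .nil)) .nil)) .nil)) .nil))) (.cons 156 (.cons 229 (.leaf 132 1060 (.leaf 253 1255 .nil)) (.cons 229 (.leaf 253 1255 (.cons 157 (.cons 158 (.leaf 159 1242 (.leaf 134 1069 .nil)) (.cons 109 (.leaf 133 870 (.cons 230 (.leaf 254 1260 (.cons 203 (.leaf 202 1616 (.cons 231 (.leaf 206 1624 (.leaf 232 1635 .nil)) .nil)) .nil)) .nil)) .nil)) .nil)) (.cons 132 (.leaf 108 868 (.cons 133 (.leaf 109 869 (.cons 131 (.leaf 107 863 (.cons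 157 (.cons 158 (.leaf 159 1242 (.leaf 130 1040 .nil)) (.cons 110 (.leaf 134 877 (.cons 130 (.leaf 129 1032 (.cons 106 (.leaf 105 843 (.cons 154 (.leaf 153 1034 (.cons 155 (.leaf 82 660 (.leaf 203 855 .nil)) .nil)) .nil)) .nil)) .nil)) (.cons 158 (.leaf 159 1242 (.cons 134 (.leaf 110 877 (.cons 155 (.leaf 135 1049 (.leaf 154 1041 .nil)) .nil)) .nil)) .nil))) .nil)) .nil)) .nil)) .nil))) (.cons 182 (.cons 154 (.leaf 155 1235 (.cons 158 (.leaf 159 1241 (.cons 229 (.leaf 253 1261 (.cons 134 (.leaf 110 878 (.leaf 157 1069 .nil)) .nil)) .nil)) .nil)) (.cons 183 (.leaf 184 1442 (.cons 155 (.leaf 154 1235 (.leaf 156 1243 .nil)) .nil)) (.cons 158 (.leaf 159 1241 (.cons 134 (.leaf 110 878 (.cons 229 (.leaf 157 1069 (.leaf 206 1070 .nil)) .nil)) .nil)) .nil))) (.cons 182 (.cons 203 (.leaf 183 1434 (.leaf 202 1425 .nil)) (.cons 158 (.leaf 159 1241 (.cons 134 (.leaf 110 878 (.cons 229 (.leaf 157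 1069 (.leaf 206 1070 .nil)) .nil)) .nil)) .nil)) (.cons 182 (.cons 183 (.leaf 203 1434 (.leaf 184 1442 .nil)) (.cons 183 (.leaf 184 1442 (.cons 155 (.leaf 154 1235 (.leaf 156 1243 .nil)) .nil)) (.cons 203 (.leaf 202 1425 (.cons 155 (.leaf 154 1235 (.cons 131 (.leaf 107 860 (.cons 132 (.leaf 108 861 (.cons 130 (.leaf 106 855 (.cons 158 (.leaf 159 1241 (.cons 157 (.leaf 156 1043 (.leaf 133 1040 .nil)) .nil)) .nil)) .nil)) .nil)) .nil)) .nil)) .nil))) (.cons 182 (.cons 203 (.leaf 183 1434 (.leaf 202 1425 .nil)) (.cons 183 (.leaf 184 1442 (.cons 155 (.leaf 154 1235 (.leaf 156 1243 .nil)) .nil)) (.cons 203 (.leaf 202 1425 (.cons 155 (.leaf 154 1235 (.cons 131 (.leaf 107 860 (.cons 132 (.leaf 108 861 (.cons 130 (.leaf 106 855 (.cons 156 (.leaf 229 1060 (.cons 129 (.leaf 128 1024 (.leaf 157 1032 .nil)) .nil)) .nil)) .nil)) .nil)) .nil)) .nil)) .nil))) .nil)))))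
noncomputable def t264 : T := .cons 178 (.leaf 177 1416 (.cons 181 (.leaf 206 1424 (.cons 202 (.leaf 201 1418 (.cons 182 (.leaf 203 1425 (.cons 158 (.leaf 157 1233 (.leaf 159 1241 .nil)) .nil)) .nil)) .nil)) .nil)) (.cons 181 t263 (.cons 155 t262 (.cons 178 (.leaf 177 1416 (.cons 181 (.leaf 206 1424 (.cons 153 (.leaf 154 1227 (.cons 157 (.leaf 158 1233 (.cons 133 (.leaf 109 870 (.cons 110 (.leaf 134 877 (.cons 132 (.leaf 108 871 (.cons 229 (.leaf 156 1060 (.cons 201 (.leaf 202 1418 (.cons 253 (.leaf 277 1447 (.cons 254 (.leaf 230 1260 (.leaf 278 1452 .nil)) .nil)) .nil)) .nil)) .nil)) .nil)) .nil)) .nil)) .nil)) .nil)) .nil)) (.cons 178 (.leaf 177 1416 (.cons 181 (.cons 202 (.leaf 201 1418 (.cons 182 (.leaf 203 1425 (.cons 158 (.leaf 157 1233 (.leaf 159 1241 .nil)) .nil)) .nil)) (.cons 153 (.leaf 154 1227 (.cons 157 (.leaf 158 1233 (.cons 133 (.leaf 109 870 (.cons 110 (.leaf 134 877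 (.cons 132 (.leaf 108 871 (.cons 229 (.leaf 156 1060 (.cons 253 (.leaf 277 1447 (.cons 254 (.leaf 230 1260 (.leaf 278 1452 .nil)) .nil)) .nil)) .nil)) .nil)) .nil)) .nil)) .nil)) (.cons 202 (.leaf 201 1418 (.cons 182 (.leaf 203 1425 (.cons 158 (.leaf 159 1241 (.cons 110 (.leaf 134 878 (.cons 183 (.leaf 184 1442 (.cons 156 (.leaf 155 1243 (.cons 229 (.leaf 132 1060 (.leaf 253 1261 .nil)) .nil)) .nil)) .nil)) .nil)) .nil)) .nil)) (.cons 202 (.leaf 201 1418 (.cons 182 (.leaf 203 1425 (.cons 183 (.leaf 184 1442 (.cons 156 (.leaf 155 1243 (.cons 132 (.leaf 229 1060 (.leaf 108 868 .nil)) .nil)) .nil)) .nil)) .nil)) .nil)))) .nil)) (.cons 178 (.leaf 177 1416 (.cons 181 (.leaf 206 1424 (.cons 153 (.leaf 154 1227 (.cons 157 (.leaf 158 1233 (.cons 133 (.leaf 109 870 (.cons 110 (.leaf 134 877 (.cons 132 (.leaf 108 871 (.cons 229 (.leaf 156 1060 (.cons 253 (.leaf 277 1447 (.cons 254 (.leaf 230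 1260 (.leaf 278 1452 .nil)) .nil)) .nil)) .nil)) .nil)) .nil)) .nil)) .nil)) .nil)) .nil)) (.cons 178 (.leaf 177 1416 (.cons 206 (.leaf 203 1427 (.leaf 181 1424 .nil)) .nil)) .nil))))))
noncomputable def t265 : T := .cons 182 (.cons 158 (.leaf 134 1070 (.leaf 230 1262 .nil)) (.cons 183 (.leaf 203 1433 (.cons 184 (.leaf 207 1441 (.leaf 185 1450 .nil)) .nil)) .nil)) (.cons 230 (.cons 203 (.leaf 202 1616 (.leaf 231 1624 .nil)) (.cons 182 (.leaf 158 1262 (.cons 203 (.leaf 183 1433 (.leaf 202 1616 .nil)) .nil)) (.cons 182 (.leaf 158 1262 (.cons 231 (.leaf 232 1635 (.cons 254 (.leaf 252 1817 (.cons 159 (.leaf 183 1269 (.cons 278 (.leaf 302 1647 (.cons 279 (.leaf 255 1460 (.leaf 303 1652 .nil)) .nil)) .nil)) .nil)) .nil)) .nil)) .nil))) (.cons 207 (.leaf 179 1435 (.cons 183 (.leaf 184 1441 (.cons 182 (.leaf 203 1433 (.cons 158 (.leaf 134 1070 (.cons 231 (.leaf 232 1632 (.leaf 255 1271 .nil))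 .nil)) .nil)) .nil)) .nil)) (.cons 207 (.leaf 179 1435 (.cons 183 (.leaf 184 1441 (.cons 231 (.leaf 232 1632 (.cons 230 (.leaf 203 1624 (.cons 254 (.leaf 252 1817 (.leaf 278 1461 .nil)) .nil)) .nil)) .nil)) .nil)) (.cons 207 (.leaf 179 1435 (.cons 183 (.leaf 184 1441 (.cons 232 (.leaf 231 1632 (.cons 208 (.leaf 233 1640 (.cons 135 (.leaf 159 1084 (.cons 209 (.leaf 230 1642 (.cons 186 (.leaf 185 1457 (.cons 210 (.leaf 182 1459 (.leaf 187 1465 .nil)) .nil)) .nil)) .nil)) .nil)) .nil)) .nil)) .nil)) (.cons 207 (.leaf 179 1435 (.cons 231 (.leaf 232 1632 (.cons 230 (.leaf 203 1624 (.cons 158 (.leaf 182 1262 (.cons 208 (.leaf 209 1642 (.cons 184 (.leaf 185 1449 (.cons 254 (.leaf 252 1817 (.cons 278 (.leaf 302 1653 (.cons 279 (.leaf 303 1652 (.leaf 255 1469 .nil)) .nil)) .nil)) .nil)) .nil)) .nil)) .nil)) .nil)) .nil)) .nil)))))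
noncomputable def t266 : T := .cons 206 (.cons 230 (.leaf 202 1616 (.leaf 231 1624 .nil)) (.cons 182 (.leaf 183 1433 (.cons 134 (.leaf 158 1070 (.cons 202 (.leaf 181 1425 (.cons 225 (.leaf 226 1610 (.cons 201 (.leaf 224 1602 (.cons 176 (.leaf 177 1411 (.cons 200 (.leaf 179 1409 (.leaf 175 1403 .nil)) .nil)) .nil)) .nil)) .nil)) .nil)) .nil)) (.cons 207 (.leaf 179 1435 (.cons 231 (.leaf 230 1624 (.leaf 232 1632 .nil)) .nil)) .nil))) (.cons 206 (.cons 207 (.leaf 179 1435 (.cons 231 (.leaf 230 1624 (.leaf 232 1632 .nil)) .nil)) (.cons 182 (.leaf 183 1433 (.cons 158 (.leaf 134 1070 (.cons 230 (.leaf 231 1624 (.cons 135 (.leaf 159 1077 (.cons 157 (.leaf 133 1071 (.cons 254 (.leaf 181 1260 (.cons 278 (.leaf 302 1647 (.cons 279 (.leaf 255 1460 (.leaf 303 1652 .nil)) .nil)) .nil)) .nil)) .nil)) .nil)) .nil)) .nil)) (.cons 179 (.leaf 207 1435 (.cons 182 (.leaf 183 1433 (.cons 158 (.leaf 134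 1070 (.cons 159 (.leaf 157 1242 (.leaf 181 1241 .nil)) .nil)) .nil)) .nil)) .nil))) (.cons 206 (.cons 179 (.leaf 207 1435 (.cons 182 (.leaf 183 1433 (.cons 158 (.leaf 134 1070 (.cons 159 (.leaf 157 1242 (.leaf 181 1241 .nil)) .nil)) .nil)) .nil)) (.cons 207 (.leaf 179 1435 (.cons 183 (.leaf 184 1441 (.cons 208 (.leaf 181 1443 (.cons 232 (.leaf 231 1632 (.leaf 233 1640 .nil)) .nil)) .nil)) .nil)) (.cons 182 (.leaf 183 1433 (.cons 134 (.leaf 158 1070 (.cons 202 (.leaf 181 1425 (.cons 225 (.leaf 226 1610 (.cons 201 (.leaf 224 1602 (.cons 176 (.leaf 177 1411 (.cons 200 (.leaf 179 1409 (.leaf 175 1403 .nil)) .nil)) .nil)) .nil)) .nil)) .nil)) .nil)) (.cons 207 (.leaf 179 1435 (.cons 181 (.leaf 208 1443 (.cons 202 (.leaf 201 1417 (.leaf 182 1425 .nil)) .nil)) .nil)) (.cons 207 (.leaf 179 1435 (.cons 183 (.leaf 182 1433 (.leaf 184 1441 .nil)) .nil)) (.cons 183 (.leaf 182 1433 (.cons 207 (.leaf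 184 1441 (.cons 208 (.leaf 181 1443 (.cons 232 (.leaf 231 1632 (.leaf 233 1640 .nil)) .nil)) .nil)) .nil)) .nil)))))) (.cons 230 (.leaf 202 1616 (.cons 231 (.leaf 206 1624 (.leaf 232 1635 .nil)) .nil)) (.cons 202 (.leaf 230 1616 (.cons 181 (.leaf 201 1417 (.leaf 182 1425 .nil)) .nil)) .nil))))
noncomputable def t267 : T := .cons 253 (.leaf 277 1453 (.cons 254 (.cons 252 (.leaf 274 2002 (.cons 230 (.leaf 231 1817 (.leaf 158 1262 .nil)) .nil)) (.cons 252 (.leaf 274 2002 (.cons 230 (.leaf 231 1817 (.cons 278 (.leaf 279 2008 (.leaf 181 1452 .nil)) .nil)) .nil)) (.cons 252 (.leaf 274 2002 (.cons 278 (.leaf 279 2008 (.leaf 181 1452 .nil)) .nil)) (.cons 181 (.leaf 158 1261 (.leaf 278 1452 .nil)) .nil)))) .nil)) (.cons 158 (.leaf 134 1070 (.cons 230 (.cons 133 (.leaf 157 1071 (.cons 159 (.leaf 135 1077 (.cons 179 (.leaf 181 1241 (.cons 254 (.leaf 183 1269 (.cons 177 (.leaf 178 1416 (.cons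 278 (.leaf 302 1647 (.cons 231 (.leaf 232 1635 (.leaf 255 1268 .nil)) .nil)) .nil)) .nil)) .nil)) .nil)) .nil)) (.cons 133 (.leaf 157 1071 (.cons 159 (.leaf 135 1077 (.cons 179 (.leaf 181 1241 (.cons 254 (.leaf 183 1269 (.cons 177 (.leaf 178 1416 (.cons 278 (.leaf 302 1647 (.cons 279 (.leaf 255 1460 (.leaf 303 1652 .nil)) .nil)) .nil)) .nil)) .nil)) .nil)) .nil)) (.cons 231 (.leaf 232 1635 (.leaf 255 1268 .nil)) (.cons 133 (.leaf 157 1071 (.cons 159 (.leaf 135 1077 (.cons 181 (.leaf 179 1241 (.cons 183 (.leaf 184 1442 (.leaf 160 1249 .nil)) .nil)) .nil)) .nil)) .nil)))) .nil)) (.cons 253 (.leaf 277 1453 (.cons 254 (.cons 252 (.leaf 274 2002 (.cons 230 (.leaf 231 1817 (.cons 278 (.leaf 279 2008 (.leaf 181 1452 .nil)) .nil)) .nil)) (.cons 252 (.leaf 274 2002 (.cons 230 (.leaf 231 1817 (.cons 278 (.leaf 279 2008 (.leaf 302 1647 .nil)) .nil)) .nil)) (.cons 278 (.leaf 181 1452 (.cons 252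 (.leaf 274 2002 (.leaf 279 2008 .nil)) .nil)) (.cons 252 (.leaf 274 2002 (.cons 230 (.leaf 231 1817 (.cons 181 (.leaf 157 1260 (.cons 183 (.leaf 184 1442 (.leaf 159 1269 .nil)) .nil)) .nil)) .nil)) (.cons 181 (.leaf 278 1452 (.cons 230 (.leaf 157 1260 (.cons 183 (.leaf 184 1442 (.leaf 159 1269 .nil)) .nil)) .nil)) .nil))))) .nil)) (.cons 253 (.leaf 277 1453 (.cons 158 (.leaf 134 1070 (.leaf 230 1262 .nil)) .nil)) (.cons 253 (.leaf 277 1453 (.cons 158 (.leaf 134 1070 (.leaf 181 1261 .nil)) .nil)) .nil))))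
noncomputable def t268 : T := .cons 277 (.leaf 229 1453 (.cons 254 (.leaf 230 1454 (.cons 252 (.leaf 274 2002 (.cons 255 (.cons 232 (.leaf 231 1825 (.cons 256 (.leaf 233 1833 (.cons 257 (.leaf 278 2026 (.cons 281 (.leaf 280 2024 (.leaf 282 2032 .nil)) .nil)) .nil)) .nil)) (.cons 232 (.leaf 231 1825 (.cons 256 (.leaf 233 1833 (.cons 280 (.leaf 279 2016 (.leaf 281 2024 .nil)) .nil)) .nil)) (.cons 232 (.leaf 231 1825 (.cons 256 (.leaf 233 1833 (.cons 278 (.leaf 279 2008 (.leaf 257 2026 .nil)) .nil)) .nil)) (.cons 279 (.leaf 278 2008 (.leaf 280 2016 .nil)) .nil)))) .nil)) .nil)) .nil)) (.cons 254 (.cons 230 (.leaf 277 1454 (.cons 252 (.leaf 274 2002 (.leaf 231 1817 .nil)) .nil)) (.cons 252 (.leaf 274 2002 (.cons 279 (.leaf 278 2008 (.cons 255 (.leaf 280 2016 (.cons 232 (.leaf 231 1825 (.cons 256 (.leaf 233 1833 (.cons 184 (.leaf 208 1470 (.cons 183 (.leaf 181 1442 (.leaf 185 1450 .nil))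 .nil)) .nil)) .nil)) .nil)) .nil)) .nil)) (.cons 230 (.leaf 277 1454 (.cons 181 (.leaf 278 1455 (.leaf 157 1263 .nil)) .nil)) .nil))) (.cons 181 (.cons 156 (.leaf 229 1255 (.cons 183 (.leaf 184 1442 (.leaf 155 1243 .nil)) .nil)) (.cons 183 (.leaf 184 1442 (.cons 159 (.leaf 160 1249 (.cons 111 (.leaf 135 886 (.cons 178 (.leaf 179 1424 (.cons 254 (.leaf 230 1269 (.cons 252 (.leaf 274 2002 (.cons 278 (.leaf 279 2008 (.leaf 229 1452 .nil)) .nil)) .nil)) .nil)) .nil)) .nil)) .nil)) (.cons 156 (.leaf 229 1255 (.cons 132 (.leaf 108 868 (.cons 107 (.leaf 131 863 (.cons 133 (.leaf 109 869 (.cons 157 (.leaf 230 1068 (.cons 134 (.leaf 110 877 (.cons 155 (.leaf 154 1232 (.leaf 135 1050 .nil)) .nil)) .nil)) .nil)) .nil)) .nil)) .nil)) (.cons 183 (.leaf 184 1442 (.cons 155 (.leaf 156 1243 (.cons 179 (.leaf 154 1235 (.leaf 178 1424 .nil)) .nil)) .nil)) .nil)))) (.cons 229 (.leaf 277 1453 (.cons 156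 (.leaf 132 1060 (.leaf 181 1255 .nil)) .nil)) .nil)))
noncomputable def t269 : T := .cons 178 (.leaf 179 1424 (.cons 183 (.leaf 184 1442 (.cons 156 (.leaf 155 1243 (.cons 132 (.leaf 108 868 (.cons 131 (.leaf 107 863 (.cons 159 (.leaf 160 1249 (.cons 111 (.leaf 135 886 (.cons 133 (.leaf 109 869 (.cons 134 (.leaf 110 857 (.leaf 158 1048 .nil)) .nil)) .nil)) .nil)) .nil)) .nil)) .nil)) .nil)) .nil)) (.cons 179 (.leaf 178 1424 (.cons 154 (.leaf 155 1235 (.cons 158 (.leaf 159 1241 (.cons 134 (.leaf 110 878 (.cons 111 (.leaf 135 885 (.cons 133 (.leaf 109 879 (.cons 157 (.leaf 230 1068 (.cons 132 (.leaf 108 871 (.cons 131 (.leaf 130 1040 (.cons 107 (.leaf 156 863 (.leaf 106 851 .nil)) .nil)) .nil)) .nil)) .nil)) .nil)) .nil)) .nil)) .nil)) .nil)) (.cons 183 (.leaf 184 1442 (.cons 155 (.leaf 156 1243 (.cons 159 (.leaf 160 1249 (.cons 135 (.leaf 111 886 (.cons 230 (.leaf 158 1077 (.leaf 254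 1269 .nil)) .nil)) .nil)) .nil)) .nil)) (.cons 183 (.leaf 184 1442 (.cons 155 (.leaf 156 1243 (.cons 179 (.leaf 154 1235 (.leaf 178 1424 .nil)) .nil)) .nil)) (.cons 179 (.leaf 178 1424 (.cons 154 (.leaf 155 1235 (.cons 159 (.leaf 158 1241 (.cons 183 (.leaf 184 1442 (.leaf 160 1249 .nil)) .nil)) .nil)) .nil)) (.cons 183 (.leaf 184 1442 (.cons 159 (.leaf 160 1249 (.cons 179 (.leaf 158 1241 (.leaf 178 1424 .nil)) .nil)) .nil)) .nil)))))
noncomputable def t270 : T := .cons 134 (.leaf 229 1070 (.cons 109 (.leaf 133 879 (.cons 110 (.leaf 85 687 (.cons 111 (.leaf 135 885 (.leaf 87 693 .nil)) .nil)) .nil)) .nil)) (.cons 133 (.cons 109 (.leaf 134 879 (.cons 157 (.leaf 230 1071 (.leaf 85 684 .nil)) .nil)) (.cons 230 (.leaf 157 1071 (.cons 159 (.leaf 135 1077 (.cons 231 (.leaf 255 1268 (.cons 232 (.leaf 233 1643 (.cons 254 (.leaf 183 1269 (.cons 253 (.leaf 252 1817 (.leaf 277 1454 .nil)) .nil))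 .nil)) .nil)) .nil)) .nil)) (.cons 134 (.leaf 109 879 (.cons 135 (.leaf 111 885 (.cons 159 (.leaf 230 1077 (.cons 132 (.leaf 131 1048 (.leaf 160 1056 .nil)) .nil)) .nil)) .nil)) (.cons 109 (.leaf 134 879 (.cons 156 (.leaf 132 869 (.cons 157 (.leaf 85 684 (.cons 155 (.leaf 183 1240 (.cons 179 (.leaf 159 1242 (.leaf 178 1234 .nil)) .nil)) .nil)) .nil)) .nil)) .nil)))) (.cons 230 (.cons 133 (.leaf 157 1071 (.cons 135 (.leaf 159 1077 (.cons 231 (.leaf 255 1268 (.cons 232 (.leaf 229 1635 (.leaf 233 1643 .nil)) .nil)) .nil)) .nil)) (.cons 159 (.leaf 135 1077 (.cons 133 (.leaf 157 1071 (.cons 231 (.leaf 255 1268 (.cons 232 (.leaf 233 1643 (.cons 254 (.leaf 183 1269 (.cons 253 (.leaf 252 1817 (.leaf 277 1454 .nil)) .nil)) .nil)) .nil)) .nil)) .nil)) (.cons 253 (.leaf 229 1262 (.cons 133 (.leaf 157 1071 (.cons 135 (.leaf 159 1077 (.cons 254 (.leaf 277 1454 (.cons 252 (.leaf 274 2002 (.cons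 279 (.leaf 278 2008 (.leaf 255 1460 .nil)) .nil)) .nil)) .nil)) .nil)) .nil)) (.cons 229 (.leaf 253 1262 (.cons 231 (.leaf 232 1635 (.leaf 255 1268 .nil)) .nil)) (.cons 229 (.leaf 253 1262 (.cons 135 (.leaf 159 1077 (.cons 156 (.leaf 132 1060 (.cons 157 (.leaf 133 1071 (.cons 155 (.leaf 183 1240 (.cons 130 (.leaf 131 1043 (.cons 154 (.leaf 129 1035 (.cons 178 (.leaf 179 1234 (.leaf 177 1226 .nil)) .nil)) .nil)) .nil)) .nil)) .nil)) .nil)) .nil)) .nil))))) (.cons 229 (.leaf 134 1070 (.cons 253 (.leaf 277 1453 (.leaf 230 1262 .nil)) .nil)) .nil)))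
noncomputable def t271 : T := .cons 229 (.cons 253 (.leaf 277 1453 (.cons 158 (.leaf 134 1070 (.leaf 181 1261 .nil)) .nil)) (.cons 158 (.leaf 134 1070 (.cons 156 (.leaf 132 1060 (.cons 183 (.cons 184 (.leaf 181 1442 (.leaf 185 1450 .nil)) (.cons 157 (.leaf 155 1240 (.cons 184 (.leaf 185 1450 (.leaf 159 1248 .nil)) .nil)) (.cons 155 (.leaf 181 1243 (.leaf 157 1240 .nil)) .nil))) .nil)) .nil)) (.cons 253 (.leaf 277 1453 (.cons 254 (.cons 252 (.leaf 274 2002 (.cons 230 (.leaf 231 1817 (.cons 278 (.leaf 279 2008 (.leaf 181 1452 .nil)) .nil)) .nil)) (.cons 252 (.leaf 274 2002 (.cons 230 (.leaf 231 1817 (.cons 278 (.leaf 279 2008 (.leaf 302 1647 .nil)) .nil)) .nil)) (.cons 156 (.leaf 132 1060 (.leaf 181 1255 .nil)) .nil))) .nil)) (.cons 253 (.leaf 277 1453 (.cons 158 (.leaf 134 1070 (.leaf 230 1262 .nil)) .nil)) .nil)))) (.cons 158 t270 (.cons 181 t269 (.cons 253 t268 (.cons 229 (.cons 158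 (.leaf 134 1070 (.cons 156 (.leaf 132 1060 (.cons 179 (.cons 178 (.leaf 177 1416 (.leaf 181 1424 .nil)) (.cons 253 (.leaf 277 1453 (.leaf 230 1262 .nil)) .nil)) .nil)) .nil)) (.cons 158 (.leaf 134 1070 (.cons 156 (.leaf 132 1060 (.cons 179 (.cons 178 (.leaf 177 1416 (.leaf 181 1424 .nil)) (.cons 157 (.leaf 159 1242 (.cons 178 (.leaf 177 1416 (.leaf 155 1234 .nil)) .nil)) (.cons 159 (.leaf 157 1242 (.leaf 181 1241 .nil)) .nil))) .nil)) .nil)) (.cons 253 (.leaf 277 1453 (.cons 156 (.leaf 132 1060 (.leaf 181 1255 .nil)) .nil)) (.cons 253 (.leaf 277 1453 (.cons 158 (.leaf 134 1070 (.leaf 230 1262 .nil)) .nil)) .nil)))) (.cons 181 (.cons 179 (.leaf 178 1424 (.cons 154 (.leaf 155 1235 (.cons 159 (.leaf 158 1241 (.cons 183 (.leaf 184 1442 (.leaf 160 1249 .nil)) .nil)) .nil)) .nil)) (.cons 179 (.leaf 178 1424 (.cons 154 (.leaf 155 1235 (.cons 158 (.leaf 159 1241 (.cons 134 (.leaf 110 878 (.leaf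 229 1070 .nil)) .nil)) .nil)) .nil)) (.cons 183 (.leaf 184 1442 (.cons 156 (.leaf 155 1243 (.cons 132 (.leaf 229 1060 (.leaf 108 868 .nil)) .nil)) .nil)) (.cons 183 (.leaf 184 1442 (.cons 159 (.leaf 160 1249 (.cons 179 (.leaf 158 1241 (.leaf 178 1424 .nil)) .nil)) .nil)) .nil)))) (.cons 229 t267 (.cons 181 (.cons 183 (.leaf 184 1442 (.cons 155 (.leaf 156 1243 (.cons 159 (.leaf 160 1249 (.cons 135 (.leaf 111 886 (.cons 230 (.leaf 158 1077 (.leaf 254 1269 .nil)) .nil)) .nil)) .nil)) .nil)) (.cons 179 (.leaf 178 1424 (.cons 158 (.leaf 159 1241 (.cons 229 (.leaf 253 1261 (.cons 156 (.leaf 132 1060 (.cons 155 (.leaf 154 1235 (.cons 131 (.leaf 107 860 (.cons 157 (.leaf 130 1043 (.cons 133 (.leaf 109 876 (.leaf 230 1068 .nil)) .nil)) .nil)) .nil)) .nil)) .nil)) .nil)) .nil)) (.cons 179 (.leaf 178 1424 (.cons 154 (.leaf 155 1235 (.cons 159 (.leaf 158 1241 (.cons 183 (.leaf 184 1442 (.leaf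 160 1249 .nil)) .nil)) .nil)) .nil)) (.cons 183 (.leaf 184 1442 (.cons 155 (.leaf 156 1243 (.cons 179 (.leaf 154 1235 (.leaf 178 1424 .nil)) .nil)) .nil)) (.cons 183 (.leaf 184 1442 (.cons 159 (.leaf 160 1249 (.cons 179 (.leaf 158 1241 (.leaf 178 1424 .nil)) .nil)) .nil)) .nil))))) (.cons 229 (.cons 253 (.leaf 277 1453 (.cons 158 (.leaf 134 1070 (.leaf 181 1261 .nil)) .nil)) (.cons 158 (.leaf 134 1070 (.cons 156 (.leaf 132 1060 (.cons 183 (.cons 184 (.leaf 181 1442 (.leaf 185 1450 .nil)) (.cons 157 (.leaf 155 1240 (.cons 184 (.leaf 185 1450 (.cons 230 (.leaf 133 1071 (.cons 231 (.leaf 232 1635 (.leaf 255 1268 .nil)) .nil)) .nil)) .nil)) (.cons 155 (.leaf 181 1243 (.leaf 157 1240 .nil)) .nil))) .nil)) .nil)) (.cons 253 (.leaf 277 1453 (.cons 156 (.leaf 132 1060 (.leaf 181 1255 .nil)) .nil)) (.cons 253 (.leaf 277 1453 (.cons 158 (.leaf 134 1070 (.leaf 230 1262 .nil)) .nil)) .nil))))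 .nil))))))))
noncomputable def t272 : T := .cons 207 (.leaf 179 1435 (.cons 208 (.leaf 181 1443 (.cons 184 (.leaf 183 1441 (.leaf 185 1449 .nil)) .nil)) .nil)) (.cons 182 t271 (.cons 207 (.cons 183 (.leaf 184 1441 (.cons 208 (.leaf 181 1443 (.cons 232 (.leaf 231 1632 (.leaf 233 1640 .nil)) .nil)) .nil)) (.cons 183 (.leaf 184 1441 (.cons 231 (.leaf 232 1632 (.cons 159 (.cons 230 (.leaf 135 1078 (.leaf 254 1270 .nil)) (.cons 134 (.leaf 158 1079 (.cons 135 (.leaf 110 887 (.cons 136 (.leaf 112 893 (.leaf 160 1085 .nil)) .nil)) .nil)) (.cons 134 (.leaf 158 1079 (.cons 254 (.leaf 230 1270 (.cons 136 (.leaf 160 1085 (.cons 255 (.leaf 278 1462 (.cons 279 (.leaf 182 1463 (.cons 280 (.leaf 256 1468 (.leaf 304 1660 .nil)) .nil)) .nil)) .nil)) .nil)) .nil)) .nil))) .nil)) .nil)) (.cons 208 (.leaf 181 1443 (.cons 232 (.leaf 231 1632 (.leaf 233 1640 .nil)) .nil)) (.cons 208 (.leaf 181 1443 (.cons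 184 (.leaf 183 1441 (.leaf 185 1449 .nil)) .nil)) .nil)))) (.cons 207 (.leaf 179 1435 (.cons 184 (.leaf 183 1441 (.cons 208 (.leaf 185 1449 (.cons 232 (.leaf 231 1632 (.leaf 233 1640 .nil)) .nil)) .nil)) .nil)) (.cons 207 (.leaf 179 1435 (.cons 208 (.leaf 181 1443 (.cons 232 (.leaf 231 1632 (.leaf 233 1640 .nil)) .nil)) .nil)) (.cons 179 (.leaf 207 1435 (.cons 178 (.leaf 177 1416 (.leaf 181 1424 .nil)) .nil)) .nil)))))
noncomputable def t273 : T := .cons 230 (.leaf 231 1624 (.cons 178 (.leaf 179 1427 (.cons 182 (.leaf 183 1433 (.cons 202 (.leaf 177 1419 (.leaf 181 1425 .nil)) .nil)) .nil)) .nil)) (.cons 182 (.leaf 183 1433 (.cons 181 (.leaf 202 1425 (.cons 230 (.leaf 231 1624 (.cons 157 (.leaf 133 1068 (.leaf 254 1263 .nil)) .nil)) .nil)) .nil)) (.cons 178 (.leaf 179 1427 (.cons 202 (.leaf 177 1419 (.cons 201 (.leaf 181 1417 (.cons 225 (.leaf 224 1602 (.leaf 226 1610 .nil)) .nil))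 .nil)) .nil)) (.cons 230 (.leaf 231 1624 (.cons 182 (.leaf 183 1433 (.cons 202 (.cons 179 (.leaf 178 1427 (.cons 201 (.leaf 200 1409 (.cons 225 (.leaf 224 1602 (.leaf 226 1610 .nil)) .nil)) .nil)) (.cons 225 (.leaf 226 1610 (.cons 201 (.leaf 224 1602 (.cons 176 (.leaf 177 1411 (.cons 200 (.leaf 179 1409 (.leaf 175 1403 .nil)) .nil)) .nil)) .nil)) (.cons 177 (.leaf 178 1419 (.cons 201 (.leaf 176 1411 (.cons 225 (.leaf 224 1602 (.leaf 226 1610 .nil)) .nil)) .nil)) (.cons 178 (.leaf 177 1419 (.leaf 179 1427 .nil)) .nil)))) .nil)) .nil)) (.cons 179 (.leaf 178 1427 (.cons 182 (.leaf 183 1433 (.cons 230 (.leaf 231 1624 (.cons 181 (.cons 155 (.leaf 154 1235 (.cons 157 (.leaf 133 1068 (.leaf 254 1263 .nil)) .nil)) (.cons 155 (.leaf 154 1235 (.cons 107 (.leaf 131 860 (.cons 158 (.leaf 159 1241 (.cons 134 (.leaf 110 878 (.cons 133 (.leaf 109 879 (.cons 135 (.leaf 111 885 (.cons 132 (.leaf 156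 1050 (.leaf 108 859 .nil)) .nil)) .nil)) .nil)) .nil)) .nil)) .nil)) (.cons 254 (.leaf 278 1455 (.leaf 157 1263 .nil)) .nil))) .nil)) .nil)) .nil)) .nil))))
noncomputable def t274 : T := .cons 182 (.cons 183 (.leaf 203 1434 (.leaf 184 1442 .nil)) (.cons 179 (.cons 154 (.leaf 155 1235 (.cons 158 (.leaf 159 1241 (.cons 178 (.leaf 177 1416 (.leaf 153 1227 .nil)) .nil)) .nil)) (.cons 203 (.leaf 202 1425 (.cons 155 (.leaf 154 1235 (.cons 131 (.leaf 107 860 (.cons 132 (.leaf 108 861 (.cons 106 (.leaf 130 855 (.cons 156 (.leaf 229 1060 (.cons 158 (.leaf 159 1241 (.cons 133 (.leaf 109 869 (.cons 134 (.leaf 110 878 (.leaf 135 1050 .nil)) .nil)) .nil)) .nil)) .nil)) .nil)) .nil)) .nil)) .nil)) (.cons 154 (.leaf 155 1235 (.cons 178 (.leaf 177 1416 (.leaf 153 1227 .nil)) .nil)) (.cons 202 (.leaf 203 1425 (.cons 178 (.leaf 177 1416 (.leaf 201 1418 .nil)) .nil)) .nil)))) (.cons 183 (.leaf 184 1442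 (.cons 155 (.leaf 156 1243 (.cons 159 (.leaf 160 1249 (.cons 179 (.leaf 154 1235 (.leaf 158 1241 .nil)) .nil)) .nil)) .nil)) .nil))) (.cons 229 (.cons 157 (.cons 132 (.leaf 156 1060 (.cons 133 (.leaf 109 870 (.leaf 108 871 .nil)) .nil)) (.cons 133 (.leaf 109 870 (.cons 134 (.leaf 110 877 (.leaf 158 1069 .nil)) .nil)) (.cons 156 (.leaf 132 1060 (.leaf 253 1255 .nil)) .nil))) (.cons 253 (.leaf 277 1447 (.cons 254 (.leaf 278 1452 (.cons 230 (.leaf 157 1260 (.cons 231 (.leaf 252 1817 (.leaf 232 1635 .nil)) .nil)) .nil)) .nil)) (.cons 157 (.cons 132 (.leaf 156 1060 (.cons 133 (.leaf 109 870 (.leaf 108 871 .nil)) .nil)) (.cons 133 (.leaf 109 870 (.cons 134 (.leaf 110 877 (.leaf 158 1069 .nil)) .nil)) (.cons 156 (.leaf 132 1060 (.cons 158 (.leaf 134 1069 (.cons 159 (.leaf 179 1242 (.leaf 160 1250 .nil)) .nil)) .nil)) .nil))) (.cons 156 (.leaf 132 1060 (.leaf 253 1255 .nil)) .nil)))) (.cons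 182 (.cons 183 (.leaf 203 1434 (.leaf 184 1442 .nil)) (.cons 202 (.leaf 203 1425 (.cons 179 (.cons 178 (.leaf 177 1416 (.leaf 201 1418 .nil)) (.cons 154 (.leaf 155 1235 (.cons 158 (.leaf 159 1241 (.cons 134 (.leaf 110 878 (.cons 229 (.leaf 157 1069 (.leaf 253 1261 .nil)) .nil)) .nil)) .nil)) .nil)) .nil)) (.cons 183 (.leaf 184 1442 (.cons 159 (.leaf 160 1249 (.cons 158 (.leaf 179 1241 (.cons 110 (.leaf 134 878 (.cons 207 (.leaf 208 1440 (.cons 229 (.leaf 253 1261 (.cons 231 (.leaf 255 1271 (.cons 230 (.leaf 232 1635 (.leaf 254 1270 .nil)) .nil)) .nil)) .nil)) .nil)) .nil)) .nil)) .nil)) .nil))) (.cons 182 (.cons 203 (.leaf 183 1434 (.leaf 202 1425 .nil)) (.cons 203 (.leaf 202 1425 (.cons 179 (.cons 158 (.leaf 159 1241 (.cons 178 (.leaf 177 1416 (.leaf 157 1233 .nil)) .nil)) (.cons 155 (.leaf 154 1235 (.cons 131 (.leaf 107 860 (.cons 132 (.leaf 108 861 (.cons 130 (.leaf 106 855 (.cons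 158 (.leaf 159 1241 (.cons 157 (.leaf 156 1043 (.leaf 133 1040 .nil)) .nil)) .nil)) .nil)) .nil)) .nil)) (.cons 178 (.leaf 177 1416 (.cons 154 (.leaf 153 1227 (.leaf 155 1235 .nil)) .nil)) .nil))) .nil)) (.cons 183 (.leaf 184 1442 (.cons 155 (.leaf 156 1243 (.cons 159 (.leaf 160 1249 (.cons 179 (.leaf 154 1235 (.leaf 158 1241 .nil)) .nil)) .nil)) .nil)) .nil))) (.cons 229 (.cons 157 (.cons 156 (.leaf 132 1060 (.leaf 253 1255 .nil)) (.cons 133 (.leaf 109 870 (.cons 134 (.leaf 110 877 (.leaf 158 1069 .nil)) .nil)) .nil)) (.cons 253 (.leaf 277 1447 (.cons 254 (.leaf 278 1452 (.cons 230 (.leaf 157 1260 (.cons 231 (.leaf 252 1817 (.leaf 232 1635 .nil)) .nil)) .nil)) .nil)) (.cons 157 (.cons 156 (.leaf 132 1060 (.cons 158 (.leaf 134 1069 (.cons 159 (.leaf 160 1250 (.cons 135 (.leaf 136 1057 (.cons 183 (.leaf 184 1248 (.cons 182 (.leaf 203 1434 (.leaf 155 1240 .nil)) .nil)) .nil)) .nil))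 .nil)) .nil)) (.cons 133 (.leaf 109 870 (.cons 134 (.leaf 110 877 (.leaf 158 1069 .nil)) .nil)) (.cons 132 (.leaf 156 1060 (.cons 133 (.leaf 109 870 (.leaf 108 871 .nil)) .nil)) .nil))) (.cons 253 (.leaf 277 1447 (.leaf 156 1255 .nil)) .nil)))) (.cons 182 (.cons 179 (.cons 202 (.leaf 203 1425 (.cons 178 (.leaf 177 1416 (.leaf 201 1418 .nil)) .nil)) (.cons 183 (.leaf 184 1442 (.cons 155 (.leaf 154 1235 (.leaf 156 1243 .nil)) .nil)) .nil)) (.cons 179 (.cons 202 (.leaf 203 1425 (.cons 178 (.leaf 177 1416 (.leaf 201 1418 .nil)) .nil)) (.cons 178 (.leaf 177 1416 (.cons 154 (.leaf 153 1227 (.leaf 155 1235 .nil)) .nil)) (.cons 203 (.leaf 202 1425 (.cons 155 (.leaf 154 1235 (.cons 131 (.leaf 107 860 (.cons 132 (.leaf 108 861 (.cons 130 (.leaf 106 855 (.cons 156 (.leaf 229 1060 (.cons 129 (.leaf 128 1024 (.leaf 157 1032 .nil)) .nil)) .nil)) .nil)) .nil)) .nil)) .nil)) .nil))) (.cons 183 (.leaf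 184 1442 (.cons 156 (.leaf 155 1243 (.cons 132 (.leaf 229 1060 (.leaf 108 868 .nil)) .nil)) .nil)) (.cons 183 (.leaf 203 1434 (.leaf 184 1442 .nil)) .nil)))) .nil)))))
noncomputable def t275 : T := .cons 207 (.leaf 184 1441 (.cons 182 (.leaf 203 1433 (.cons 231 (.leaf 232 1632 (.cons 158 (.leaf 134 1076 (.leaf 255 1271 .nil)) .nil)) .nil)) .nil)) (.cons 203 (.leaf 182 1433 (.cons 230 (.leaf 231 1624 (.cons 202 (.leaf 229 1616 (.cons 177 (.leaf 178 1419 (.cons 201 (.leaf 176 1411 (.cons 225 (.leaf 224 1602 (.leaf 226 1610 .nil)) .nil)) .nil)) .nil)) .nil)) .nil)) (.cons 207 (.leaf 184 1441 (.cons 231 (.leaf 232 1632 (.cons 230 (.leaf 203 1624 (.cons 159 (.leaf 135 1078 (.leaf 254 1270 .nil)) .nil)) .nil)) .nil)) (.cons 207 (.leaf 184 1441 (.cons 231 (.leaf 232 1632 (.cons 159 (.cons 230 (.leaf 135 1078 (.leaf 254 1270 .nil)) (.cons 134 (.leaf 158 1079 (.cons 135 (.leaf 110 887 (.cons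 136 (.leaf 112 893 (.leaf 160 1085 .nil)) .nil)) .nil)) (.cons 134 (.leaf 158 1079 (.cons 254 (.leaf 230 1270 (.cons 136 (.leaf 160 1085 (.cons 255 (.leaf 278 1462 (.cons 279 (.leaf 182 1463 (.cons 280 (.leaf 256 1468 (.leaf 304 1660 .nil)) .nil)) .nil)) .nil)) .nil)) .nil)) .nil))) .nil)) .nil)) (.cons 182 (.leaf 203 1433 (.cons 184 (.leaf 207 1441 (.leaf 185 1450 .nil)) .nil)) .nil))))
noncomputable def t276 : T := .cons 230 (.leaf 231 1624 (.cons 182 (.leaf 183 1433 (.cons 202 (.leaf 229 1616 (.cons 178 (.leaf 177 1419 (.leaf 179 1427 .nil)) .nil)) .nil)) .nil)) (.cons 230 (.leaf 231 1624 (.cons 182 (.leaf 183 1433 (.cons 202 (.leaf 229 1616 (.cons 225 (.leaf 226 1610 (.cons 201 (.leaf 224 1602 (.cons 176 (.leaf 177 1411 (.cons 200 (.leaf 179 1409 (.leaf 175 1403 .nil)) .nil)) .nil)) .nil)) .nil)) .nil)) .nil)) (.cons 230 (.leaf 231 1624 (.cons 182 (.leaf 183 1433 (.cons 202 (.leaf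 229 1616 (.cons 177 (.leaf 178 1419 (.cons 201 (.leaf 176 1411 (.cons 225 (.leaf 224 1602 (.leaf 226 1610 .nil)) .nil)) .nil)) .nil)) .nil)) .nil)) (.cons 182 (.leaf 183 1433 (.cons 202 (.cons 179 (.leaf 178 1427 (.cons 201 (.leaf 200 1409 (.cons 225 (.leaf 224 1602 (.leaf 226 1610 .nil)) .nil)) .nil)) (.cons 225 (.leaf 226 1610 (.cons 201 (.leaf 224 1602 (.cons 176 (.leaf 177 1411 (.cons 200 (.leaf 179 1409 (.leaf 175 1403 .nil)) .nil)) .nil)) .nil)) (.cons 177 (.leaf 178 1419 (.cons 201 (.leaf 176 1411 (.cons 225 (.leaf 224 1602 (.leaf 226 1610 .nil)) .nil)) .nil)) (.cons 178 (.leaf 177 1419 (.leaf 179 1427 .nil)) .nil)))) .nil)) (.cons 178 (.leaf 179 1427 (.cons 202 (.leaf 177 1419 (.cons 230 (.leaf 229 1616 (.leaf 231 1624 .nil)) .nil)) .nil)) (.cons 179 (.leaf 178 1427 (.cons 182 (.leaf 183 1433 (.cons 230 (.leaf 231 1624 (.cons 158 (.cons 133 (.leaf 157 1071 (.cons 134 (.leaf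 229 1070 (.leaf 109 879 .nil)) .nil)) (.cons 133 (.leaf 157 1071 (.cons 134 (.leaf 109 879 (.cons 135 (.leaf 111 885 (.leaf 159 1077 .nil)) .nil)) .nil)) (.cons 133 (.leaf 157 1071 (.cons 253 (.leaf 229 1262 (.cons 254 (.leaf 277 1454 (.cons 135 (.leaf 159 1077 (.cons 252 (.leaf 274 2002 (.cons 279 (.leaf 278 2008 (.leaf 255 1460 .nil)) .nil)) .nil)) .nil)) .nil)) .nil)) (.cons 229 (.leaf 134 1070 (.leaf 253 1262 .nil)) .nil)))) .nil)) .nil)) .nil)) .nil)))))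
noncomputable def t277 : T := .cons 253 (.leaf 277 1447 (.cons 182 (.cons 158 (.leaf 134 1070 (.leaf 181 1261 .nil)) (.cons 158 (.leaf 134 1070 (.leaf 230 1262 .nil)) (.cons 183 (.leaf 203 1433 (.cons 184 (.leaf 181 1442 (.leaf 207 1441 .nil)) .nil)) .nil))) .nil)) (.cons 156 (.leaf 132 1060 (.cons 183 (.cons 182 (.leaf 203 1433 (.cons 184 (.leaf 181 1442 (.leaf 207 1441 .nil)) .nil)) (.cons 207 (.leaf 184 1441 (.cons 208 (.leaf 181 1443 (.cons 209 (.leaf 230 1642 (.cons 233 (.leaf 232 1640 (.leaf 234 1648 .nil)) .nil)) .nil)) .nil)) (.cons 182 (.leaf 203 1433 (.cons 134 (.leaf 158 1070 (.cons 181 (.leaf 155 1243 (.cons 207 (.leaf 208 1440 (.cons 159 (.leaf 160 1249 (.cons 135 (.leaf 111 886 (.leaf 230 1078 .nil)) .nil)) .nil)) .nil)) .nil)) .nil)) (.cons 182 (.leaf 203 1433 (.cons 184 (.leaf 181 1442 (.leaf 185 1450 .nil)) .nil)) (.cons 182 (.leaf 203 1433 (.cons 184 (.leaf 207 1441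 (.leaf 185 1450 .nil)) .nil)) .nil))))) .nil)) (.cons 253 (.leaf 277 1447 (.cons 156 (.leaf 132 1060 (.cons 182 (.cons 158 (.leaf 134 1070 (.leaf 230 1262 .nil)) (.cons 183 (.leaf 203 1433 (.cons 184 (.leaf 207 1441 (.leaf 185 1450 .nil)) .nil)) .nil)) .nil)) .nil)) (.cons 156 (.leaf 132 1060 (.cons 253 (.leaf 277 1447 (.leaf 181 1255 .nil)) .nil)) .nil)))
noncomputable def t278 : T := .cons 231 (.leaf 232 1632 (.cons 230 (.leaf 203 1624 (.cons 254 (.cons 253 (.leaf 252 1817 (.cons 277 (.leaf 229 1447 (.leaf 182 1454 .nil)) .nil)) (.cons 278 (.leaf 181 1455 (.leaf 302 1653 .nil)) .nil)) .nil)) .nil)) (.cons 208 (.leaf 181 1443 (.cons 185 (.leaf 184 1449 (.cons 209 (.leaf 186 1457 (.cons 233 (.leaf 232 1640 (.leaf 234 1648 .nil)) .nil)) .nil)) .nil)) (.cons 231 (.leaf 232 1632 (.cons 230 (.leaf 203 1624 (.cons 254 (.cons 253 (.leaf 252 1817 (.cons 277 (.leaf 229 1447 (.leaf 182 1454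 .nil)) .nil)) (.cons 278 (.leaf 302 1653 (.cons 277 (.leaf 301 1646 (.cons 279 (.leaf 303 1652 (.cons 255 (.leaf 182 1460 (.cons 184 (.leaf 208 1469 (.cons 280 (.leaf 304 1660 (.cons 257 (.leaf 256 2025 (.cons 281 (.leaf 282 2035 (.leaf 258 2033 .nil)) .nil)) .nil)) .nil)) .nil)) .nil)) .nil)) .nil)) (.cons 253 (.leaf 252 1817 (.cons 229 (.leaf 277 1447 (.cons 278 (.leaf 302 1653 (.cons 132 (.leaf 156 1060 (.cons 208 (.leaf 209 1642 (.cons 184 (.leaf 185 1449 (.cons 279 (.leaf 303 1652 (.leaf 255 1469 .nil)) .nil)) .nil)) .nil)) .nil)) .nil)) .nil)) (.cons 252 (.leaf 253 1817 (.cons 278 (.leaf 302 1653 (.cons 279 (.leaf 303 1652 (.cons 255 (.leaf 182 1460 (.cons 208 (.leaf 184 1469 (.cons 209 (.leaf 229 1642 (.leaf 210 1650 .nil)) .nil)) .nil)) .nil)) .nil)) .nil)) .nil)))) .nil)) .nil)) (.cons 208 (.leaf 181 1443 (.cons 185 (.leaf 184 1449 (.cons 209 (.leaf 186 1457 (.cons 230 (.leaf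 229 1642 (.cons 231 (.leaf 203 1624 (.leaf 210 1650 .nil)) .nil)) .nil)) .nil)) .nil)) .nil)))
noncomputable def t279 : T := .cons 207 (.leaf 184 1441 (.cons 231 (.leaf 232 1632 (.cons 159 (.cons 230 (.leaf 203 1624 (.leaf 135 1078 .nil)) (.cons 134 (.leaf 158 1079 (.cons 182 (.leaf 203 1433 (.cons 135 (.leaf 111 886 (.leaf 110 887 .nil)) .nil)) .nil)) (.cons 230 (.leaf 135 1078 (.leaf 254 1270 .nil)) (.cons 134 (.leaf 158 1079 (.cons 230 (.leaf 203 1624 (.leaf 254 1270 .nil)) .nil)) .nil)))) .nil)) .nil)) (.cons 203 (.leaf 182 1433 (.cons 230 (.leaf 231 1624 (.cons 202 (.leaf 229 1616 (.cons 177 (.leaf 178 1419 (.cons 201 (.leaf 176 1411 (.cons 225 (.leaf 224 1602 (.leaf 226 1610 .nil)) .nil)) .nil)) .nil)) .nil)) .nil)) (.cons 207 (.leaf 184 1441 (.cons 231 (.leaf 232 1632 (.cons 230 (.leaf 203 1624 (.cons 159 (.leaf 135 1078 (.leaf 254 1270 .nil)) .nil)) .nil)) .nil)) (.cons 207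 (.leaf 184 1441 (.cons 231 (.leaf 232 1632 (.cons 159 (.cons 230 (.leaf 135 1078 (.leaf 254 1270 .nil)) (.cons 134 (.leaf 158 1079 (.cons 135 (.leaf 110 887 (.cons 136 (.leaf 112 893 (.leaf 160 1085 .nil)) .nil)) .nil)) (.cons 134 (.leaf 158 1079 (.cons 254 (.leaf 230 1270 (.cons 136 (.leaf 160 1085 (.cons 255 (.leaf 278 1462 (.cons 279 (.leaf 182 1463 (.cons 280 (.leaf 256 1468 (.leaf 304 1660 .nil)) .nil)) .nil)) .nil)) .nil)) .nil)) .nil))) .nil)) .nil)) (.cons 182 (.leaf 203 1433 (.cons 184 (.leaf 207 1441 (.leaf 185 1450 .nil)) .nil)) .nil))))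
noncomputable def t280 : T := .cons 230 (.leaf 231 1624 (.cons 202 (.leaf 229 1616 (.cons 177 (.leaf 178 1419 (.cons 201 (.leaf 176 1411 (.leaf 181 1417 .nil)) .nil)) .nil)) .nil)) (.cons 182 (.leaf 183 1433 (.cons 202 (.leaf 181 1425 (.cons 177 (.leaf 178 1419 (.cons 201 (.leaf 176 1411 (.cons 225 (.leaf 224 1602 (.leaf 226 1610 .nil)) .nil)) .nil)) .nil)) .nil)) (.cons 182 (.leaf 183 1433 (.cons 230 (.leaf 231 1624 (.cons 229 (.cons 253 (.leaf 277 1453 (.leaf 158 1262 .nil)) (.cons 132 (.leaf 156 1060 (.cons 158 (.leaf 134 1070 (.cons 135 (.leaf 159 1077 (.cons 157 (.leaf 133 1071 (.cons 254 (.leaf 181 1260 (.cons 278 (.leaf 302 1647 (.cons 279 (.leaf 255 1460 (.leaf 303 1652 .nil)) .nil)) .nil)) .nil)) .nil)) .nil)) .nil)) (.cons 253 (.leaf 277 1453 (.cons 156 (.leaf 132 1060 (.leaf 181 1255 .nil)) .nil)) .nil))) .nil)) .nil)) (.cons 230 (.leaf 231 1624 (.cons 182 (.leaf 183 1433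 (.cons 202 (.leaf 229 1616 (.cons 177 (.leaf 178 1419 (.cons 201 (.leaf 176 1411 (.cons 225 (.leaf 224 1602 (.leaf 226 1610 .nil)) .nil)) .nil)) .nil)) .nil)) .nil)) .nil)))
noncomputable def t281 : T := .cons 207 (.cons 208 (.leaf 181 1443 (.cons 185 (.leaf 184 1449 (.cons 209 (.leaf 186 1457 (.cons 232 (.leaf 231 1632 (.leaf 233 1640 .nil)) .nil)) .nil)) .nil)) (.cons 183 (.leaf 184 1441 (.cons 231 (.leaf 232 1632 (.cons 159 (.cons 230 (.leaf 203 1624 (.leaf 135 1078 .nil)) (.cons 134 (.leaf 158 1079 (.cons 182 (.leaf 203 1433 (.cons 135 (.leaf 111 886 (.leaf 110 887 .nil)) .nil)) .nil)) (.cons 230 (.leaf 135 1078 (.leaf 254 1270 .nil)) (.cons 134 (.leaf 158 1079 (.cons 230 (.leaf 203 1624 (.leaf 254 1270 .nil)) .nil)) .nil)))) .nil)) .nil)) (.cons 208 (.leaf 181 1443 (.cons 184 (.leaf 183 1441 (.leaf 185 1449 .nil)) .nil)) (.cons 208 (.leaf 181 1443 (.cons 232 (.leaf 231 1632 (.leaf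 233 1640 .nil)) .nil)) .nil)))) (.cons 203 t280 (.cons 183 t279 (.cons 207 (.cons 183 (.leaf 184 1441 (.cons 208 (.leaf 181 1443 (.cons 232 (.leaf 231 1632 (.leaf 233 1640 .nil)) .nil)) .nil)) (.cons 183 (.leaf 184 1441 (.cons 231 (.leaf 232 1632 (.cons 230 (.leaf 203 1624 (.cons 159 (.leaf 135 1078 (.leaf 254 1270 .nil)) .nil)) .nil)) .nil)) (.cons 208 (.leaf 181 1443 (.cons 184 (.leaf 183 1441 (.leaf 185 1449 .nil)) .nil)) (.cons 231 (.leaf 232 1632 (.cons 181 (.leaf 208 1443 (.cons 230 (.leaf 203 1624 (.cons 133 (.leaf 157 1068 (.cons 254 (.leaf 278 1455 (.cons 159 (.leaf 183 1270 (.cons 253 (.leaf 252 1817 (.cons 229 (.leaf 277 1447 (.leaf 156 1255 .nil)) .nil)) .nil)) .nil)) .nil)) .nil)) .nil)) .nil)) (.cons 208 (.leaf 181 1443 (.cons 185 (.leaf 184 1449 (.cons 209 (.leaf 186 1457 (.cons 232 (.leaf 231 1632 (.leaf 233 1640 .nil)) .nil)) .nil)) .nil)) .nil))))) (.cons 207 t278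 (.cons 207 (.cons 208 (.leaf 181 1443 (.cons 184 (.leaf 183 1441 (.leaf 185 1449 .nil)) .nil)) (.cons 183 (.leaf 184 1441 (.cons 231 (.leaf 232 1632 (.cons 159 (.cons 230 (.leaf 135 1078 (.leaf 254 1270 .nil)) (.cons 134 (.leaf 158 1079 (.cons 135 (.leaf 110 887 (.cons 136 (.leaf 112 893 (.leaf 160 1085 .nil)) .nil)) .nil)) (.cons 134 (.leaf 158 1079 (.cons 254 (.leaf 230 1270 (.cons 136 (.leaf 160 1085 (.cons 255 (.leaf 278 1462 (.cons 279 (.leaf 182 1463 (.cons 280 (.leaf 256 1468 (.leaf 304 1660 .nil)) .nil)) .nil)) .nil)) .nil)) .nil)) .nil))) .nil)) .nil)) (.cons 208 (.leaf 181 1443 (.cons 232 (.leaf 231 1632 (.leaf 233 1640 .nil)) .nil)) .nil))) (.cons 207 (.cons 183 (.leaf 184 1441 (.cons 182 (.leaf 203 1433 (.cons 231 (.leaf 232 1632 (.cons 181 (.leaf 208 1440 (.cons 158 (.leaf 134 1076 (.leaf 255 1271 .nil)) .nil)) .nil)) .nil)) .nil)) (.cons 183 (.leaf 184 1441 (.cons 182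 (.leaf 203 1433 (.cons 231 (.leaf 232 1632 (.cons 158 (.leaf 134 1076 (.leaf 255 1271 .nil)) .nil)) .nil)) .nil)) (.cons 208 (.leaf 181 1443 (.cons 232 (.leaf 231 1632 (.leaf 233 1640 .nil)) .nil)) (.cons 183 (.leaf 184 1441 (.cons 181 (.leaf 208 1443 (.cons 182 (.leaf 203 1433 (.cons 155 (.leaf 156 1243 (.cons 159 (.leaf 160 1249 (.cons 135 (.leaf 111 886 (.cons 134 (.leaf 110 887 (.cons 158 (.leaf 229 1070 (.leaf 231 1076 .nil)) .nil)) .nil)) .nil)) .nil)) .nil)) .nil)) .nil)) (.cons 208 (.leaf 181 1443 (.cons 184 (.leaf 183 1441 (.leaf 185 1449 .nil)) .nil)) .nil))))) (.cons 229 t277 .nil)))))))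
noncomputable def t282 : T := .cons 182 (.leaf 183 1433 (.cons 181 (.leaf 202 1425 (.cons 155 (.leaf 154 1235 (.cons 158 (.leaf 159 1241 (.cons 134 (.leaf 110 878 (.leaf 229 1070 .nil)) .nil)) .nil)) .nil)) .nil)) (.cons 230 (.leaf 231 1624 (.cons 202 (.leaf 229 1616 (.cons 201 (.leaf 181 1417 (.leaf 200 1409 .nil)) .nil)) .nil)) (.cons 182 (.leaf 183 1433 (.cons 230 (.leaf 231 1624 (.cons 155 (.cons 181 (.leaf 154 1235 (.cons 157 (.leaf 133 1068 (.leaf 254 1263 .nil)) .nil)) (.cons 131 (.leaf 107 860 (.cons 132 (.leaf 108 861 (.cons 156 (.leaf 229 1060 (.cons 130 (.leaf 106 855 (.cons 129 (.leaf 128 1024 (.leaf 157 1032 .nil)) .nil)) .nil)) .nil)) .nil)) (.cons 131 (.leaf 107 860 (.cons 106 (.leaf 130 855 (.cons 132 (.leaf 108 861 (.cons 154 (.leaf 181 1235 (.cons 152 (.leaf 153 1216 (.cons 133 (.leaf 134 1042 (.cons 156 (.leaf 109 869 (.leaf 229 1060 .nil)) .nil)) .nil)) .nil)) .nil))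 .nil)) .nil)) .nil))) .nil)) .nil)) (.cons 230 (.leaf 231 1624 (.cons 182 (.leaf 183 1433 (.cons 229 (.leaf 202 1616 (.cons 253 (.leaf 277 1453 (.leaf 158 1262 .nil)) .nil)) .nil)) .nil)) (.cons 182 (.leaf 183 1433 (.cons 181 (.leaf 202 1425 (.cons 154 (.leaf 155 1235 (.cons 230 (.leaf 231 1624 (.cons 157 (.leaf 133 1068 (.leaf 254 1263 .nil)) .nil)) .nil)) .nil)) .nil)) .nil))))
noncomputable def t283 : T := .cons 206 (.leaf 207 1435 (.cons 203 (.leaf 178 1427 (.cons 182 (.leaf 183 1433 (.cons 181 (.leaf 202 1425 (.cons 155 (.leaf 154 1235 (.cons 158 (.leaf 159 1241 (.cons 134 (.leaf 110 878 (.leaf 229 1070 .nil)) .nil)) .nil)) .nil)) .nil)) .nil)) .nil)) (.cons 206 (.leaf 207 1435 (.cons 203 t282 .nil)) (.cons 178 (.leaf 177 1416 (.cons 181 (.cons 202 (.leaf 201 1418 (.cons 182 (.leaf 203 1425 (.cons 158 (.leaf 157 1233 (.leaf 159 1241 .nil)) .nil)) .nil)) (.cons 153 (.leaf 154 1227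 (.cons 157 (.leaf 158 1233 (.cons 133 (.leaf 109 870 (.cons 110 (.leaf 134 877 (.cons 132 (.leaf 108 871 (.cons 229 (.leaf 156 1060 (.cons 253 (.leaf 277 1447 (.cons 254 (.leaf 230 1260 (.leaf 278 1452 .nil)) .nil)) .nil)) .nil)) .nil)) .nil)) .nil)) .nil)) (.cons 202 (.leaf 201 1418 (.cons 182 (.leaf 203 1425 (.cons 158 (.leaf 159 1241 (.cons 110 (.leaf 134 878 (.cons 183 (.leaf 184 1442 (.cons 156 (.leaf 155 1243 (.cons 229 (.leaf 132 1060 (.leaf 253 1261 .nil)) .nil)) .nil)) .nil)) .nil)) .nil)) .nil)) (.cons 202 (.leaf 201 1418 (.cons 182 (.leaf 203 1425 (.cons 183 (.leaf 184 1442 (.cons 156 (.leaf 155 1243 (.cons 132 (.leaf 229 1060 (.leaf 108 868 .nil)) .nil)) .nil)) .nil)) .nil)) .nil)))) .nil)) (.cons 178 (.leaf 177 1416 (.cons 206 (.leaf 203 1427 (.leaf 207 1435 .nil)) .nil)) (.cons 178 (.leaf 177 1416 (.cons 206 (.leaf 207 1435 (.leaf 181 1424 .nil)) .nil)) .nil))))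
noncomputable def t284 : T := .cons 179 t283 (.cons 206 t281 (.cons 206 (.cons 207 (.leaf 179 1435 (.cons 184 (.leaf 183 1441 (.cons 208 (.leaf 185 1449 (.cons 232 (.leaf 231 1632 (.leaf 233 1640 .nil)) .nil)) .nil)) .nil)) (.cons 203 t276 (.cons 183 t275 (.cons 179 (.leaf 207 1435 (.cons 178 (.leaf 177 1416 (.leaf 203 1427 .nil)) .nil)) .nil)))) (.cons 181 (t274) (.cons 206 (.cons 207 (.leaf 179 1435 (.cons 184 (.leaf 183 1441 (.cons 208 (.leaf 181 1443 (.leaf 185 1449 .nil)) .nil)) .nil)) (.cons 203 t273 (.cons 207 (.cons 184 (.leaf 183 1441 (.cons 208 (.leaf 181 1443 (.leaf 185 1449 .nil)) .nil)) (.cons 181 (.leaf 208 1443 (.cons 231 (.leaf 232 1632 (.cons 203 (.leaf 230 1624 (.cons 202 (.leaf 201 1417 (.leaf 182 1425 .nil)) .nil)) .nil)) .nil)) (.cons 183 (.leaf 184 1441 (.cons 231 (.leaf 232 1632 (.cons 159 (.cons 230 (.leaf 203 1624 (.leaf 135 1078 .nil)) (.cons 134 (.leaf 158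 1079 (.cons 182 (.leaf 203 1433 (.cons 135 (.leaf 111 886 (.leaf 110 887 .nil)) .nil)) .nil)) (.cons 230 (.leaf 135 1078 (.leaf 254 1270 .nil)) (.cons 134 (.leaf 158 1079 (.cons 230 (.leaf 203 1624 (.leaf 254 1270 .nil)) .nil)) .nil)))) .nil)) .nil)) .nil))) (.cons 179 (.leaf 207 1435 (.cons 178 (.leaf 177 1416 (.leaf 203 1427 .nil)) .nil)) .nil)))) (.cons 206 t272 (.cons 229 (.cons 156 (.leaf 132 1060 (.cons 253 (.leaf 277 1447 (.leaf 181 1255 .nil)) .nil)) (.cons 156 (.leaf 132 1060 (.cons 203 t266 .nil)) (.cons 253 (.leaf 277 1447 (.cons 181 (.cons 254 (.leaf 278 1452 (.cons 230 (.leaf 157 1260 (.cons 231 (.leaf 252 1817 (.leaf 232 1635 .nil)) .nil)) .nil)) (.cons 182 (.leaf 158 1261 (.cons 183 (.leaf 203 1434 (.leaf 184 1442 .nil)) .nil)) .nil)) .nil)) (.cons 253 (.leaf 277 1447 (.cons 156 (.leaf 132 1060 (.cons 206 t265 .nil)) .nil)) .nil)))) (.cons 179 t264 (.cons 178 t259 (.cons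 229 (.cons 156 (.leaf 132 1060 (.cons 253 (.leaf 277 1447 (.leaf 181 1255 .nil)) .nil)) (.cons 156 (.leaf 132 1060 (.cons 206 t254 .nil)) (.cons 253 (.leaf 277 1447 (.cons 181 (.cons 254 (.leaf 278 1452 (.cons 230 (.leaf 157 1260 (.cons 231 (.leaf 252 1817 (.leaf 232 1635 .nil)) .nil)) .nil)) (.cons 182 (.leaf 158 1261 (.cons 183 (.leaf 203 1434 (.leaf 184 1442 .nil)) .nil)) .nil)) .nil)) (.cons 253 (.leaf 277 1447 (.cons 156 (.leaf 132 1060 (.cons 206 t253 .nil)) .nil)) .nil)))) (.cons 179 t252 (.cons 206 t249 (.cons 179 t247 (.cons 179 (.cons 206 (.leaf 207 1435 (.cons 203 (.leaf 178 1427 (.cons 182 (.leaf 183 1433 (.cons 181 (.leaf 202 1425 (.cons 155 (.leaf 154 1235 (.cons 158 (.leaf 159 1241 (.cons 134 (.leaf 110 878 (.leaf 229 1070 .nil)) .nil)) .nil)) .nil)) .nil)) .nil)) .nil)) (.cons 178 t245 (.cons 206 (.leaf 207 1435 (.cons 203 t244 .nil)) (.cons 178 (.leaf 177 1416 (.cons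 206 (.leaf 203 1427 (.leaf 207 1435 .nil)) .nil)) (.cons 206 (.leaf 207 1435 (.cons 178 (.leaf 177 1416 (.leaf 181 1424 .nil)) .nil)) .nil))))) (.cons 179 (.cons 206 (.leaf 207 1435 (.cons 178 (.leaf 177 1416 (.leaf 203 1427 .nil)) .nil)) (.cons 206 (.leaf 207 1435 (.cons 203 t243 .nil)) (.cons 178 (.leaf 177 1416 (.cons 181 t242 .nil)) (.cons 206 (.leaf 207 1435 (.cons 178 (.leaf 177 1416 (.leaf 181 1424 .nil)) .nil)) .nil)))) (.cons 179 (.cons 178 (.leaf 177 1416 (.cons 206 (.leaf 203 1427 (.leaf 207 1435 .nil)) .nil)) (.cons 206 (.leaf 207 1435 (.cons 203 t241 .nil)) (.cons 178 (.leaf 177 1416 (.cons 181 t240 .nil)) (.cons 178 (.leaf 177 1416 (.cons 206 (.leaf 207 1435 (.leaf 181 1424 .nil)) .nil)) .nil)))) .nil)))))))))))))))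
noncomputable def t285 : T := .cons 133 (.leaf 157 1061 (.cons 132 (.leaf 109 869 (.cons 229 (.leaf 205 1060 (.leaf 253 1252 .nil)) .nil)) .nil)) (.cons 133 (.leaf 157 1061 (.cons 131 (.leaf 155 1055 (.cons 132 (.leaf 107 863 (.leaf 109 869 .nil)) .nil)) .nil)) (.cons 229 (.leaf 253 1252 (.cons 132 (.leaf 205 1060 (.cons 107 (.leaf 131 863 (.cons 108 (.leaf 83 671 (.cons 109 (.leaf 133 869 (.leaf 85 677 .nil)) .nil)) .nil)) .nil)) .nil)) (.cons 229 (.leaf 253 1252 (.cons 131 (.leaf 155 1055 (.cons 132 (.leaf 107 863 (.leaf 205 1060 .nil)) .nil)) .nil)) (.cons 155 (.leaf 131 1055 (.cons 157 (.leaf 133 1061 (.cons 229 (.leaf 253 1252 (.cons 154 (.cons 177 (.leaf 178 1226 (.cons 129 (.leaf 130 1035 (.cons 182 (.leaf 181 1232 (.cons 158 (.leaf 183 1240 (.cons 153 (.leaf 128 1027 (.leaf 176 1218 .nil)) .nil)) .nil)) .nil)) .nil)) (.cons 177 (.leaf 178 1226 (.cons 129 (.leaf 130 1035 (.cons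 153 (.leaf 128 1027 (.leaf 176 1218 .nil)) .nil)) .nil)) (.cons 181 (.leaf 182 1232 (.cons 178 (.leaf 177 1226 (.cons 158 (.leaf 179 1233 (.cons 134 (.leaf 135 1049 (.leaf 205 1069 .nil)) .nil)) .nil)) .nil)) (.cons 181 (.leaf 153 1224 (.leaf 182 1232 .nil)) .nil)))) .nil)) .nil)) .nil)) .nil))))
noncomputable def t286 : T := .cons 228 (.leaf 252 1438 (.cons 156 t285 .nil)) (.cons 205 t284 (.cons 156 t239 (.cons 252 (.leaf 228 1438 (.cons 254 t231 .nil)) (.cons 228 (.leaf 252 1438 (.cons 156 (.cons 229 (.leaf 253 1252 (.cons 131 (.leaf 155 1055 (.cons 132 (.leaf 107 863 (.leaf 205 1060 .nil)) .nil)) .nil)) (.cons 229 (.leaf 253 1252 (.cons 132 (.leaf 205 1060 (.cons 133 (.leaf 109 869 (.leaf 157 1061 .nil)) .nil)) .nil)) (.cons 131 (.leaf 155 1055 (.cons 132 (.leaf 107 863 (.cons 133 (.leaf 109 869 (.leaf 157 1061 .nil)) .nil)) .nil)) (.cons 229 (.leaf 253 1252 (.cons 155 (.leaf 131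 1055 (.cons 157 (.leaf 133 1061 (.cons 158 (.cons 179 (.leaf 159 1242 (.leaf 178 1234 .nil)) (.cons 134 (.leaf 135 1049 (.cons 182 (.leaf 183 1240 (.cons 206 (.leaf 205 1070 (.cons 231 (.leaf 207 1076 (.cons 230 (.leaf 203 1627 (.leaf 255 1268 .nil)) .nil)) .nil)) .nil)) .nil)) .nil)) .nil)) .nil)) .nil)) .nil)))) .nil)) (.cons 228 (.leaf 252 1438 (.cons 156 t210 .nil)) (.cons 156 t209 (.cons 252 (.leaf 228 1438 (.cons 205 (t196) .nil)) (.cons 228 (.leaf 252 1438 (.cons 205 (t187) .nil)) (.cons 228 (.leaf 252 1438 (.cons 156 t178 .nil)) (.cons 252 (.leaf 228 1438 (.cons 205 t177 .nil)) (.cons 228 (.leaf 252 1438 (.cons 156 t163 .nil)) (.cons 228 (.leaf 252 1438 (.cons 205 t160 .nil)) (.cons 252 (.leaf 228 1438 (.cons 205 t150 .nil)) (.cons 228 (.leaf 252 1438 (.cons 156 (.cons 229 (.leaf 253 1252 (.cons 132 (.leaf 205 1060 (.cons 133 (.leaf 109 869 (.leaf 157 1061 .nil)) .nil)) .nil))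 (.cons 131 (.leaf 155 1055 (.cons 132 (.leaf 107 863 (.cons 133 (.leaf 109 869 (.leaf 157 1061 .nil)) .nil)) .nil)) (.cons 229 (.leaf 253 1252 (.cons 131 (.leaf 155 1055 (.cons 132 (.leaf 107 863 (.leaf 205 1060 .nil)) .nil)) .nil)) (.cons 157 (.leaf 133 1061 (.cons 155 (.leaf 131 1055 (.cons 229 (.leaf 253 1252 (.cons 154 (.cons 129 (.leaf 130 1035 (.cons 153 (.leaf 181 1224 (.leaf 128 1027 .nil)) .nil)) (.cons 130 (.leaf 129 1035 (.cons 178 (.leaf 177 1226 (.cons 179 (.leaf 158 1234 (.cons 106 (.leaf 82 660 (.leaf 203 852 .nil)) .nil)) .nil)) .nil)) (.cons 153 (.leaf 181 1224 (.cons 177 (.leaf 176 1218 (.leaf 178 1226 .nil)) .nil)) .nil))) .nil)) .nil)) .nil)) .nil)))) .nil)) (.cons 228 (.leaf 252 1438 (.cons 156 t142 .nil)) (.cons 228 (.leaf 252 1438 (.cons 156 t141 .nil)) (.cons 228 (.leaf 252 1438 (.cons 156 t140 .nil)) .nil)))))))))))))))))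
noncomputable def t287 : T := .cons 225 (.leaf 205 1609 (.cons 200 (.leaf 201 1603 (.cons 224 (.leaf 203 1601 (.leaf 199 1595 .nil)) .nil)) .nil)) (.cons 202 (.cons 201 (.leaf 229 1611 (.cons 200 (.leaf 203 1600 (.leaf 225 1603 .nil)) .nil)) (.cons 201 (.leaf 229 1611 (.cons 200 (.leaf 225 1603 (.leaf 199 1592 .nil)) .nil)) (.cons 178 (.leaf 203 1431 (.leaf 154 1236 .nil)) .nil))) (.cons 229 (.cons 201 (.leaf 202 1611 (.cons 205 (.leaf 206 1617 (.cons 181 (.leaf 133 1062 (.cons 134 (.leaf 158 1069 (.cons 230 (.leaf 254 1260 (.cons 231 (.leaf 203 1627 (.leaf 232 1635 .nil)) .nil)) .nil)) .nil)) .nil)) .nil)) (.cons 205 (.leaf 206 1617 (.cons 254 (.leaf 253 1808 (.cons 230 (.leaf 255 1816 (.leaf 181 1260 .nil)) .nil)) .nil)) (.cons 202 (.leaf 201 1611 (.cons 230 (.leaf 203 1619 (.cons 254 (.leaf 253 1808 (.leaf 255 1816 .nil)) .nil)) .nil)) (.cons 205 (.leaf 206 1617 (.cons 133 (.leaf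 181 1062 (.cons 202 (.leaf 201 1611 (.cons 178 (.leaf 203 1431 (.leaf 154 1236 .nil)) .nil)) .nil)) .nil)) .nil)))) (.cons 205 (.leaf 225 1609 (.cons 206 (.leaf 207 1626 (.leaf 229 1617 .nil)) .nil)) .nil)))
noncomputable def t288 : T := .cons 225 (.leaf 205 1609 (.cons 200 (.leaf 201 1603 (.cons 224 (.leaf 203 1601 (.leaf 199 1595 .nil)) .nil)) .nil)) (.cons 202 (.cons 178 (.leaf 203 1431 (.leaf 154 1236 .nil)) (.cons 229 (.leaf 201 1611 (.cons 154 (.leaf 178 1236 (.cons 254 (.leaf 253 1808 (.cons 230 (.leaf 255 1816 (.cons 181 (.leaf 205 1260 (.cons 155 (.leaf 182 1232 (.cons 129 (.leaf 130 1035 (.cons 133 (.leaf 134 1041 (.cons 153 (.leaf 128 1027 (.leaf 132 1033 .nil)) .nil)) .nil)) .nil)) .nil)) .nil)) .nil)) .nil)) .nil)) (.cons 229 (.leaf 201 1611 (.cons 230 (.leaf 203 1619 (.cons 254 (.leaf 253 1808 (.leaf 255 1816 .nil)) .nil)) .nil)) .nil))) (.cons 202 (.cons 178 (.leaf 203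 1431 (.leaf 154 1236 .nil)) (.cons 201 (.leaf 229 1611 (.cons 154 (.leaf 178 1236 (.cons 155 (.cons 134 (.leaf 133 1041 (.cons 129 (.leaf 130 1035 (.cons 158 (.leaf 135 1049 (.cons 182 (.leaf 181 1232 (.leaf 183 1240 .nil)) .nil)) .nil)) .nil)) (.cons 134 (.leaf 133 1041 (.cons 158 (.leaf 135 1049 (.cons 182 (.leaf 181 1232 (.leaf 183 1240 .nil)) .nil)) .nil)) (.cons 129 (.leaf 130 1035 (.cons 153 (.leaf 128 1027 (.leaf 177 1036 .nil)) .nil)) .nil))) .nil)) .nil)) (.cons 201 (.leaf 229 1611 (.cons 200 (.leaf 203 1600 (.leaf 225 1603 .nil)) .nil)) .nil))) (.cons 225 (.leaf 205 1609 (.cons 200 (.leaf 201 1603 (.cons 224 (.leaf 199 1595 (.cons 248 (.leaf 249 1794 (.leaf 247 1786 .nil)) .nil)) .nil)) .nil)) (.cons 225 (.leaf 205 1609 (.cons 203 (.leaf 224 1601 (.cons 178 (.leaf 202 1431 (.cons 154 (.leaf 179 1239 (.cons 155 (.leaf 177 1226 (.cons 129 (.leaf 130 1035 (.cons 128 (.leaf 153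 1027 (.cons 134 (.leaf 133 1041 (.cons 158 (.leaf 135 1049 (.cons 182 (.leaf 181 1232 (.leaf 183 1240 .nil)) .nil)) .nil)) .nil)) .nil)) .nil)) .nil)) .nil)) .nil)) .nil)) .nil))))
noncomputable def t289 : T := .cons 202 (.cons 178 (.leaf 203 1431 (.leaf 154 1236 .nil)) (.cons 154 (.leaf 178 1236 (.cons 201 (.leaf 229 1611 (.cons 155 (.cons 134 (.leaf 133 1041 (.cons 129 (.leaf 130 1035 (.cons 153 (.leaf 128 1027 (.leaf 177 1036 .nil)) .nil)) .nil)) (.cons 134 (.leaf 133 1041 (.cons 158 (.leaf 135 1049 (.cons 131 (.leaf 130 1043 (.cons 159 (.leaf 132 1051 (.cons 183 (.leaf 182 1240 (.leaf 184 1248 .nil)) .nil)) .nil)) .nil)) .nil)) (.cons 133 (.leaf 134 1041 (.cons 153 (.leaf 132 1033 (.cons 129 (.leaf 128 1027 (.leaf 177 1036 .nil)) .nil)) .nil)) (.cons 129 (.leaf 130 1035 (.cons 153 (.leaf 128 1027 (.leaf 177 1036 .nil)) .nil)) .nil)))) .nil)) .nil)) (.cons 201 (.leaf 229 1611 (.cons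 200 (.leaf 203 1600 (.leaf 225 1603 .nil)) .nil)) .nil))) (.cons 202 (.cons 178 (.leaf 203 1431 (.leaf 154 1236 .nil)) (.cons 229 (.leaf 201 1611 (.cons 154 (.leaf 178 1236 (.cons 206 (.leaf 205 1617 (.cons 230 (.leaf 207 1625 (.cons 254 (.leaf 253 1808 (.leaf 255 1816 .nil)) .nil)) .nil)) .nil)) .nil)) (.cons 229 (.leaf 201 1611 (.cons 205 (.leaf 206 1617 (.cons 230 (.leaf 203 1616 (.cons 254 (.leaf 253 1808 (.leaf 255 1816 .nil)) .nil)) .nil)) .nil)) .nil))) (.cons 225 (.leaf 205 1609 (.cons 200 (.leaf 201 1603 (.cons 224 (.leaf 199 1595 (.cons 248 (.leaf 249 1794 (.leaf 247 1786 .nil)) .nil)) .nil)) .nil)) (.cons 205 (.leaf 225 1609 (.cons 206 (.leaf 203 1618 (.leaf 207 1626 .nil)) .nil)) .nil)))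
noncomputable def t290 : T := .cons 154 (.leaf 182 1232 (.cons 178 (.leaf 202 1236 (.leaf 177 1226 .nil)) .nil)) (.cons 158 (.cons 130 (.leaf 131 1043 (.cons 134 (.leaf 135 1049 (.cons 86 (.leaf 110 686 (.cons 154 (.leaf 129 1035 (.cons 178 (.leaf 202 1236 (.leaf 177 1226 .nil)) .nil)) .nil)) .nil)) .nil)) (.cons 131 (.leaf 130 1043 (.cons 159 (.leaf 132 1051 (.cons 136 (.leaf 135 1057 (.cons 160 (.leaf 137 1065 (.cons 184 (.leaf 183 1248 (.leaf 185 1256 .nil)) .nil)) .nil)) .nil)) .nil)) (.cons 134 (.leaf 135 1049 (.cons 178 (.leaf 179 1234 (.cons 154 (.leaf 202 1236 (.leaf 177 1226 .nil)) .nil)) .nil)) (.cons 178 (.leaf 179 1234 (.cons 154 (.leaf 202 1236 (.leaf 177 1226 .nil)) .nil)) .nil)))) (.cons 158 (.cons 134 (.leaf 135 1049 (.cons 110 (.leaf 86 686 (.leaf 182 878 .nil)) .nil)) (.cons 131 (.leaf 130 1043 (.cons 159 (.leaf 132 1051 (.cons 136 (.leaf 135 1057 (.cons 160 (.leaf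 137 1065 (.cons 184 (.leaf 183 1248 (.leaf 185 1256 .nil)) .nil)) .nil)) .nil)) .nil)) (.cons 183 (.leaf 182 1240 (.cons 131 (.leaf 130 1043 (.cons 159 (.leaf 132 1051 (.leaf 184 1248 .nil)) .nil)) .nil)) .nil))) .nil))
noncomputable def t291 : T := .cons 181 (.leaf 133 1062 (.cons 206 (.leaf 207 1626 (.cons 226 (.leaf 203 1618 (.leaf 225 1609 .nil)) .nil)) .nil)) (.cons 181 (.leaf 133 1062 (.cons 226 (.leaf 225 1609 (.cons 202 (.cons 178 (.leaf 203 1431 (.leaf 154 1236 .nil)) (.cons 154 (.leaf 178 1236 (.cons 155 (.leaf 182 1232 (.cons 129 (.leaf 130 1035 (.cons 153 (.leaf 128 1027 (.cons 177 (.leaf 176 1218 (.leaf 201 1036 .nil)) .nil)) .nil)) .nil)) .nil)) (.cons 182 (.leaf 203 1425 (.cons 183 (.leaf 184 1442 (.cons 155 (.leaf 154 1232 (.leaf 158 1240 .nil)) .nil)) .nil)) (.cons 203 (.leaf 178 1431 (.leaf 182 1425 .nil)) .nil)))) .nil)) .nil)) (.cons 181 (.leaf 133 1062 (.cons 206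 (.leaf 207 1626 (.cons 182 (.cons 183 (.leaf 184 1442 (.leaf 203 1433 .nil)) (.cons 154 (.leaf 155 1232 (.cons 203 (.leaf 202 1425 (.cons 178 (.leaf 179 1427 (.cons 230 (.leaf 231 1624 (.leaf 254 1263 .nil)) .nil)) .nil)) .nil)) (.cons 183 (.leaf 184 1442 (.cons 155 (.leaf 154 1232 (.leaf 158 1240 .nil)) .nil)) .nil))) .nil)) .nil)) (.cons 206 (.leaf 207 1626 (.cons 226 (.leaf 203 1618 (.leaf 225 1609 .nil)) .nil)) (.cons 181 (.leaf 133 1062 (.cons 206 (.leaf 207 1626 (.cons 226 (.leaf 225 1609 (.cons 155 t290 .nil)) .nil)) .nil)) .nil))))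
noncomputable def t292 : T := .cons 179 (.leaf 131 1052 (.leaf 132 1053 .nil)) (.cons 154 (.cons 129 (.leaf 130 1035 (.cons 153 (.leaf 128 1027 (.cons 132 (.leaf 133 1033 (.cons 131 (.leaf 152 1025 (.cons 158 (.leaf 159 1051 (.cons 182 (.leaf 181 1232 (.leaf 183 1240 .nil)) .nil)) .nil)) .nil)) .nil)) .nil)) (.cons 129 (.leaf 130 1035 (.cons 182 (.leaf 181 1232 (.cons 158 (.leaf 183 1240 (.cons 135 (.leaf 134 1049 (.cons 159 (.leaf 136 1057 (.cons 230 (.leaf 206 1077 (.cons 229 (.leaf 231 1627 (.leaf 202 1619 .nil)) .nil)) .nil)) .nil)) .nil)) .nil)) .nil)) (.cons 133 (.leaf 134 1041 (.cons 132 (.leaf 153 1033 (.cons 182 (.leaf 181 1232 (.cons 158 (.leaf 183 1240 (.cons 159 (.leaf 131 1051 (.leaf 160 1059 .nil)) .nil)) .nil)) .nil)) .nil)) (.cons 129 (.leaf 130 1035 (.cons 133 (.leaf 134 1041 (.cons 153 (.leaf 128 1027 (.leaf 132 1033 .nil)) .nil)) .nil)) .nil)))) (.cons 179 (.leaf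 132 1053 (.cons 154 (.leaf 130 1047 (.cons 134 (.leaf 133 1041 (.cons 158 (.leaf 135 1049 (.cons 182 (.leaf 181 1232 (.leaf 183 1240 .nil)) .nil)) .nil)) .nil)) .nil)) (.cons 131 (.leaf 179 1052 (.cons 130 (.leaf 158 1043 (.cons 129 (.leaf 128 1024 (.leaf 154 1035 .nil)) .nil)) .nil)) .nil)))
noncomputable def t293 : T := .leaf 133 1062 (.cons 206 (.leaf 207 1626 (.cons 226 (.leaf 225 1609 (.cons 155 (.cons 154 (.leaf 182 1232 (.cons 178 (.leaf 202 1236 (.leaf 177 1226 .nil)) .nil)) (.cons 158 (.cons 131 (.leaf 130 1043 (.cons 159 (.leaf 132 1051 (.cons 136 (.leaf 135 1057 (.cons 160 (.leaf 137 1065 (.cons 184 (.leaf 183 1248 (.leaf 185 1256 .nil)) .nil)) .nil)) .nil)) .nil)) (.cons 134 (.leaf 135 1049 (.cons 178 (.leaf 179 1234 (.cons 154 (.leaf 202 1236 (.leaf 177 1226 .nil)) .nil)) .nil)) (.cons 130 (.leaf 131 1043 (.cons 154 (.leaf 129 1035 (.cons 178 (.leaf 202 1236 (.leaf 177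 1226 .nil)) .nil)) .nil)) .nil))) (.cons 158 (.cons 131 (.leaf 130 1043 (.cons 159 (.leaf 132 1051 (.cons 183 (.leaf 182 1240 (.leaf 184 1248 .nil)) .nil)) .nil)) (.cons 131 (.leaf 130 1043 (.cons 159 (.leaf 132 1051 (.cons 136 (.leaf 135 1057 (.cons 160 (.leaf 137 1065 (.cons 184 (.leaf 183 1248 (.leaf 185 1256 .nil)) .nil)) .nil)) .nil)) .nil)) (.cons 134 (.leaf 135 1049 (.cons 110 (.leaf 86 686 (.leaf 182 878 .nil)) .nil)) .nil))) .nil))) .nil)) .nil)) .nil)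
noncomputable def t294 : T := .cons 205 (.cons 181 (.leaf 133 1062 (.cons 207 (.leaf 206 1626 (.cons 229 (.leaf 132 1063 (.cons 134 (.leaf 158 1069 (.cons 230 (.leaf 254 1260 (.cons 231 (.leaf 203 1627 (.leaf 232 1635 .nil)) .nil)) .nil)) .nil)) .nil)) .nil)) (.cons 181 (.leaf 133 1062 (.cons 226 (.leaf 225 1609 (.cons 229 (.leaf 132 1063 (.cons 254 (.leaf 253 1808 (.leaf 230 1260 .nil)) .nil)) .nil)) .nil)) (.cons 206 (.leaf 207 1626 (.cons 226 (.leaf 203 1618 (.leaf 225 1609 .nil)) .nil)) .nil))) (.cons 205 (.cons 181 (.leaf 133 1062 (.cons 207 (.leaf 206 1626 (.cons 229 (.leaf 132 1063 (.cons 134 (.leaf 158 1069 (.cons 230 (.leaf 254 1260 (.cons 231 (.leaf 232 1635 (.leaf 208 1633 .nil)) .nil)) .nil)) .nil)) .nil)) .nil)) (.cons 226 (.leaf 225 1609 (.cons 206 (.leaf 207 1626 (.leaf 229 1617 .nil)) .nil)) (.cons 181 (.leaf 133 1062 (.cons 226 (.leaf 225 1609 (.cons 229 (.leaf 132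 1063 (.cons 254 (.leaf 253 1808 (.leaf 230 1260 .nil)) .nil)) .nil)) .nil)) (.cons 181 t293 .nil)))) (.cons 203 (.cons 202 (.leaf 178 1431 (.cons 201 (.leaf 229 1608 (.leaf 200 1600 .nil)) .nil)) (.cons 274 (.leaf 298 1622 (.cons 155 (.cons 179 (.leaf 131 1052 (.leaf 132 1053 .nil)) (.cons 154 (.cons 129 (.leaf 130 1035 (.cons 153 (.leaf 128 1027 (.cons 177 (.leaf 176 1218 (.leaf 178 1226 .nil)) .nil)) .nil)) (.cons 133 (.leaf 134 1041 (.cons 132 (.leaf 153 1033 (.cons 182 (.leaf 181 1232 (.cons 158 (.leaf 183 1240 (.cons 159 (.leaf 131 1051 (.leaf 160 1059 .nil)) .nil)) .nil)) .nil)) .nil)) (.cons 129 (.leaf 130 1035 (.cons 134 (.leaf 133 1041 (.cons 158 (.leaf 135 1049 (.cons 182 (.leaf 181 1232 (.leaf 183 1240 .nil)) .nil)) .nil)) .nil)) .nil))) (.cons 179 (.leaf 132 1053 (.cons 154 (.leaf 178 1239 (.leaf 130 1047 .nil)) .nil)) (.cons 131 (.leaf 179 1052 (.cons 130 (.leaf 158 1043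 (.cons 129 (.leaf 128 1024 (.leaf 154 1035 .nil)) .nil)) .nil)) .nil)))) .nil)) (.cons 274 (.leaf 298 1622 (.cons 155 t292 .nil)) .nil))) (.cons 205 t291 (.cons 205 (.cons 226 (.leaf 225 1609 (.cons 206 (.leaf 203 1618 (.leaf 207 1626 .nil)) .nil)) (.cons 226 (.leaf 225 1609 (.cons 202 (.cons 201 (.leaf 229 1611 (.cons 200 (.leaf 203 1600 (.leaf 199 1592 .nil)) .nil)) (.cons 154 (.leaf 178 1236 (.cons 229 (.leaf 201 1611 (.cons 181 (.leaf 132 1063 (.cons 254 (.leaf 253 1808 (.leaf 230 1260 .nil)) .nil)) .nil)) .nil)) (.cons 178 (.leaf 203 1431 (.leaf 154 1236 .nil)) .nil))) .nil)) (.cons 206 (.leaf 207 1626 (.cons 203 (.cons 178 (.leaf 202 1431 (.leaf 179 1427 .nil)) (.cons 182 (.leaf 183 1433 (.cons 181 (.leaf 202 1425 (.cons 230 (.leaf 231 1624 (.leaf 254 1263 .nil)) .nil)) .nil)) (.cons 178 (.leaf 179 1427 (.cons 182 (.leaf 183 1433 (.cons 230 (.leaf 231 1624 (.cons 181 (.leaf 254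 1263 (.cons 154 (.leaf 155 1232 (.cons 229 (.leaf 132 1063 (.cons 158 (.leaf 134 1069 (.leaf 253 1261 .nil)) .nil)) .nil)) .nil)) .nil)) .nil)) .nil)) .nil))) .nil)) (.cons 226 (.leaf 225 1609 (.cons 206 (.leaf 207 1626 (.leaf 229 1617 .nil)) .nil)) .nil)))) (.cons 226 t289 (.cons 226 t288 (.cons 226 (.cons 225 (.leaf 205 1609 (.cons 200 (.leaf 201 1603 (.cons 224 (.leaf 203 1601 (.leaf 199 1595 .nil)) .nil)) .nil)) (.cons 202 (.cons 201 (.leaf 229 1611 (.cons 200 (.leaf 203 1600 (.leaf 225 1603 .nil)) .nil)) (.cons 201 (.leaf 229 1611 (.cons 200 (.leaf 225 1603 (.leaf 199 1592 .nil)) .nil)) (.cons 178 (.leaf 203 1431 (.leaf 154 1236 .nil)) .nil))) (.cons 205 (.cons 181 (.leaf 133 1062 (.cons 206 (.leaf 203 1618 (.leaf 207 1626 .nil)) .nil)) (.cons 181 (.leaf 133 1062 (.cons 229 (.leaf 132 1063 (.cons 254 (.leaf 253 1808 (.leaf 230 1260 .nil)) .nil)) .nil)) (.cons 206 (.leaf 203 1618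 (.leaf 207 1626 .nil)) .nil))) (.cons 225 (.leaf 205 1609 (.cons 200 (.leaf 201 1603 (.cons 224 (.leaf 199 1595 (.cons 248 (.leaf 249 1794 (.leaf 247 1786 .nil)) .nil)) .nil)) .nil)) .nil)))) (.cons 226 t287 (.cons 205 (.cons 181 (.leaf 133 1062 (.cons 206 (.leaf 207 1626 (.cons 229 (.leaf 226 1617 (.leaf 132 1063 .nil)) .nil)) .nil)) (.cons 181 (.leaf 133 1062 (.cons 206 (.leaf 207 1626 (.cons 229 (.leaf 132 1063 (.cons 158 (.leaf 134 1069 (.cons 182 (.leaf 253 1261 (.cons 183 (.leaf 184 1442 (.leaf 203 1433 .nil)) .nil)) .nil)) .nil)) .nil)) .nil)) (.cons 181 (.leaf 133 1062 (.cons 225 (.leaf 226 1609 (.cons 229 (.leaf 132 1063 (.cons 158 (.leaf 134 1069 (.cons 182 (.leaf 253 1261 (.cons 183 (.leaf 184 1442 (.leaf 155 1240 .nil)) .nil)) .nil)) .nil)) .nil)) .nil)) (.cons 226 (.leaf 225 1609 (.cons 206 (.leaf 203 1618 (.leaf 207 1626 .nil)) .nil)) .nil)))) .nil)))))))))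
noncomputable def t295 : T := .cons 299 (.leaf 227 1629 (.cons 323 (.leaf 252 1821 (.cons 346 (.leaf 322 2006 (.cons 347 (.leaf 370 2198 (.cons 348 (.leaf 324 2012 (.leaf 372 2204 .nil)) .nil)) .nil)) .nil)) .nil)) (.cons 180 (.leaf 252 1438 (.cons 156 (.cons 131 (.leaf 155 1055 (.cons 132 (.leaf 107 863 (.cons 133 (.leaf 109 869 (.leaf 157 1061 .nil)) .nil)) .nil)) (.cons 131 (.leaf 155 1055 (.cons 132 (.leaf 107 863 (.cons 229 (.leaf 205 1060 (.leaf 253 1252 .nil)) .nil)) .nil)) (.cons 229 (.leaf 253 1252 (.cons 132 (.leaf 205 1060 (.cons 133 (.leaf 109 869 (.leaf 157 1061 .nil)) .nil)) .nil)) (.cons 155 (.leaf 131 1055 (.cons 157 (.leaf 133 1061 (.cons 229 (.leaf 253 1252 (.cons 154 (.cons 181 (.leaf 153 1224 (.leaf 182 1232 .nil)) (.cons 129 (.leaf 130 1035 (.cons 153 (.leaf 128 1027 (.cons 152 (.leaf 179 1216 (.cons 176 (.leaf 177 1218 (.leaf 175 1210 .nil)) .nil)) .nil)) .nil))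 (.cons 129 (.leaf 130 1035 (.cons 182 (.leaf 181 1232 (.cons 158 (.leaf 183 1240 (.cons 134 (.leaf 135 1049 (.cons 206 (.leaf 205 1070 (.cons 231 (.leaf 207 1076 (.cons 230 (.leaf 203 1627 (.leaf 255 1268 .nil)) .nil)) .nil)) .nil)) .nil)) .nil)) .nil)) .nil))) .nil)) .nil)) .nil)) .nil)))) .nil)) (.cons 227 (.leaf 299 1629 (.cons 156 (.leaf 180 1246 (.cons 157 (t294) .nil)) .nil)) .nil))
noncomputable def top0 : T := .cons 228 t295 (.cons 180 t286 (.cons 299 (.cons 227 (.leaf 228 1629 (.cons 202 (.leaf 226 1623 (.cons 203 (.leaf 178 1431 (.cons 298 (.leaf 274 1622 (.leaf 322 1814 .nil)) .nil)) .nil)) .nil)) (.cons 346 (.cons 300 t139 (.cons 370 t138 (.cons 348 t76 (.cons 300 t73 (.cons 322 (.leaf 323 2006 (.cons 298 (.leaf 274 2005 (.leaf 370 2197 .nil)) .nil)) (.cons 323 (.leaf 322 2006 (.cons 228 (.leaf 252 1821 (.cons 347 (.leaf 370 2198 (.cons 348 (.leaf 324 2012 (.leaf 372 2204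 .nil)) .nil)) .nil)) .nil)) .nil)))))) (.cons 324 t63 (.cons 324 (.cons 300 (.leaf 227 1820 (.cons 348 (.leaf 323 2012 (.leaf 372 2207 .nil)) .nil)) (.cons 348 (.leaf 323 2012 (.cons 372 (.leaf 300 2207 (.cons 396 t62 .nil)) .nil)) (.cons 323 (.leaf 348 2012 (.cons 228 (.leaf 227 1629 (.leaf 252 1821 .nil)) .nil)) (.cons 227 (.leaf 228 1629 (.leaf 300 1820 .nil)) .nil)))) .nil)))) (.cons 203 (.cons 180 (.leaf 227 1437 (.cons 182 t61 .nil)) (.cons 205 t57 (.cons 202 t55 (.cons 180 (.leaf 227 1437 (.cons 182 (t52) .nil)) (.cons 205 t29 (.cons 227 (.leaf 180 1437 (.cons 202 (.leaf 178 1431 (.cons 298 (.leaf 274 1622 (.cons 299 (.leaf 226 1623 (.leaf 322 1814 .nil)) .nil)) .nil)) .nil)) .nil)))))) (.cons 228 t28 (.cons 227 t2 (.cons 227 (.cons 228 (.leaf 299 1629 (.cons 180 (.leaf 203 1437 (.leaf 252 1438 .nil)) .nil)) (.cons 180 (.leaf 203 1437 (.cons 228 (.leaf 252 1438 (.leaf 156 1246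 .nil)) .nil)) (.cons 299 (.leaf 228 1629 (.cons 202 (.leaf 226 1623 (.cons 322 (.leaf 298 1814 (.cons 323 (.leaf 346 2006 (.cons 324 (.leaf 300 1820 (.leaf 348 2012 .nil)) .nil)) .nil)) .nil)) .nil)) (.cons 203 (.leaf 180 1437 (.cons 202 (.leaf 178 1431 (.cons 298 (.leaf 274 1622 (.cons 299 (.leaf 226 1623 (.leaf 322 1814 .nil)) .nil)) .nil)) .nil)) .nil)))) (.cons 228 t1 (.cons 228 (.cons 227 (.leaf 299 1629 (.cons 180 (.leaf 203 1437 (.leaf 252 1438 .nil)) .nil)) (.cons 180 (.leaf 252 1438 (.cons 156 t0 .nil)) (.cons 299 (.leaf 227 1629 (.cons 323 (.leaf 252 1821 (.cons 346 (.leaf 322 2006 (.cons 347 (.leaf 370 2198 (.cons 348 (.leaf 324 2012 (.leaf 372 2204 .nil)) .nil)) .nil)) .nil)) .nil)) (.cons 227 (.leaf 299 1629 (.cons 180 (.leaf 203 1437 (.leaf 156 1246 .nil)) .nil)) .nil)))) .nil))))))))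

end Vale.Agent.P062.Second.D1
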