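import Vale.Agent.P062.Checker

namespace Vale.Agent.P062.Second.D2

open Vale.Agent.P062

noncomputable def t0 : T := .cons 248 (.leaf 321 1796 (.cons 199 (.leaf 223 1599 (.cons 200 (.leaf 175 1407 (.cons 201 (.leaf 225 1605 (.leaf 177 1413 .nil)) .nil)) .nil)) .nil)) (.cons 226 (.leaf 202 1623 (.cons 225 (.leaf 252 1792 (.cons 199 (.leaf 200 1595 (.cons 223 (.leaf 250 1784 (.leaf 198 1587 .nil)) .nil)) .nil)) .nil)) (.cons 248 (.leaf 321 1796 (.cons 199 (.leaf 223 1599 (.cons 200 (.leaf 175 1407 (.cons 177 (.leaf 201 1413 (.cons 176 (.leaf 153 1221 (.cons 178 (.leaf 179 1402 (.cons 202 (.leaf 203 1431 (.leaf 226 1623 .nil)) .nil)) .nil)) .nil)) .nil)) .nil)) .nil)) (.cons 248 (.leaf 321 1796 (.cons 201 (.leaf 225 1605 (.cons 200 (.leaf 177 1413 (.cons 175 (.leaf 199 1407 (.cons 151 (.leaf 176 1215 (.cons 202 (.leaf 226 1623 (.cons 203 (.leaf 178 1431 (.leaf 228 1600 .nil)) .nil))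 .nil)) .nil)) .nil)) .nil)) .nil)) (.cons 248 (.leaf 321 1796 (.cons 201 (.leaf 225 1605 (.cons 200 (.leaf 177 1413 (.cons 202 (.leaf 226 1623 (.cons 203 (.leaf 178 1431 (.leaf 228 1600 .nil)) .nil)) .nil)) .nil)) .nil)) (.cons 248 (.leaf 321 1796 (.cons 199 (.leaf 223 1599 (.cons 225 (.leaf 201 1605 (.cons 226 (.leaf 202 1623 (.leaf 252 1792 .nil)) .nil)) .nil)) .nil)) .nil)))))
noncomputable def t1 : T := .cons 226 (.leaf 202 1623 (.cons 272 (.leaf 273 2179 (.cons 296 (.leaf 271 2171 (.cons 320 (.leaf 319 2362 (.leaf 321 2370 .nil)) .nil)) .nil)) .nil)) (.cons 272 (.leaf 273 2179 (.cons 296 (.leaf 271 2171 (.cons 320 (.leaf 319 2362 (.leaf 321 2370 .nil)) .nil)) .nil)) (.cons 320 (.leaf 321 2370 (.cons 226 (.leaf 202 1623 (.cons 296 (.leaf 319 2362 (.cons 225 (.cons 224 (.leaf 252 1792 (.cons 199 (.leaf 200 1595 (.cons 223 (.leaf 250 1784 (.leaf 198 1587 .nil)) .nil)) .nil)) (.cons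 249 (.leaf 273 1798 (.cons 228 (.leaf 248 1794 (.cons 200 (.leaf 201 1603 (.cons 229 (.leaf 250 1802 (.cons 253 (.leaf 252 1800 (.leaf 254 1808 .nil)) .nil)) .nil)) .nil)) .nil)) (.cons 249 (.leaf 273 1798 (.cons 228 (.leaf 248 1794 (.cons 200 (.leaf 201 1603 (.cons 224 (.leaf 199 1595 (.cons 250 (.leaf 223 1784 (.leaf 229 1802 .nil)) .nil)) .nil)) .nil)) .nil)) (.cons 224 (.leaf 252 1792 (.cons 199 (.leaf 200 1595 (.cons 198 (.leaf 223 1587 (.cons 248 (.leaf 247 1786 (.cons 249 (.leaf 228 1794 (.leaf 273 1798 .nil)) .nil)) .nil)) .nil)) .nil)) (.cons 252 (.leaf 224 1792 (.cons 253 (.leaf 250 1803 (.leaf 254 1811 .nil)) .nil)) .nil))))) .nil)) .nil)) .nil)) (.cons 272 (.leaf 273 2179 (.cons 296 (.leaf 271 2171 (.cons 224 (.cons 202 (.leaf 226 1623 (.cons 203 (.leaf 178 1431 (.cons 248 (.leaf 321 1796 (.cons 201 (.leaf 225 1605 (.cons 200 (.leaf 228 1600 (.leaf 177 1413 .nil)) .nil))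 .nil)) .nil)) .nil)) (.cons 226 (.leaf 202 1623 (.cons 225 (.leaf 252 1792 (.cons 199 (.leaf 200 1595 (.cons 223 (.leaf 250 1784 (.leaf 198 1587 .nil)) .nil)) .nil)) .nil)) (.cons 248 (.leaf 321 1796 (.cons 199 (.leaf 223 1599 (.cons 200 (.leaf 175 1407 (.cons 201 (.leaf 177 1413 (.leaf 225 1605 .nil)) .nil)) .nil)) .nil)) (.cons 248 (.leaf 321 1796 (.cons 199 (.leaf 223 1599 (.cons 200 (.leaf 175 1407 (.cons 177 (.leaf 201 1413 (.cons 176 (.leaf 153 1221 (.cons 178 (.leaf 179 1402 (.cons 202 (.leaf 203 1431 (.leaf 226 1623 .nil)) .nil)) .nil)) .nil)) .nil)) .nil)) .nil)) (.cons 248 (.leaf 321 1796 (.cons 199 (.leaf 223 1599 (.cons 225 (.leaf 201 1605 (.cons 226 (.leaf 202 1623 (.leaf 252 1792 .nil)) .nil)) .nil)) .nil)) .nil))))) .nil)) .nil)) (.cons 296 (.cons 202 (.leaf 226 1623 (.cons 178 (.leaf 203 1431 (.cons 271 (.leaf 272 2171 (.cons 295 (.leaf 270 2163 (.cons 319 (.leaf 320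 2362 (.leaf 318 2354 .nil)) .nil)) .nil)) .nil)) .nil)) (.cons 272 (.leaf 271 2171 (.cons 224 t0 .nil)) (.cons 320 (.leaf 319 2362 (.leaf 321 2370 .nil)) .nil))) (.cons 272 (.leaf 273 2179 (.cons 226 (.leaf 202 1623 (.cons 296 (.leaf 271 2171 (.cons 319 (.leaf 320 2362 (.cons 295 (.leaf 318 2354 (.cons 224 (.leaf 248 1790 (.cons 225 (.leaf 252 1792 (.cons 223 (.leaf 250 1784 (.cons 199 (.leaf 200 1595 (.leaf 198 1587 .nil)) .nil)) .nil)) .nil)) .nil)) .nil)) .nil)) .nil)) .nil)) (.cons 226 (.leaf 202 1623 (.cons 273 (.leaf 272 2179 (.cons 321 (.leaf 320 2370 (.cons 249 (.leaf 250 1805 (.cons 224 (.leaf 248 1799 (.cons 225 (.leaf 252 1792 (.leaf 200 1607 .nil)) .nil)) .nil)) .nil)) .nil)) .nil)) .nil))))))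
noncomputable def t2 : T := .cons 254 (.leaf 325 1838 (.cons 204 (.leaf 228 1629 (.cons 180 (.leaf 203 1437 (.cons 205 (.leaf 229 1647 (.cons 206 (.leaf 181 1455 (.cons 207 (.leaf 231 1653 (.leaf 183 1461 .nil)) .nil)) .nil)) .nil)) .nil)) .nil)) (.cons 228 (.leaf 204 1629 (.cons 229 (.leaf 250 1810 (.cons 206 (.leaf 207 1625 (.cons 231 (.leaf 252 1818 (.cons 205 (.leaf 226 1617 (.cons 232 (.leaf 233 1643 (.cons 256 (.leaf 255 1824 (.leaf 257 1832 .nil)) .nil)) .nil)) .nil)) .nil)) .nil)) .nil)) (.cons 254 (.leaf 325 1838 (.cons 205 (.leaf 229 1647 (.cons 206 (.leaf 181 1455 (.cons 207 (.leaf 231 1653 (.leaf 183 1461 .nil)) .nil)) .nil)) .nil)) (.cons 254 (.leaf 325 1838 (.cons 204 (.leaf 228 1629 (.cons 180 (.leaf 203 1437 (.cons 207 (.leaf 231 1653 (.cons 206 (.leaf 183 1461 (.cons 205 (.leaf 181 1455 (.leaf 179 1435 .nil)) .nil)) .nil)) .nil)) .nil)) .nil)) (.cons 254 (.leaf 325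 1838 (.cons 204 (.leaf 228 1629 (.cons 180 (.leaf 203 1437 (.cons 205 (.leaf 229 1647 (.cons 206 (.leaf 181 1455 (.cons 207 (.leaf 183 1461 (.leaf 179 1435 .nil)) .nil)) .nil)) .nil)) .nil)) .nil)) (.cons 254 (.leaf 325 1838 (.cons 204 (.leaf 228 1629 (.cons 203 (.leaf 180 1437 (.cons 205 (.leaf 229 1647 (.cons 206 (.leaf 226 1618 (.leaf 181 1455 .nil)) .nil)) .nil)) .nil)) .nil)) (.cons 254 (.leaf 325 1838 (.cons 207 (.leaf 231 1653 (.cons 183 (.leaf 206 1461 (.cons 228 (.leaf 204 1629 (.cons 229 (.leaf 250 1810 (.leaf 255 1816 .nil)) .nil)) .nil)) .nil)) .nil)) (.cons 254 (.leaf 325 1838 (.cons 207 (.leaf 231 1653 (.cons 228 (.leaf 204 1629 (.cons 229 (.leaf 250 1810 (.leaf 255 1816 .nil)) .nil)) .nil)) .nil)) .nil)))))))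
noncomputable def t3 : T := .cons 204 (.leaf 228 1629 (.cons 180 (.leaf 203 1437 (.cons 254 (.leaf 325 1838 (.cons 205 (.leaf 229 1647 (.cons 206 (.leaf 181 1455 (.cons 207 (.leaf 183 1461 (.leaf 231 1653 .nil)) .nil)) .nil)) .nil)) .nil)) .nil)) (.cons 228 (.leaf 204 1629 (.cons 229 (.leaf 250 1810 (.cons 206 (.leaf 207 1625 (.cons 231 (.leaf 252 1818 (.cons 205 (.leaf 226 1617 (.cons 232 (.leaf 233 1643 (.cons 256 (.leaf 255 1824 (.leaf 257 1832 .nil)) .nil)) .nil)) .nil)) .nil)) .nil)) .nil)) (.cons 254 (.leaf 325 1838 (.cons 205 (.leaf 229 1647 (.cons 206 (.leaf 181 1455 (.cons 207 (.leaf 183 1461 (.leaf 231 1653 .nil)) .nil)) .nil)) .nil)) (.cons 254 (.leaf 325 1838 (.cons 204 (.leaf 228 1629 (.cons 180 (.leaf 203 1437 (.cons 207 (.leaf 231 1653 (.cons 206 (.leaf 183 1461 (.cons 205 (.leaf 181 1455 (.leaf 179 1435 .nil)) .nil)) .nil)) .nil)) .nil)) .nil)) (.cons 254 (.leaf 325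 1838 (.cons 204 (.leaf 228 1629 (.cons 180 (.leaf 203 1437 (.cons 205 (.leaf 229 1647 (.cons 206 (.leaf 181 1455 (.cons 207 (.leaf 183 1461 (.leaf 179 1435 .nil)) .nil)) .nil)) .nil)) .nil)) .nil)) (.cons 254 (.leaf 325 1838 (.cons 204 (.leaf 228 1629 (.cons 203 (.leaf 180 1437 (.cons 205 (.leaf 229 1647 (.cons 206 (.leaf 226 1618 (.leaf 181 1455 .nil)) .nil)) .nil)) .nil)) .nil)) (.cons 254 (.leaf 325 1838 (.cons 207 (.leaf 231 1653 (.cons 183 (.leaf 206 1461 (.cons 228 (.leaf 204 1629 (.cons 229 (.leaf 250 1810 (.leaf 255 1816 .nil)) .nil)) .nil)) .nil)) .nil)) (.cons 254 (.leaf 325 1838 (.cons 207 (.leaf 231 1653 (.cons 228 (.leaf 204 1629 (.cons 229 (.leaf 250 1810 (.leaf 255 1816 .nil)) .nil)) .nil)) .nil)) .nil)))))))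
noncomputable def t4 : T := .cons 228 (.leaf 204 1629 (.cons 277 (.leaf 278 2193 (.cons 325 (.leaf 326 2384 (.cons 253 (.leaf 252 1831 (.cons 230 (.leaf 254 1837 (.cons 229 (.leaf 250 1810 (.leaf 206 1645 .nil)) .nil)) .nil)) .nil)) .nil)) .nil)) (.cons 278 (.leaf 277 2193 (.cons 302 (.leaf 279 2201 (.cons 326 (.leaf 325 2384 (.leaf 327 2392 .nil)) .nil)) .nil)) (.cons 326 (.leaf 325 2384 (.cons 228 (.leaf 204 1629 (.cons 302 (.leaf 327 2392 (.cons 229 (.cons 230 (.leaf 250 1810 (.cons 231 (.leaf 252 1818 (.cons 255 (.leaf 254 1816 (.leaf 256 1824 .nil)) .nil)) .nil)) (.cons 253 (.leaf 277 1836 (.cons 226 (.leaf 254 1808 (.cons 205 (.leaf 206 1617 (.cons 225 (.leaf 252 1800 (.cons 249 (.leaf 248 1794 (.leaf 250 1802 .nil)) .nil)) .nil)) .nil)) .nil)) (.cons 253 (.leaf 277 1836 (.cons 226 (.leaf 254 1808 (.cons 206 (.leaf 205 1617 (.cons 230 (.leaf 207 1625 (.cons 252 (.leaf 231 1818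 (.leaf 225 1800 .nil)) .nil)) .nil)) .nil)) .nil)) (.cons 230 (.leaf 250 1810 (.cons 206 (.leaf 207 1625 (.cons 253 (.leaf 277 1836 (.cons 226 (.leaf 205 1617 (.leaf 254 1808 .nil)) .nil)) .nil)) .nil)) (.cons 250 (.leaf 230 1810 (.cons 249 (.leaf 248 1793 (.leaf 252 1801 .nil)) .nil)) .nil))))) .nil)) .nil)) .nil)) (.cons 278 (.leaf 277 2193 (.cons 302 (.leaf 279 2201 (.cons 230 t3 .nil)) .nil)) (.cons 302 (.cons 278 (.leaf 279 2201 (.cons 230 (.cons 254 (.leaf 325 1838 (.cons 204 (.leaf 228 1629 (.cons 180 (.leaf 203 1437 (.cons 205 (.leaf 229 1647 (.cons 206 (.leaf 181 1455 (.cons 207 (.leaf 231 1653 (.leaf 183 1461 .nil)) .nil)) .nil)) .nil)) .nil)) .nil)) (.cons 326 (.leaf 325 2384 (.leaf 327 2392 .nil)) (.cons 327 (.leaf 326 2392 (.cons 303 (.leaf 328 2400 (.leaf 254 1844 .nil)) .nil)) .nil))) .nil)) (.cons 278 (.leaf 279 2201 (.cons 230 t2 .nil)) (.cons 326 (.leaf 325 2384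 (.leaf 327 2392 .nil)) (.cons 204 (.leaf 228 1629 (.cons 180 (.leaf 203 1437 (.cons 279 (.leaf 278 2201 (.cons 303 (.leaf 280 2209 (.cons 327 (.leaf 326 2392 (.leaf 328 2400 .nil)) .nil)) .nil)) .nil)) .nil)) .nil)))) (.cons 278 (.leaf 277 2193 (.cons 228 (.leaf 204 1629 (.cons 302 (.leaf 279 2201 (.cons 327 (.leaf 326 2392 (.cons 303 (.leaf 328 2400 (.cons 230 (.leaf 254 1844 (.cons 229 (.leaf 250 1810 (.cons 207 (.leaf 206 1625 (.cons 231 (.leaf 252 1818 (.leaf 208 1633 .nil)) .nil)) .nil)) .nil)) .nil)) .nil)) .nil)) .nil)) .nil)) .nil)))))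
noncomputable def t5 : T := .cons 226 (.leaf 202 1623 (.cons 228 (.leaf 204 1629 (.cons 298 (.leaf 322 1814 (.cons 300 (.leaf 324 1820 (.cons 225 (.cons 200 (.leaf 201 1603 (.cons 199 (.leaf 224 1595 (.cons 249 (.leaf 248 1794 (.cons 229 (.leaf 250 1802 (.cons 206 (.leaf 205 1617 (.cons 230 (.leaf 207 1625 (.cons 254 (.leaf 253 1808 (.leaf 255 1816 .nil)) .nil)) .nil)) .nil)) .nil)) .nil)) .nil)) (.cons 200 (.leaf 201 1603 (.cons 224 (.leaf 252 1792 (.leaf 199 1595 .nil)) .nil)) (.cons 200 (.leaf 201 1603 (.cons 248 (.leaf 249 1794 (.cons 253 (.leaf 252 1800 (.cons 229 (.leaf 254 1808 (.cons 206 (.leaf 205 1617 (.cons 230 (.leaf 250 1810 (.leaf 207 1625 .nil)) .nil)) .nil)) .nil)) .nil)) .nil)) (.cons 252 (.leaf 323 1821 (.leaf 224 1792 .nil)) .nil)))) .nil)) .nil)) .nil)) .nil)) (.cons 228 (.leaf 204 1629 (.cons 298 (.leaf 322 1814 (.cons 323 (.leaf 252 1821 (.cons 324 (.leaf 300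 1820 (.leaf 348 2012 .nil)) .nil)) .nil)) .nil)) (.cons 226 (.leaf 202 1623 (.cons 323 (.leaf 250 1815 (.cons 324 (.leaf 300 1820 (.leaf 348 2012 .nil)) .nil)) .nil)) (.cons 226 (.leaf 202 1623 (.cons 322 (.leaf 298 1814 (.cons 323 (.leaf 250 1815 (.leaf 346 2006 .nil)) .nil)) .nil)) (.cons 226 (.leaf 202 1623 (.cons 228 (.leaf 204 1629 (.cons 298 (.leaf 322 1814 (.cons 300 (.leaf 324 1820 (.cons 225 (.cons 200 (.leaf 201 1603 (.cons 199 (.leaf 224 1595 (.cons 249 (.leaf 248 1794 (.cons 229 (.leaf 250 1802 (.cons 206 (.leaf 205 1617 (.cons 230 (.leaf 207 1625 (.cons 254 (.leaf 253 1808 (.leaf 255 1816 .nil)) .nil)) .nil)) .nil)) .nil)) .nil)) .nil)) (.cons 200 (.leaf 201 1603 (.cons 248 (.leaf 249 1794 (.cons 253 (.leaf 252 1800 (.cons 229 (.leaf 254 1808 (.cons 206 (.leaf 205 1617 (.cons 230 (.leaf 250 1810 (.leaf 207 1625 .nil)) .nil)) .nil)) .nil)) .nil)) .nil)) (.cons 200 (.leaf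 201 1603 (.cons 224 (.leaf 252 1792 (.leaf 199 1595 .nil)) .nil)) (.cons 252 (.leaf 224 1792 (.leaf 253 1800 .nil)) .nil)))) .nil)) .nil)) .nil)) .nil)) .nil))))
noncomputable def t6 : T := .cons 225 (.leaf 252 1792 (.cons 248 (.leaf 247 1786 (.leaf 201 1605 .nil)) .nil)) (.cons 248 (.cons 319 (.leaf 295 1790 (.cons 320 (.leaf 343 1982 (.cons 247 (.leaf 223 1791 (.cons 249 (.leaf 250 1785 (.cons 344 (.leaf 271 1983 (.cons 345 (.leaf 321 1988 (.leaf 369 2180 .nil)) .nil)) .nil)) .nil)) .nil)) .nil)) (.cons 295 (.leaf 319 1790 (.cons 200 (.leaf 271 1598 (.cons 175 (.leaf 199 1407 (.cons 176 (.leaf 151 1215 (.cons 177 (.leaf 201 1413 (.leaf 153 1221 .nil)) .nil)) .nil)) .nil)) .nil)) (.cons 223 (.leaf 199 1599 (.cons 249 (.leaf 250 1787 (.cons 320 (.leaf 247 1791 (.cons 343 (.leaf 319 1982 (.cons 344 (.leaf 367 2174 (.cons 345 (.leaf 321 1988 (.leaf 369 2180 .nil)) .nil)) .nil)) .nil))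 .nil)) .nil)) (.cons 199 (.leaf 223 1599 (.cons 200 (.leaf 175 1407 (.cons 271 (.leaf 295 1598 (.cons 176 (.leaf 247 1406 (.cons 177 (.leaf 201 1413 (.leaf 153 1221 .nil)) .nil)) .nil)) .nil)) .nil)) .nil)))) (.cons 225 (.leaf 252 1792 (.cons 199 (.leaf 200 1595 (.cons 223 (.leaf 250 1784 (.leaf 198 1587 .nil)) .nil)) .nil)) .nil))
noncomputable def t7 : T := .cons 297 (.leaf 271 2171 (.cons 320 (.leaf 319 2362 (.leaf 321 2370 .nil)) .nil)) (.cons 226 (.leaf 202 1623 (.cons 224 t6 .nil)) (.cons 202 (.leaf 226 1623 (.cons 203 (.leaf 178 1431 (.cons 180 (.leaf 204 1437 (.cons 179 (.leaf 156 1245 (.cons 320 (.cons 319 (.leaf 297 2362 (.cons 181 (.leaf 182 1426 (.cons 343 (.leaf 248 1982 (.cons 367 (.leaf 295 2173 (.leaf 344 2174 .nil)) .nil)) .nil)) .nil)) (.cons 248 (.cons 343 (.leaf 319 1982 (.cons 201 (.leaf 200 1409 (.cons 225 (.leaf 224 1605 (.leaf 249 1797 .nil)) .nil)) .nil))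 (.cons 343 (.leaf 319 1982 (.cons 344 (.leaf 367 2174 (.cons 345 (.leaf 321 1988 (.leaf 369 2180 .nil)) .nil)) .nil)) (.cons 181 (.leaf 182 1426 (.cons 201 (.leaf 200 1409 (.cons 225 (.leaf 224 1605 (.leaf 249 1797 .nil)) .nil)) .nil)) .nil))) (.cons 321 (.leaf 297 2370 (.cons 181 (.leaf 182 1426 (.cons 345 (.leaf 248 1988 (.cons 369 (.leaf 344 2180 (.leaf 393 2375 .nil)) .nil)) .nil)) .nil)) (.cons 297 (.leaf 319 2362 (.leaf 321 2370 .nil)) .nil)))) .nil)) .nil)) .nil)) .nil)) (.cons 297 (.leaf 271 2171 (.cons 224 (.cons 248 (.leaf 321 1796 (.cons 199 (.leaf 223 1599 (.cons 200 (.leaf 175 1407 (.cons 201 (.leaf 177 1413 (.leaf 225 1605 .nil)) .nil)) .nil)) .nil)) (.cons 226 (.leaf 202 1623 (.cons 225 (.leaf 252 1792 (.cons 199 (.leaf 200 1595 (.cons 223 (.leaf 250 1784 (.leaf 198 1587 .nil)) .nil)) .nil)) .nil)) (.cons 248 (.leaf 321 1796 (.cons 199 (.leaf 223 1599 (.cons 200 (.leaf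 175 1407 (.cons 177 (.leaf 201 1413 (.cons 176 (.leaf 153 1221 (.cons 178 (.leaf 179 1402 (.cons 202 (.leaf 203 1431 (.leaf 226 1623 .nil)) .nil)) .nil)) .nil)) .nil)) .nil)) .nil)) (.cons 248 (.leaf 321 1796 (.cons 201 (.leaf 225 1605 (.cons 177 (.leaf 200 1413 (.cons 202 (.leaf 226 1623 (.cons 203 (.leaf 178 1431 (.cons 204 (.leaf 180 1437 (.leaf 176 1411 .nil)) .nil)) .nil)) .nil)) .nil)) .nil)) (.cons 248 (.leaf 321 1796 (.cons 199 (.leaf 223 1599 (.cons 225 (.leaf 201 1605 (.cons 226 (.leaf 202 1623 (.leaf 252 1792 .nil)) .nil)) .nil)) .nil)) .nil))))) .nil)) (.cons 297 (.leaf 271 2171 (.cons 319 (.leaf 320 2362 (.cons 226 (.leaf 202 1623 (.cons 295 (.leaf 318 2354 (.cons 224 (.leaf 248 1790 (.cons 225 (.leaf 252 1792 (.cons 199 (.leaf 200 1595 (.cons 223 (.leaf 250 1784 (.leaf 198 1587 .nil)) .nil)) .nil)) .nil)) .nil)) .nil)) .nil)) .nil)) .nil))))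
noncomputable def t8 : T := .cons 202 (.leaf 226 1623 (.cons 178 (.leaf 203 1431 (.cons 248 (.leaf 321 1796 (.cons 199 (.leaf 223 1599 (.cons 200 (.leaf 175 1407 (.cons 201 (.leaf 177 1413 (.leaf 225 1605 .nil)) .nil)) .nil)) .nil)) .nil)) .nil)) (.cons 226 (.leaf 202 1623 (.cons 225 (.leaf 252 1792 (.cons 199 (.leaf 200 1595 (.cons 223 (.leaf 250 1784 (.leaf 198 1587 .nil)) .nil)) .nil)) .nil)) (.cons 248 (.leaf 321 1796 (.cons 199 (.leaf 223 1599 (.cons 200 (.leaf 175 1407 (.cons 201 (.leaf 177 1413 (.leaf 225 1605 .nil)) .nil)) .nil)) .nil)) (.cons 248 (.leaf 321 1796 (.cons 199 (.leaf 223 1599 (.cons 200 (.leaf 175 1407 (.cons 177 (.leaf 201 1413 (.cons 176 (.leaf 153 1221 (.cons 178 (.leaf 179 1402 (.cons 202 (.leaf 203 1431 (.leaf 226 1623 .nil)) .nil)) .nil)) .nil)) .nil)) .nil)) .nil)) (.cons 248 (.leaf 321 1796 (.cons 201 (.leaf 225 1605 (.cons 177 (.leaf 200 1413 (.cons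 202 (.leaf 226 1623 (.cons 203 (.leaf 178 1431 (.cons 204 (.leaf 180 1437 (.leaf 176 1411 .nil)) .nil)) .nil)) .nil)) .nil)) .nil)) (.cons 248 (.leaf 321 1796 (.cons 199 (.leaf 223 1599 (.cons 225 (.leaf 201 1605 (.cons 226 (.leaf 202 1623 (.leaf 252 1792 .nil)) .nil)) .nil)) .nil)) .nil)))))
noncomputable def t9 : T := .cons 200 (.cons 199 (.leaf 175 1407 (.cons 223 (.leaf 296 1599 (.cons 249 (.leaf 250 1787 (.cons 271 (.leaf 295 1598 (.cons 270 (.leaf 269 1961 (.cons 222 (.leaf 221 1768 (.cons 294 (.leaf 246 1589 (.leaf 247 1590 .nil)) .nil)) .nil)) .nil)) .nil)) .nil)) .nil)) (.cons 177 (.leaf 201 1413 (.cons 176 (.leaf 153 1221 (.cons 249 (.leaf 273 1412 (.cons 271 (.leaf 250 1978 (.leaf 295 1598 .nil)) .nil)) .nil)) .nil)) (.cons 177 (.leaf 201 1413 (.cons 176 (.leaf 153 1221 (.cons 151 (.leaf 175 1215 (.cons 152 (.leaf 127 1023 (.cons 249 (.leaf 225 1220 (.leaf 273 1412 .nil))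 .nil)) .nil)) .nil)) .nil)) (.cons 175 (.leaf 199 1407 (.cons 176 (.leaf 151 1215 (.cons 271 (.leaf 295 1598 (.leaf 247 1406 .nil)) .nil)) .nil)) .nil)))) (.cons 200 (.cons 175 (.leaf 199 1407 (.cons 176 (.leaf 151 1215 (.cons 271 (.leaf 295 1598 (.leaf 247 1406 .nil)) .nil)) .nil)) (.cons 175 (.leaf 199 1407 (.cons 176 (.leaf 151 1215 (.cons 177 (.leaf 201 1413 (.leaf 153 1221 .nil)) .nil)) .nil)) (.cons 177 (.leaf 201 1413 (.cons 176 (.leaf 153 1221 (.cons 249 (.leaf 273 1412 (.cons 271 (.leaf 250 1978 (.leaf 295 1598 .nil)) .nil)) .nil)) .nil)) (.cons 271 (.leaf 295 1598 (.cons 199 (.leaf 175 1407 (.cons 223 (.leaf 296 1599 (.cons 249 (.leaf 250 1978 (.cons 270 (.leaf 269 1961 (.cons 222 (.leaf 221 1768 (.cons 294 (.leaf 247 1590 (.leaf 246 1589 .nil)) .nil)) .nil)) .nil)) .nil)) .nil)) .nil)) .nil)))) (.cons 225 (.cons 296 (.leaf 201 1605 (.cons 249 (.leaf 320 1797 (.cons 250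 (.leaf 223 1787 (.leaf 252 1795 .nil)) .nil)) .nil)) (.cons 226 (.leaf 252 1792 (.leaf 247 1786 .nil)) (.cons 201 (.leaf 296 1605 (.cons 177 (.leaf 249 1414 (.leaf 153 1222 .nil)) .nil)) .nil))) (.cons 225 (.cons 226 (.leaf 252 1792 (.leaf 247 1786 .nil)) (.cons 201 (.leaf 296 1605 (.cons 177 (.leaf 200 1413 (.leaf 153 1222 .nil)) .nil)) .nil)) (.cons 200 (.cons 199 (.leaf 175 1407 (.cons 177 (.leaf 201 1413 (.cons 176 (.leaf 153 1221 (.cons 271 (.leaf 295 1598 (.leaf 247 1406 .nil)) .nil)) .nil)) .nil)) (.cons 199 (.leaf 175 1407 (.cons 177 (.leaf 201 1413 (.cons 176 (.leaf 153 1221 (.cons 225 (.leaf 226 1595 (.cons 197 (.leaf 198 1576 (.cons 249 (.leaf 152 1220 (.leaf 273 1412 .nil)) .nil)) .nil)) .nil)) .nil)) .nil)) (.cons 271 (.leaf 295 1598 (.cons 176 (.leaf 247 1406 (.cons 249 (.leaf 250 1978 (.leaf 273 1412 .nil)) .nil)) .nil)) (.cons 199 (.leaf 175 1407 (.cons 225 (.leaf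 226 1595 (.cons 271 (.leaf 295 1598 (.cons 198 (.leaf 197 1576 (.cons 174 (.cons 201 (.leaf 177 1413 (.leaf 173 1387 .nil)) (.cons 247 (.leaf 223 1399 (.cons 246 (.leaf 245 1769 (.leaf 222 1396 .nil)) .nil)) .nil)) .nil)) .nil)) .nil)) .nil)) .nil)))) (.cons 200 (.cons 177 (.leaf 201 1413 (.cons 176 (.leaf 153 1221 (.cons 249 (.leaf 273 1412 (.cons 175 (.leaf 199 1407 (.leaf 151 1215 .nil)) .nil)) .nil)) .nil)) (.cons 177 (.leaf 201 1413 (.cons 176 (.leaf 153 1221 (.cons 249 (.leaf 273 1412 (.cons 250 (.leaf 223 1787 (.leaf 271 1978 .nil)) .nil)) .nil)) .nil)) (.cons 199 (.leaf 175 1407 (.cons 223 (.leaf 296 1599 (.cons 249 (.leaf 250 1787 (.cons 176 (.leaf 273 1412 (.cons 152 (.leaf 225 1220 (.leaf 128 1022 .nil)) .nil)) .nil)) .nil)) .nil)) (.cons 175 (.leaf 199 1407 (.cons 201 (.leaf 177 1413 (.cons 295 (.leaf 271 1598 (.cons 296 (.leaf 225 1605 (.leaf 319 1790 .nil)) .nil)) .nil))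 .nil)) .nil)))) (.cons 200 (.cons 175 (.leaf 199 1407 (.cons 176 (.leaf 151 1215 (.cons 271 (.leaf 295 1598 (.leaf 247 1406 .nil)) .nil)) .nil)) (.cons 199 (.leaf 175 1407 (.cons 223 (.leaf 296 1599 (.cons 249 (.leaf 250 1787 (.cons 176 (.leaf 273 1412 (.cons 152 (.leaf 247 1214 (.leaf 225 1220 .nil)) .nil)) .nil)) .nil)) .nil)) (.cons 271 (.leaf 295 1598 (.cons 176 (.leaf 247 1406 (.cons 249 (.leaf 250 1978 (.leaf 273 1412 .nil)) .nil)) .nil)) (.cons 199 (.leaf 175 1407 (.cons 223 (.leaf 296 1599 (.cons 249 (.leaf 250 1787 (.cons 271 (.leaf 295 1598 (.cons 270 (.leaf 269 1961 (.cons 222 (.leaf 221 1768 (.cons 294 (.leaf 246 1589 (.leaf 247 1590 .nil)) .nil)) .nil)) .nil)) .nil)) .nil)) .nil)) (.cons 199 (.leaf 175 1407 (.cons 223 (.leaf 296 1599 (.cons 249 (.leaf 250 1787 (.cons 176 (.leaf 273 1412 (.cons 152 (.leaf 225 1220 (.leaf 128 1022 .nil)) .nil)) .nil)) .nil)) .nil)) .nil)))))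 .nil))))))
noncomputable def t10 : T := .cons 200 (.cons 177 (.leaf 201 1413 (.cons 199 (.leaf 175 1407 (.cons 295 (.leaf 271 1598 (.cons 296 (.leaf 223 1599 (.leaf 319 1790 .nil)) .nil)) .nil)) .nil)) (.cons 177 (.leaf 201 1413 (.cons 176 (.leaf 153 1221 (.cons 271 (.leaf 295 1598 (.leaf 247 1406 .nil)) .nil)) .nil)) (.cons 199 (.leaf 175 1407 (.cons 223 (.leaf 296 1599 (.cons 271 (.leaf 295 1598 (.cons 176 (.leaf 247 1405 (.cons 152 (.leaf 128 1022 (.cons 153 (.leaf 129 1029 (.leaf 177 1221 .nil)) .nil)) .nil)) .nil)) .nil)) .nil)) (.cons 175 (.leaf 199 1407 (.cons 176 (.leaf 151 1215 (.cons 177 (.leaf 201 1413 (.leaf 153 1221 .nil)) .nil)) .nil)) (.cons 199 (.leaf 175 1407 (.cons 223 (.leaf 296 1599 (.cons 271 (.leaf 295 1598 (.cons 247 (.leaf 176 1405 (.cons 198 (.leaf 174 1399 (.cons 197 (.leaf 196 1568 (.leaf 225 1576 .nil)) .nil)) .nil)) .nil)) .nil)) .nil)) .nil))))) (.cons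 296 (.cons 225 (.leaf 201 1605 (.cons 319 (.leaf 295 1790 (.cons 320 (.leaf 249 1797 (.leaf 343 1982 .nil)) .nil)) .nil)) (.cons 223 (.leaf 199 1599 (.cons 249 (.leaf 250 1787 (.cons 221 (.leaf 222 1768 (.cons 319 (.leaf 295 1790 (.cons 320 (.leaf 247 1791 (.leaf 343 1982 .nil)) .nil)) .nil)) .nil)) .nil)) (.cons 199 (.leaf 223 1599 (.cons 200 (.leaf 175 1407 (.cons 201 (.leaf 177 1413 (.leaf 225 1605 .nil)) .nil)) .nil)) .nil))) (.cons 200 (.cons 177 (.leaf 201 1413 (.cons 176 (.leaf 153 1221 (.cons 249 (.leaf 273 1412 (.cons 271 (.leaf 250 1978 (.leaf 295 1598 .nil)) .nil)) .nil)) .nil)) (.cons 177 (.leaf 201 1413 (.cons 176 (.leaf 153 1221 (.cons 151 (.leaf 175 1215 (.cons 152 (.leaf 127 1023 (.cons 249 (.leaf 225 1220 (.leaf 273 1412 .nil)) .nil)) .nil)) .nil)) .nil)) (.cons 271 (.leaf 295 1598 (.cons 176 (.leaf 247 1406 (.cons 249 (.leaf 250 1978 (.leaf 273 1412 .nil)) .nil))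 .nil)) (.cons 201 (.leaf 177 1413 (.cons 295 (.leaf 271 1598 (.cons 296 (.leaf 225 1605 (.leaf 319 1790 .nil)) .nil)) .nil)) .nil)))) (.cons 200 (.cons 175 (.leaf 199 1407 (.cons 176 (.leaf 151 1215 (.cons 271 (.leaf 295 1598 (.leaf 247 1406 .nil)) .nil)) .nil)) (.cons 175 (.leaf 199 1407 (.cons 176 (.leaf 151 1215 (.cons 153 (.leaf 177 1221 (.cons 152 (.leaf 129 1029 (.cons 249 (.leaf 225 1220 (.leaf 273 1412 .nil)) .nil)) .nil)) .nil)) .nil)) (.cons 271 (.leaf 295 1598 (.cons 176 (.leaf 247 1406 (.cons 249 (.leaf 250 1978 (.leaf 273 1412 .nil)) .nil)) .nil)) (.cons 199 (.leaf 175 1407 (.cons 223 (.leaf 296 1599 (.cons 249 (.leaf 250 1787 (.cons 271 (.leaf 295 1598 (.cons 270 (.leaf 269 1961 (.cons 222 (.leaf 221 1768 (.cons 294 (.leaf 246 1589 (.leaf 247 1590 .nil)) .nil)) .nil)) .nil)) .nil)) .nil)) .nil)) .nil)))) (.cons 200 (.cons 177 (.leaf 201 1413 (.cons 176 (.leaf 153 1221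 (.cons 249 (.leaf 273 1412 (.cons 175 (.leaf 199 1407 (.leaf 151 1215 .nil)) .nil)) .nil)) .nil)) (.cons 199 (.leaf 175 1407 (.cons 223 (.leaf 296 1599 (.cons 249 (.leaf 250 1787 (.cons 176 (.leaf 273 1412 (.cons 152 (.leaf 247 1214 (.leaf 225 1220 .nil)) .nil)) .nil)) .nil)) .nil)) (.cons 177 (.leaf 201 1413 (.cons 176 (.leaf 153 1221 (.cons 249 (.leaf 273 1412 (.cons 250 (.leaf 223 1787 (.leaf 271 1978 .nil)) .nil)) .nil)) .nil)) (.cons 199 (.leaf 175 1407 (.cons 201 (.leaf 177 1413 (.cons 296 (.leaf 223 1599 (.leaf 225 1605 .nil)) .nil)) .nil)) .nil)))) (.cons 200 (.cons 177 (.leaf 201 1413 (.cons 176 (.leaf 153 1221 (.cons 249 (.leaf 273 1412 (.cons 271 (.leaf 250 1978 (.leaf 295 1598 .nil)) .nil)) .nil)) .nil)) (.cons 199 (.leaf 175 1407 (.cons 223 (.leaf 296 1599 (.cons 249 (.leaf 250 1787 (.cons 176 (.leaf 273 1412 (.cons 152 (.leaf 247 1214 (.leaf 128 1022 .nil)) .nil)) .nil))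 .nil)) .nil)) (.cons 177 (.leaf 201 1413 (.cons 199 (.leaf 175 1407 (.cons 295 (.leaf 271 1598 (.cons 296 (.leaf 223 1599 (.leaf 319 1790 .nil)) .nil)) .nil)) .nil)) .nil))) (.cons 200 (.cons 177 (.leaf 201 1413 (.cons 176 (.leaf 153 1221 (.cons 249 (.leaf 273 1412 (.cons 175 (.leaf 199 1407 (.leaf 151 1215 .nil)) .nil)) .nil)) .nil)) (.cons 199 (.leaf 175 1407 (.cons 223 (.leaf 296 1599 (.cons 249 (.leaf 250 1787 (.cons 176 (.leaf 273 1412 (.cons 152 (.leaf 225 1220 (.leaf 128 1022 .nil)) .nil)) .nil)) .nil)) .nil)) (.cons 201 (.leaf 177 1413 (.cons 295 (.leaf 271 1598 (.cons 296 (.leaf 225 1605 (.leaf 319 1790 .nil)) .nil)) .nil)) .nil))) .nil))))))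
noncomputable def t11 : T := .cons 200 (.cons 175 (.leaf 199 1407 (.cons 201 (.leaf 177 1413 (.cons 295 (.leaf 271 1598 (.cons 296 (.leaf 225 1605 (.leaf 319 1790 .nil)) .nil)) .nil)) .nil)) (.cons 175 (.leaf 199 1407 (.cons 176 (.leaf 151 1215 (.cons 177 (.leaf 201 1413 (.leaf 153 1221 .nil)) .nil)) .nil)) (.cons 175 (.leaf 199 1407 (.cons 176 (.leaf 151 1215 (.cons 271 (.leaf 295 1598 (.leaf 247 1406 .nil)) .nil)) .nil)) (.cons 177 (.leaf 201 1413 (.cons 176 (.leaf 153 1221 (.cons 249 (.leaf 273 1412 (.cons 271 (.leaf 250 1978 (.leaf 295 1598 .nil)) .nil)) .nil)) .nil)) .nil)))) (.cons 296 (.cons 225 (.leaf 201 1605 (.cons 249 (.leaf 320 1797 (.cons 250 (.leaf 223 1787 (.leaf 252 1795 .nil)) .nil)) .nil)) (.cons 225 (.leaf 201 1605 (.cons 249 (.leaf 320 1797 (.cons 250 (.leaf 252 1795 (.leaf 271 1978 .nil)) .nil)) .nil)) (.cons 223 (.leaf 199 1599 (.cons 249 (.leaf 250 1787 (.cons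 221 (.leaf 222 1768 (.cons 319 (.leaf 295 1790 (.cons 320 (.leaf 247 1791 (.leaf 343 1982 .nil)) .nil)) .nil)) .nil)) .nil)) (.cons 223 (.leaf 199 1599 (.cons 225 (.leaf 201 1605 (.cons 295 (.leaf 319 1790 (.cons 222 (.cons 249 (.leaf 250 1776 (.leaf 221 1768 .nil)) (.cons 197 (.leaf 198 1579 (.cons 221 (.leaf 196 1571 (.cons 245 (.leaf 244 1762 (.leaf 246 1770 .nil)) .nil)) .nil)) (.cons 198 (.leaf 197 1579 (.cons 246 (.leaf 245 1770 (.cons 271 (.leaf 247 1591 (.leaf 270 1588 .nil)) .nil)) .nil)) .nil))) .nil)) .nil)) .nil)) (.cons 223 (.leaf 199 1599 (.cons 201 (.leaf 225 1605 (.cons 320 (.leaf 247 1791 (.cons 319 (.leaf 295 1790 (.leaf 343 1982 .nil)) .nil)) .nil)) .nil)) .nil))))) (.cons 200 (.cons 271 (.leaf 295 1598 (.cons 175 (.leaf 199 1407 (.cons 176 (.leaf 151 1215 (.leaf 247 1406 .nil)) .nil)) .nil)) (.cons 175 (.leaf 199 1407 (.cons 176 (.leaf 151 1215 (.cons 177 (.leaf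 201 1413 (.leaf 153 1221 .nil)) .nil)) .nil)) (.cons 271 (.leaf 295 1598 (.cons 176 (.leaf 247 1406 (.cons 249 (.leaf 250 1978 (.leaf 273 1412 .nil)) .nil)) .nil)) (.cons 271 (.leaf 295 1598 (.cons 201 (.leaf 177 1413 (.cons 199 (.leaf 175 1407 (.cons 198 (.cons 173 (.leaf 174 1387 (.cons 197 (.leaf 225 1576 (.leaf 172 1379 .nil)) .nil)) (.cons 174 (.leaf 173 1387 (.cons 222 (.leaf 221 1578 (.cons 223 (.leaf 202 1586 (.leaf 247 1399 .nil)) .nil)) .nil)) (.cons 197 (.leaf 225 1576 (.cons 221 (.leaf 220 1570 (.leaf 222 1578 .nil)) .nil)) .nil))) .nil)) .nil)) .nil)) .nil)))) t10))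
noncomputable def t12 : T := .cons 202 (.leaf 226 1623 (.cons 203 (.leaf 178 1431 (.cons 201 (.cons 204 (.leaf 180 1437 (.leaf 225 1602 .nil)) (.cons 200 (.leaf 223 1594 (.cons 175 (.leaf 176 1403 (.cons 199 (.leaf 248 1407 (.leaf 174 1395 .nil)) .nil)) .nil)) .nil)) .nil)) .nil)) (.cons 248 t11 (.cons 248 (t9) (.cons 202 (.leaf 226 1623 (.cons 203 (.leaf 178 1431 (.cons 180 (.leaf 204 1437 (.cons 179 (.leaf 156 1245 (.cons 200 (.leaf 201 1409 (.cons 248 (.cons 271 (.leaf 295 1598 (.cons 175 (.leaf 199 1407 (.cons 176 (.leaf 151 1215 (.leaf 247 1406 .nil)) .nil)) .nil)) (.cons 249 (.cons 175 (.leaf 199 1407 (.cons 176 (.leaf 151 1215 (.leaf 273 1412 .nil)) .nil)) (.cons 199 (.leaf 175 1407 (.cons 223 (.leaf 250 1787 (.leaf 296 1599 .nil)) .nil)) (.cons 250 (.leaf 223 1787 (.cons 273 (.leaf 252 1986 (.leaf 176 1412 .nil)) .nil)) .nil))) (.cons 271 (.leaf 295 1598 (.cons 176 (.leaf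 247 1406 (.cons 249 (.leaf 250 1978 (.leaf 273 1412 .nil)) .nil)) .nil)) (.cons 199 (.leaf 175 1407 (.cons 295 (.leaf 271 1598 (.cons 296 (.leaf 223 1599 (.leaf 319 1790 .nil)) .nil)) .nil)) .nil)))) .nil)) .nil)) .nil)) .nil)) .nil)) (.cons 226 (.leaf 202 1623 (.cons 225 (.leaf 252 1792 (.cons 199 (.leaf 200 1595 (.cons 223 (.leaf 250 1784 (.leaf 198 1587 .nil)) .nil)) .nil)) .nil)) (.cons 226 (.leaf 202 1623 (.cons 225 (.leaf 252 1792 (.cons 199 (.leaf 200 1595 (.cons 248 (.leaf 247 1786 (.cons 201 (.leaf 296 1605 (.cons 177 (.leaf 249 1414 (.leaf 153 1222 .nil)) .nil)) .nil)) .nil)) .nil)) .nil)) (.cons 226 (.leaf 202 1623 (.cons 225 (.leaf 252 1792 (.cons 203 (.leaf 204 1601 (.cons 223 (.leaf 250 1784 (.cons 247 (.leaf 248 1786 (.leaf 246 1778 .nil)) .nil)) .nil)) .nil)) .nil)) .nil))))))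
noncomputable def t13 : T := .leaf 156 1245 (.cons 249 (.cons 181 (.leaf 182 1426 (.cons 200 (.leaf 201 1409 (.cons 250 (.leaf 271 1978 (.cons 224 (.leaf 223 1787 (.cons 252 (.leaf 225 1795 (.leaf 273 1986 .nil)) .nil)) .nil)) .nil)) .nil)) (.cons 201 (.leaf 200 1409 (.cons 225 (.leaf 177 1414 (.cons 296 (.leaf 224 1605 (.leaf 273 1606 .nil)) .nil)) .nil)) (.cons 250 (.leaf 271 1978 (.cons 181 (.leaf 182 1426 (.cons 224 (.leaf 223 1787 (.cons 252 (.leaf 225 1795 (.leaf 273 1986 .nil)) .nil)) .nil)) .nil)) (.cons 271 (.leaf 250 1978 (.cons 181 (.leaf 182 1426 (.cons 201 (.leaf 200 1409 (.cons 225 (.leaf 177 1414 (.cons 296 (.leaf 273 1606 (.leaf 320 1797 .nil)) .nil)) .nil)) .nil)) .nil)) (.cons 250 (.leaf 271 1978 (.cons 181 (.leaf 182 1426 (.cons 200 (.leaf 201 1409 (.cons 224 (.leaf 223 1787 (.cons 273 (.leaf 252 1986 (.leaf 176 1412 .nil)) .nil)) .nil)) .nil)) .nil)) (.cons 201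 (.leaf 200 1409 (.cons 250 (.leaf 271 1978 (.cons 224 (.leaf 223 1787 (.cons 225 (.leaf 252 1795 (.leaf 177 1414 .nil)) .nil)) .nil)) .nil)) .nil)))))) .nil)
noncomputable def t14 : T := .cons 271 (.cons 249 (.leaf 250 1978 (.cons 270 (.leaf 269 1961 (.cons 273 (.leaf 297 2160 (.cons 246 (.leaf 245 1963 (.cons 294 (.leaf 293 2154 (.cons 222 (.cons 221 (.leaf 247 1771 (.leaf 197 1583 .nil)) (.cons 295 (.leaf 198 1588 (.leaf 319 1780 .nil)) .nil)) .nil)) .nil)) .nil)) .nil)) .nil)) (.cons 180 (.leaf 204 1437 (.cons 179 (.leaf 156 1245 (.cons 181 (.leaf 182 1426 (.cons 200 (.leaf 201 1409 (.cons 224 (.leaf 295 1598 (.cons 176 (.leaf 247 1406 (.cons 175 (.leaf 199 1407 (.leaf 151 1215 .nil)) .nil)) .nil)) .nil)) .nil)) .nil)) .nil)) (.cons 249 (.leaf 250 1978 (.cons 270 (.leaf 269 1961 (.cons 273 (.leaf 297 2160 (.cons 204 (.leaf 180 1437 (.cons 201 (.cons 225 (.leaf 177 1414 (.leaf 224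 1602 .nil)) (.cons 224 (.leaf 225 1602 (.cons 200 (.leaf 223 1594 (.leaf 176 1412 .nil)) .nil)) (.cons 176 (.leaf 177 1411 (.cons 200 (.leaf 175 1403 (.leaf 224 1412 .nil)) .nil)) (.cons 177 (.leaf 225 1414 (.leaf 176 1411 .nil)) .nil)))) .nil)) .nil)) .nil)) .nil)) .nil))) (.cons 249 (.cons 271 (.leaf 250 1978 (.cons 180 (.leaf 204 1437 (.cons 156 (.leaf 179 1245 (.cons 270 (.leaf 269 1961 (.cons 297 (.leaf 296 2171 (.leaf 273 2160 .nil)) .nil)) .nil)) .nil)) .nil)) (.cons 180 (.leaf 204 1437 (.cons 179 (.leaf 156 1245 (.cons 181 (.leaf 182 1426 (.cons 201 (.leaf 200 1409 (.cons 225 (.leaf 177 1414 (.cons 296 (.leaf 273 1606 (.leaf 320 1797 .nil)) .nil)) .nil)) .nil)) .nil)) .nil)) (.cons 271 (.leaf 250 1978 (.cons 270 (.leaf 269 1961 (.cons 273 (.leaf 297 2160 (.cons 246 (.leaf 245 1963 (.cons 294 (.leaf 293 2154 (.cons 222 (.cons 221 (.leaf 247 1771 (.leaf 197 1583 .nil)) (.cons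 295 (.leaf 198 1588 (.leaf 319 1780 .nil)) .nil)) .nil)) .nil)) .nil)) .nil)) .nil)) (.cons 271 (.leaf 250 1978 (.cons 180 (.leaf 204 1437 (.cons 156 (.leaf 179 1245 (.cons 296 (.leaf 297 2171 (.cons 320 (.leaf 225 1797 (.cons 247 (.leaf 223 1791 (.leaf 344 1983 .nil)) .nil)) .nil)) .nil)) .nil)) .nil)) .nil)))) (.cons 180 (.leaf 204 1437 (.cons 179 (.leaf 156 1245 (.cons 200 (.leaf 201 1409 (.cons 181 (.leaf 182 1426 (.cons 224 (.cons 175 (.leaf 199 1407 (.cons 176 (.leaf 151 1215 (.cons 271 (.leaf 295 1598 (.leaf 247 1406 .nil)) .nil)) .nil)) (.cons 199 (.leaf 175 1407 (.cons 296 (.leaf 223 1599 (.cons 297 (.leaf 273 1604 (.leaf 321 1796 .nil)) .nil)) .nil)) (.cons 271 (.leaf 295 1598 (.cons 297 (.leaf 296 2171 (.leaf 273 1604 .nil)) .nil)) .nil))) .nil)) .nil)) .nil)) .nil)) (.cons 180 (.leaf 204 1437 (.cons 179 (.leaf 156 1245 (.cons 296 (.cons 297 (.leaf 271 2171 (.cons 224 (.leaf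 321 1796 (.cons 181 (.leaf 182 1426 (.cons 199 (.leaf 223 1599 (.cons 200 (.leaf 175 1407 (.leaf 273 1604 .nil)) .nil)) .nil)) .nil)) .nil)) (.cons 181 (.leaf 182 1426 (.cons 320 (.cons 223 (.leaf 247 1791 (.cons 224 (.leaf 199 1599 (.cons 249 (.leaf 250 1787 (.leaf 225 1797 .nil)) .nil)) .nil)) (.cons 223 (.leaf 247 1791 (.cons 224 (.leaf 199 1599 (.cons 319 (.leaf 295 1790 (.leaf 343 1982 .nil)) .nil)) .nil)) (.cons 249 (.leaf 225 1797 (.cons 344 (.leaf 273 1989 (.cons 343 (.leaf 319 1982 (.leaf 367 2174 .nil)) .nil)) .nil)) .nil))) .nil)) (.cons 297 (.leaf 271 2171 (.cons 224 (.leaf 321 1796 (.cons 319 (.leaf 320 2362 (.leaf 295 1790 .nil)) .nil)) .nil)) (.cons 271 (.leaf 297 2171 (.cons 249 (.leaf 250 1978 (.cons 320 (.leaf 225 1797 (.cons 247 (.leaf 223 1791 (.leaf 344 1983 .nil)) .nil)) .nil)) .nil)) .nil)))) .nil)) .nil)) (.cons 180 (.leaf 204 1437 (.cons 179 t13 .nil)) (.cons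 180 (.leaf 204 1437 (.cons 179 (.leaf 156 1245 (.cons 296 (.cons 297 (.leaf 271 2171 (.cons 224 (.leaf 321 1796 (.cons 319 (.leaf 320 2362 (.leaf 295 1790 .nil)) .nil)) .nil)) (.cons 181 (.leaf 182 1426 (.cons 320 (.cons 223 (.leaf 247 1791 (.cons 224 (.leaf 199 1599 (.cons 249 (.leaf 250 1787 (.leaf 225 1797 .nil)) .nil)) .nil)) (.cons 223 (.leaf 247 1791 (.cons 224 (.leaf 199 1599 (.cons 319 (.leaf 295 1790 (.leaf 343 1982 .nil)) .nil)) .nil)) (.cons 249 (.leaf 225 1797 (.cons 344 (.leaf 273 1989 (.cons 343 (.leaf 319 1982 (.leaf 367 2174 .nil)) .nil)) .nil)) .nil))) .nil)) (.cons 297 (.leaf 271 2171 (.cons 321 (.leaf 224 1796 (.cons 345 (.leaf 273 1991 (.leaf 369 2183 .nil)) .nil)) .nil)) (.cons 271 (.leaf 297 2171 (.cons 249 (.leaf 250 1978 (.cons 320 (.leaf 225 1797 (.cons 247 (.leaf 223 1791 (.leaf 344 1983 .nil)) .nil)) .nil)) .nil)) .nil)))) .nil)) .nil)) (.cons 180 (.leaf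 204 1437 (.cons 179 (.leaf 156 1245 (.cons 200 (.leaf 201 1409 (.cons 271 (.cons 181 (.leaf 182 1426 (.cons 224 (.leaf 295 1598 (.cons 199 (.leaf 175 1407 (.cons 296 (.leaf 297 2171 (.leaf 223 1599 .nil)) .nil)) .nil)) .nil)) (.cons 249 (.leaf 250 1978 (.cons 296 (.leaf 297 2171 (.cons 320 (.leaf 225 1797 (.cons 247 (.leaf 223 1791 (.leaf 344 1983 .nil)) .nil)) .nil)) .nil)) (.cons 181 (.leaf 182 1426 (.cons 224 (.leaf 295 1598 (.cons 176 (.leaf 247 1406 (.cons 175 (.leaf 199 1407 (.leaf 151 1215 .nil)) .nil)) .nil)) .nil)) .nil))) .nil)) .nil)) .nil)) .nil))))))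
noncomputable def t15 : T := .cons 271 (.leaf 297 2171 (.cons 249 (.leaf 250 1978 (.cons 225 (.leaf 320 1797 (.cons 201 (.leaf 177 1414 (.leaf 224 1605 .nil)) .nil)) .nil)) .nil)) (.cons 320 (.cons 223 (.leaf 247 1791 (.cons 224 (.leaf 199 1599 (.cons 201 (.leaf 225 1605 (.leaf 200 1594 .nil)) .nil)) .nil)) (.cons 225 (.leaf 249 1797 (.cons 201 (.leaf 224 1605 (.cons 343 (.leaf 319 1982 (.cons 344 (.leaf 367 2174 (.cons 345 (.leaf 321 1988 (.leaf 369 2180 .nil)) .nil)) .nil)) .nil)) .nil)) (.cons 223 (.leaf 247 1791 (.cons 199 (.leaf 224 1599 (.cons 343 (.leaf 319 1982 (.cons 344 (.leaf 367 2174 (.cons 345 (.leaf 321 1988 (.leaf 369 2180 .nil)) .nil)) .nil)) .nil)) .nil)) (.cons 223 (.leaf 247 1791 (.cons 225 (.leaf 249 1797 (.cons 343 (.leaf 319 1982 (.cons 344 (.leaf 367 2174 (.cons 345 (.leaf 321 1988 (.leaf 369 2180 .nil)) .nil)) .nil)) .nil)) .nil)) .nil)))) (.cons 297 (.leaf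 271 2171 (.cons 224 (.leaf 321 1796 (.cons 199 (.leaf 223 1599 (.cons 200 (.leaf 175 1407 (.leaf 273 1604 .nil)) .nil)) .nil)) .nil)) (.cons 271 (.leaf 297 2171 (.cons 249 (.leaf 250 1978 (.cons 225 (.leaf 320 1797 (.cons 201 (.leaf 177 1414 (.leaf 273 1606 .nil)) .nil)) .nil)) .nil)) .nil)))
noncomputable def t16 : T := .cons 180 (.leaf 204 1437 (.cons 179 (.leaf 156 1245 (.cons 200 (.leaf 201 1409 (.cons 181 (.leaf 182 1426 (.cons 224 (.cons 175 (.leaf 199 1407 (.cons 176 (.leaf 151 1215 (.cons 271 (.leaf 295 1598 (.leaf 247 1406 .nil)) .nil)) .nil)) (.cons 175 (.leaf 199 1407 (.cons 176 (.leaf 151 1215 (.cons 273 (.leaf 297 1604 (.leaf 249 1412 .nil)) .nil)) .nil)) (.cons 271 (.leaf 295 1598 (.cons 297 (.leaf 296 2171 (.leaf 273 1604 .nil)) .nil)) .nil))) .nil)) .nil)) .nil)) .nil)) (.cons 296 t15 (.cons 180 (.leaf 204 1437 (.cons 179 (.leaf 156 1245 (.cons 201 (.leaf 200 1409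 (.cons 296 (.cons 225 (.leaf 224 1605 (.cons 249 (.leaf 177 1414 (.leaf 273 1606 .nil)) .nil)) (.cons 320 (.cons 319 (.leaf 297 2362 (.leaf 343 1982 .nil)) (.cons 249 (.leaf 225 1797 (.cons 344 (.leaf 273 1989 (.cons 345 (.leaf 321 1988 (.leaf 369 2180 .nil)) .nil)) .nil)) .nil)) (.cons 320 (.cons 223 (.leaf 247 1791 (.cons 224 (.leaf 199 1599 (.cons 321 (.leaf 297 1796 (.leaf 345 1988 .nil)) .nil)) .nil)) (.cons 223 (.leaf 247 1791 (.cons 224 (.leaf 199 1599 (.cons 319 (.leaf 295 1790 (.leaf 343 1982 .nil)) .nil)) .nil)) (.cons 319 (.leaf 297 2362 (.leaf 343 1982 .nil)) .nil))) .nil))) .nil)) .nil)) .nil)) t14))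
noncomputable def t17 : T := .cons 300 (.leaf 324 1820 (.cons 273 (.leaf 297 2179 (.cons 203 (.cons 178 (.leaf 202 1431 (.cons 179 (.leaf 154 1239 (.cons 180 (.leaf 204 1437 (.leaf 156 1245 .nil)) .nil)) .nil)) (.cons 180 (.leaf 204 1437 (.cons 179 (.leaf 156 1245 (.cons 154 (.leaf 178 1239 (.cons 155 (.leaf 130 1047 (.cons 250 (.leaf 226 1238 (.cons 152 (.leaf 153 1216 (.cons 249 (.leaf 252 1986 (.cons 271 (.leaf 248 1978 (.leaf 270 1969 .nil)) .nil)) .nil)) .nil)) .nil)) .nil)) .nil)) .nil)) (.cons 180 (.leaf 204 1437 (.cons 179 (.leaf 156 1245 (.cons 226 (.leaf 202 1623 (.cons 250 (.leaf 155 1238 (.cons 249 (.leaf 252 1986 (.cons 248 (.leaf 271 1978 (.leaf 247 1785 .nil)) .nil)) .nil)) .nil)) .nil)) .nil)) (.cons 202 (.leaf 178 1431 (.leaf 226 1623 .nil)) .nil)))) .nil)) .nil)) (.cons 202 (.leaf 226 1623 (.cons 203 (.leaf 178 1431 (.cons 248 t16 .nil)) .nil)) (.cons 300 (.leaf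 324 1820 (.cons 297 (.leaf 273 2179 (.cons 296 (.leaf 271 2171 (.cons 320 (.leaf 319 2362 (.leaf 321 2370 .nil)) .nil)) .nil)) .nil)) (.cons 324 (.leaf 300 1820 (.cons 224 t12 .nil)) (.cons 300 (.leaf 324 1820 (.cons 297 (.leaf 273 2179 (.cons 296 (.cons 320 (.leaf 319 2362 (.leaf 321 2370 .nil)) (.cons 224 t8 (.cons 319 (.leaf 320 2362 (.cons 226 (.leaf 202 1623 (.cons 295 (.leaf 318 2354 (.cons 224 (.leaf 248 1790 (.cons 225 (.leaf 252 1792 (.cons 199 (.leaf 200 1595 (.cons 223 (.leaf 250 1784 (.leaf 198 1587 .nil)) .nil)) .nil)) .nil)) .nil)) .nil)) .nil)) .nil))) .nil)) .nil)) (.cons 300 (.leaf 324 1820 (.cons 296 t7 .nil)) .nil)))))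
noncomputable def t18 : T := .cons 254 (.leaf 325 1838 (.cons 204 (.leaf 228 1629 (.cons 180 (.leaf 203 1437 (.cons 205 (.leaf 229 1647 (.cons 206 (.leaf 181 1455 (.cons 207 (.leaf 183 1461 (.leaf 231 1653 .nil)) .nil)) .nil)) .nil)) .nil)) .nil)) (.cons 228 (.leaf 204 1629 (.cons 229 (.leaf 250 1810 (.cons 202 (.leaf 203 1619 (.cons 231 (.leaf 252 1818 (.cons 207 (.leaf 206 1625 (.leaf 208 1633 .nil)) .nil)) .nil)) .nil)) .nil)) (.cons 254 (.leaf 325 1838 (.cons 205 (.leaf 229 1647 (.cons 206 (.leaf 181 1455 (.cons 207 (.leaf 183 1461 (.leaf 231 1653 .nil)) .nil)) .nil)) .nil)) (.cons 254 (.leaf 325 1838 (.cons 204 (.leaf 228 1629 (.cons 180 (.leaf 203 1437 (.cons 207 (.leaf 231 1653 (.cons 206 (.leaf 183 1461 (.cons 205 (.leaf 181 1455 (.leaf 179 1435 .nil)) .nil)) .nil)) .nil)) .nil)) .nil)) (.cons 254 (.leaf 325 1838 (.cons 204 (.leaf 228 1629 (.cons 180 (.leaf 203 1437 (.cons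 205 (.leaf 229 1647 (.cons 206 (.leaf 181 1455 (.cons 207 (.leaf 183 1461 (.leaf 179 1435 .nil)) .nil)) .nil)) .nil)) .nil)) .nil)) (.cons 254 (.leaf 325 1838 (.cons 204 (.leaf 228 1629 (.cons 203 (.leaf 180 1437 (.cons 205 (.leaf 229 1647 (.cons 206 (.leaf 181 1455 (.leaf 231 1624 .nil)) .nil)) .nil)) .nil)) .nil)) (.cons 254 (.leaf 325 1838 (.cons 207 (.leaf 231 1653 (.cons 228 (.leaf 204 1629 (.cons 229 (.leaf 250 1810 (.leaf 255 1816 .nil)) .nil)) .nil)) .nil)) .nil))))))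
noncomputable def t19 : T := .cons 229 (.leaf 250 1810 (.cons 254 (.leaf 255 1816 (.leaf 205 1647 .nil)) .nil)) (.cons 254 (.cons 207 (.leaf 231 1653 (.cons 206 (.leaf 183 1461 (.cons 181 (.leaf 205 1455 (.cons 182 (.leaf 157 1263 (.cons 279 (.leaf 303 1652 (.leaf 255 1460 .nil)) .nil)) .nil)) .nil)) .nil)) (.cons 303 (.leaf 327 1844 (.cons 206 (.leaf 279 1652 (.cons 181 (.leaf 205 1455 (.cons 182 (.leaf 157 1263 (.cons 183 (.leaf 207 1461 (.leaf 159 1269 .nil)) .nil)) .nil)) .nil)) .nil)) (.cons 231 (.leaf 207 1653 (.cons 253 (.leaf 252 1817 (.cons 326 (.leaf 255 1845 (.cons 349 (.leaf 325 2030 (.cons 350 (.leaf 373 2222 (.cons 351 (.leaf 327 2036 (.leaf 375 2228 .nil)) .nil)) .nil)) .nil)) .nil)) .nil)) (.cons 327 (.leaf 303 1844 (.cons 326 (.leaf 351 2036 (.cons 255 (.leaf 231 1845 (.cons 252 (.leaf 253 1819 (.cons 349 (.leaf 325 2030 (.cons 350 (.leaf 279 2037 (.leaf 373 2222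 .nil)) .nil)) .nil)) .nil)) .nil)) .nil)) .nil)))) (.cons 229 (.leaf 250 1810 (.cons 202 (.leaf 203 1619 (.cons 207 (.leaf 206 1625 (.cons 231 (.leaf 252 1818 (.leaf 208 1633 .nil)) .nil)) .nil)) .nil)) .nil))
noncomputable def t20 : T := .cons 301 (.leaf 279 2201 (.cons 326 (.leaf 325 2384 (.leaf 327 2392 .nil)) .nil)) (.cons 228 (.leaf 204 1629 (.cons 230 t19 .nil)) (.cons 204 (.leaf 228 1629 (.cons 203 (.leaf 180 1437 (.cons 178 (.leaf 202 1431 (.cons 179 (.leaf 154 1239 (.cons 326 (.cons 327 (.leaf 301 2392 (.cons 176 (.leaf 177 1408 (.cons 351 (.leaf 254 2036 (.cons 375 (.leaf 303 2231 (.leaf 350 2228 .nil)) .nil)) .nil)) .nil)) (.cons 254 (.cons 231 (.leaf 255 1845 (.cons 230 (.leaf 207 1653 (.cons 253 (.leaf 252 1817 (.leaf 229 1839 .nil)) .nil)) .nil)) (.cons 349 (.leaf 325 2030 (.cons 350 (.leaf 373 2222 (.cons 351 (.leaf 327 2036 (.leaf 375 2228 .nil)) .nil)) .nil)) .nil))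 (.cons 325 (.leaf 301 2384 (.cons 176 (.leaf 177 1408 (.cons 349 (.leaf 254 2030 (.cons 373 (.leaf 350 2222 (.leaf 397 2413 .nil)) .nil)) .nil)) .nil)) (.cons 301 (.leaf 325 2384 (.leaf 327 2392 .nil)) .nil)))) .nil)) .nil)) .nil)) .nil)) (.cons 301 (.leaf 279 2201 (.cons 230 t18 .nil)) (.cons 301 (.leaf 279 2201 (.cons 327 (.leaf 326 2392 (.cons 228 (.leaf 204 1629 (.cons 303 (.leaf 328 2400 (.cons 230 (.leaf 254 1844 (.cons 229 (.leaf 250 1810 (.cons 202 (.leaf 203 1619 (.cons 207 (.leaf 206 1625 (.cons 231 (.leaf 252 1818 (.leaf 208 1633 .nil)) .nil)) .nil)) .nil)) .nil)) .nil)) .nil)) .nil)) .nil)) .nil))))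
noncomputable def t21 : T := .cons 204 (.leaf 228 1629 (.cons 180 (.leaf 203 1437 (.cons 254 (.leaf 325 1838 (.cons 205 (.leaf 229 1647 (.cons 206 (.leaf 181 1455 (.cons 207 (.leaf 183 1461 (.leaf 231 1653 .nil)) .nil)) .nil)) .nil)) .nil)) .nil)) (.cons 228 (.leaf 204 1629 (.cons 229 (.leaf 250 1810 (.cons 202 (.leaf 203 1619 (.cons 231 (.leaf 252 1818 (.cons 207 (.leaf 206 1625 (.leaf 208 1633 .nil)) .nil)) .nil)) .nil)) .nil)) (.cons 254 (.leaf 325 1838 (.cons 205 (.leaf 229 1647 (.cons 206 (.leaf 181 1455 (.cons 207 (.leaf 183 1461 (.leaf 231 1653 .nil)) .nil)) .nil)) .nil)) (.cons 254 (.leaf 325 1838 (.cons 204 (.leaf 228 1629 (.cons 180 (.leaf 203 1437 (.cons 207 (.leaf 231 1653 (.cons 206 (.leaf 183 1461 (.cons 205 (.leaf 181 1455 (.leaf 179 1435 .nil)) .nil)) .nil)) .nil)) .nil)) .nil)) (.cons 254 (.leaf 325 1838 (.cons 204 (.leaf 228 1629 (.cons 180 (.leaf 203 1437 (.cons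 205 (.leaf 229 1647 (.cons 206 (.leaf 181 1455 (.cons 207 (.leaf 183 1461 (.leaf 179 1435 .nil)) .nil)) .nil)) .nil)) .nil)) .nil)) (.cons 254 (.leaf 325 1838 (.cons 204 (.leaf 228 1629 (.cons 203 (.leaf 180 1437 (.cons 205 (.leaf 229 1647 (.cons 206 (.leaf 181 1455 (.leaf 231 1624 .nil)) .nil)) .nil)) .nil)) .nil)) (.cons 254 (.leaf 325 1838 (.cons 207 (.leaf 231 1653 (.cons 228 (.leaf 204 1629 (.cons 229 (.leaf 250 1810 (.leaf 255 1816 .nil)) .nil)) .nil)) .nil)) .nil))))))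
noncomputable def t22 : T := .cons 229 (.cons 302 (.leaf 205 1647 (.cons 253 (.leaf 326 1839 (.cons 252 (.leaf 250 1809 (.leaf 231 1817 .nil)) .nil)) .nil)) (.cons 228 (.leaf 250 1810 (.leaf 255 1816 .nil)) (.cons 205 (.leaf 302 1647 (.cons 181 (.leaf 206 1455 (.leaf 253 1452 .nil)) .nil)) .nil))) (.cons 206 (.cons 181 (.leaf 205 1455 (.cons 182 (.leaf 157 1263 (.cons 183 (.leaf 207 1461 (.leaf 159 1269 .nil)) .nil)) .nil)) (.cons 181 (.leaf 205 1455 (.cons 182 (.leaf 157 1263 (.cons 253 (.leaf 277 1454 (.cons 252 (.leaf 231 1817 (.leaf 279 2008 .nil)) .nil)) .nil)) .nil)) (.cons 279 (.leaf 303 1652 (.cons 182 (.leaf 255 1460 (.cons 183 (.leaf 207 1461 (.leaf 159 1269 .nil)) .nil)) .nil)) (.cons 181 (.leaf 205 1455 (.cons 207 (.leaf 183 1461 (.cons 302 (.leaf 231 1653 (.cons 303 (.leaf 279 1652 (.leaf 327 1844 .nil)) .nil)) .nil)) .nil)) .nil)))) (.cons 229 (.cons 205 (.leaf 302 1647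 (.cons 181 (.leaf 253 1452 (.leaf 157 1260 .nil)) .nil)) (.cons 228 (.leaf 250 1810 (.leaf 255 1816 .nil)) .nil)) (.cons 229 (.cons 205 (.leaf 302 1647 (.cons 181 (.leaf 206 1455 (.leaf 157 1260 .nil)) .nil)) (.cons 228 (.leaf 250 1810 (.leaf 255 1816 .nil)) .nil)) (.cons 206 (.cons 207 (.leaf 183 1461 (.cons 181 (.leaf 205 1455 (.cons 182 (.leaf 157 1263 (.cons 179 (.leaf 180 1432 (.cons 208 (.leaf 209 1451 (.cons 229 (.leaf 228 1625 (.cons 253 (.leaf 158 1262 (.leaf 277 1454 .nil)) .nil)) .nil)) .nil)) .nil)) .nil)) .nil)) (.cons 279 (.leaf 303 1652 (.cons 182 (.leaf 255 1460 (.cons 253 (.leaf 252 2008 (.leaf 277 1454 .nil)) .nil)) .nil)) (.cons 207 (.leaf 183 1461 (.cons 229 (.leaf 228 1625 (.cons 279 (.leaf 303 1652 (.cons 208 (.leaf 209 1642 (.cons 184 (.cons 205 (.leaf 181 1455 (.leaf 185 1449 .nil)) (.cons 255 (.leaf 231 1469 (.cons 256 (.leaf 257 1835 (.leaf 232 1470 .nil))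 .nil)) .nil)) .nil)) .nil)) .nil)) .nil)) .nil))) (.cons 206 (.cons 183 (.leaf 207 1461 (.cons 182 (.leaf 159 1269 (.cons 157 (.leaf 181 1263 (.cons 158 (.leaf 133 1071 (.cons 253 (.leaf 229 1262 (.leaf 277 1454 .nil)) .nil)) .nil)) .nil)) .nil)) (.cons 205 (.leaf 181 1455 (.cons 302 (.leaf 229 1647 (.cons 303 (.leaf 279 1652 (.leaf 327 1844 .nil)) .nil)) .nil)) (.cons 207 (.leaf 183 1461 (.cons 228 (.leaf 229 1625 (.cons 302 (.leaf 231 1653 (.cons 303 (.leaf 279 1652 (.leaf 327 1844 .nil)) .nil)) .nil)) .nil)) (.cons 181 (.leaf 205 1455 (.cons 182 (.leaf 157 1263 (.cons 183 (.leaf 207 1461 (.leaf 159 1269 .nil)) .nil)) .nil)) .nil)))) (.cons 206 (.cons 279 (.leaf 303 1652 (.cons 182 (.leaf 255 1460 (.cons 183 (.leaf 207 1461 (.leaf 159 1269 .nil)) .nil)) .nil)) (.cons 183 (.leaf 207 1461 (.cons 182 (.leaf 159 1269 (.cons 157 (.leaf 181 1263 (.cons 158 (.leaf 133 1071 (.cons 253 (.leaf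 229 1262 (.leaf 277 1454 .nil)) .nil)) .nil)) .nil)) .nil)) (.cons 279 (.leaf 303 1652 (.cons 182 (.leaf 255 1460 (.cons 253 (.leaf 252 2008 (.leaf 277 1454 .nil)) .nil)) .nil)) (.cons 207 (.leaf 183 1461 (.cons 228 (.leaf 229 1625 (.cons 302 (.leaf 231 1653 (.cons 303 (.leaf 279 1652 (.leaf 327 1844 .nil)) .nil)) .nil)) .nil)) .nil)))) (.cons 229 (.cons 205 (.leaf 302 1647 (.cons 228 (.leaf 250 1810 (.leaf 255 1816 .nil)) .nil)) (.cons 302 (.leaf 205 1647 (.cons 253 (.leaf 326 1839 (.cons 252 (.leaf 250 1809 (.leaf 231 1817 .nil)) .nil)) .nil)) (.cons 228 (.leaf 250 1810 (.leaf 255 1816 .nil)) (.cons 205 (.leaf 302 1647 (.cons 228 (.leaf 255 1816 (.cons 202 (.leaf 203 1619 (.cons 206 (.leaf 207 1625 (.cons 252 (.leaf 231 1818 (.cons 279 (.leaf 253 2008 (.leaf 303 1652 .nil)) .nil)) .nil)) .nil)) .nil)) .nil)) .nil)))) .nil)))))))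
noncomputable def t23 : T := .cons 206 (.cons 181 (.leaf 205 1455 (.cons 182 (.leaf 157 1263 (.cons 279 (.leaf 303 1652 (.leaf 255 1460 .nil)) .nil)) .nil)) (.cons 181 (.leaf 205 1455 (.cons 182 (.leaf 157 1263 (.cons 159 (.leaf 183 1269 (.cons 158 (.leaf 135 1077 (.cons 253 (.leaf 229 1262 (.leaf 277 1454 .nil)) .nil)) .nil)) .nil)) .nil)) (.cons 279 (.leaf 303 1652 (.cons 182 (.leaf 255 1460 (.cons 183 (.leaf 207 1461 (.leaf 159 1269 .nil)) .nil)) .nil)) (.cons 279 (.leaf 303 1652 (.cons 205 (.leaf 181 1455 (.cons 207 (.leaf 183 1461 (.cons 208 (.cons 209 (.leaf 229 1642 (.cons 233 (.leaf 232 1640 (.leaf 234 1648 .nil)) .nil)) (.cons 184 (.leaf 185 1449 (.cons 209 (.leaf 229 1642 (.cons 231 (.leaf 210 1650 (.leaf 255 1469 .nil)) .nil)) .nil)) (.cons 184 (.leaf 185 1449 (.cons 231 (.leaf 255 1469 (.cons 232 (.leaf 233 1640 (.leaf 204 1632 .nil)) .nil)) .nil)) .nil))) .nil)) .nil))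 .nil)) .nil)))) (.cons 206 (.cons 183 (.leaf 207 1461 (.cons 182 (.leaf 159 1269 (.cons 279 (.leaf 303 1652 (.leaf 255 1460 .nil)) .nil)) .nil)) (.cons 181 (.leaf 205 1455 (.cons 182 (.leaf 157 1263 (.cons 159 (.leaf 183 1269 (.cons 158 (.leaf 135 1077 (.cons 253 (.leaf 229 1262 (.leaf 277 1454 .nil)) .nil)) .nil)) .nil)) .nil)) (.cons 279 (.leaf 303 1652 (.cons 182 (.leaf 255 1460 (.cons 253 (.leaf 252 2008 (.leaf 277 1454 .nil)) .nil)) .nil)) (.cons 183 (.leaf 207 1461 (.cons 205 (.leaf 181 1455 (.cons 302 (.leaf 229 1647 (.cons 303 (.leaf 279 1652 (.leaf 327 1844 .nil)) .nil)) .nil)) .nil)) .nil)))) (.cons 302 (.cons 205 (.leaf 229 1647 (.cons 231 (.leaf 207 1653 (.cons 252 (.leaf 253 1817 (.cons 326 (.leaf 255 1845 (.cons 327 (.leaf 303 1844 (.leaf 351 2036 .nil)) .nil)) .nil)) .nil)) .nil)) (.cons 229 (.leaf 205 1647 (.cons 326 (.leaf 253 1839 (.cons 327 (.leaf 303 1844 (.leaf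 351 2036 .nil)) .nil)) .nil)) (.cons 231 (.leaf 207 1653 (.cons 252 (.leaf 253 1817 (.cons 326 (.leaf 255 1845 (.cons 327 (.leaf 303 1844 (.leaf 351 2036 .nil)) .nil)) .nil)) .nil)) (.cons 205 (.leaf 229 1647 (.cons 181 (.leaf 206 1455 (.cons 231 (.leaf 207 1653 (.cons 253 (.leaf 252 1817 (.cons 326 (.leaf 255 1845 (.cons 349 (.leaf 325 2030 (.cons 350 (.leaf 277 2031 (.leaf 373 2222 .nil)) .nil)) .nil)) .nil)) .nil)) .nil)) .nil)) (.cons 205 (.leaf 229 1647 (.cons 206 (.leaf 181 1455 (.cons 207 (.leaf 183 1461 (.leaf 231 1653 .nil)) .nil)) .nil)) .nil))))) (.cons 206 (.cons 205 (.leaf 181 1455 (.cons 302 (.leaf 229 1647 (.cons 303 (.leaf 279 1652 (.leaf 327 1844 .nil)) .nil)) .nil)) (.cons 181 (.leaf 205 1455 (.cons 182 (.leaf 157 1263 (.cons 159 (.leaf 183 1269 (.cons 158 (.leaf 135 1077 (.cons 253 (.leaf 229 1262 (.leaf 277 1454 .nil)) .nil)) .nil)) .nil)) .nil)) (.cons 279 (.leaf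 303 1652 (.cons 182 (.leaf 255 1460 (.cons 253 (.leaf 252 2008 (.leaf 277 1454 .nil)) .nil)) .nil)) .nil))) (.cons 206 (.cons 183 (.leaf 207 1461 (.cons 182 (.leaf 159 1269 (.cons 279 (.leaf 303 1652 (.leaf 255 1460 .nil)) .nil)) .nil)) (.cons 183 (.leaf 207 1461 (.cons 182 (.leaf 159 1269 (.cons 157 (.leaf 181 1263 (.cons 158 (.leaf 133 1071 (.cons 253 (.leaf 229 1262 (.leaf 277 1454 .nil)) .nil)) .nil)) .nil)) .nil)) (.cons 279 (.leaf 303 1652 (.cons 182 (.leaf 255 1460 (.cons 253 (.leaf 252 2008 (.leaf 277 1454 .nil)) .nil)) .nil)) (.cons 207 (.leaf 183 1461 (.cons 231 (.leaf 302 1653 (.cons 253 (.leaf 252 1817 (.cons 279 (.leaf 303 1652 (.cons 280 (.leaf 281 2027 (.cons 232 (.leaf 233 1834 (.cons 304 (.leaf 256 1663 (.leaf 255 1660 .nil)) .nil)) .nil)) .nil)) .nil)) .nil)) .nil)) .nil)))) (.cons 206 (.cons 183 (.leaf 207 1461 (.cons 182 (.leaf 159 1269 (.cons 157 (.leaf 181 1263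 (.cons 158 (.leaf 133 1071 (.cons 253 (.leaf 229 1262 (.leaf 277 1454 .nil)) .nil)) .nil)) .nil)) .nil)) (.cons 181 (.leaf 205 1455 (.cons 182 (.leaf 157 1263 (.cons 159 (.leaf 183 1269 (.cons 158 (.leaf 135 1077 (.cons 253 (.leaf 229 1262 (.leaf 277 1454 .nil)) .nil)) .nil)) .nil)) .nil)) (.cons 181 (.leaf 205 1455 (.cons 182 (.leaf 157 1263 (.cons 253 (.leaf 277 1454 (.cons 252 (.leaf 231 1817 (.leaf 279 2008 .nil)) .nil)) .nil)) .nil)) (.cons 183 (.leaf 207 1461 (.cons 182 (.leaf 159 1269 (.cons 253 (.leaf 277 1454 (.cons 252 (.leaf 231 1817 (.leaf 279 2008 .nil)) .nil)) .nil)) .nil)) (.cons 205 (.leaf 181 1455 (.cons 207 (.leaf 183 1461 (.cons 302 (.leaf 229 1647 (.leaf 231 1653 .nil)) .nil)) .nil)) .nil))))) (.cons 206 (.cons 181 (.leaf 205 1455 (.cons 182 (.leaf 157 1263 (.cons 183 (.leaf 207 1461 (.leaf 159 1269 .nil)) .nil)) .nil)) (.cons 279 (.leaf 303 1652 (.cons 182 (.leaf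 255 1460 (.cons 253 (.leaf 252 2008 (.leaf 277 1454 .nil)) .nil)) .nil)) (.cons 181 (.leaf 205 1455 (.cons 207 (.leaf 183 1461 (.cons 302 (.leaf 231 1653 (.cons 303 (.leaf 279 1652 (.leaf 327 1844 .nil)) .nil)) .nil)) .nil)) .nil))) .nil))))))
noncomputable def t24 : T := .cons 206 (.cons 181 (.leaf 205 1455 (.cons 182 (.leaf 157 1263 (.cons 279 (.leaf 303 1652 (.leaf 255 1460 .nil)) .nil)) .nil)) (.cons 205 (.leaf 181 1455 (.cons 207 (.leaf 183 1461 (.cons 302 (.leaf 229 1647 (.leaf 231 1653 .nil)) .nil)) .nil)) (.cons 183 (.leaf 207 1461 (.cons 182 (.leaf 159 1269 (.cons 279 (.leaf 303 1652 (.leaf 255 1460 .nil)) .nil)) .nil)) .nil))) (.cons 302 (.cons 229 (.leaf 205 1647 (.cons 253 (.leaf 326 1839 (.cons 252 (.leaf 250 1809 (.leaf 231 1817 .nil)) .nil)) .nil)) (.cons 229 (.leaf 205 1647 (.cons 253 (.leaf 326 1839 (.cons 252 (.leaf 250 1809 (.leaf 279 2008 .nil)) .nil)) .nil)) (.cons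 231 (.leaf 207 1653 (.cons 252 (.leaf 253 1817 (.cons 326 (.leaf 255 1845 (.cons 327 (.leaf 303 1844 (.leaf 351 2036 .nil)) .nil)) .nil)) .nil)) (.cons 231 (.leaf 207 1653 (.cons 229 (.leaf 205 1647 (.cons 303 (.leaf 327 1844 (.cons 232 (.cons 253 (.leaf 252 1817 (.leaf 233 1834 .nil)) (.cons 208 (.leaf 209 1641 (.cons 256 (.leaf 257 1832 (.cons 279 (.leaf 255 1661 (.leaf 280 1662 .nil)) .nil)) .nil)) .nil)) .nil)) .nil)) .nil)) (.cons 231 (.leaf 207 1653 (.cons 205 (.leaf 229 1647 (.cons 326 (.leaf 255 1845 (.cons 327 (.leaf 303 1844 (.leaf 351 2036 .nil)) .nil)) .nil)) .nil)) .nil))))) t23)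
noncomputable def t25 : T := .cons 228 (.leaf 204 1629 (.cons 229 (.leaf 250 1810 (.cons 202 (.leaf 203 1619 (.cons 231 (.leaf 252 1818 (.cons 255 (.leaf 254 1816 (.leaf 256 1824 .nil)) .nil)) .nil)) .nil)) .nil)) (.cons 254 t24 (.cons 254 t22 (.cons 204 (.leaf 228 1629 (.cons 203 (.leaf 180 1437 (.cons 178 (.leaf 202 1431 (.cons 179 (.leaf 154 1239 (.cons 206 (.leaf 205 1427 (.cons 254 (.cons 207 (.leaf 183 1461 (.cons 302 (.leaf 231 1653 (.cons 303 (.leaf 279 1652 (.leaf 327 1844 .nil)) .nil)) .nil)) (.cons 253 (.cons 182 (.leaf 277 1454 (.cons 183 (.leaf 207 1461 (.leaf 159 1269 .nil)) .nil)) (.cons 207 (.leaf 183 1461 (.cons 231 (.leaf 252 1817 (.leaf 302 1653 .nil)) .nil)) (.cons 252 (.leaf 231 1817 (.cons 277 (.leaf 250 2000 (.leaf 182 1454 .nil)) .nil)) .nil))) (.cons 279 (.leaf 303 1652 (.cons 182 (.leaf 255 1460 (.cons 253 (.leaf 252 2008 (.leaf 277 1454 .nil)) .nil)) .nil))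 .nil))) .nil)) .nil)) .nil)) .nil)) .nil)) (.cons 228 (.leaf 204 1629 (.cons 229 (.leaf 250 1810 (.cons 202 (.leaf 203 1619 (.cons 207 (.leaf 206 1625 (.cons 231 (.leaf 252 1818 (.leaf 208 1633 .nil)) .nil)) .nil)) .nil)) .nil)) (.cons 228 (.leaf 204 1629 (.cons 229 (.leaf 250 1810 (.cons 202 (.leaf 203 1619 (.cons 206 (.leaf 207 1625 (.cons 254 (.leaf 255 1816 (.cons 205 (.leaf 181 1455 (.leaf 302 1647 .nil)) .nil)) .nil)) .nil)) .nil)) .nil)) (.cons 204 (.leaf 228 1629 (.cons 203 (.leaf 180 1437 (.cons 202 (.leaf 178 1431 (.cons 205 (.leaf 229 1616 (.cons 181 (.leaf 182 1425 (.cons 206 (.leaf 254 1455 (.leaf 231 1624 .nil)) .nil)) .nil)) .nil)) .nil)) .nil)) .nil))))))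
noncomputable def t26 : T := .leaf 177 1408 (.cons 302 (.cons 301 (.leaf 279 2201 (.cons 230 (.leaf 325 1838 (.cons 206 (.leaf 277 1646 (.cons 207 (.leaf 183 1461 (.leaf 231 1653 .nil)) .nil)) .nil)) .nil)) (.cons 326 (.cons 231 (.leaf 255 1845 (.cons 230 (.leaf 207 1653 (.cons 327 (.leaf 303 1844 (.leaf 351 2036 .nil)) .nil)) .nil)) (.cons 253 (.leaf 229 1839 (.cons 252 (.leaf 279 2008 (.cons 277 (.leaf 250 2000 (.leaf 350 2031 .nil)) .nil)) .nil)) .nil)) (.cons 326 (.cons 231 (.leaf 255 1845 (.cons 230 (.leaf 207 1653 (.cons 327 (.leaf 301 2392 (.leaf 303 1844 .nil)) .nil)) .nil)) (.cons 231 (.leaf 255 1845 (.cons 230 (.leaf 207 1653 (.cons 253 (.leaf 252 1817 (.leaf 229 1839 .nil)) .nil)) .nil)) (.cons 327 (.leaf 301 2392 (.leaf 351 2036 .nil)) .nil))) (.cons 279 (.leaf 301 2201 (.cons 253 (.leaf 252 2008 (.cons 326 (.leaf 229 1839 (.cons 255 (.leaf 231 1845 (.leaf 350 2037 .nil))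 .nil)) .nil)) .nil)) (.cons 301 (.leaf 279 2201 (.cons 230 (.leaf 325 1838 (.cons 327 (.leaf 326 2392 (.leaf 303 1844 .nil)) .nil)) .nil)) .nil))))) .nil)
noncomputable def t27 : T := .cons 253 (.cons 178 (.leaf 202 1431 (.cons 154 (.leaf 179 1239 (.cons 279 (.leaf 252 2008 (.cons 280 (.leaf 281 2027 (.cons 301 (.leaf 302 2201 (.leaf 277 2210 .nil)) .nil)) .nil)) .nil)) .nil)) (.cons 178 (.leaf 202 1431 (.cons 179 (.leaf 154 1239 (.cons 205 (.leaf 206 1427 (.cons 229 (.leaf 181 1452 (.cons 302 (.leaf 277 1644 (.leaf 326 1839 .nil)) .nil)) .nil)) .nil)) .nil)) (.cons 279 (.leaf 252 2008 (.cons 280 (.leaf 281 2027 (.cons 277 (.leaf 301 2210 (.cons 256 (.leaf 257 2025 (.cons 304 (.leaf 305 2216 (.cons 232 (.cons 233 (.leaf 255 1833 (.leaf 209 1669 .nil)) (.cons 303 (.leaf 208 1662 (.leaf 327 1854 .nil)) .nil)) .nil)) .nil)) .nil)) .nil)) .nil)) (.cons 279 (.leaf 252 2008 (.cons 178 (.leaf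 202 1431 (.cons 154 (.leaf 179 1239 (.cons 302 (.leaf 301 2201 (.cons 326 (.leaf 229 1839 (.cons 255 (.leaf 231 1845 (.leaf 350 2037 .nil)) .nil)) .nil)) .nil)) .nil)) .nil)) .nil)))) (.cons 178 (.leaf 202 1431 (.cons 179 (.leaf 154 1239 (.cons 206 (.leaf 205 1427 (.cons 177 (.leaf 176 1408 (.cons 230 (.cons 279 (.leaf 303 1652 (.cons 182 (.leaf 255 1460 (.cons 183 (.leaf 207 1461 (.leaf 159 1269 .nil)) .nil)) .nil)) (.cons 207 (.leaf 183 1461 (.cons 301 (.leaf 277 1646 (.cons 302 (.leaf 231 1653 (.leaf 325 1838 .nil)) .nil)) .nil)) (.cons 279 (.leaf 303 1652 (.cons 301 (.leaf 302 2201 (.leaf 277 1646 .nil)) .nil)) .nil))) .nil)) .nil)) .nil)) .nil)) (.cons 178 (.leaf 202 1431 (.cons 179 (.leaf 154 1239 (.cons 176 t26 .nil)) .nil)) (.cons 178 (.leaf 202 1431 (.cons 179 (.leaf 154 1239 (.cons 253 (.cons 252 (.leaf 279 2008 (.cons 176 (.leaf 177 1408 (.cons 230 (.leaf 231 1817 (.cons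 250 (.leaf 229 1809 (.leaf 277 2000 .nil)) .nil)) .nil)) .nil)) (.cons 205 (.leaf 206 1427 (.cons 229 (.leaf 181 1452 (.cons 302 (.leaf 230 1647 (.leaf 277 1644 .nil)) .nil)) .nil)) (.cons 205 (.leaf 206 1427 (.cons 229 (.leaf 181 1452 (.cons 302 (.leaf 277 1644 (.leaf 326 1839 .nil)) .nil)) .nil)) (.cons 252 (.leaf 279 2008 (.cons 176 (.leaf 177 1408 (.cons 206 (.leaf 205 1427 (.cons 230 (.leaf 231 1817 (.cons 277 (.leaf 250 2000 (.leaf 182 1454 .nil)) .nil)) .nil)) .nil)) .nil)) (.cons 205 (.leaf 206 1427 (.cons 176 (.leaf 177 1408 (.cons 252 (.leaf 279 2008 (.cons 229 (.leaf 181 1452 (.cons 230 (.leaf 250 1809 (.leaf 231 1817 .nil)) .nil)) .nil)) .nil)) .nil)) .nil))))) .nil)) .nil)) (.cons 178 (.leaf 202 1431 (.cons 179 (.leaf 154 1239 (.cons 176 (.leaf 177 1408 (.cons 302 (.cons 326 (.cons 327 (.leaf 301 2392 (.leaf 351 2036 .nil)) (.cons 253 (.leaf 229 1839 (.cons 252 (.leaf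 279 2008 (.cons 277 (.leaf 250 2000 (.leaf 350 2031 .nil)) .nil)) .nil)) .nil)) (.cons 326 (.cons 253 (.leaf 229 1839 (.cons 252 (.leaf 279 2008 (.cons 277 (.leaf 250 2000 (.leaf 350 2031 .nil)) .nil)) .nil)) (.cons 255 (.leaf 231 1845 (.cons 349 (.leaf 325 2030 (.cons 350 (.leaf 279 2037 (.leaf 373 2222 .nil)) .nil)) .nil)) (.cons 229 (.leaf 253 1839 (.cons 230 (.leaf 205 1647 (.cons 327 (.leaf 303 1844 (.leaf 351 2036 .nil)) .nil)) .nil)) .nil))) (.cons 326 (.cons 327 (.leaf 301 2392 (.leaf 351 2036 .nil)) (.cons 229 (.leaf 253 1839 (.cons 230 (.leaf 205 1647 (.cons 231 (.leaf 207 1653 (.leaf 255 1845 .nil)) .nil)) .nil)) .nil)) (.cons 301 (.leaf 279 2201 (.cons 325 (.leaf 230 1838 (.cons 349 (.leaf 277 2029 (.leaf 373 2221 .nil)) .nil)) .nil)) .nil)))) .nil)) .nil)) .nil)) (.cons 178 (.leaf 202 1431 (.cons 179 (.leaf 154 1239 (.cons 205 (.leaf 206 1427 (.cons 302 (.cons 326 (.cons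 231 (.leaf 255 1845 (.cons 230 (.leaf 229 1647 (.leaf 207 1653 .nil)) .nil)) (.cons 231 (.leaf 255 1845 (.cons 230 (.leaf 207 1653 (.cons 327 (.leaf 301 2392 (.leaf 303 1844 .nil)) .nil)) .nil)) (.cons 327 (.leaf 301 2392 (.leaf 351 2036 .nil)) .nil))) (.cons 279 (.leaf 301 2201 (.cons 253 (.leaf 252 2008 (.cons 229 (.leaf 181 1452 (.leaf 326 1839 .nil)) .nil)) .nil)) (.cons 230 (.leaf 229 1647 (.cons 231 (.leaf 207 1653 (.cons 326 (.leaf 255 1845 (.cons 327 (.leaf 303 1844 (.leaf 351 2036 .nil)) .nil)) .nil)) .nil)) (.cons 301 (.leaf 279 2201 (.cons 176 (.leaf 177 1408 (.cons 230 (.leaf 325 1838 (.cons 327 (.leaf 326 2392 (.leaf 303 1844 .nil)) .nil)) .nil)) .nil)) (.cons 230 (.leaf 229 1647 (.cons 301 (.leaf 279 2201 (.leaf 325 1838 .nil)) .nil)) .nil))))) .nil)) .nil)) .nil)) .nil)))))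
noncomputable def t28 : T := .cons 279 (.leaf 301 2201 (.cons 253 (.leaf 252 2008 (.cons 229 (.leaf 326 1839 (.cons 205 (.leaf 181 1452 (.leaf 230 1647 .nil)) .nil)) .nil)) .nil)) (.cons 326 (.cons 229 (.leaf 253 1839 (.cons 205 (.leaf 230 1647 (.cons 255 (.leaf 231 1845 (.cons 349 (.leaf 325 2030 (.cons 350 (.leaf 279 2037 (.leaf 373 2222 .nil)) .nil)) .nil)) .nil)) .nil)) (.cons 231 (.leaf 255 1845 (.cons 207 (.leaf 230 1653 (.cons 349 (.leaf 325 2030 (.cons 350 (.leaf 373 2222 (.cons 351 (.leaf 327 2036 (.leaf 375 2228 .nil)) .nil)) .nil)) .nil)) .nil)) (.cons 229 (.leaf 253 1839 (.cons 205 (.leaf 230 1647 (.cons 349 (.leaf 325 2030 (.cons 350 (.leaf 373 2222 (.cons 351 (.leaf 327 2036 (.leaf 375 2228 .nil)) .nil)) .nil)) .nil)) .nil)) (.cons 229 (.leaf 253 1839 (.cons 230 (.leaf 205 1647 (.cons 231 (.leaf 207 1653 (.leaf 255 1845 .nil)) .nil)) .nil)) (.cons 253 (.leaf 229 1839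 (.cons 231 (.leaf 255 1845 (.cons 252 (.leaf 279 2008 (.cons 277 (.leaf 250 2000 (.leaf 350 2031 .nil)) .nil)) .nil)) .nil)) .nil))))) (.cons 326 (.cons 229 (.leaf 253 1839 (.cons 205 (.leaf 230 1647 (.cons 349 (.leaf 325 2030 (.cons 350 (.leaf 373 2222 (.cons 351 (.leaf 327 2036 (.leaf 375 2228 .nil)) .nil)) .nil)) .nil)) .nil)) (.cons 229 (.leaf 253 1839 (.cons 230 (.leaf 205 1647 (.cons 231 (.leaf 207 1653 (.leaf 255 1845 .nil)) .nil)) .nil)) (.cons 327 (.leaf 301 2392 (.leaf 351 2036 .nil)) .nil))) (.cons 301 (.leaf 279 2201 (.cons 230 (.leaf 325 1838 (.cons 205 (.leaf 229 1647 (.cons 206 (.leaf 181 1455 (.leaf 277 1646 .nil)) .nil)) .nil)) .nil)) (.cons 279 (.leaf 301 2201 (.cons 253 (.leaf 252 2008 (.cons 229 (.leaf 326 1839 (.cons 205 (.leaf 181 1452 (.leaf 277 1644 .nil)) .nil)) .nil)) .nil)) (.cons 301 (.leaf 279 2201 (.cons 230 (.leaf 325 1838 (.cons 327 (.leaf 326 2392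 (.leaf 303 1844 .nil)) .nil)) .nil)) .nil)))))
noncomputable def t29 : T := .cons 178 (.leaf 202 1431 (.cons 179 (.leaf 154 1239 (.cons 205 (.leaf 206 1427 (.cons 302 (.cons 176 (.leaf 177 1408 (.cons 229 (.leaf 230 1647 (.cons 253 (.leaf 181 1452 (.leaf 277 1644 .nil)) .nil)) .nil)) (.cons 279 (.leaf 301 2201 (.cons 253 (.leaf 252 2008 (.cons 229 (.leaf 181 1452 (.leaf 277 1644 .nil)) .nil)) .nil)) (.cons 301 (.leaf 279 2201 (.cons 176 (.leaf 177 1408 (.cons 230 (.leaf 325 1838 (.cons 327 (.leaf 326 2392 (.leaf 303 1844 .nil)) .nil)) .nil)) .nil)) .nil))) .nil)) .nil)) .nil)) (.cons 302 t28 (.cons 178 (.leaf 202 1431 (.cons 179 (.leaf 154 1239 (.cons 205 (.leaf 206 1427 (.cons 302 (.cons 230 (.leaf 229 1647 (.cons 231 (.leaf 207 1653 (.cons 326 (.leaf 255 1845 (.cons 327 (.leaf 301 2392 (.leaf 303 1844 .nil)) .nil)) .nil)) .nil)) (.cons 326 (.cons 327 (.leaf 301 2392 (.leaf 351 2036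 .nil)) (.cons 253 (.leaf 229 1839 (.cons 349 (.leaf 325 2030 (.cons 350 (.leaf 277 2031 (.leaf 373 2222 .nil)) .nil)) .nil)) .nil)) (.cons 326 (.cons 231 (.leaf 255 1845 (.cons 230 (.leaf 207 1653 (.cons 327 (.leaf 301 2392 (.leaf 303 1844 .nil)) .nil)) .nil)) (.cons 231 (.leaf 255 1845 (.cons 230 (.leaf 207 1653 (.cons 325 (.leaf 301 1838 (.leaf 349 2030 .nil)) .nil)) .nil)) (.cons 231 (.leaf 255 1845 (.cons 230 (.leaf 207 1653 (.cons 327 (.leaf 303 1844 (.leaf 351 2036 .nil)) .nil)) .nil)) (.cons 327 (.leaf 301 2392 (.leaf 351 2036 .nil)) .nil)))) (.cons 229 (.leaf 230 1647 (.cons 253 (.leaf 181 1452 (.leaf 277 1644 .nil)) .nil)) .nil)))) .nil)) .nil)) .nil)) (.cons 279 (.cons 253 (.leaf 252 2008 (.cons 280 (.leaf 281 2027 (.cons 277 (.leaf 301 2210 (.cons 256 (.leaf 257 2025 (.cons 304 (.leaf 305 2216 (.cons 232 (.cons 233 (.leaf 255 1833 (.leaf 209 1669 .nil)) (.cons 303 (.leaf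 208 1662 (.leaf 327 1854 .nil)) .nil)) .nil)) .nil)) .nil)) .nil)) .nil)) (.cons 178 (.leaf 202 1431 (.cons 179 (.leaf 154 1239 (.cons 176 (.leaf 177 1408 (.cons 206 (.leaf 205 1427 (.cons 230 (.leaf 303 1652 (.cons 182 (.leaf 255 1460 (.cons 183 (.leaf 207 1461 (.leaf 159 1269 .nil)) .nil)) .nil)) .nil)) .nil)) .nil)) .nil)) (.cons 253 (.leaf 252 2008 (.cons 280 (.leaf 281 2027 (.cons 277 (.leaf 301 2210 (.cons 202 (.leaf 178 1431 (.cons 205 (.cons 229 (.leaf 181 1452 (.leaf 230 1616 .nil)) (.cons 230 (.leaf 229 1616 (.cons 206 (.leaf 231 1624 (.leaf 182 1454 .nil)) .nil)) (.cons 182 (.leaf 181 1425 (.cons 206 (.leaf 183 1433 (.leaf 230 1454 .nil)) .nil)) (.cons 181 (.leaf 229 1452 (.leaf 182 1425 .nil)) .nil)))) .nil)) .nil)) .nil)) .nil)) .nil))) t27)))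
noncomputable def t30 : T := .leaf 204 1629 (.cons 230 (.cons 229 (.leaf 250 1810 (.cons 254 (.leaf 255 1816 (.leaf 205 1647 .nil)) .nil)) (.cons 254 (.cons 327 (.leaf 303 1844 (.cons 326 (.leaf 351 2036 (.cons 231 (.leaf 207 1653 (.leaf 255 1845 .nil)) .nil)) .nil)) (.cons 303 (.leaf 327 1844 (.cons 206 (.leaf 279 1652 (.cons 181 (.leaf 205 1455 (.cons 182 (.leaf 157 1263 (.cons 183 (.leaf 207 1461 (.leaf 159 1269 .nil)) .nil)) .nil)) .nil)) .nil)) (.cons 231 (.leaf 207 1653 (.cons 253 (.leaf 252 1817 (.cons 326 (.leaf 255 1845 (.cons 232 (.leaf 233 1834 (.cons 349 (.leaf 325 2030 (.cons 350 (.leaf 277 2031 (.leaf 373 2222 .nil)) .nil)) .nil)) .nil)) .nil)) .nil)) (.cons 327 (.leaf 303 1844 (.cons 326 (.leaf 351 2036 (.cons 231 (.leaf 255 1845 (.cons 253 (.leaf 252 1817 (.cons 349 (.leaf 325 2030 (.cons 350 (.leaf 277 2031 (.leaf 373 2222 .nil)) .nil)) .nil)) .nil)) .nil)) .nil))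 .nil)))) (.cons 229 (.leaf 250 1810 (.cons 202 (.leaf 203 1619 (.cons 207 (.leaf 206 1625 (.cons 231 (.leaf 252 1818 (.leaf 208 1633 .nil)) .nil)) .nil)) .nil)) .nil))) .nil)
noncomputable def t31 : T := .cons 298 (.leaf 322 1814 (.cons 302 (.cons 301 (.leaf 277 2193 (.leaf 279 2201 .nil)) (.cons 228 t30 (.cons 301 (.leaf 277 2193 (.cons 326 (.leaf 325 2384 (.leaf 327 2392 .nil)) .nil)) (.cons 301 (.leaf 279 2201 (.cons 326 (.leaf 325 2384 (.leaf 327 2392 .nil)) .nil)) .nil)))) .nil)) (.cons 204 (.leaf 228 1629 (.cons 203 (.leaf 180 1437 (.cons 254 t29 .nil)) .nil)) (.cons 298 (.leaf 322 1814 (.cons 301 (.leaf 277 2193 (.cons 302 (.leaf 279 2201 (.cons 326 (.leaf 325 2384 (.leaf 327 2392 .nil)) .nil)) .nil)) .nil)) (.cons 322 (.leaf 298 1814 (.cons 230 t25 .nil)) (.cons 298 (.leaf 322 1814 (.cons 301 (.leaf 277 2193 (.cons 302 (.cons 326 (.leaf 325 2384 (.leaf 327 2392 .nil)) (.cons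 230 t21 (.cons 327 (.leaf 326 2392 (.cons 228 (.leaf 204 1629 (.cons 303 (.leaf 328 2400 (.cons 230 (.leaf 254 1844 (.cons 229 (.leaf 250 1810 (.cons 202 (.leaf 203 1619 (.cons 207 (.leaf 206 1625 (.cons 231 (.leaf 252 1818 (.leaf 208 1633 .nil)) .nil)) .nil)) .nil)) .nil)) .nil)) .nil)) .nil)) .nil))) .nil)) .nil)) (.cons 298 (.leaf 322 1814 (.cons 203 (.cons 178 (.leaf 202 1431 (.cons 179 (.leaf 154 1239 (.cons 156 (.leaf 180 1245 (.cons 155 (.leaf 132 1053 (.cons 157 (.leaf 158 1234 (.cons 252 (.leaf 228 1244 (.cons 277 (.leaf 301 2193 (.cons 253 (.leaf 250 2000 (.cons 279 (.leaf 254 2008 (.leaf 280 2019 .nil)) .nil)) .nil)) .nil)) .nil)) .nil)) .nil)) .nil)) .nil)) (.cons 178 (.leaf 202 1431 (.cons 179 (.leaf 154 1239 (.cons 228 (.leaf 204 1629 (.cons 252 (.leaf 155 1244 (.cons 277 (.leaf 301 2193 (.cons 250 (.leaf 253 2000 (.cons 229 (.leaf 230 1810 (.leaf 249 1801 .nil)) .nil))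 .nil)) .nil)) .nil)) .nil)) .nil)) (.cons 178 (.leaf 202 1431 (.cons 179 (.leaf 154 1239 (.cons 180 (.leaf 204 1437 (.leaf 156 1245 .nil)) .nil)) .nil)) (.cons 204 (.leaf 180 1437 (.leaf 228 1629 .nil)) .nil)))) .nil)) (.cons 298 (.leaf 322 1814 (.cons 302 t20 .nil)) .nil))))))
noncomputable def t32 : T := .cons 202 (.leaf 178 1431 (.cons 155 (.cons 226 (.leaf 250 1238 (.leaf 131 1046 .nil)) (.cons 132 (.leaf 156 1053 (.cons 108 (.leaf 131 861 (.cons 228 (.leaf 252 1244 (.cons 201 (.leaf 200 1600 (.cons 229 (.leaf 230 1619 (.leaf 204 1608 .nil)) .nil)) .nil)) .nil)) .nil)) (.cons 132 (.leaf 156 1053 (.cons 226 (.leaf 250 1238 (.cons 228 (.leaf 252 1244 (.cons 201 (.leaf 200 1600 (.leaf 229 1611 .nil)) .nil)) .nil)) .nil)) .nil))) .nil)) (.cons 155 (.cons 228 (.leaf 252 1244 (.cons 130 (.leaf 154 1047 (.cons 131 (.leaf 106 855 (.leaf 204 1052 .nil)) .nil)) .nil)) (.cons 226 (.leaf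 250 1238 (.cons 130 (.leaf 154 1047 (.cons 131 (.leaf 106 855 (.leaf 202 1046 .nil)) .nil)) .nil)) (.cons 226 (.leaf 250 1238 (.cons 131 (.leaf 202 1046 (.cons 132 (.leaf 156 1053 (.leaf 108 861 .nil)) .nil)) .nil)) (.cons 226 (.leaf 250 1238 (.cons 228 (.leaf 252 1244 (.cons 154 (.leaf 130 1047 (.cons 156 (.leaf 132 1053 (.cons 225 (.cons 204 (.leaf 224 1601 (.leaf 205 1609 .nil)) (.cons 200 (.leaf 201 1603 (.cons 224 (.leaf 199 1595 (.cons 248 (.leaf 247 1786 (.leaf 249 1794 .nil)) .nil)) .nil)) (.cons 200 (.leaf 201 1603 (.cons 205 (.leaf 204 1609 (.cons 229 (.leaf 206 1617 (.cons 230 (.leaf 202 1619 (.cons 254 (.leaf 253 1808 (.leaf 255 1816 .nil)) .nil)) .nil)) .nil)) .nil)) .nil))) .nil)) .nil)) .nil)) .nil)) .nil)))) (.cons 154 (.leaf 178 1239 (.cons 155 (.leaf 130 1047 (.cons 132 (.leaf 156 1053 (.cons 131 (.leaf 108 861 (.cons 228 (.leaf 252 1244 (.leaf 204 1052 .nil)) .nil))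 .nil)) .nil)) .nil)) (.cons 178 (.leaf 202 1431 (.leaf 154 1239 .nil)) .nil)))
noncomputable def t33 : T := .cons 156 (.leaf 180 1245 (.cons 155 (.leaf 132 1053 (.cons 130 (.leaf 154 1047 (.cons 131 (.leaf 106 855 (.cons 226 (.leaf 250 1238 (.leaf 202 1046 .nil)) .nil)) .nil)) .nil)) .nil)) (.cons 155 (.cons 228 (.leaf 252 1244 (.cons 130 (.leaf 154 1047 (.cons 131 (.leaf 106 855 (.leaf 204 1052 .nil)) .nil)) .nil)) (.cons 226 (.leaf 250 1238 (.cons 130 (.leaf 154 1047 (.cons 131 (.leaf 106 855 (.leaf 202 1046 .nil)) .nil)) .nil)) (.cons 226 (.leaf 250 1238 (.cons 131 (.leaf 202 1046 (.cons 132 (.leaf 156 1053 (.leaf 108 861 .nil)) .nil)) .nil)) (.cons 226 (.leaf 250 1238 (.cons 228 (.leaf 252 1244 (.cons 154 (.leaf 130 1047 (.cons 156 (.leaf 132 1053 (.cons 225 (.cons 204 (.leaf 224 1601 (.leaf 205 1609 .nil)) (.cons 200 (.leaf 201 1603 (.cons 224 (.leaf 199 1595 (.cons 248 (.leaf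 247 1786 (.leaf 249 1794 .nil)) .nil)) .nil)) (.cons 200 (.leaf 201 1603 (.cons 205 (.leaf 204 1609 (.cons 229 (.leaf 206 1617 (.cons 230 (.leaf 202 1619 (.cons 254 (.leaf 253 1808 (.leaf 255 1816 .nil)) .nil)) .nil)) .nil)) .nil)) .nil))) .nil)) .nil)) .nil)) .nil)) .nil)))) (.cons 204 (.leaf 180 1437 (.cons 155 (.cons 228 (.leaf 252 1244 (.leaf 131 1052 .nil)) (.cons 226 (.leaf 250 1238 (.cons 130 (.leaf 154 1047 (.cons 131 (.leaf 106 855 (.leaf 202 1046 .nil)) .nil)) .nil)) (.cons 226 (.leaf 250 1238 (.cons 130 (.leaf 154 1047 (.cons 205 (.leaf 206 1618 (.cons 225 (.leaf 224 1601 (.leaf 228 1609 .nil)) .nil)) .nil)) .nil)) .nil))) .nil)) (.cons 180 (.leaf 204 1437 (.leaf 156 1245 .nil)) .nil)))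
noncomputable def t34 : T := .cons 179 (.cons 178 (.leaf 202 1431 (.leaf 154 1239 .nil)) (.cons 156 (.leaf 180 1245 (.cons 155 (.leaf 132 1053 (.cons 130 (.leaf 154 1047 (.cons 131 (.leaf 106 855 (.cons 226 (.leaf 250 1238 (.leaf 202 1046 .nil)) .nil)) .nil)) .nil)) .nil)) (.cons 180 (.leaf 204 1437 (.leaf 156 1245 .nil)) .nil))) (.cons 179 t33 (.cons 179 t32 (.cons 179 (.cons 154 (.leaf 178 1239 (.cons 155 (.leaf 130 1047 (.cons 132 (.leaf 156 1053 (.cons 131 (.leaf 108 861 (.cons 228 (.leaf 252 1244 (.leaf 204 1052 .nil)) .nil)) .nil)) .nil)) .nil)) (.cons 154 (.leaf 178 1239 (.cons 155 (.leaf 130 1047 (.cons 156 (.leaf 180 1245 (.leaf 132 1053 .nil)) .nil)) .nil)) (.cons 154 (.leaf 178 1239 (.cons 155 (.leaf 130 1047 (.cons 204 (.leaf 180 1437 (.cons 228 (.leaf 252 1244 (.leaf 131 1052 .nil)) .nil)) .nil)) .nil)) (.cons 180 (.leaf 204 1437 (.leaf 156 1245 .nil)) .nil)))) (.cons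 179 (.cons 156 (.leaf 180 1245 (.cons 154 (.leaf 178 1239 (.cons 155 (.leaf 130 1047 (.leaf 132 1053 .nil)) .nil)) .nil)) (.cons 156 (.leaf 180 1245 (.cons 155 (.leaf 132 1053 (.cons 130 (.leaf 154 1047 (.cons 131 (.leaf 106 855 (.cons 226 (.leaf 250 1238 (.leaf 202 1046 .nil)) .nil)) .nil)) .nil)) .nil)) (.cons 156 (.leaf 180 1245 (.cons 155 (.leaf 132 1053 (.cons 202 (.leaf 178 1431 (.cons 226 (.leaf 250 1238 (.leaf 131 1046 .nil)) .nil)) .nil)) .nil)) (.cons 178 (.leaf 202 1431 (.leaf 154 1239 .nil)) .nil)))) (.cons 202 (.leaf 178 1431 (.cons 204 (.leaf 180 1437 (.cons 201 (.cons 176 (.leaf 177 1411 (.cons 175 (.leaf 200 1403 (.cons 225 (.leaf 224 1602 (.cons 205 (.leaf 226 1610 (.cons 182 (.leaf 181 1425 (.cons 206 (.leaf 183 1433 (.cons 230 (.leaf 229 1616 (.leaf 231 1624 .nil)) .nil)) .nil)) .nil)) .nil)) .nil)) .nil)) (.cons 176 (.leaf 177 1411 (.cons 224 (.leaf 225 1602 (.cons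 229 (.leaf 228 1608 (.cons 205 (.leaf 230 1616 (.cons 182 (.leaf 181 1425 (.cons 206 (.leaf 226 1618 (.leaf 183 1433 .nil)) .nil)) .nil)) .nil)) .nil)) .nil)) (.cons 176 (.leaf 177 1411 (.cons 200 (.leaf 228 1600 (.leaf 175 1403 .nil)) .nil)) (.cons 228 (.leaf 200 1600 (.leaf 229 1608 .nil)) .nil)))) .nil)) .nil)) .nil)))))
noncomputable def t35 : T := .cons 228 (.leaf 204 1629 (.cons 277 (.leaf 278 2193 (.cons 325 (.leaf 326 2384 (.cons 253 (.leaf 252 1831 (.cons 230 (.leaf 254 1837 (.cons 229 (.leaf 250 1810 (.leaf 206 1645 .nil)) .nil)) .nil)) .nil)) .nil)) .nil)) (.cons 202 (.leaf 226 1623 (.cons 178 (.leaf 203 1431 (.cons 278 (.leaf 277 2193 (.cons 302 (.leaf 279 2201 (.cons 326 (.leaf 325 2384 (.leaf 327 2392 .nil)) .nil)) .nil)) .nil)) .nil)) (.cons 228 (.leaf 204 1629 (.cons 202 (.leaf 226 1623 (.cons 203 (.leaf 178 1431 (.cons 200 (.leaf 201 1600 (.cons 230 (.leaf 229 1619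 (.cons 252 (.leaf 323 1821 (.cons 179 (.leaf 155 1244 (.cons 325 (.leaf 326 2384 (.cons 253 (.leaf 277 1831 (.cons 254 (.leaf 231 1817 (.leaf 255 1819 .nil)) .nil)) .nil)) .nil)) .nil)) .nil)) .nil)) .nil)) .nil)) .nil)) (.cons 228 (.leaf 204 1629 (.cons 202 (.leaf 226 1623 (.cons 203 (.leaf 178 1431 (.cons 200 (.leaf 201 1600 (.cons 230 (.leaf 229 1619 (.cons 252 (.leaf 323 1821 (.cons 179 (.leaf 155 1244 (.cons 277 (.leaf 278 2193 (.cons 253 (.leaf 325 1831 (.cons 254 (.leaf 231 1817 (.leaf 255 1819 .nil)) .nil)) .nil)) .nil)) .nil)) .nil)) .nil)) .nil)) .nil)) .nil)) (.cons 226 (.leaf 202 1623 (.cons 228 (.leaf 204 1629 (.cons 323 (.leaf 250 1815 (.leaf 252 1821 .nil)) .nil)) .nil)) .nil))))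
noncomputable def t36 : T := .cons 180 (.leaf 204 1437 (.cons 179 (.leaf 156 1245 (.cons 154 (.leaf 178 1239 (.cons 155 (.leaf 130 1047 (.cons 250 (.leaf 274 1430 (.leaf 226 1238 .nil)) .nil)) .nil)) .nil)) .nil)) (.cons 178 (.leaf 202 1431 (.cons 179 (.leaf 154 1239 (.cons 156 (.leaf 180 1245 (.cons 155 (.leaf 132 1053 (.cons 250 (.leaf 274 1430 (.leaf 226 1238 .nil)) .nil)) .nil)) .nil)) .nil)) (.cons 204 (.leaf 180 1437 (.cons 299 (.leaf 228 1629 (.cons 226 (.leaf 202 1623 (.cons 205 (.leaf 206 1618 (.cons 224 (.leaf 225 1601 (.cons 250 (.leaf 323 1815 (.cons 179 (.leaf 274 1430 (.leaf 155 1238 .nil)) .nil)) .nil)) .nil)) .nil)) .nil)) .nil)) (.cons 178 (.leaf 202 1431 (.cons 179 (.leaf 154 1239 (.cons 250 (.leaf 274 1430 (.cons 226 (.leaf 155 1238 (.cons 299 (.leaf 323 1815 (.cons 228 (.leaf 204 1629 (.cons 229 (.leaf 230 1810 (.leaf 249 1802 .nil)) .nil)) .nil)) .nil)) .nil))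 .nil)) .nil)) (.cons 202 (.leaf 178 1431 (.cons 204 (.leaf 180 1437 (.cons 299 (.leaf 226 1623 (.leaf 228 1629 .nil)) .nil)) .nil)) (.cons 204 (.leaf 180 1437 (.cons 202 (.leaf 178 1431 (.cons 228 (.leaf 299 1629 (.cons 201 (.leaf 200 1600 (.leaf 229 1608 .nil)) .nil)) .nil)) .nil)) .nil)))))
noncomputable def t37 : T := .cons 322 (.leaf 298 1814 (.cons 204 (.leaf 228 1629 (.cons 323 (.leaf 346 2006 (.cons 324 (.leaf 300 1820 (.leaf 348 2012 .nil)) .nil)) .nil)) .nil)) (.cons 226 (.leaf 202 1623 (.cons 323 (.leaf 250 1815 (.cons 324 (.leaf 300 1820 (.leaf 348 2012 .nil)) .nil)) .nil)) (.cons 226 (.leaf 202 1623 (.cons 204 (.leaf 228 1629 (.cons 322 (.leaf 298 1814 (.cons 323 (.leaf 250 1815 (.leaf 346 2006 .nil)) .nil)) .nil)) .nil)) (.cons 226 (.leaf 202 1623 (.cons 228 (.leaf 204 1629 (.cons 298 (.leaf 322 1814 (.cons 300 (.leaf 324 1820 (.cons 229 (.cons 250 (.leaf 230 1810 (.leaf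 249 1802 .nil)) (.cons 205 (.leaf 206 1617 (.cons 254 (.leaf 253 1808 (.cons 230 (.leaf 255 1816 (.cons 302 (.leaf 278 1647 (.cons 301 (.leaf 274 2195 (.cons 326 (.leaf 325 2384 (.leaf 327 2392 .nil)) .nil)) .nil)) .nil)) .nil)) .nil)) (.cons 205 (.leaf 206 1617 (.cons 249 (.leaf 250 1802 (.cons 225 (.leaf 248 1794 (.cons 200 (.leaf 201 1603 (.cons 224 (.leaf 199 1595 (.cons 152 (.leaf 176 1220 (.cons 273 (.leaf 297 1607 (.cons 274 (.leaf 272 2176 (.leaf 301 2187 .nil)) .nil)) .nil)) .nil)) .nil)) .nil)) .nil)) .nil)) .nil))) .nil)) .nil)) .nil)) .nil)) .nil)))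
noncomputable def t38 : T := .cons 274 (.leaf 298 1622 (.cons 178 (.leaf 202 1431 (.cons 179 (.leaf 154 1239 (.leaf 250 1430 .nil)) .nil)) .nil)) (.cons 274 (.leaf 298 1622 (.cons 179 (.leaf 250 1430 (.cons 180 (.leaf 204 1437 (.leaf 156 1245 .nil)) .nil)) .nil)) (.cons 178 (.leaf 202 1431 (.cons 179 (.leaf 154 1239 (.cons 180 (.leaf 204 1437 (.leaf 156 1245 .nil)) .nil)) .nil)) (.cons 202 (.leaf 178 1431 (.cons 204 (.leaf 180 1437 (.cons 274 (.leaf 298 1622 (.cons 201 (.cons 176 (.leaf 177 1411 (.cons 175 (.leaf 200 1403 (.cons 225 (.leaf 224 1602 (.cons 205 (.leaf 226 1610 (.cons 182 (.leaf 181 1425 (.cons 206 (.leaf 183 1433 (.cons 230 (.leaf 229 1616 (.leaf 231 1624 .nil)) .nil)) .nil)) .nil)) .nil)) .nil)) .nil)) (.cons 176 (.leaf 177 1411 (.cons 224 (.leaf 225 1602 (.cons 229 (.leaf 228 1608 (.cons 205 (.leaf 230 1616 (.cons 182 (.leaf 181 1425 (.cons 206 (.leaf 226 1618 (.leaf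 183 1433 .nil)) .nil)) .nil)) .nil)) .nil)) .nil)) (.cons 176 (.leaf 177 1411 (.cons 200 (.leaf 228 1600 (.leaf 175 1403 .nil)) .nil)) (.cons 228 (.leaf 200 1600 (.leaf 229 1608 .nil)) .nil)))) .nil)) .nil)) .nil)) .nil)))
noncomputable def t39 : T := .cons 202 (.leaf 226 1623 (.cons 228 (.leaf 204 1629 (.cons 203 (.leaf 178 1431 (.cons 298 (.leaf 274 1622 (.leaf 322 1814 .nil)) .nil)) .nil)) .nil)) (.cons 298 (.leaf 322 1814 (.cons 203 (.leaf 274 1622 (.cons 178 (.leaf 202 1431 (.cons 179 (.leaf 154 1239 (.cons 180 (.leaf 204 1437 (.leaf 156 1245 .nil)) .nil)) .nil)) .nil)) .nil)) (.cons 226 (.leaf 202 1623 (.cons 204 (.leaf 228 1629 (.cons 203 (.leaf 180 1437 (.cons 205 (.leaf 206 1618 (.cons 224 (.leaf 225 1601 (.cons 250 (.leaf 323 1815 (.cons 179 (.leaf 274 1430 (.leaf 155 1238 .nil)) .nil)) .nil)) .nil)) .nil)) .nil)) .nil)) (.cons 298 (.leaf 322 1814 (.cons 203 (.leaf 274 1622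 (.cons 204 (.leaf 180 1437 (.leaf 228 1629 .nil)) .nil)) .nil)) (.cons 226 (.leaf 202 1623 (.cons 250 (.leaf 323 1815 (.cons 298 (.leaf 322 1814 (.cons 274 (.leaf 203 1621 (.cons 201 (.leaf 225 1615 (.cons 297 (.leaf 321 1806 (.cons 296 (.leaf 295 2169 (.cons 272 (.leaf 271 2171 (.cons 273 (.leaf 252 1985 (.leaf 300 2176 .nil)) .nil)) .nil)) .nil)) .nil)) .nil)) .nil)) .nil)) .nil)) (.cons 226 (.leaf 202 1623 (.cons 204 (.leaf 228 1629 (.cons 322 (.leaf 298 1814 (.cons 323 (.leaf 250 1815 (.leaf 346 2006 .nil)) .nil)) .nil)) .nil)) .nil)))))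
noncomputable def t40 : T := .cons 250 (.leaf 226 1815 (.cons 228 (.leaf 252 1821 (.cons 324 (.leaf 348 2012 (.cons 347 (.leaf 274 2007 (.cons 370 (.leaf 346 2198 (.cons 371 (.leaf 394 2390 (.cons 395 (.leaf 300 2397 (.cons 396 (.leaf 372 2396 (.leaf 420 2588 .nil)) .nil)) .nil)) .nil)) .nil)) .nil)) .nil)) .nil)) (.cons 250 (.leaf 226 1815 (.cons 228 (.leaf 252 1821 (.cons 347 (.leaf 274 2007 (.cons 348 (.leaf 324 2012 (.leaf 372 2204 .nil)) .nil)) .nil)) .nil)) (.cons 250 (.leaf 226 1815 (.cons 228 (.leaf 252 1821 (.cons 346 (.leaf 322 2006 (.cons 347 (.leaf 274 2007 (.leaf 370 2198 .nil)) .nil)) .nil)) .nil)) (.cons 346 (.leaf 322 2006 (.cons 228 (.leaf 252 1821 (.cons 347 (.leaf 370 2198 (.cons 348 (.leaf 324 2012 (.leaf 372 2204 .nil)) .nil)) .nil)) .nil)) (.cons 346 (.leaf 322 2006 (.cons 226 (.leaf 250 1815 (.cons 347 (.leaf 370 2198 (.cons 348 (.leaf 324 2012 (.leaf 372 2204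 .nil)) .nil)) .nil)) .nil)) (.cons 322 (.leaf 346 2006 (.cons 324 (.leaf 348 2012 (.cons 250 (.leaf 226 1815 (.cons 252 (.leaf 228 1821 (.cons 253 (.cons 274 (.leaf 254 2002 (.leaf 273 1994 .nil)) (.cons 229 (.leaf 230 1809 (.cons 277 (.leaf 278 2000 (.cons 300 (.leaf 301 1830 (.cons 321 (.leaf 320 2369 (.cons 297 (.leaf 296 2371 (.cons 325 (.leaf 298 2376 (.cons 326 (.leaf 327 2395 (.cons 350 (.leaf 349 2576 (.leaf 351 2584 .nil)) .nil)) .nil)) .nil)) .nil)) .nil)) .nil)) .nil)) .nil)) .nil)) .nil)) .nil)) .nil)) .nil)))))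
noncomputable def t41 : T := .cons 227 (.cons 298 (.leaf 322 1814 (.cons 202 (.leaf 226 1623 (.cons 203 (.leaf 178 1431 (.leaf 274 1622 .nil)) .nil)) .nil)) (.cons 298 (.leaf 322 1814 (.cons 203 (.leaf 274 1622 (.cons 178 (.leaf 202 1431 (.cons 179 (.leaf 154 1239 (.cons 180 (.leaf 204 1437 (.leaf 156 1245 .nil)) .nil)) .nil)) .nil)) .nil)) (.cons 226 (.leaf 202 1623 (.cons 323 (.leaf 250 1815 (.cons 228 (.leaf 204 1629 (.leaf 252 1821 .nil)) .nil)) .nil)) (.cons 298 (.leaf 322 1814 (.cons 274 (.leaf 203 1622 (.cons 300 (.leaf 324 1820 (.cons 273 (.leaf 272 2176 (.leaf 301 2187 .nil)) .nil)) .nil)) .nil)) .nil)))) (.cons 227 (.cons 202 (.leaf 226 1623 (.cons 203 (.leaf 178 1431 (.cons 204 (.leaf 180 1437 (.leaf 228 1629 .nil)) .nil)) .nil)) (.cons 298 (.leaf 322 1814 (.cons 274 (.leaf 203 1622 (.cons 300 (.leaf 324 1820 (.cons 273 (.leaf 272 2176 (.leaf 301 2187 .nil)) .nil)) .nil))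 .nil)) (.cons 226 (.leaf 202 1623 (.cons 228 (.leaf 204 1629 (.cons 298 (.leaf 322 1814 (.cons 300 (.leaf 324 1820 (.cons 301 (.cons 274 (.leaf 302 2195 (.leaf 273 2187 .nil)) (.cons 277 (.leaf 278 2193 (.cons 325 (.leaf 326 2384 (.cons 253 (.leaf 252 1831 (.cons 254 (.leaf 229 1808 (.leaf 230 1837 .nil)) .nil)) .nil)) .nil)) .nil)) .nil)) .nil)) .nil)) .nil)) .nil))) (.cons 323 t40 (.cons 227 (.cons 202 (.leaf 226 1623 (.cons 228 (.leaf 204 1629 (.cons 323 (.leaf 252 1821 (.cons 324 (.leaf 300 1820 (.leaf 348 2012 .nil)) .nil)) .nil)) .nil)) (.cons 228 (.leaf 204 1629 (.cons 323 (.leaf 252 1821 (.cons 324 (.leaf 300 1820 (.leaf 348 2012 .nil)) .nil)) .nil)) (.cons 226 (.leaf 202 1623 (.cons 323 (.leaf 250 1815 (.cons 324 (.leaf 300 1820 (.leaf 348 2012 .nil)) .nil)) .nil)) (.cons 226 (.leaf 202 1623 (.cons 204 (.leaf 228 1629 (.cons 203 (.leaf 180 1437 (.cons 205 (.leaf 206 1618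 (.cons 224 (.leaf 225 1601 (.cons 250 (.leaf 323 1815 (.cons 274 (.leaf 298 1621 (.leaf 179 1430 .nil)) .nil)) .nil)) .nil)) .nil)) .nil)) .nil)) (.cons 202 (.leaf 226 1623 (.cons 203 (.leaf 178 1431 (.cons 180 (.leaf 204 1437 (.cons 179 (.leaf 156 1245 (.cons 274 (.leaf 298 1622 (.leaf 250 1430 .nil)) .nil)) .nil)) .nil)) .nil)) .nil))))) (.cons 227 (.cons 228 (.leaf 204 1629 (.cons 323 (.leaf 252 1821 (.cons 324 (.leaf 300 1820 (.leaf 348 2012 .nil)) .nil)) .nil)) (.cons 298 (.leaf 322 1814 (.cons 203 (.leaf 274 1622 (.cons 178 (.leaf 202 1431 (.cons 179 (.leaf 154 1239 (.cons 180 (.leaf 204 1437 (.leaf 156 1245 .nil)) .nil)) .nil)) .nil)) .nil)) (.cons 298 (.leaf 322 1814 (.cons 274 (.leaf 203 1622 (.cons 300 (.leaf 324 1820 (.cons 273 (.leaf 272 2176 (.leaf 301 2187 .nil)) .nil)) .nil)) .nil)) .nil))) (.cons 323 (.cons 226 (.leaf 250 1815 (.cons 228 (.leaf 252 1821 (.cons 346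 (.leaf 322 2006 (.cons 347 (.leaf 370 2198 (.cons 348 (.leaf 324 2012 (.leaf 372 2204 .nil)) .nil)) .nil)) .nil)) .nil)) (.cons 226 (.leaf 250 1815 (.cons 227 (.leaf 202 1623 (.cons 228 (.leaf 204 1629 (.leaf 252 1821 .nil)) .nil)) .nil)) (.cons 324 (.leaf 348 2012 (.cons 227 (.leaf 300 1820 (.cons 228 (.leaf 204 1629 (.leaf 252 1821 .nil)) .nil)) .nil)) (.cons 226 (.leaf 250 1815 (.cons 346 (.leaf 322 2006 (.cons 347 (.leaf 370 2198 (.cons 348 (.leaf 324 2012 (.leaf 372 2204 .nil)) .nil)) .nil)) .nil)) .nil)))) (.cons 227 t39 (.cons 227 (.cons 298 (.leaf 322 1814 (.cons 203 (.leaf 274 1622 (.cons 178 (.leaf 202 1431 (.cons 179 (.leaf 154 1239 (.cons 180 (.leaf 204 1437 (.leaf 156 1245 .nil)) .nil)) .nil)) .nil)) .nil)) (.cons 226 (.leaf 202 1623 (.cons 323 (.leaf 250 1815 (.cons 324 (.leaf 300 1820 (.leaf 348 2012 .nil)) .nil)) .nil)) (.cons 298 (.leaf 322 1814 (.cons 274 (.leaf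 203 1622 (.cons 300 (.leaf 324 1820 (.cons 273 (.leaf 272 2176 (.leaf 301 2187 .nil)) .nil)) .nil)) .nil)) .nil))) (.cons 323 (.cons 226 (.leaf 250 1815 (.cons 228 (.leaf 252 1821 (.cons 346 (.leaf 322 2006 (.cons 347 (.leaf 370 2198 (.cons 348 (.leaf 324 2012 (.leaf 372 2204 .nil)) .nil)) .nil)) .nil)) .nil)) (.cons 226 (.leaf 250 1815 (.cons 227 (.leaf 202 1623 (.cons 228 (.leaf 204 1629 (.leaf 252 1821 .nil)) .nil)) .nil)) (.cons 322 (.leaf 346 2006 (.cons 227 (.leaf 298 1814 (.cons 228 (.leaf 204 1629 (.leaf 252 1821 .nil)) .nil)) .nil)) (.cons 226 (.leaf 250 1815 (.cons 346 (.leaf 322 2006 (.cons 347 (.leaf 370 2198 (.cons 348 (.leaf 324 2012 (.leaf 372 2204 .nil)) .nil)) .nil)) .nil)) .nil)))) .nil))))))))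
noncomputable def t42 : T := .cons 202 (.leaf 226 1623 (.cons 228 (.leaf 204 1629 (.cons 203 (.leaf 178 1431 (.cons 298 (.leaf 274 1622 (.leaf 322 1814 .nil)) .nil)) .nil)) .nil)) (.cons 228 (.leaf 204 1629 (.cons 252 (.leaf 323 1821 (.cons 298 (.leaf 322 1814 (.cons 203 (.leaf 274 1622 (.cons 178 (.leaf 202 1431 (.cons 179 (.leaf 154 1239 (.leaf 155 1244 .nil)) .nil)) .nil)) .nil)) .nil)) .nil)) (.cons 202 (.leaf 226 1623 (.cons 203 (.leaf 178 1431 (.cons 298 (.leaf 274 1622 (.leaf 322 1814 .nil)) .nil)) .nil)) (.cons 226 (.leaf 202 1623 (.cons 204 (.leaf 228 1629 (.cons 203 (.leaf 180 1437 (.cons 205 (.leaf 206 1618 (.cons 224 (.leaf 225 1601 (.cons 250 (.leaf 323 1815 (.cons 179 (.leaf 274 1430 (.leaf 155 1238 .nil)) .nil)) .nil)) .nil)) .nil)) .nil)) .nil)) (.cons 228 (.leaf 204 1629 (.cons 298 (.leaf 322 1814 (.cons 274 (.leaf 203 1622 (.cons 323 (.leaf 252 1821 (.cons 250 (.leaf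 226 1812 (.leaf 347 2007 .nil)) .nil)) .nil)) .nil)) .nil)) (.cons 226 (.leaf 202 1623 (.cons 204 (.leaf 228 1629 (.cons 322 (.leaf 298 1814 (.cons 323 (.leaf 250 1815 (.leaf 346 2006 .nil)) .nil)) .nil)) .nil)) .nil)))))
noncomputable def t43 : T := .cons 298 (.leaf 322 1814 (.cons 203 (.leaf 274 1622 (.cons 178 (.leaf 202 1431 (.cons 179 (.leaf 154 1239 (.cons 180 (.leaf 204 1437 (.leaf 156 1245 .nil)) .nil)) .nil)) .nil)) .nil)) (.cons 298 (.leaf 322 1814 (.cons 203 (.leaf 274 1622 (.cons 204 (.leaf 180 1437 (.leaf 228 1629 .nil)) .nil)) .nil)) (.cons 202 (.leaf 226 1623 (.cons 203 (.leaf 178 1431 (.cons 204 (.leaf 180 1437 (.leaf 228 1629 .nil)) .nil)) .nil)) (.cons 298 (.leaf 322 1814 (.cons 202 (.leaf 226 1623 (.cons 203 (.leaf 178 1431 (.leaf 274 1622 .nil)) .nil)) .nil)) (.cons 226 (.leaf 202 1623 (.cons 228 (.leaf 204 1629 (.cons 298 (.leaf 322 1814 (.cons 300 (.leaf 324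 1820 (.cons 225 (.cons 200 (.leaf 201 1603 (.cons 199 (.leaf 224 1595 (.cons 249 (.leaf 248 1794 (.cons 229 (.leaf 250 1802 (.cons 206 (.leaf 205 1617 (.cons 230 (.leaf 207 1625 (.cons 254 (.leaf 253 1808 (.leaf 255 1816 .nil)) .nil)) .nil)) .nil)) .nil)) .nil)) .nil)) (.cons 200 (.leaf 201 1603 (.cons 248 (.leaf 249 1794 (.cons 253 (.leaf 252 1800 (.cons 229 (.leaf 254 1808 (.cons 206 (.leaf 205 1617 (.cons 230 (.leaf 250 1810 (.leaf 207 1625 .nil)) .nil)) .nil)) .nil)) .nil)) .nil)) (.cons 200 (.leaf 201 1603 (.cons 224 (.leaf 252 1792 (.leaf 199 1595 .nil)) .nil)) (.cons 252 (.leaf 224 1792 (.leaf 253 1800 .nil)) .nil)))) .nil)) .nil)) .nil)) .nil)) .nil))))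
noncomputable def t44 : T := .cons 346 (.leaf 322 2006 (.cons 228 (.leaf 252 1821 (.cons 347 (.leaf 370 2198 (.cons 348 (.leaf 324 2012 (.leaf 372 2204 .nil)) .nil)) .nil)) .nil)) (.cons 250 (.leaf 226 1815 (.cons 228 (.leaf 252 1821 (.cons 324 (.leaf 348 2012 (.cons 347 (.leaf 274 2007 (.cons 370 (.leaf 346 2198 (.cons 371 (.leaf 394 2390 (.cons 395 (.leaf 300 2397 (.cons 396 (.leaf 372 2396 (.leaf 420 2588 .nil)) .nil)) .nil)) .nil)) .nil)) .nil)) .nil)) .nil)) (.cons 250 (.leaf 226 1815 (.cons 228 (.leaf 252 1821 (.cons 347 (.leaf 274 2007 (.cons 348 (.leaf 324 2012 (.leaf 372 2204 .nil)) .nil)) .nil)) .nil)) (.cons 250 (.leaf 226 1815 (.cons 228 (.leaf 252 1821 (.cons 346 (.leaf 322 2006 (.cons 347 (.leaf 274 2007 (.leaf 370 2198 .nil)) .nil)) .nil)) .nil)) (.cons 250 (.leaf 226 1815 (.cons 322 (.leaf 346 2006 (.cons 347 (.leaf 274 2007 (.cons 348 (.leaf 324 2012 (.leaf 372 2204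 .nil)) .nil)) .nil)) .nil)) (.cons 322 (.leaf 346 2006 (.cons 324 (.leaf 348 2012 (.cons 250 (.leaf 226 1815 (.cons 252 (.leaf 228 1821 (.cons 321 (.cons 300 (.leaf 320 2369 (.leaf 301 2377 .nil)) (.cons 296 (.leaf 297 2371 (.cons 320 (.leaf 295 2363 (.cons 344 (.leaf 343 2554 (.leaf 345 2562 .nil)) .nil)) .nil)) (.cons 296 (.leaf 297 2371 (.cons 301 (.leaf 300 2377 (.cons 325 (.leaf 302 2385 (.cons 298 (.leaf 326 2387 (.cons 345 (.leaf 344 2562 (.leaf 274 1998 .nil)) .nil)) .nil)) .nil)) .nil)) .nil))) .nil)) .nil)) .nil)) .nil)) .nil)))))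
noncomputable def t45 : T := .cons 227 (.cons 202 (.leaf 226 1623 (.cons 203 (.leaf 178 1431 (.cons 274 (.leaf 298 1622 (.cons 250 (.leaf 179 1430 (.cons 323 (.leaf 347 2007 (.cons 324 (.leaf 300 1820 (.leaf 348 2012 .nil)) .nil)) .nil)) .nil)) .nil)) .nil)) (.cons 204 (.leaf 228 1629 (.cons 180 (.leaf 203 1437 (.cons 322 (.leaf 298 1814 (.cons 323 (.leaf 346 2006 (.cons 324 (.leaf 300 1820 (.leaf 348 2012 .nil)) .nil)) .nil)) .nil)) .nil)) (.cons 202 (.leaf 226 1623 (.cons 203 (.leaf 178 1431 (.cons 204 (.leaf 180 1437 (.leaf 228 1629 .nil)) .nil)) .nil)) (.cons 202 (.leaf 226 1623 (.cons 228 (.leaf 204 1629 (.cons 322 (.leaf 298 1814 (.cons 323 (.leaf 252 1821 (.leaf 346 2006 .nil)) .nil)) .nil)) .nil)) .nil)))) (.cons 323 t44 (.cons 227 t43 (.cons 227 (.cons 228 (.leaf 204 1629 (.cons 323 (.leaf 252 1821 (.cons 324 (.leaf 300 1820 (.leaf 348 2012 .nil)) .nil)) .nil)) (.cons 298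 (.leaf 322 1814 (.cons 274 (.leaf 203 1622 (.cons 324 (.leaf 300 1820 (.cons 323 (.leaf 348 2012 (.cons 347 (.leaf 250 2007 (.leaf 371 2199 .nil)) .nil)) .nil)) .nil)) .nil)) (.cons 204 (.leaf 228 1629 (.cons 203 (.leaf 180 1437 (.cons 298 (.leaf 274 1622 (.leaf 322 1814 .nil)) .nil)) .nil)) .nil))) (.cons 227 (.cons 202 (.leaf 226 1623 (.cons 203 (.leaf 178 1431 (.cons 274 (.leaf 298 1622 (.cons 250 (.leaf 179 1430 (.cons 323 (.leaf 347 2007 (.cons 324 (.leaf 300 1820 (.leaf 348 2012 .nil)) .nil)) .nil)) .nil)) .nil)) .nil)) (.cons 228 (.leaf 204 1629 (.cons 323 (.leaf 252 1821 (.cons 324 (.leaf 300 1820 (.leaf 348 2012 .nil)) .nil)) .nil)) (.cons 202 (.leaf 226 1623 (.cons 203 (.leaf 178 1431 (.cons 204 (.leaf 180 1437 (.leaf 228 1629 .nil)) .nil)) .nil)) .nil))) (.cons 227 (.cons 226 (.leaf 202 1623 (.cons 323 (.leaf 250 1815 (.cons 324 (.leaf 300 1820 (.leaf 348 2012 .nil)) .nil))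 .nil)) (.cons 298 (.leaf 322 1814 (.cons 274 (.leaf 203 1622 (.cons 324 (.leaf 300 1820 (.cons 323 (.leaf 348 2012 (.cons 347 (.leaf 250 2007 (.leaf 371 2199 .nil)) .nil)) .nil)) .nil)) .nil)) (.cons 202 (.leaf 226 1623 (.cons 203 (.leaf 178 1431 (.cons 180 (.leaf 204 1437 (.cons 179 (.leaf 156 1245 (.cons 274 (.leaf 298 1622 (.leaf 250 1430 .nil)) .nil)) .nil)) .nil)) .nil)) (.cons 202 (.leaf 226 1623 (.cons 178 (.leaf 203 1431 (.cons 322 (.leaf 298 1814 (.cons 323 (.leaf 346 2006 (.cons 324 (.leaf 300 1820 (.leaf 348 2012 .nil)) .nil)) .nil)) .nil)) .nil)) .nil)))) (.cons 227 t42 (.cons 227 (.cons 204 (.leaf 228 1629 (.cons 180 (.leaf 203 1437 (.cons 322 (.leaf 298 1814 (.cons 323 (.leaf 346 2006 (.cons 324 (.leaf 300 1820 (.leaf 348 2012 .nil)) .nil)) .nil)) .nil)) .nil)) (.cons 202 (.leaf 226 1623 (.cons 203 (.leaf 178 1431 (.cons 298 (.leaf 274 1622 (.leaf 322 1814 .nil)) .nil))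 .nil)) (.cons 202 (.leaf 226 1623 (.cons 203 (.leaf 178 1431 (.cons 204 (.leaf 180 1437 (.leaf 228 1629 .nil)) .nil)) .nil)) (.cons 228 (.leaf 204 1629 (.cons 323 (.leaf 252 1821 (.cons 324 (.leaf 300 1820 (.leaf 348 2012 .nil)) .nil)) .nil)) .nil)))) (.cons 323 (.cons 228 (.leaf 252 1821 (.cons 250 (.leaf 226 1815 (.cons 324 (.leaf 348 2012 (.cons 347 (.leaf 274 2007 (.cons 370 (.leaf 346 2198 (.cons 371 (.leaf 394 2390 (.cons 395 (.leaf 300 2397 (.cons 396 (.leaf 372 2396 (.leaf 420 2588 .nil)) .nil)) .nil)) .nil)) .nil)) .nil)) .nil)) .nil)) (.cons 226 (.leaf 250 1815 (.cons 227 (.leaf 202 1623 (.cons 228 (.leaf 204 1629 (.leaf 252 1821 .nil)) .nil)) .nil)) (.cons 228 (.leaf 252 1821 (.cons 346 (.leaf 322 2006 (.cons 347 (.leaf 370 2198 (.cons 348 (.leaf 324 2012 (.leaf 372 2204 .nil)) .nil)) .nil)) .nil)) (.cons 324 (.leaf 348 2012 (.cons 226 (.leaf 250 1815 (.cons 227 (.leaf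 202 1623 (.leaf 300 1820 .nil)) .nil)) .nil)) .nil)))) (.cons 227 (.cons 202 (.leaf 226 1623 (.cons 228 (.leaf 204 1629 (.cons 322 (.leaf 298 1814 (.cons 323 (.leaf 252 1821 (.leaf 346 2006 .nil)) .nil)) .nil)) .nil)) (.cons 202 (.leaf 226 1623 (.cons 178 (.leaf 203 1431 (.cons 322 (.leaf 298 1814 (.cons 323 (.leaf 346 2006 (.cons 324 (.leaf 300 1820 (.leaf 348 2012 .nil)) .nil)) .nil)) .nil)) .nil)) (.cons 228 (.leaf 204 1629 (.cons 323 (.leaf 252 1821 (.cons 324 (.leaf 300 1820 (.leaf 348 2012 .nil)) .nil)) .nil)) (.cons 202 (.leaf 226 1623 (.cons 203 (.leaf 178 1431 (.cons 204 (.leaf 180 1437 (.leaf 228 1629 .nil)) .nil)) .nil)) .nil)))) .nil)))))))))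
noncomputable def t46 : T := .cons 204 (.leaf 228 1629 (.cons 203 (.leaf 180 1437 (.cons 179 (.leaf 274 1430 (.cons 178 (.leaf 202 1431 (.leaf 154 1239 .nil)) .nil)) .nil)) .nil)) (.cons 204 (.leaf 228 1629 (.cons 203 (.leaf 180 1437 (.cons 179 (.leaf 274 1430 (.cons 154 (.leaf 178 1239 (.cons 155 (.leaf 226 1238 (.leaf 130 1047 .nil)) .nil)) .nil)) .nil)) .nil)) (.cons 202 (.leaf 226 1623 (.cons 203 (.leaf 178 1431 (.cons 274 (.leaf 179 1430 (.cons 300 (.leaf 324 1820 (.cons 273 (.leaf 272 2176 (.cons 252 (.leaf 253 1994 (.cons 249 (.cons 248 (.leaf 247 1976 (.leaf 228 1793 .nil)) (.cons 225 (.leaf 224 1795 (.cons 201 (.leaf 177 1420 (.cons 200 (.leaf 228 1600 (.leaf 176 1415 .nil)) .nil)) .nil)) (.cons 224 (.leaf 225 1795 (.cons 248 (.leaf 247 1976 (.leaf 223 1787 .nil)) .nil)) .nil))) .nil)) .nil)) .nil)) .nil)) .nil)) .nil)) (.cons 202 (.leaf 226 1623 (.cons 203 (.leaf 178 1431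 (.cons 179 (.leaf 274 1430 (.cons 180 (.leaf 204 1437 (.leaf 156 1245 .nil)) .nil)) .nil)) .nil)) (.cons 226 (.leaf 202 1623 (.cons 228 (.leaf 204 1629 (.cons 249 (.leaf 248 1793 (.cons 252 (.cons 225 (.leaf 224 1792 (.leaf 253 1800 .nil)) (.cons 253 (.leaf 254 1811 (.cons 273 (.leaf 272 1986 (.leaf 274 1994 .nil)) .nil)) (.cons 225 (.leaf 224 1792 (.cons 201 (.leaf 200 1603 (.cons 177 (.leaf 153 1228 (.leaf 274 1420 .nil)) .nil)) .nil)) .nil))) .nil)) .nil)) .nil)) (.cons 202 (.leaf 226 1623 (.cons 203 (.leaf 178 1431 (.cons 204 (.leaf 180 1437 (.leaf 228 1629 .nil)) .nil)) .nil)) .nil)))))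
noncomputable def t47 : T := .cons 323 (.leaf 226 1815 (.cons 324 (.leaf 348 2012 (.cons 227 (.leaf 300 1820 (.cons 204 (.leaf 228 1629 (.cons 203 (.leaf 180 1437 (.cons 178 (.leaf 202 1431 (.cons 179 (.leaf 154 1239 (.leaf 274 1430 .nil)) .nil)) .nil)) .nil)) .nil)) .nil)) .nil)) (.cons 227 t46 (.cons 323 (.cons 324 (.leaf 348 2012 (.cons 227 (.leaf 300 1820 (.cons 204 (.leaf 228 1629 (.cons 203 (.leaf 180 1437 (.cons 178 (.leaf 202 1431 (.cons 179 (.leaf 154 1239 (.leaf 274 1430 .nil)) .nil)) .nil)) .nil)) .nil)) .nil)) (.cons 346 (.leaf 322 2006 (.cons 347 (.leaf 274 2007 (.leaf 370 2198 .nil)) .nil)) (.cons 324 (.leaf 348 2012 (.cons 300 (.leaf 227 1820 (.cons 322 (.leaf 346 2006 (.cons 301 (.leaf 302 2386 (.leaf 321 2377 .nil)) .nil)) .nil)) .nil)) .nil))) (.cons 323 (.leaf 226 1815 (.cons 346 (.leaf 322 2006 (.cons 347 (.leaf 274 2007 (.leaf 370 2198 .nil)) .nil)) .nil)) (.cons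 323 (.leaf 226 1815 (.cons 324 (.leaf 348 2012 (.cons 300 (.leaf 227 1820 (.cons 322 (.leaf 346 2006 (.cons 301 (.leaf 302 2386 (.leaf 321 2377 .nil)) .nil)) .nil)) .nil)) .nil)) .nil))))
noncomputable def t48 : T := .cons 223 (.leaf 224 1787 (.cons 247 (.leaf 222 1779 (.cons 271 (.leaf 272 1978 (.leaf 270 1970 .nil)) .nil)) .nil)) (.cons 271 (.leaf 272 1978 (.cons 247 (.leaf 270 1970 (.cons 222 (.leaf 223 1779 (.cons 226 (.leaf 227 1785 (.cons 246 (.leaf 221 1771 (.leaf 225 1777 .nil)) .nil)) .nil)) .nil)) .nil)) (.cons 223 (.leaf 224 1787 (.cons 247 (.leaf 222 1779 (.cons 226 (.leaf 227 1785 (.cons 178 (.leaf 202 1428 (.cons 246 (.leaf 225 1777 (.cons 270 (.leaf 271 1970 (.leaf 269 1962 .nil)) .nil)) .nil)) .nil)) .nil)) .nil)) (.cons 272 (.leaf 271 1978 (.cons 252 (.leaf 273 1986 (.cons 225 (.leaf 224 1795 (.cons 177 (.leaf 201 1414 (.cons 226 (.leaf 253 1803 (.cons 247 (.leaf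 227 1785 (.leaf 246 1777 .nil)) .nil)) .nil)) .nil)) .nil)) .nil)) (.cons 223 (.leaf 224 1787 (.cons 247 (.leaf 222 1779 (.cons 226 (.leaf 227 1785 (.cons 202 (.leaf 178 1428 (.cons 225 (.leaf 246 1777 (.cons 252 (.leaf 253 1803 (.cons 273 (.leaf 272 1986 (.leaf 297 1613 .nil)) .nil)) .nil)) .nil)) .nil)) .nil)) .nil)) (.cons 224 (.leaf 223 1787 (.cons 272 (.leaf 271 1978 (.cons 200 (.cons 175 (.leaf 199 1407 (.cons 151 (.leaf 176 1215 (.cons 201 (.leaf 177 1413 (.cons 296 (.leaf 225 1605 (.cons 319 (.leaf 295 1790 (.cons 320 (.leaf 343 1982 (.cons 321 (.leaf 297 1796 (.leaf 345 1988 .nil)) .nil)) .nil)) .nil)) .nil)) .nil)) .nil)) (.cons 175 (.leaf 199 1407 (.cons 176 (.leaf 273 1412 (.leaf 151 1215 .nil)) .nil)) (.cons 175 (.leaf 199 1407 (.cons 177 (.leaf 201 1413 (.cons 297 (.leaf 273 1604 (.cons 296 (.leaf 321 1796 (.cons 319 (.leaf 295 1790 (.cons 320 (.leaf 225 1797 (.leaf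 343 1982 .nil)) .nil)) .nil)) .nil)) .nil)) .nil)) (.cons 273 (.leaf 252 1986 (.leaf 176 1412 .nil)) .nil)))) .nil)) .nil)) .nil)))))
noncomputable def t49 : T := .cons 202 (.leaf 178 1428 (.cons 299 (.leaf 227 1623 (.leaf 274 1620 .nil)) .nil)) (.cons 299 (.leaf 323 1815 (.cons 248 (.cons 247 (.leaf 274 1976 (.leaf 227 1785 .nil)) (.cons 224 (.leaf 223 1787 (.cons 225 (.leaf 252 1795 (.cons 200 (.cons 176 (.leaf 152 1220 (.leaf 273 1412 .nil)) (.cons 199 (.leaf 227 1595 (.cons 198 (.leaf 201 1584 (.leaf 197 1576 .nil)) .nil)) .nil)) .nil)) .nil)) (.cons 247 (.leaf 274 1976 (.cons 223 (.leaf 224 1787 (.leaf 222 1779 .nil)) .nil)) .nil))) .nil)) (.cons 202 (.leaf 178 1428 (.cons 248 (.cons 224 (.leaf 223 1787 (.cons 247 (.leaf 274 1976 (.leaf 227 1785 .nil)) .nil)) (.cons 224 (.leaf 223 1787 (.cons 225 (.leaf 252 1795 (.cons 273 (.leaf 297 1613 (.cons 200 (.leaf 176 1412 (.cons 199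 (.leaf 227 1595 (.cons 198 (.leaf 201 1584 (.leaf 197 1576 .nil)) .nil)) .nil)) .nil)) .nil)) .nil)) (.cons 247 (.leaf 274 1976 (.leaf 227 1785 .nil)) (.cons 223 (.leaf 224 1787 (.cons 247 (.leaf 274 1976 (.leaf 222 1779 .nil)) .nil)) .nil)))) .nil)) (.cons 202 (.leaf 178 1428 (.cons 299 (.leaf 274 1620 (.leaf 323 1815 .nil)) .nil)) (.cons 202 (.leaf 178 1428 (.cons 299 (.leaf 227 1623 (.leaf 323 1815 .nil)) .nil)) .nil))))
noncomputable def t50 : T := .cons 273 (.leaf 272 1986 (.cons 225 (.leaf 224 1795 (.cons 202 (.cons 253 (.leaf 226 1803 (.leaf 274 1994 .nil)) (.cons 253 (.leaf 274 1994 (.cons 230 (.leaf 229 1809 (.cons 254 (.leaf 231 1817 (.cons 278 (.leaf 277 2000 (.leaf 279 2008 .nil)) .nil)) .nil)) .nil)) (.cons 178 (.leaf 226 1428 (.leaf 201 1421 .nil)) .nil))) .nil)) .nil)) (.cons 225 (.leaf 224 1795 (.cons 226 (.leaf 253 1803 (.cons 202 (.leaf 178 1428 (.cons 299 (.leaf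 227 1623 (.leaf 274 1620 .nil)) .nil)) .nil)) .nil)) (.cons 273 (.leaf 272 1986 (.cons 253 (.leaf 274 1994 (.cons 230 (.leaf 229 1809 (.cons 254 (.leaf 231 1817 (.cons 278 (.leaf 277 2000 (.leaf 279 2008 .nil)) .nil)) .nil)) .nil)) .nil)) (.cons 273 (.leaf 272 1986 (.cons 225 (.leaf 224 1795 (.cons 202 (.cons 178 (.leaf 226 1428 (.leaf 201 1421 .nil)) (.cons 201 (.leaf 178 1421 (.cons 176 (.leaf 200 1415 (.cons 177 (.leaf 274 1420 (.leaf 152 1223 .nil)) .nil)) .nil)) (.cons 226 (.leaf 297 1613 (.cons 299 (.leaf 227 1623 (.leaf 274 1620 .nil)) .nil)) .nil))) .nil)) .nil)) (.cons 225 (.leaf 224 1795 (.cons 226 (.leaf 253 1803 (.cons 202 (.leaf 178 1428 (.cons 299 (.leaf 227 1623 (.leaf 323 1815 .nil)) .nil)) .nil)) .nil)) .nil))))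
noncomputable def t51 : T := .cons 226 (.cons 202 (.leaf 178 1428 (.cons 299 (.leaf 227 1623 (.leaf 274 1620 .nil)) .nil)) (.cons 299 (.leaf 323 1815 (.cons 248 (.cons 247 (.leaf 274 1976 (.leaf 227 1785 .nil)) (.cons 272 (.leaf 271 1978 (.cons 252 (.leaf 273 1986 (.cons 253 (.leaf 225 1803 (.cons 254 (.leaf 274 2002 (.leaf 227 1811 .nil)) .nil)) .nil)) .nil)) (.cons 247 (.leaf 274 1976 (.cons 223 (.leaf 224 1787 (.leaf 222 1779 .nil)) .nil)) (.cons 227 (.leaf 247 1785 (.cons 272 (.leaf 271 1978 (.cons 252 (.leaf 273 1986 (.cons 253 (.leaf 225 1803 (.leaf 254 1811 .nil)) .nil)) .nil)) .nil)) .nil)))) .nil)) (.cons 202 (.leaf 178 1428 (.cons 273 (.cons 297 (.leaf 274 1614 (.leaf 321 1805 .nil)) (.cons 252 (.leaf 272 1986 (.cons 253 (.leaf 225 1803 (.leaf 274 1994 .nil)) .nil)) (.cons 297 (.leaf 321 1805 (.leaf 225 1613 .nil)) .nil))) .nil)) (.cons 202 (.leaf 178 1428 (.cons 299 (.leaf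 227 1623 (.leaf 323 1815 .nil)) .nil)) .nil)))) (.cons 252 t50 (.cons 248 (.cons 223 (.leaf 224 1787 (.cons 247 (.leaf 274 1976 (.leaf 222 1779 .nil)) .nil)) (.cons 224 (.leaf 223 1787 (.cons 272 (.leaf 271 1978 (.cons 200 (.cons 175 (.leaf 199 1407 (.cons 151 (.leaf 176 1215 (.cons 201 (.leaf 177 1413 (.cons 296 (.leaf 225 1605 (.cons 319 (.leaf 295 1790 (.cons 320 (.leaf 343 1982 (.cons 321 (.leaf 297 1796 (.leaf 345 1988 .nil)) .nil)) .nil)) .nil)) .nil)) .nil)) .nil)) (.cons 175 (.leaf 199 1407 (.cons 176 (.leaf 273 1412 (.leaf 151 1215 .nil)) .nil)) (.cons 175 (.leaf 199 1407 (.cons 177 (.leaf 201 1413 (.cons 297 (.leaf 273 1604 (.cons 296 (.leaf 321 1796 (.cons 319 (.leaf 295 1790 (.cons 320 (.leaf 225 1797 (.leaf 343 1982 .nil)) .nil)) .nil)) .nil)) .nil)) .nil)) (.cons 273 (.leaf 252 1986 (.leaf 176 1412 .nil)) .nil)))) .nil)) .nil)) (.cons 247 (.leaf 274 1976 (.cons 271 (.leaf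 272 1978 (.leaf 270 1970 .nil)) .nil)) .nil))) (.cons 248 (.cons 223 (.leaf 224 1787 (.cons 247 (.leaf 274 1976 (.leaf 222 1779 .nil)) .nil)) (.cons 272 (.leaf 271 1978 (.cons 224 (.leaf 223 1787 (.cons 200 (.cons 175 (.leaf 199 1407 (.cons 151 (.leaf 176 1215 (.cons 201 (.leaf 177 1413 (.cons 296 (.leaf 225 1605 (.cons 319 (.leaf 295 1790 (.cons 320 (.leaf 343 1982 (.cons 321 (.leaf 297 1796 (.leaf 345 1988 .nil)) .nil)) .nil)) .nil)) .nil)) .nil)) .nil)) (.cons 175 (.leaf 199 1407 (.cons 177 (.leaf 201 1413 (.cons 297 (.leaf 273 1604 (.cons 296 (.leaf 321 1796 (.cons 319 (.leaf 295 1790 (.cons 320 (.leaf 225 1797 (.leaf 343 1982 .nil)) .nil)) .nil)) .nil)) .nil)) .nil)) (.cons 175 (.leaf 199 1407 (.cons 176 (.leaf 273 1412 (.leaf 151 1215 .nil)) .nil)) (.cons 273 (.leaf 176 1412 (.leaf 297 1604 .nil)) .nil)))) .nil)) .nil)) (.cons 247 (.leaf 274 1976 (.cons 271 (.leaf 272 1978 (.leaf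 270 1970 .nil)) .nil)) .nil))) (.cons 248 (.cons 224 (.leaf 223 1787 (.cons 225 (.leaf 252 1795 (.cons 272 (.leaf 271 1978 (.cons 201 (.leaf 177 1414 (.leaf 296 1605 .nil)) .nil)) .nil)) .nil)) (.cons 247 (.leaf 274 1976 (.cons 271 (.leaf 272 1978 (.leaf 270 1970 .nil)) .nil)) (.cons 247 (.leaf 274 1976 (.cons 223 (.leaf 224 1787 (.leaf 222 1779 .nil)) .nil)) .nil))) (.cons 226 t49 (.cons 248 t48 (.cons 226 (.cons 299 (.leaf 323 1815 (.cons 248 (.cons 247 (.leaf 274 1976 (.leaf 227 1785 .nil)) (.cons 202 (.leaf 178 1428 (.leaf 227 1623 .nil)) (.cons 202 (.leaf 178 1428 (.leaf 274 1620 .nil)) .nil))) .nil)) (.cons 299 (.leaf 323 1815 (.cons 248 (.cons 247 (.leaf 274 1976 (.leaf 227 1785 .nil)) (.cons 272 (.leaf 271 1978 (.cons 252 (.leaf 273 1986 (.cons 253 (.leaf 225 1803 (.cons 254 (.leaf 274 2002 (.leaf 227 1811 .nil)) .nil)) .nil)) .nil)) (.cons 247 (.leaf 227 1785 (.cons 271 (.leaf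 272 1978 (.leaf 270 1970 .nil)) .nil)) (.cons 247 (.leaf 274 1976 (.cons 271 (.leaf 272 1978 (.leaf 270 1970 .nil)) .nil)) .nil)))) .nil)) (.cons 202 (.leaf 178 1428 (.cons 273 (.cons 297 (.leaf 274 1614 (.leaf 321 1805 .nil)) (.cons 252 (.leaf 272 1986 (.cons 253 (.leaf 225 1803 (.leaf 274 1994 .nil)) .nil)) (.cons 297 (.leaf 321 1805 (.leaf 225 1613 .nil)) .nil))) .nil)) (.cons 202 (.leaf 178 1428 (.cons 299 (.leaf 227 1623 (.leaf 323 1815 .nil)) .nil)) .nil)))) (.cons 248 (.cons 223 (.leaf 224 1787 (.cons 247 (.leaf 274 1976 (.leaf 222 1779 .nil)) .nil)) (.cons 224 (.leaf 223 1787 (.cons 272 (.leaf 271 1978 (.cons 273 (.leaf 252 1986 (.cons 200 (.leaf 176 1412 (.leaf 297 1604 .nil)) .nil)) .nil)) .nil)) (.cons 247 (.leaf 274 1976 (.cons 271 (.leaf 272 1978 (.leaf 270 1970 .nil)) .nil)) .nil))) .nil))))))))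
noncomputable def t52 : T := .cons 252 (.leaf 273 1986 (.cons 225 (.leaf 224 1795 (.cons 229 (.leaf 228 1801 (.cons 253 (.leaf 226 1803 (.leaf 230 1809 .nil)) .nil)) .nil)) .nil)) (.cons 248 (.leaf 271 1978 (.cons 224 (.leaf 223 1787 (.cons 200 (.cons 175 (.leaf 199 1407 (.cons 151 (.leaf 176 1215 (.cons 201 (.leaf 177 1413 (.cons 296 (.leaf 225 1605 (.cons 319 (.leaf 295 1790 (.cons 320 (.leaf 343 1982 (.cons 321 (.leaf 297 1796 (.leaf 345 1988 .nil)) .nil)) .nil)) .nil)) .nil)) .nil)) .nil)) (.cons 175 (.leaf 199 1407 (.cons 177 (.leaf 201 1413 (.cons 297 (.leaf 273 1604 (.cons 296 (.leaf 321 1796 (.cons 319 (.leaf 295 1790 (.cons 320 (.leaf 225 1797 (.leaf 343 1982 .nil)) .nil)) .nil)) .nil)) .nil)) .nil)) (.cons 175 (.leaf 199 1407 (.cons 176 (.leaf 273 1412 (.leaf 151 1215 .nil)) .nil)) (.cons 273 (.leaf 176 1412 (.leaf 297 1604 .nil)) .nil)))) .nil)) .nil)) (.cons 248 (.leaf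 271 1978 (.cons 224 (.leaf 223 1787 (.cons 225 (.leaf 252 1795 (.cons 201 (.leaf 177 1414 (.leaf 296 1605 .nil)) .nil)) .nil)) .nil)) (.cons 273 (.leaf 252 1986 (.cons 271 (.leaf 248 1978 (.leaf 270 1969 .nil)) .nil)) .nil)))
noncomputable def t53 : T := .cons 271 (.leaf 272 1978 (.cons 247 (.leaf 270 1970 (.cons 222 (.leaf 223 1779 (.cons 226 (.leaf 227 1785 (.cons 246 (.leaf 221 1771 (.leaf 225 1777 .nil)) .nil)) .nil)) .nil)) .nil)) (.cons 223 (.leaf 224 1787 (.cons 247 (.leaf 222 1779 (.cons 226 (.leaf 227 1785 (.cons 178 (.leaf 202 1428 (.cons 246 (.leaf 225 1777 (.cons 270 (.leaf 271 1970 (.leaf 269 1962 .nil)) .nil)) .nil)) .nil)) .nil)) .nil)) (.cons 272 (.leaf 271 1978 (.cons 252 (.leaf 273 1986 (.cons 225 (.leaf 224 1795 (.cons 177 (.leaf 201 1414 (.cons 226 (.leaf 253 1803 (.cons 247 (.leaf 227 1785 (.leaf 246 1777 .nil)) .nil)) .nil)) .nil)) .nil)) .nil)) (.cons 223 (.leaf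 224 1787 (.cons 247 (.leaf 222 1779 (.cons 226 (.leaf 227 1785 (.cons 202 (.leaf 178 1428 (.cons 225 (.leaf 246 1777 (.cons 252 (.leaf 253 1803 (.cons 273 (.leaf 272 1986 (.leaf 297 1613 .nil)) .nil)) .nil)) .nil)) .nil)) .nil)) .nil)) (.cons 224 (.leaf 223 1787 (.cons 225 (.leaf 252 1795 (.cons 272 (.leaf 271 1978 (.cons 201 (.leaf 177 1414 (.leaf 296 1605 .nil)) .nil)) .nil)) .nil)) (.cons 272 (.leaf 271 1978 (.cons 224 (.leaf 223 1787 (.cons 273 (.leaf 252 1986 (.cons 200 (.leaf 176 1412 (.leaf 297 1604 .nil)) .nil)) .nil)) .nil)) .nil)))))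
noncomputable def t54 : T := .cons 248 (.cons 224 (.leaf 223 1787 (.cons 225 (.leaf 252 1795 (.cons 272 (.leaf 271 1978 (.cons 201 (.leaf 177 1414 (.leaf 296 1605 .nil)) .nil)) .nil)) .nil)) (.cons 227 (.leaf 228 1793 (.cons 226 (.leaf 247 1785 (.cons 202 (.leaf 178 1428 (.leaf 299 1623 .nil)) .nil)) .nil)) .nil)) (.cons 252 (.cons 228 (.leaf 229 1801 (.cons 180 (.leaf 204 1438 (.cons 225 (.leaf 224 1795 (.cons 226 (.leaf 253 1803 (.cons 299 (.leaf 323 1821 (.cons 202 (.leaf 178 1428 (.leaf 227 1623 .nil)) .nil)) .nil)) .nil)) .nil)) .nil)) (.cons 225 (.leaf 224 1795 (.cons 226 (.leaf 253 1803 (.cons 202 (.leaf 178 1428 (.cons 299 (.leaf 227 1623 (.leaf 323 1815 .nil)) .nil)) .nil)) .nil)) (.cons 228 (.leaf 229 1801 (.cons 204 (.leaf 180 1438 (.cons 299 (.leaf 227 1629 (.leaf 323 1821 .nil)) .nil)) .nil)) (.cons 225 (.leaf 224 1795 (.cons 229 (.leaf 228 1801 (.cons 253 (.leaf 226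 1803 (.leaf 230 1809 .nil)) .nil)) .nil)) .nil)))) (.cons 252 (.cons 228 (.leaf 229 1801 (.cons 180 (.leaf 204 1438 (.cons 248 (.leaf 227 1793 (.cons 272 (.leaf 271 1978 (.leaf 273 1986 .nil)) .nil)) .nil)) .nil)) (.cons 224 (.leaf 225 1795 (.cons 248 (.leaf 223 1787 (.cons 272 (.leaf 271 1978 (.leaf 273 1986 .nil)) .nil)) .nil)) (.cons 228 (.leaf 229 1801 (.cons 204 (.leaf 180 1438 (.cons 299 (.leaf 227 1629 (.leaf 323 1821 .nil)) .nil)) .nil)) .nil))) (.cons 248 (.cons 223 (.leaf 224 1787 (.cons 247 (.leaf 222 1779 (.cons 271 (.leaf 272 1978 (.leaf 270 1970 .nil)) .nil)) .nil)) (.cons 227 (.leaf 228 1793 (.cons 226 (.leaf 247 1785 (.cons 202 (.leaf 178 1428 (.leaf 299 1623 .nil)) .nil)) .nil)) (.cons 227 (.leaf 228 1793 (.cons 224 (.leaf 223 1787 (.cons 272 (.leaf 271 1978 (.cons 200 (.cons 175 (.leaf 199 1407 (.cons 151 (.leaf 176 1215 (.cons 201 (.leaf 177 1413 (.cons 296 (.leaf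 225 1605 (.cons 319 (.leaf 295 1790 (.cons 320 (.leaf 343 1982 (.cons 321 (.leaf 297 1796 (.leaf 345 1988 .nil)) .nil)) .nil)) .nil)) .nil)) .nil)) .nil)) (.cons 175 (.leaf 199 1407 (.cons 177 (.leaf 201 1413 (.cons 297 (.leaf 273 1604 (.cons 296 (.leaf 321 1796 (.cons 319 (.leaf 295 1790 (.cons 320 (.leaf 225 1797 (.leaf 343 1982 .nil)) .nil)) .nil)) .nil)) .nil)) .nil)) (.cons 175 (.leaf 199 1407 (.cons 176 (.leaf 273 1412 (.leaf 151 1215 .nil)) .nil)) (.cons 273 (.leaf 176 1412 (.leaf 297 1604 .nil)) .nil)))) .nil)) .nil)) .nil)) .nil))) (.cons 248 t53 (.cons 272 t52 (.cons 272 (.cons 252 (.leaf 273 1986 (.cons 228 (.leaf 229 1801 (.cons 204 (.leaf 180 1438 (.cons 299 (.leaf 227 1629 (.leaf 323 1821 .nil)) .nil)) .nil)) .nil)) (.cons 248 (.leaf 271 1978 (.cons 227 (.leaf 228 1793 (.cons 226 (.leaf 247 1785 (.cons 202 (.leaf 178 1428 (.leaf 299 1623 .nil)) .nil)) .nil)) .nil)) (.cons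 273 (.leaf 252 1986 (.cons 271 (.leaf 248 1978 (.leaf 270 1969 .nil)) .nil)) .nil))) .nil))))))
noncomputable def t55 : T := .cons 204 (.leaf 228 1629 (.cons 203 (.leaf 180 1437 (.cons 179 (.leaf 274 1430 (.cons 178 (.leaf 202 1431 (.leaf 154 1239 .nil)) .nil)) .nil)) .nil)) (.cons 204 (.leaf 228 1629 (.cons 203 (.leaf 180 1437 (.cons 179 (.leaf 274 1430 (.cons 154 (.leaf 178 1239 (.cons 155 (.leaf 226 1238 (.leaf 130 1047 .nil)) .nil)) .nil)) .nil)) .nil)) (.cons 202 (.leaf 226 1623 (.cons 203 (.leaf 178 1431 (.cons 179 (.leaf 274 1430 (.cons 180 (.leaf 204 1437 (.leaf 156 1245 .nil)) .nil)) .nil)) .nil)) (.cons 300 (.leaf 324 1820 (.cons 203 (.cons 202 (.leaf 178 1431 (.leaf 226 1623 .nil)) (.cons 179 (.leaf 274 1430 (.cons 154 (.leaf 178 1239 (.cons 155 (.leaf 226 1238 (.leaf 130 1047 .nil)) .nil)) .nil)) (.cons 179 (.leaf 274 1430 (.cons 178 (.leaf 202 1431 (.leaf 154 1239 .nil))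 .nil)) (.cons 226 (.leaf 202 1623 (.cons 179 (.leaf 274 1430 (.leaf 155 1238 .nil)) .nil)) .nil)))) .nil)) (.cons 226 (.leaf 202 1623 (.cons 228 (.leaf 204 1629 (.cons 229 (.leaf 230 1810 (.cons 205 (.leaf 206 1617 (.cons 253 (.leaf 254 1808 (.cons 225 (.leaf 252 1800 (.cons 200 (.leaf 201 1603 (.cons 224 (.leaf 223 1784 (.leaf 199 1595 .nil)) .nil)) .nil)) .nil)) .nil)) .nil)) .nil)) .nil)) .nil))))
noncomputable def t56 : T := .cons 323 (.leaf 226 1815 (.cons 324 (.leaf 348 2012 (.cons 227 (.leaf 300 1820 (.cons 204 (.leaf 228 1629 (.cons 203 (.leaf 180 1437 (.cons 178 (.leaf 202 1431 (.cons 179 (.leaf 154 1239 (.leaf 274 1430 .nil)) .nil)) .nil)) .nil)) .nil)) .nil)) .nil)) (.cons 227 t55 (.cons 323 (.cons 324 (.leaf 348 2012 (.cons 227 (.leaf 300 1820 (.cons 204 (.leaf 228 1629 (.cons 203 (.leaf 180 1437 (.cons 178 (.leaf 202 1431 (.cons 179 (.leaf 154 1239 (.leaf 274 1430 .nil))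 .nil)) .nil)) .nil)) .nil)) .nil)) (.cons 346 (.leaf 322 2006 (.cons 347 (.leaf 274 2007 (.leaf 370 2198 .nil)) .nil)) (.cons 324 (.leaf 348 2012 (.cons 300 (.leaf 227 1820 (.cons 322 (.leaf 346 2006 (.cons 301 (.leaf 302 2386 (.leaf 321 2377 .nil)) .nil)) .nil)) .nil)) .nil))) (.cons 323 (.leaf 226 1815 (.cons 346 (.leaf 322 2006 (.cons 347 (.leaf 274 2007 (.leaf 370 2198 .nil)) .nil)) .nil)) (.cons 323 (.leaf 226 1815 (.cons 324 (.leaf 348 2012 (.cons 300 (.leaf 227 1820 (.cons 322 (.leaf 346 2006 (.cons 301 (.leaf 302 2386 (.leaf 321 2377 .nil)) .nil)) .nil)) .nil)) .nil)) .nil))))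
noncomputable def t57 : T := .cons 253 (.cons 225 (.leaf 226 1803 (.cons 229 (.leaf 230 1809 (.cons 249 (.leaf 224 1795 (.leaf 228 1801 .nil)) .nil)) .nil)) (.cons 274 (.leaf 254 2002 (.leaf 273 1994 .nil)) .nil)) (.cons 249 (.cons 224 (.leaf 225 1795 (.cons 228 (.leaf 229 1801 (.cons 248 (.leaf 223 1787 (.leaf 227 1793 .nil)) .nil)) .nil)) (.cons 224 (.leaf 225 1795 (.cons 248 (.leaf 223 1787 (.cons 272 (.leaf 271 1978 (.leaf 273 1986 .nil)) .nil)) .nil)) (.cons 228 (.leaf 229 1801 (.cons 180 (.leaf 204 1438 (.cons 248 (.leaf 227 1793 (.cons 272 (.leaf 271 1978 (.leaf 273 1986 .nil)) .nil)) .nil)) .nil)) (.cons 224 (.leaf 225 1795 (.cons 228 (.leaf 229 1801 (.cons 204 (.leaf 180 1438 (.cons 299 (.leaf 227 1629 (.leaf 323 1821 .nil)) .nil)) .nil)) .nil)) .nil)))) (.cons 253 (.cons 274 (.leaf 254 2002 (.leaf 273 1994 .nil)) (.cons 226 (.leaf 225 1803 (.cons 254 (.leaf 227 1811 (.cons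 278 (.leaf 277 2000 (.leaf 279 2008 .nil)) .nil)) .nil)) (.cons 273 (.leaf 274 1994 (.cons 225 (.leaf 226 1803 (.cons 249 (.leaf 224 1795 (.leaf 272 1986 .nil)) .nil)) .nil)) .nil))) (.cons 253 (.cons 274 (.leaf 254 2002 (.leaf 273 1994 .nil)) (.cons 226 (.leaf 225 1803 (.cons 227 (.leaf 254 1811 (.cons 229 (.leaf 230 1809 (.cons 277 (.leaf 278 2000 (.cons 299 (.leaf 323 1815 (.cons 204 (.leaf 228 1629 (.cons 180 (.leaf 203 1437 (.leaf 205 1447 .nil)) .nil)) .nil)) .nil)) .nil)) .nil)) .nil)) (.cons 274 (.leaf 273 1994 (.cons 229 (.leaf 230 1809 (.cons 277 (.leaf 278 2000 (.cons 228 (.cons 204 (.leaf 180 1444 (.leaf 301 1639 .nil)) (.cons 299 (.leaf 323 1821 (.cons 301 (.leaf 325 1831 (.cons 300 (.leaf 302 2195 (.leaf 324 1830 .nil)) .nil)) .nil)) (.cons 204 (.leaf 180 1444 (.cons 299 (.leaf 227 1629 (.leaf 323 1821 .nil)) .nil)) .nil))) .nil)) .nil)) .nil)) .nil))) (.cons 253 (.cons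 225 (.leaf 226 1803 (.cons 229 (.leaf 230 1809 (.cons 249 (.leaf 224 1795 (.leaf 228 1801 .nil)) .nil)) .nil)) (.cons 229 (.leaf 230 1809 (.cons 228 (.leaf 249 1801 (.cons 180 (.leaf 204 1438 (.cons 278 (.leaf 277 2000 (.cons 254 (.leaf 274 2002 (.leaf 279 2008 .nil)) .nil)) .nil)) .nil)) .nil)) (.cons 225 (.leaf 226 1803 (.cons 224 (.leaf 249 1795 (.cons 254 (.leaf 274 2002 (.cons 278 (.leaf 277 2000 (.leaf 279 2008 .nil)) .nil)) .nil)) .nil)) (.cons 254 (.leaf 274 2002 (.cons 278 (.leaf 277 2000 (.leaf 279 2008 .nil)) .nil)) .nil)))) (.cons 253 (.cons 274 (.leaf 254 2002 (.leaf 273 1994 .nil)) (.cons 229 (.leaf 230 1809 (.cons 228 (.leaf 249 1801 (.cons 180 (.leaf 204 1438 (.cons 278 (.leaf 277 2000 (.cons 254 (.leaf 279 2008 (.cons 255 (.leaf 227 1819 (.leaf 256 1827 .nil)) .nil)) .nil)) .nil)) .nil)) .nil)) (.cons 229 (.leaf 230 1809 (.cons 228 (.leaf 249 1801 (.cons 180 (.leaf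 204 1438 (.cons 277 (.leaf 278 2000 (.cons 274 (.leaf 273 1994 (.cons 299 (.leaf 323 1821 (.cons 301 (.leaf 325 1831 (.cons 300 (.leaf 302 2195 (.leaf 324 1830 .nil)) .nil)) .nil)) .nil)) .nil)) .nil)) .nil)) .nil)) .nil))) .nil)))))
noncomputable def t58 : T := .cons 248 (.leaf 271 1978 (.cons 224 (.leaf 223 1787 (.cons 200 (.cons 175 (.leaf 199 1407 (.cons 151 (.leaf 176 1215 (.cons 201 (.leaf 177 1413 (.cons 296 (.leaf 225 1605 (.cons 319 (.leaf 295 1790 (.cons 320 (.leaf 343 1982 (.cons 321 (.leaf 297 1796 (.leaf 345 1988 .nil)) .nil)) .nil)) .nil)) .nil)) .nil)) .nil)) (.cons 175 (.leaf 199 1407 (.cons 176 (.leaf 273 1412 (.leaf 151 1215 .nil)) .nil)) (.cons 175 (.leaf 199 1407 (.cons 177 (.leaf 201 1413 (.cons 297 (.leaf 273 1604 (.cons 296 (.leaf 321 1796 (.cons 319 (.leaf 295 1790 (.cons 320 (.leaf 225 1797 (.leaf 343 1982 .nil)) .nil)) .nil)) .nil)) .nil)) .nil)) (.cons 273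 (.leaf 252 1986 (.leaf 176 1412 .nil)) .nil)))) .nil)) .nil)) (.cons 252 (.leaf 273 1986 (.cons 225 (.leaf 224 1795 (.cons 229 (.leaf 228 1801 (.cons 253 (.leaf 226 1803 (.leaf 230 1809 .nil)) .nil)) .nil)) .nil)) (.cons 248 (.leaf 271 1978 (.cons 224 (.leaf 223 1787 (.cons 200 (.cons 175 (.leaf 199 1407 (.cons 151 (.leaf 176 1215 (.cons 201 (.leaf 177 1413 (.cons 296 (.leaf 225 1605 (.cons 319 (.leaf 295 1790 (.cons 320 (.leaf 343 1982 (.cons 321 (.leaf 297 1796 (.leaf 345 1988 .nil)) .nil)) .nil)) .nil)) .nil)) .nil)) .nil)) (.cons 175 (.leaf 199 1407 (.cons 177 (.leaf 201 1413 (.cons 297 (.leaf 273 1604 (.cons 296 (.leaf 321 1796 (.cons 319 (.leaf 295 1790 (.cons 320 (.leaf 225 1797 (.leaf 343 1982 .nil)) .nil)) .nil)) .nil)) .nil)) .nil)) (.cons 175 (.leaf 199 1407 (.cons 176 (.leaf 273 1412 (.leaf 151 1215 .nil)) .nil)) (.cons 273 (.leaf 176 1412 (.leaf 297 1604 .nil)) .nil))))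 .nil)) .nil)) (.cons 248 (.leaf 271 1978 (.cons 224 (.leaf 223 1787 (.cons 225 (.leaf 252 1795 (.cons 201 (.leaf 177 1414 (.leaf 296 1605 .nil)) .nil)) .nil)) .nil)) (.cons 273 (.leaf 252 1986 (.cons 271 (.leaf 248 1978 (.leaf 270 1969 .nil)) .nil)) .nil))))
noncomputable def t59 : T := .cons 202 (.leaf 178 1428 (.cons 299 (.leaf 274 1620 (.leaf 323 1815 .nil)) .nil)) (.cons 299 (.leaf 323 1815 (.cons 252 (.cons 225 (.leaf 253 1803 (.cons 228 (.leaf 229 1801 (.cons 180 (.leaf 204 1438 (.cons 272 (.leaf 273 1986 (.cons 248 (.leaf 271 1978 (.cons 247 (.leaf 274 1976 (.leaf 246 1777 .nil)) .nil)) .nil)) .nil)) .nil)) .nil)) (.cons 272 (.leaf 273 1986 (.cons 228 (.leaf 229 1801 (.cons 180 (.leaf 204 1438 (.cons 248 (.leaf 271 1978 (.cons 247 (.leaf 274 1976 (.cons 246 (.leaf 225 1777 (.cons 222 (.leaf 223 1779 (.leaf 221 1771 .nil)) .nil)) .nil)) .nil)) .nil)) .nil)) .nil)) (.cons 229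 (.leaf 228 1801 (.cons 253 (.leaf 225 1803 (.leaf 230 1809 .nil)) .nil)) (.cons 273 (.leaf 272 1986 (.cons 253 (.leaf 225 1803 (.leaf 274 1994 .nil)) .nil)) (.cons 273 (.leaf 272 1986 (.cons 229 (.leaf 228 1801 (.cons 253 (.leaf 230 1809 (.leaf 274 1994 .nil)) .nil)) .nil)) .nil))))) .nil)) (.cons 202 (.leaf 178 1428 (.cons 273 (.cons 297 (.leaf 274 1614 (.leaf 321 1805 .nil)) (.cons 252 (.leaf 272 1986 (.cons 253 (.leaf 225 1803 (.leaf 274 1994 .nil)) .nil)) (.cons 297 (.leaf 321 1805 (.leaf 225 1613 .nil)) .nil))) .nil)) (.cons 202 (.leaf 178 1428 (.cons 299 (.leaf 323 1815 (.cons 273 (.cons 297 (.leaf 321 1805 (.leaf 225 1613 .nil)) (.cons 252 (.leaf 272 1986 (.cons 229 (.leaf 228 1801 (.cons 253 (.leaf 225 1803 (.leaf 230 1809 .nil)) .nil)) .nil)) (.cons 272 (.leaf 252 1986 (.cons 271 (.leaf 248 1978 (.leaf 270 1969 .nil)) .nil)) .nil))) .nil)) .nil)) .nil)))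
noncomputable def t60 : T := .cons 273 (.leaf 272 1986 (.cons 225 (.leaf 224 1795 (.cons 253 (.leaf 226 1803 (.leaf 274 1994 .nil)) .nil)) .nil)) (.cons 228 (.leaf 229 1801 (.cons 180 (.leaf 204 1438 (.cons 225 (.leaf 224 1795 (.cons 226 (.leaf 253 1803 (.cons 299 (.leaf 323 1821 (.cons 202 (.leaf 178 1428 (.leaf 274 1620 .nil)) .nil)) .nil)) .nil)) .nil)) .nil)) (.cons 273 (.leaf 272 1986 (.cons 253 (.leaf 274 1994 (.cons 230 (.leaf 229 1809 (.cons 254 (.leaf 231 1817 (.cons 278 (.leaf 277 2000 (.leaf 279 2008 .nil)) .nil)) .nil)) .nil)) .nil)) (.cons 228 (.leaf 229 1801 (.cons 273 (.leaf 272 1986 (.cons 299 (.leaf 323 1821 (.cons 225 (.leaf 224 1795 (.cons 204 (.leaf 180 1438 (.cons 202 (.cons 226 (.leaf 178 1428 (.leaf 274 1620 .nil)) (.cons 201 (.leaf 178 1421 (.cons 176 (.leaf 200 1415 (.cons 177 (.leaf 274 1420 (.leaf 152 1223 .nil)) .nil)) .nil)) (.cons 226 (.leaf 274 1620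 (.leaf 297 1613 .nil)) (.cons 226 (.leaf 178 1428 (.leaf 297 1613 .nil)) .nil)))) .nil)) .nil)) .nil)) .nil)) .nil)) (.cons 228 (.leaf 229 1801 (.cons 180 (.leaf 204 1438 (.cons 225 (.leaf 224 1795 (.cons 226 (.leaf 253 1803 (.cons 299 (.leaf 323 1821 (.cons 202 (.leaf 178 1428 (.cons 273 (.leaf 272 1986 (.leaf 297 1613 .nil)) .nil)) .nil)) .nil)) .nil)) .nil)) .nil)) .nil))))
noncomputable def t61 : T := .cons 272 (.leaf 271 1978 (.cons 223 (.leaf 224 1787 (.cons 247 (.leaf 274 1976 (.leaf 222 1779 .nil)) .nil)) .nil)) (.cons 272 (.leaf 271 1978 (.cons 224 (.leaf 223 1787 (.cons 200 (.cons 175 (.leaf 199 1407 (.cons 151 (.leaf 176 1215 (.cons 201 (.leaf 177 1413 (.cons 296 (.leaf 225 1605 (.cons 319 (.leaf 295 1790 (.cons 320 (.leaf 343 1982 (.cons 321 (.leaf 297 1796 (.leaf 345 1988 .nil)) .nil)) .nil)) .nil)) .nil)) .nil)) .nil)) (.cons 175 (.leaf 199 1407 (.cons 177 (.leaf 201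 1413 (.cons 297 (.leaf 273 1604 (.cons 296 (.leaf 321 1796 (.cons 319 (.leaf 295 1790 (.cons 320 (.leaf 225 1797 (.leaf 343 1982 .nil)) .nil)) .nil)) .nil)) .nil)) .nil)) (.cons 175 (.leaf 199 1407 (.cons 176 (.leaf 273 1412 (.leaf 151 1215 .nil)) .nil)) (.cons 273 (.leaf 176 1412 (.leaf 297 1604 .nil)) .nil)))) .nil)) .nil)) (.cons 247 (.leaf 274 1976 (.cons 222 (.leaf 223 1779 (.cons 246 (.leaf 221 1771 (.cons 270 (.leaf 271 1970 (.leaf 269 1962 .nil)) .nil)) .nil)) .nil)) (.cons 247 (.leaf 274 1976 (.cons 271 (.leaf 272 1978 (.leaf 270 1970 .nil)) .nil)) (.cons 247 (.leaf 274 1976 (.cons 223 (.leaf 224 1787 (.leaf 222 1779 .nil)) .nil)) .nil))))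
noncomputable def t62 : T := .cons 272 (.cons 252 (.leaf 273 1986 (.cons 225 (.leaf 224 1795 (.cons 228 (.leaf 229 1801 (.cons 180 (.leaf 204 1438 (.cons 248 (.leaf 271 1978 (.cons 177 (.leaf 201 1414 (.cons 247 (.leaf 274 1976 (.cons 226 (.leaf 253 1803 (.leaf 246 1777 .nil)) .nil)) .nil)) .nil)) .nil)) .nil)) .nil)) .nil)) (.cons 248 (.leaf 271 1978 (.cons 224 (.leaf 223 1787 (.cons 225 (.leaf 252 1795 (.cons 201 (.leaf 177 1414 (.leaf 296 1605 .nil)) .nil)) .nil)) .nil)) (.cons 248 (.leaf 271 1978 (.cons 223 (.leaf 224 1787 (.cons 247 (.leaf 274 1976 (.leaf 222 1779 .nil)) .nil)) .nil)) (.cons 273 (.leaf 252 1986 (.cons 271 (.leaf 274 1977 (.leaf 270 1969 .nil)) .nil)) (.cons 252 (.leaf 273 1986 (.cons 225 (.leaf 224 1795 (.cons 229 (.leaf 228 1801 (.cons 253 (.leaf 226 1803 (.leaf 230 1809 .nil)) .nil)) .nil)) .nil)) .nil))))) (.cons 248 t61 (.cons 252 t60 (.cons 248 (.cons 247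 (.leaf 274 1976 (.cons 270 (.leaf 271 1970 (.cons 246 (.leaf 269 1962 (.cons 221 (.leaf 222 1771 (.cons 225 (.leaf 226 1777 (.cons 224 (.leaf 223 1787 (.leaf 252 1795 .nil)) .nil)) .nil)) .nil)) .nil)) .nil)) (.cons 224 (.leaf 223 1787 (.cons 225 (.leaf 252 1795 (.cons 272 (.leaf 271 1978 (.cons 201 (.leaf 177 1414 (.leaf 296 1605 .nil)) .nil)) .nil)) .nil)) (.cons 247 (.leaf 274 1976 (.cons 271 (.leaf 272 1978 (.leaf 270 1970 .nil)) .nil)) (.cons 224 (.leaf 223 1787 (.cons 225 (.leaf 252 1795 (.cons 247 (.leaf 274 1976 (.cons 246 (.leaf 226 1777 (.leaf 245 1769 .nil)) .nil)) .nil)) .nil)) .nil)))) (.cons 252 (.cons 229 (.leaf 228 1801 (.cons 253 (.leaf 230 1809 (.cons 225 (.leaf 224 1795 (.leaf 226 1803 .nil)) .nil)) .nil)) (.cons 224 (.leaf 225 1795 (.cons 248 (.leaf 223 1787 (.cons 274 (.leaf 247 1976 (.cons 253 (.leaf 254 2002 (.leaf 273 1994 .nil)) .nil)) .nil)) .nil)) (.cons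 229 (.leaf 228 1801 (.cons 253 (.leaf 230 1809 (.cons 274 (.leaf 254 2002 (.leaf 273 1994 .nil)) .nil)) .nil)) (.cons 228 (.leaf 229 1801 (.cons 299 (.leaf 323 1821 (.cons 204 (.leaf 180 1438 (.cons 248 (.cons 247 (.leaf 274 1976 (.cons 222 (.leaf 223 1779 (.cons 246 (.leaf 221 1771 (.cons 270 (.leaf 271 1970 (.leaf 269 1962 .nil)) .nil)) .nil)) .nil)) (.cons 224 (.leaf 223 1787 (.leaf 225 1795 .nil)) (.cons 225 (.leaf 224 1795 (.cons 247 (.leaf 274 1976 (.cons 246 (.leaf 226 1777 (.cons 270 (.leaf 271 1970 (.leaf 269 1962 .nil)) .nil)) .nil)) .nil)) .nil))) .nil)) .nil)) .nil)) .nil)))) (.cons 226 t59 (.cons 272 t58 (.cons 248 (.cons 223 (.leaf 224 1787 (.cons 247 (.leaf 274 1976 (.leaf 222 1779 .nil)) .nil)) (.cons 223 (.leaf 224 1787 (.cons 272 (.leaf 271 1978 (.cons 252 (.leaf 273 1986 (.cons 229 (.leaf 228 1801 (.cons 253 (.leaf 230 1809 (.cons 254 (.leaf 274 2002 (.cons 278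 (.leaf 277 2000 (.leaf 279 2008 .nil)) .nil)) .nil)) .nil)) .nil)) .nil)) .nil)) (.cons 223 (.leaf 224 1787 (.cons 247 (.leaf 222 1779 (.cons 271 (.leaf 272 1978 (.leaf 270 1970 .nil)) .nil)) .nil)) (.cons 272 (.leaf 271 1978 (.cons 252 (.leaf 273 1986 (.cons 229 (.leaf 228 1801 (.cons 253 (.leaf 230 1809 (.cons 274 (.leaf 247 1976 (.leaf 254 2002 .nil)) .nil)) .nil)) .nil)) .nil)) .nil)))) .nil)))))))
noncomputable def t63 : T := .cons 227 (.cons 226 (.leaf 202 1623 (.leaf 323 1815 .nil)) (.cons 228 (.leaf 204 1629 (.cons 229 (.leaf 230 1810 (.cons 248 (.leaf 249 1793 (.cons 324 (.leaf 300 1820 (.cons 323 (.leaf 348 2012 (.cons 347 (.leaf 274 2007 (.cons 346 (.leaf 322 2006 (.leaf 370 2198 .nil)) .nil)) .nil)) .nil)) .nil)) .nil)) .nil)) (.cons 226 (.leaf 202 1623 (.cons 228 (.leaf 204 1629 (.cons 229 (.leaf 230 1810 (.leaf 249 1802 .nil)) .nil)) .nil)) .nil))) (.cons 323 (.cons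 346 (.leaf 322 2006 (.cons 347 (.leaf 274 2007 (.leaf 370 2198 .nil)) .nil)) (.cons 324 (.leaf 348 2012 (.cons 227 (.leaf 300 1820 (.cons 204 (.leaf 228 1629 (.cons 203 (.leaf 180 1437 (.cons 178 (.leaf 202 1431 (.cons 179 (.leaf 154 1239 (.leaf 274 1430 .nil)) .nil)) .nil)) .nil)) .nil)) .nil)) (.cons 324 (.leaf 348 2012 (.cons 300 (.leaf 227 1820 (.cons 322 (.leaf 346 2006 (.cons 301 (.leaf 302 2386 (.leaf 321 2377 .nil)) .nil)) .nil)) .nil)) .nil))) (.cons 227 (.cons 226 (.leaf 202 1623 (.cons 228 (.leaf 204 1629 (.cons 229 (.leaf 230 1810 (.leaf 249 1802 .nil)) .nil)) .nil)) (.cons 204 (.leaf 228 1629 (.cons 203 (.leaf 180 1437 (.cons 179 (.leaf 274 1430 (.cons 178 (.leaf 202 1431 (.leaf 154 1239 .nil)) .nil)) .nil)) .nil)) (.cons 228 (.leaf 204 1629 (.cons 229 (.leaf 230 1810 (.cons 249 (.leaf 248 1793 (.leaf 226 1802 .nil)) .nil)) .nil)) (.cons 202 (.leaf 226 1623 (.cons 203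 (.leaf 178 1431 (.cons 179 (.leaf 274 1430 (.cons 180 (.leaf 204 1437 (.leaf 156 1245 .nil)) .nil)) .nil)) .nil)) (.cons 300 (.leaf 324 1820 (.cons 203 (.cons 179 (.leaf 274 1430 (.cons 154 (.leaf 178 1239 (.cons 155 (.leaf 226 1238 (.leaf 130 1047 .nil)) .nil)) .nil)) (.cons 178 (.leaf 202 1431 (.cons 179 (.leaf 154 1239 (.leaf 274 1430 .nil)) .nil)) (.cons 202 (.leaf 178 1431 (.leaf 226 1623 .nil)) (.cons 179 (.leaf 274 1430 (.cons 226 (.leaf 202 1623 (.leaf 155 1238 .nil)) .nil)) .nil)))) .nil)) .nil))))) (.cons 323 (.leaf 226 1815 (.cons 346 (.leaf 322 2006 (.cons 347 (.leaf 274 2007 (.leaf 370 2198 .nil)) .nil)) .nil)) (.cons 323 (.leaf 226 1815 (.cons 324 (.leaf 348 2012 (.cons 300 (.leaf 227 1820 (.cons 322 (.leaf 346 2006 (.cons 301 (.leaf 302 2386 (.leaf 321 2377 .nil)) .nil)) .nil)) .nil)) .nil)) .nil))))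
noncomputable def t64 : T := .cons 253 (.cons 274 (.leaf 254 2002 (.leaf 273 1994 .nil)) (.cons 226 (.leaf 225 1803 (.cons 254 (.leaf 227 1811 (.cons 278 (.leaf 277 2000 (.leaf 279 2008 .nil)) .nil)) .nil)) (.cons 225 (.leaf 226 1803 (.cons 249 (.leaf 224 1795 (.cons 273 (.leaf 272 1986 (.leaf 274 1994 .nil)) .nil)) .nil)) .nil))) (.cons 249 (.cons 273 (.leaf 272 1986 (.cons 225 (.leaf 224 1795 (.cons 228 (.leaf 229 1801 (.cons 204 (.leaf 180 1438 (.cons 227 (.leaf 248 1793 (.cons 226 (.leaf 205 1609 (.cons 201 (.leaf 200 1603 (.cons 177 (.leaf 153 1228 (.leaf 274 1420 .nil)) .nil)) .nil)) .nil)) .nil)) .nil)) .nil)) .nil)) (.cons 228 (.leaf 229 1801 (.cons 224 (.leaf 225 1795 (.cons 248 (.leaf 223 1787 (.leaf 227 1793 .nil)) .nil)) .nil)) (.cons 272 (.leaf 273 1986 (.cons 224 (.leaf 225 1795 (.cons 248 (.leaf 223 1787 (.leaf 271 1978 .nil)) .nil)) .nil)) (.cons 228 (.leaf 229 1801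 (.cons 180 (.leaf 204 1438 (.cons 248 (.leaf 227 1793 (.cons 272 (.leaf 271 1978 (.leaf 273 1986 .nil)) .nil)) .nil)) .nil)) (.cons 273 (.leaf 272 1986 (.cons 225 (.leaf 224 1795 (.cons 228 (.leaf 229 1801 (.cons 204 (.leaf 180 1438 (.cons 226 (.cons 202 (.leaf 178 1428 (.leaf 297 1613 .nil)) (.cons 227 (.leaf 205 1609 (.cons 201 (.leaf 200 1603 (.cons 177 (.leaf 153 1228 (.leaf 274 1420 .nil)) .nil)) .nil)) .nil)) .nil)) .nil)) .nil)) .nil)) .nil))))) (.cons 253 (.cons 226 (.leaf 225 1803 (.cons 254 (.leaf 274 2002 (.leaf 227 1811 .nil)) .nil)) (.cons 226 (.leaf 225 1803 (.cons 254 (.leaf 227 1811 (.cons 278 (.leaf 277 2000 (.leaf 279 2008 .nil)) .nil)) .nil)) (.cons 226 (.leaf 225 1803 (.cons 202 (.leaf 178 1428 (.cons 229 (.leaf 230 1809 (.cons 274 (.leaf 273 1994 (.cons 179 (.leaf 203 1429 (.cons 201 (.leaf 177 1423 (.cons 228 (.leaf 227 1611 (.cons 204 (.leaf 180 1438 (.cons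 277 (.leaf 278 2000 (.leaf 301 1639 .nil)) .nil)) .nil)) .nil)) .nil)) .nil)) .nil)) .nil)) .nil)) (.cons 274 (.leaf 254 2002 (.leaf 273 1994 .nil)) .nil)))) (.cons 249 (.cons 225 (.leaf 224 1795 (.cons 229 (.leaf 228 1801 (.cons 253 (.leaf 226 1803 (.leaf 230 1809 .nil)) .nil)) .nil)) (.cons 225 (.leaf 224 1795 (.cons 226 (.leaf 253 1803 (.cons 202 (.leaf 178 1428 (.cons 273 (.leaf 272 1986 (.leaf 297 1613 .nil)) .nil)) .nil)) .nil)) (.cons 228 (.leaf 229 1801 (.cons 180 (.leaf 204 1438 (.cons 248 (.leaf 227 1793 (.cons 272 (.leaf 271 1978 (.leaf 273 1986 .nil)) .nil)) .nil)) .nil)) .nil))) (.cons 253 (.cons 229 (.leaf 230 1809 (.cons 228 (.leaf 249 1801 (.cons 180 (.leaf 204 1438 (.cons 278 (.leaf 277 2000 (.cons 254 (.leaf 274 2002 (.leaf 279 2008 .nil)) .nil)) .nil)) .nil)) .nil)) (.cons 229 (.leaf 230 1809 (.cons 228 (.leaf 249 1801 (.cons 204 (.leaf 180 1438 (.cons 277 (.leaf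 278 2000 (.leaf 301 1639 .nil)) .nil)) .nil)) .nil)) (.cons 225 (.leaf 226 1803 (.cons 224 (.leaf 249 1795 (.cons 254 (.leaf 274 2002 (.cons 278 (.leaf 277 2000 (.leaf 279 2008 .nil)) .nil)) .nil)) .nil)) (.cons 226 (.leaf 225 1803 (.cons 254 (.leaf 274 2002 (.leaf 227 1811 .nil)) .nil)) .nil)))) (.cons 253 (.cons 229 (.leaf 230 1809 (.cons 228 (.leaf 249 1801 (.cons 180 (.leaf 204 1438 (.cons 278 (.leaf 277 2000 (.cons 254 (.leaf 274 2002 (.leaf 279 2008 .nil)) .nil)) .nil)) .nil)) .nil)) (.cons 229 (.leaf 230 1809 (.cons 228 (.leaf 249 1801 (.cons 180 (.leaf 204 1438 (.cons 278 (.leaf 277 2000 (.cons 254 (.leaf 279 2008 (.cons 255 (.leaf 227 1819 (.leaf 256 1827 .nil)) .nil)) .nil)) .nil)) .nil)) .nil)) (.cons 229 (.leaf 230 1809 (.cons 228 (.leaf 249 1801 (.cons 204 (.leaf 180 1438 (.cons 277 (.leaf 278 2000 (.leaf 301 1639 .nil)) .nil)) .nil)) .nil)) (.cons 274 (.leaf 254 2002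 (.leaf 273 1994 .nil)) .nil)))) (.cons 253 (.cons 229 (.leaf 230 1809 (.cons 228 (.leaf 249 1801 (.cons 204 (.leaf 180 1438 (.cons 274 (.leaf 254 2002 (.leaf 273 1994 .nil)) .nil)) .nil)) .nil)) (.cons 229 (.leaf 230 1809 (.cons 228 (.leaf 249 1801 (.cons 204 (.leaf 180 1438 (.cons 277 (.leaf 278 2000 (.leaf 301 1639 .nil)) .nil)) .nil)) .nil)) (.cons 274 (.leaf 254 2002 (.leaf 273 1994 .nil)) .nil))) .nil))))))
noncomputable def t65 : T := .cons 203 (.leaf 227 1430 (.cons 176 (.leaf 204 1408 (.cons 155 (.leaf 156 1217 (.cons 175 (.leaf 154 1209 (.cons 151 (.leaf 150 1203 (.leaf 152 1211 .nil)) .nil)) .nil)) .nil)) .nil)) (.cons 180 (.cons 152 (.leaf 153 1219 (.cons 156 (.leaf 157 1225 (.cons 176 (.leaf 151 1211 (.leaf 155 1217 .nil)) .nil)) .nil)) (.cons 204 (.leaf 228 1438 (.leaf 205 1416 .nil)) .nil)) (.cons 203 (.leaf 227 1430 (.cons 180 (.cons 204 (.leaf 228 1438 (.leaf 205 1416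 .nil)) (.cons 153 (.leaf 152 1219 (.cons 157 (.leaf 156 1225 (.cons 181 (.leaf 154 1227 (.leaf 158 1233 .nil)) .nil)) .nil)) .nil)) .nil)) (.cons 203 (.leaf 227 1430 (.cons 176 (.cons 155 (.leaf 156 1217 (.cons 175 (.leaf 154 1209 (.cons 151 (.leaf 150 1203 (.leaf 152 1211 .nil)) .nil)) .nil)) (.cons 151 (.leaf 152 1211 (.cons 175 (.leaf 150 1203 (.cons 199 (.leaf 198 1394 (.leaf 200 1402 .nil)) .nil)) .nil)) (.cons 155 (.leaf 156 1217 (.cons 175 (.leaf 154 1209 (.cons 199 (.leaf 198 1394 (.leaf 200 1402 .nil)) .nil)) .nil)) (.cons 152 (.leaf 151 1211 (.cons 156 (.leaf 155 1217 (.cons 180 (.leaf 153 1219 (.leaf 157 1225 .nil)) .nil)) .nil)) .nil)))) .nil)) (.cons 203 (.leaf 227 1430 (.cons 176 (.leaf 204 1408 (.cons 151 (.leaf 152 1211 (.cons 175 (.leaf 150 1203 (.cons 199 (.leaf 198 1394 (.leaf 200 1402 .nil)) .nil)) .nil)) .nil)) .nil)) (.cons 203 (.leaf 227 1430 (.cons 176 (.leaf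 204 1408 (.cons 155 (.leaf 156 1217 (.cons 175 (.leaf 154 1209 (.cons 199 (.leaf 198 1394 (.leaf 200 1402 .nil)) .nil)) .nil)) .nil)) .nil)) .nil)))))
noncomputable def t66 : T := .cons 224 (.leaf 225 1795 (.cons 248 (.leaf 223 1787 (.cons 272 (.leaf 271 1978 (.leaf 273 1986 .nil)) .nil)) .nil)) (.cons 224 (.leaf 225 1795 (.cons 248 (.leaf 223 1787 (.cons 247 (.leaf 274 1976 (.cons 271 (.leaf 272 1978 (.leaf 270 1970 .nil)) .nil)) .nil)) .nil)) (.cons 224 (.leaf 225 1795 (.cons 248 (.leaf 223 1787 (.cons 274 (.leaf 247 1976 (.cons 253 (.leaf 254 2002 (.leaf 273 1994 .nil)) .nil)) .nil)) .nil)) (.cons 248 (.cons 272 (.leaf 271 1978 (.leaf 273 1986 .nil)) (.cons 227 (.leaf 228 1793 (.cons 247 (.leaf 274 1976 (.cons 222 (.leaf 223 1779 (.cons 246 (.leaf 221 1771 (.cons 270 (.leaf 271 1970 (.leaf 269 1962 .nil)) .nil)) .nil)) .nil)) .nil)) (.cons 227 (.leaf 228 1793 (.cons 273 (.leaf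 272 1986 (.cons 274 (.leaf 247 1976 (.leaf 253 1994 .nil)) .nil)) .nil)) .nil))) (.cons 273 (.leaf 272 1986 (.cons 225 (.leaf 224 1795 (.cons 178 (.cons 201 (.leaf 202 1421 (.cons 177 (.leaf 274 1420 (.leaf 154 1229 .nil)) .nil)) (.cons 253 (.leaf 274 1994 (.cons 278 (.leaf 277 2000 (.cons 254 (.leaf 279 2008 (.cons 231 (.leaf 230 1817 (.cons 255 (.leaf 232 1825 (.cons 227 (.leaf 228 1819 (.cons 203 (.leaf 202 1431 (.cons 179 (.leaf 154 1239 (.cons 180 (.leaf 204 1437 (.leaf 156 1245 .nil)) .nil)) .nil)) .nil)) .nil)) .nil)) .nil)) .nil)) .nil)) (.cons 201 (.leaf 202 1421 (.cons 176 (.leaf 200 1415 (.cons 177 (.leaf 152 1223 (.leaf 154 1229 .nil)) .nil)) .nil)) (.cons 274 (.leaf 253 1994 (.cons 177 (.leaf 201 1420 (.cons 179 t65 .nil)) .nil)) (.cons 274 (.leaf 253 1994 (.cons 201 (.leaf 177 1420 (.leaf 202 1421 .nil)) .nil)) .nil))))) .nil)) .nil)) .nil))))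
noncomputable def t67 : T := .cons 249 (.cons 224 (.leaf 225 1795 (.cons 228 (.leaf 229 1801 (.cons 248 (.leaf 223 1787 (.leaf 227 1793 .nil)) .nil)) .nil)) (.cons 273 (.leaf 272 1986 (.cons 224 (.leaf 225 1795 (.cons 248 (.leaf 223 1787 (.cons 274 (.leaf 247 1976 (.leaf 253 1994 .nil)) .nil)) .nil)) .nil)) (.cons 273 (.leaf 272 1986 (.cons 253 (.leaf 274 1994 (.cons 230 (.leaf 229 1809 (.cons 254 (.leaf 231 1817 (.cons 278 (.leaf 277 2000 (.leaf 279 2008 .nil)) .nil)) .nil)) .nil)) .nil)) .nil))) (.cons 228 (.cons 204 (.leaf 180 1438 (.cons 299 (.leaf 227 1629 (.leaf 323 1821 .nil)) .nil)) (.cons 249 (.leaf 229 1801 (.cons 224 (.leaf 225 1795 (.cons 248 (.leaf 223 1787 (.leaf 227 1793 .nil)) .nil)) .nil)) (.cons 249 (.leaf 229 1801 (.cons 180 (.leaf 204 1438 (.cons 224 (.leaf 225 1795 (.cons 248 (.leaf 223 1787 (.cons 272 (.leaf 271 1978 (.leaf 273 1986 .nil)) .nil)) .nil)) .nil))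 .nil)) .nil))) (.cons 249 (.cons 224 (.leaf 225 1795 (.cons 248 (.leaf 223 1787 (.cons 272 (.leaf 271 1978 (.leaf 273 1986 .nil)) .nil)) .nil)) (.cons 224 (.leaf 225 1795 (.cons 248 (.leaf 223 1787 (.cons 247 (.leaf 274 1976 (.cons 271 (.leaf 272 1978 (.leaf 270 1970 .nil)) .nil)) .nil)) .nil)) (.cons 224 (.leaf 225 1795 (.cons 248 (.leaf 223 1787 (.cons 274 (.leaf 247 1976 (.cons 253 (.leaf 254 2002 (.leaf 273 1994 .nil)) .nil)) .nil)) .nil)) (.cons 273 (.leaf 272 1986 (.cons 253 (.leaf 274 1994 (.cons 230 (.leaf 229 1809 (.cons 254 (.leaf 231 1817 (.cons 278 (.leaf 277 2000 (.leaf 279 2008 .nil)) .nil)) .nil)) .nil)) .nil)) .nil)))) (.cons 253 (.cons 230 (.leaf 229 1809 (.cons 254 (.leaf 274 2002 (.leaf 231 1817 .nil)) .nil)) (.cons 230 (.leaf 229 1809 (.cons 254 (.leaf 231 1817 (.cons 278 (.leaf 277 2000 (.leaf 279 2008 .nil)) .nil)) .nil)) (.cons 274 (.leaf 273 1994 (.cons 229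 (.leaf 230 1809 (.cons 277 (.leaf 278 2000 (.cons 228 (.cons 204 (.leaf 180 1444 (.leaf 301 1639 .nil)) (.cons 299 (.leaf 323 1821 (.cons 301 (.leaf 325 1831 (.cons 300 (.leaf 302 2195 (.leaf 324 1830 .nil)) .nil)) .nil)) (.cons 204 (.leaf 180 1444 (.cons 299 (.leaf 227 1629 (.leaf 323 1821 .nil)) .nil)) .nil))) .nil)) .nil)) .nil)) (.cons 274 (.leaf 254 2002 (.leaf 273 1994 .nil)) .nil)))) (.cons 228 (.cons 180 (.leaf 204 1438 (.cons 229 (.leaf 249 1801 (.cons 230 (.leaf 227 1810 (.leaf 231 1818 .nil)) .nil)) .nil)) (.cons 204 (.leaf 180 1438 (.cons 299 (.leaf 227 1629 (.leaf 323 1821 .nil)) .nil)) (.cons 229 (.leaf 249 1801 (.cons 230 (.leaf 227 1810 (.leaf 231 1818 .nil)) .nil)) (.cons 180 (.leaf 204 1438 (.cons 229 (.leaf 249 1801 (.cons 230 (.leaf 231 1818 (.leaf 253 1809 .nil)) .nil)) .nil)) .nil)))) (.cons 249 t66 .nil)))))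
noncomputable def t68 : T := .cons 323 (.leaf 226 1815 (.cons 274 (.leaf 347 2007 (.cons 322 (.leaf 346 2006 (.cons 324 (.leaf 348 2012 (.cons 227 (.leaf 300 1820 (.cons 203 (.leaf 179 1430 (.cons 204 (.leaf 180 1437 (.leaf 228 1629 .nil)) .nil)) .nil)) .nil)) .nil)) .nil)) .nil)) (.cons 227 (.cons 202 (.leaf 226 1623 (.cons 203 (.leaf 178 1431 (.cons 204 (.leaf 180 1437 (.leaf 228 1629 .nil)) .nil)) .nil)) (.cons 228 (.leaf 204 1629 (.cons 229 (.leaf 230 1810 (.cons 249 (.leaf 248 1793 (.leaf 252 1801 .nil)) .nil)) .nil)) (.cons 202 (.leaf 226 1623 (.cons 203 (.leaf 178 1431 (.cons 179 (.leaf 274 1430 (.cons 180 (.leaf 204 1437 (.leaf 156 1245 .nil)) .nil)) .nil)) .nil)) (.cons 202 (.leaf 226 1623 (.cons 203 (.leaf 178 1431 (.cons 274 (.leaf 179 1430 (.cons 300 (.leaf 324 1820 (.cons 273 (.leaf 272 2176 (.cons 252 (.leaf 253 1994 (.cons 249 (.cons 248 (.leaf 247 1976 (.leaf 228 1793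 .nil)) (.cons 224 (.leaf 225 1795 (.cons 248 (.leaf 247 1976 (.leaf 223 1787 .nil)) .nil)) (.cons 225 (.leaf 224 1795 (.cons 201 (.leaf 177 1420 (.cons 200 (.leaf 228 1600 (.leaf 176 1415 .nil)) .nil)) .nil)) .nil))) .nil)) .nil)) .nil)) .nil)) .nil)) .nil)) .nil)))) (.cons 323 (.cons 228 (.leaf 252 1821 (.cons 204 (.leaf 227 1629 (.cons 322 (.leaf 346 2006 (.cons 347 (.leaf 274 2007 (.cons 348 (.leaf 324 2012 (.leaf 372 2204 .nil)) .nil)) .nil)) .nil)) .nil)) (.cons 322 (.leaf 346 2006 (.cons 324 (.leaf 348 2012 (.cons 227 (.leaf 300 1820 (.cons 204 (.leaf 228 1629 (.cons 203 (.leaf 180 1437 (.cons 178 (.leaf 202 1431 (.cons 179 (.leaf 154 1239 (.leaf 274 1430 .nil)) .nil)) .nil)) .nil)) .nil)) .nil)) .nil)) (.cons 228 (.leaf 252 1821 (.cons 204 (.leaf 227 1629 (.cons 346 (.leaf 322 2006 (.cons 347 (.leaf 274 2007 (.leaf 370 2198 .nil)) .nil)) .nil)) .nil)) (.cons 322 (.leaf 346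 2006 (.cons 324 (.leaf 348 2012 (.cons 300 (.leaf 227 1820 (.cons 301 (.leaf 302 2386 (.leaf 321 2377 .nil)) .nil)) .nil)) .nil)) (.cons 347 (.leaf 274 2007 (.cons 348 (.leaf 324 2012 (.leaf 372 2204 .nil)) .nil)) .nil))))) (.cons 323 (.leaf 226 1815 (.cons 347 (.leaf 274 2007 (.cons 348 (.leaf 324 2012 (.leaf 372 2204 .nil)) .nil)) .nil)) (.cons 226 (.leaf 323 1815 (.cons 202 (.leaf 178 1428 (.leaf 227 1623 .nil)) .nil)) .nil))))
noncomputable def t69 : T := .cons 250 (.leaf 226 1815 (.cons 322 (.leaf 346 2006 (.cons 347 (.leaf 274 2007 (.cons 348 (.leaf 324 2012 (.leaf 372 2204 .nil)) .nil)) .nil)) .nil)) (.cons 346 (.leaf 322 2006 (.cons 228 (.leaf 252 1821 (.cons 347 (.leaf 370 2198 (.cons 348 (.leaf 324 2012 (.leaf 372 2204 .nil)) .nil)) .nil)) .nil)) (.cons 250 (.leaf 226 1815 (.cons 228 (.leaf 252 1821 (.cons 324 (.leaf 348 2012 (.cons 347 (.leaf 274 2007 (.cons 370 (.leaf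 346 2198 (.cons 371 (.leaf 394 2390 (.cons 395 (.leaf 300 2397 (.cons 396 (.leaf 372 2396 (.leaf 420 2588 .nil)) .nil)) .nil)) .nil)) .nil)) .nil)) .nil)) .nil)) (.cons 250 (.leaf 226 1815 (.cons 228 (.leaf 252 1821 (.cons 347 (.leaf 274 2007 (.cons 348 (.leaf 324 2012 (.leaf 372 2204 .nil)) .nil)) .nil)) .nil)) (.cons 250 (.leaf 226 1815 (.cons 228 (.leaf 252 1821 (.cons 346 (.leaf 322 2006 (.cons 347 (.leaf 274 2007 (.leaf 370 2198 .nil)) .nil)) .nil)) .nil)) (.cons 322 (.leaf 346 2006 (.cons 324 (.leaf 348 2012 (.cons 250 (.leaf 226 1815 (.cons 252 (.leaf 228 1821 (.cons 253 (.cons 274 (.leaf 254 2002 (.leaf 273 1994 .nil)) (.cons 229 (.leaf 230 1809 (.cons 277 (.leaf 278 2000 (.cons 300 (.leaf 301 1830 (.cons 321 (.leaf 320 2369 (.cons 297 (.leaf 296 2371 (.cons 325 (.leaf 298 2376 (.cons 326 (.leaf 327 2395 (.cons 350 (.leaf 349 2576 (.leaf 351 2584 .nil)) .nil)) .nil)) .nil))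 .nil)) .nil)) .nil)) .nil)) .nil)) .nil)) .nil)) .nil)) .nil)) .nil)))))
noncomputable def t70 : T := .cons 226 (.leaf 202 1623 (.cons 228 (.leaf 204 1629 (.cons 300 (.leaf 324 1820 (.cons 225 (.cons 200 (.leaf 201 1603 (.cons 199 (.leaf 224 1595 (.cons 249 (.leaf 248 1794 (.cons 229 (.leaf 250 1802 (.cons 206 (.leaf 205 1617 (.cons 230 (.leaf 207 1625 (.cons 254 (.leaf 253 1808 (.leaf 255 1816 .nil)) .nil)) .nil)) .nil)) .nil)) .nil)) .nil)) (.cons 200 (.leaf 201 1603 (.cons 248 (.leaf 249 1794 (.cons 253 (.leaf 252 1800 (.cons 229 (.leaf 254 1808 (.cons 206 (.leaf 205 1617 (.cons 230 (.leaf 250 1810 (.leaf 207 1625 .nil)) .nil)) .nil)) .nil)) .nil)) .nil)) (.cons 200 (.leaf 201 1603 (.cons 224 (.leaf 252 1792 (.leaf 199 1595 .nil)) .nil)) (.cons 252 (.leaf 224 1792 (.leaf 253 1800 .nil)) .nil)))) .nil)) .nil)) .nil)) (.cons 228 (.leaf 204 1629 (.cons 298 (.leaf 322 1814 (.cons 300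 (.leaf 324 1820 (.cons 301 (.cons 274 (.leaf 302 2195 (.leaf 273 2187 .nil)) (.cons 277 (.leaf 278 2193 (.cons 325 (.leaf 326 2384 (.cons 253 (.leaf 252 1831 (.cons 230 (.leaf 254 1837 (.cons 229 (.leaf 250 1810 (.leaf 206 1645 .nil)) .nil)) .nil)) .nil)) .nil)) .nil)) .nil)) .nil)) .nil)) (.cons 226 (.leaf 202 1623 (.cons 298 (.leaf 322 1814 (.cons 300 (.leaf 324 1820 (.cons 301 (.cons 274 (.leaf 302 2195 (.leaf 273 2187 .nil)) (.cons 277 (.leaf 278 2193 (.cons 326 (.leaf 325 2384 (.cons 302 (.leaf 327 2392 (.cons 253 (.leaf 229 1836 (.cons 252 (.leaf 254 1811 (.cons 225 (.leaf 224 1792 (.leaf 250 1803 .nil)) .nil)) .nil)) .nil)) .nil)) .nil)) (.cons 273 (.leaf 274 2187 (.cons 277 (.leaf 278 2193 (.cons 297 (.leaf 272 2179 (.cons 320 (.leaf 321 2370 (.cons 296 (.leaf 319 2362 (.cons 225 (.leaf 249 1798 (.cons 224 (.leaf 252 1792 (.cons 199 (.leaf 200 1595 (.cons 223 (.leaf 250 1784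 (.leaf 198 1587 .nil)) .nil)) .nil)) .nil)) .nil)) .nil)) .nil)) .nil)) .nil)) .nil))) .nil)) .nil)) .nil)) (.cons 226 (.leaf 202 1623 (.cons 228 (.leaf 204 1629 (.cons 298 (.leaf 322 1814 (.cons 225 (.cons 200 (.leaf 201 1603 (.cons 199 (.leaf 224 1595 (.cons 249 (.leaf 248 1794 (.cons 229 (.leaf 250 1802 (.cons 206 (.leaf 205 1617 (.cons 230 (.leaf 207 1625 (.cons 254 (.leaf 253 1808 (.leaf 255 1816 .nil)) .nil)) .nil)) .nil)) .nil)) .nil)) .nil)) (.cons 200 (.leaf 201 1603 (.cons 248 (.leaf 249 1794 (.cons 253 (.leaf 252 1800 (.cons 229 (.leaf 254 1808 (.cons 206 (.leaf 205 1617 (.cons 230 (.leaf 250 1810 (.leaf 207 1625 .nil)) .nil)) .nil)) .nil)) .nil)) .nil)) (.cons 200 (.leaf 201 1603 (.cons 224 (.leaf 252 1792 (.leaf 199 1595 .nil)) .nil)) (.cons 252 (.leaf 224 1792 (.leaf 253 1800 .nil)) .nil)))) .nil)) .nil)) .nil)) (.cons 226 (.leaf 202 1623 (.cons 228 (.leaf 204 1629 (.cons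 298 (.leaf 322 1814 (.cons 300 (.leaf 324 1820 (.cons 301 (.cons 274 (.leaf 302 2195 (.leaf 273 2187 .nil)) (.cons 278 (.leaf 277 2193 (.cons 302 (.leaf 279 2201 (.cons 326 (.leaf 325 2384 (.leaf 327 2392 .nil)) .nil)) .nil)) (.cons 273 (.leaf 274 2187 (.cons 277 (.leaf 278 2193 (.cons 297 (.leaf 272 2179 (.cons 320 (.leaf 321 2370 (.cons 296 (.leaf 319 2362 (.cons 225 (.leaf 249 1798 (.cons 200 (.leaf 201 1603 (.cons 224 (.leaf 252 1792 (.leaf 199 1595 .nil)) .nil)) .nil)) .nil)) .nil)) .nil)) .nil)) .nil)) .nil))) .nil)) .nil)) .nil)) .nil)) (.cons 226 (.leaf 202 1623 (.cons 228 (.leaf 204 1629 (.cons 298 (.leaf 322 1814 (.cons 300 (.leaf 324 1820 (.cons 229 (.cons 250 (.leaf 230 1810 (.leaf 249 1802 .nil)) (.cons 205 (.leaf 206 1617 (.cons 254 (.leaf 253 1808 (.cons 230 (.leaf 255 1816 (.cons 302 (.leaf 278 1647 (.cons 301 (.leaf 274 2195 (.cons 326 (.leaf 325 2384 (.leaf 327 2392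 .nil)) .nil)) .nil)) .nil)) .nil)) .nil)) (.cons 205 (.leaf 206 1617 (.cons 249 (.leaf 250 1802 (.cons 225 (.leaf 248 1794 (.cons 200 (.leaf 201 1603 (.cons 224 (.leaf 199 1595 (.cons 152 (.leaf 176 1220 (.cons 273 (.leaf 297 1607 (.cons 274 (.leaf 272 2176 (.leaf 301 2187 .nil)) .nil)) .nil)) .nil)) .nil)) .nil)) .nil)) .nil)) .nil))) .nil)) .nil)) .nil)) .nil)) .nil)))))
noncomputable def t71 : T := .cons 204 (.leaf 180 1437 (.cons 226 (.cons 205 (.leaf 206 1618 (.cons 225 (.leaf 224 1601 (.leaf 228 1609 .nil)) .nil)) (.cons 299 (.leaf 202 1623 (.leaf 228 1629 .nil)) (.cons 202 (.leaf 178 1431 (.leaf 299 1623 .nil)) .nil))) .nil)) (.cons 179 (.cons 154 (.leaf 178 1239 (.cons 155 (.leaf 130 1047 (.cons 132 (.leaf 156 1053 (.cons 108 (.leaf 131 861 (.cons 228 (.leaf 252 1244 (.cons 204 (.leaf 180 1437 (.leaf 299 1629 .nil)) .nil)) .nil)) .nil)) .nil)) .nil)) (.cons 154 (.leaf 178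 1239 (.cons 155 (.leaf 130 1047 (.cons 132 (.leaf 156 1053 (.cons 108 (.leaf 131 861 (.cons 228 (.leaf 252 1244 (.cons 204 (.leaf 299 1629 (.cons 226 (.leaf 250 1238 (.cons 205 (.leaf 206 1618 (.leaf 225 1609 .nil)) .nil)) .nil)) .nil)) .nil)) .nil)) .nil)) .nil)) (.cons 154 (.leaf 178 1239 (.cons 155 (.leaf 130 1047 (.cons 156 (.leaf 180 1245 (.leaf 132 1053 .nil)) .nil)) .nil)) (.cons 154 (.leaf 178 1239 (.cons 155 (.leaf 130 1047 (.cons 204 (.leaf 180 1437 (.cons 228 (.leaf 299 1629 (.leaf 252 1244 .nil)) .nil)) .nil)) .nil)) (.cons 180 (.leaf 204 1437 (.leaf 156 1245 .nil)) .nil))))) (.cons 179 (.cons 178 (.leaf 202 1431 (.leaf 154 1239 .nil)) (.cons 156 (.leaf 180 1245 (.cons 155 (.leaf 132 1053 (.cons 130 (.leaf 154 1047 (.cons 106 (.leaf 131 855 (.cons 226 (.leaf 250 1238 (.cons 202 (.leaf 299 1623 (.cons 228 (.leaf 252 1244 (.cons 201 (.leaf 200 1600 (.leaf 229 1611 .nil))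 .nil)) .nil)) .nil)) .nil)) .nil)) .nil)) .nil)) (.cons 154 (.leaf 178 1239 (.cons 155 (.leaf 130 1047 (.cons 156 (.leaf 180 1245 (.leaf 132 1053 .nil)) .nil)) .nil)) (.cons 156 (.leaf 180 1245 (.cons 155 (.leaf 132 1053 (.cons 202 (.leaf 178 1431 (.cons 226 (.leaf 299 1623 (.leaf 250 1238 .nil)) .nil)) .nil)) .nil)) .nil)))) (.cons 204 (.leaf 180 1437 (.cons 226 (.cons 205 (.leaf 206 1618 (.cons 225 (.leaf 224 1601 (.leaf 228 1609 .nil)) .nil)) (.cons 299 (.leaf 202 1623 (.leaf 228 1629 .nil)) (.cons 202 (.leaf 299 1623 (.cons 205 (.leaf 206 1618 (.leaf 225 1610 .nil)) .nil)) .nil))) .nil)) (.cons 202 (.leaf 178 1431 (.cons 228 (.cons 299 (.leaf 226 1623 (.leaf 204 1629 .nil)) (.cons 229 (.leaf 230 1619 (.cons 201 (.leaf 200 1600 (.leaf 226 1611 .nil)) .nil)) (.cons 229 (.leaf 230 1619 (.cons 201 (.leaf 200 1600 (.leaf 204 1608 .nil)) .nil)) .nil))) .nil)) (.cons 178 (.leaf 202 1431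 (.cons 179 (.leaf 154 1239 (.cons 180 (.leaf 204 1437 (.leaf 156 1245 .nil)) .nil)) .nil)) .nil)))))
noncomputable def t72 : T := .cons 179 (.cons 178 (.leaf 202 1431 (.leaf 154 1239 .nil)) (.cons 156 (.leaf 180 1245 (.cons 155 (.leaf 132 1053 (.cons 130 (.leaf 154 1047 (.cons 106 (.leaf 131 855 (.cons 226 (.leaf 250 1238 (.cons 202 (.leaf 299 1623 (.cons 228 (.leaf 252 1244 (.cons 201 (.leaf 200 1600 (.leaf 229 1611 .nil)) .nil)) .nil)) .nil)) .nil)) .nil)) .nil)) .nil)) (.cons 274 (.leaf 298 1622 (.leaf 250 1430 .nil)) .nil))) (.cons 274 (.leaf 298 1622 (.cons 179 (.leaf 250 1430 (.cons 154 (.leaf 178 1239 (.cons 155 (.leaf 130 1047 (.cons 156 (.leaf 180 1245 (.leaf 132 1053 .nil)) .nil)) .nil)) .nil)) .nil)) (.cons 179 (.cons 178 (.leaf 202 1431 (.leaf 154 1239 .nil)) (.cons 156 (.leaf 180 1245 (.cons 155 (.leaf 132 1053 (.cons 130 (.leaf 154 1047 (.cons 106 (.leaf 131 855 (.cons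 226 (.leaf 250 1238 (.cons 202 (.leaf 299 1623 (.cons 228 (.leaf 252 1244 (.cons 201 (.leaf 200 1600 (.leaf 229 1611 .nil)) .nil)) .nil)) .nil)) .nil)) .nil)) .nil)) .nil)) (.cons 154 (.leaf 178 1239 (.cons 155 (.leaf 130 1047 (.cons 156 (.leaf 180 1245 (.leaf 132 1053 .nil)) .nil)) .nil)) (.cons 202 (.leaf 178 1431 (.cons 156 (.leaf 180 1245 (.cons 155 (.leaf 132 1053 (.cons 226 (.leaf 299 1623 (.leaf 250 1238 .nil)) .nil)) .nil)) .nil)) .nil)))) (.cons 274 (.leaf 298 1622 (.cons 250 (.leaf 179 1430 (.cons 252 (.cons 253 (.leaf 254 2002 (.leaf 273 1994 .nil)) (.cons 273 (.leaf 272 1985 (.cons 249 (.cons 228 (.leaf 248 1793 (.leaf 229 1801 .nil)) (.cons 225 (.leaf 224 1795 (.cons 201 (.leaf 177 1420 (.cons 200 (.leaf 176 1415 (.cons 228 (.leaf 229 1801 (.leaf 202 1600 .nil)) .nil)) .nil)) .nil)) (.cons 224 (.leaf 225 1795 (.cons 248 (.leaf 247 1976 (.leaf 223 1787 .nil)) .nil)) .nil)))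 .nil)) (.cons 253 (.leaf 254 2002 (.cons 225 (.leaf 226 1803 (.cons 229 (.leaf 230 1809 (.cons 249 (.leaf 224 1795 (.leaf 228 1801 .nil)) .nil)) .nil)) .nil)) .nil))) .nil)) .nil)) (.cons 202 (.leaf 178 1431 (.cons 298 (.leaf 274 1622 (.cons 299 (.leaf 226 1623 (.leaf 322 1814 .nil)) .nil)) .nil)) .nil))))
noncomputable def t73 : T := .cons 274 (.leaf 298 1622 (.cons 179 (.leaf 250 1430 (.cons 180 (.leaf 204 1437 (.leaf 156 1245 .nil)) .nil)) .nil)) (.cons 274 (.leaf 298 1622 (.cons 179 (.leaf 250 1430 (.cons 154 (.leaf 178 1239 (.cons 155 (.leaf 130 1047 (.cons 156 (.leaf 180 1245 (.leaf 132 1053 .nil)) .nil)) .nil)) .nil)) .nil)) (.cons 179 (.cons 180 (.leaf 204 1437 (.leaf 156 1245 .nil)) (.cons 154 (.leaf 178 1239 (.cons 155 (.leaf 130 1047 (.cons 132 (.leaf 156 1053 (.cons 108 (.leaf 131 861 (.cons 228 (.leaf 252 1244 (.cons 204 (.leaf 299 1629 (.cons 226 (.leaf 250 1238 (.cons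 205 (.leaf 206 1618 (.leaf 225 1609 .nil)) .nil)) .nil)) .nil)) .nil)) .nil)) .nil)) .nil)) (.cons 154 (.leaf 178 1239 (.cons 155 (.leaf 130 1047 (.cons 156 (.leaf 180 1245 (.leaf 132 1053 .nil)) .nil)) .nil)) (.cons 204 (.leaf 180 1437 (.cons 154 (.leaf 178 1239 (.cons 155 (.leaf 130 1047 (.cons 228 (.leaf 299 1629 (.leaf 252 1244 .nil)) .nil)) .nil)) .nil)) .nil)))) (.cons 274 (.leaf 298 1622 (.cons 179 (.leaf 250 1430 (.cons 154 (.leaf 178 1239 (.cons 155 (.leaf 130 1047 (.cons 132 (.leaf 156 1053 (.cons 131 (.leaf 108 861 (.cons 228 (.leaf 252 1244 (.leaf 204 1052 .nil)) .nil)) .nil)) .nil)) .nil)) .nil)) .nil)) (.cons 204 (.leaf 180 1437 (.cons 298 (.leaf 274 1622 (.cons 299 (.leaf 228 1629 (.leaf 322 1814 .nil)) .nil)) .nil)) .nil))))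
noncomputable def t74 : T := .cons 274 (.leaf 298 1622 (.cons 178 (.leaf 202 1431 (.cons 179 (.leaf 154 1239 (.leaf 250 1430 .nil)) .nil)) .nil)) (.cons 178 (.leaf 202 1431 (.cons 179 (.leaf 154 1239 (.cons 180 (.leaf 204 1437 (.leaf 156 1245 .nil)) .nil)) .nil)) (.cons 274 (.leaf 298 1622 (.cons 179 (.leaf 250 1430 (.cons 180 (.leaf 204 1437 (.leaf 156 1245 .nil)) .nil)) .nil)) (.cons 202 (.leaf 178 1431 (.cons 204 (.leaf 180 1437 (.cons 274 (.leaf 298 1622 (.cons 201 (.cons 176 (.leaf 177 1411 (.cons 175 (.leaf 200 1403 (.cons 225 (.leaf 224 1602 (.cons 205 (.leaf 226 1610 (.cons 182 (.leaf 181 1425 (.cons 206 (.leaf 183 1433 (.cons 230 (.leaf 229 1616 (.leaf 231 1624 .nil)) .nil)) .nil)) .nil)) .nil)) .nil)) .nil)) (.cons 176 (.leaf 177 1411 (.cons 200 (.leaf 228 1600 (.leaf 175 1403 .nil)) .nil)) (.cons 176 (.leaf 177 1411 (.cons 224 (.leaf 225 1602 (.cons 229 (.leaf 228 1608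 (.cons 205 (.leaf 230 1616 (.cons 182 (.leaf 181 1425 (.cons 206 (.leaf 226 1618 (.leaf 183 1433 .nil)) .nil)) .nil)) .nil)) .nil)) .nil)) (.cons 228 (.leaf 200 1600 (.leaf 229 1608 .nil)) .nil)))) .nil)) .nil)) .nil)) .nil)))
noncomputable def t75 : T := .cons 200 (.leaf 201 1603 (.cons 249 (.leaf 248 1794 (.cons 229 (.leaf 250 1802 (.cons 206 (.leaf 205 1617 (.cons 230 (.leaf 207 1625 (.cons 231 (.leaf 252 1818 (.cons 255 (.leaf 254 1816 (.leaf 256 1824 .nil)) .nil)) .nil)) .nil)) .nil)) .nil)) .nil)) (.cons 200 (.leaf 201 1603 (.cons 249 (.leaf 248 1794 (.cons 229 (.leaf 250 1802 (.cons 206 (.leaf 205 1617 (.cons 230 (.leaf 207 1625 (.cons 254 (.leaf 253 1808 (.leaf 255 1816 .nil)) .nil)) .nil)) .nil)) .nil)) .nil)) (.cons 200 (.leaf 201 1603 (.cons 253 (.leaf 252 1800 (.cons 229 (.leaf 254 1808 (.cons 206 (.leaf 205 1617 (.cons 230 (.leaf 250 1810 (.leaf 207 1625 .nil)) .nil))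 .nil)) .nil)) .nil)) (.cons 253 (.leaf 252 1800 (.cons 229 (.leaf 254 1808 (.cons 206 (.leaf 205 1617 (.cons 230 (.leaf 207 1625 (.cons 301 (.leaf 277 1645 (.cons 302 (.leaf 274 2195 (.cons 279 (.leaf 278 2201 (.cons 303 (.leaf 280 2209 (.cons 327 (.leaf 326 2392 (.leaf 328 2400 .nil)) .nil)) .nil)) .nil)) .nil)) .nil)) .nil)) .nil)) .nil)) (.cons 252 (.leaf 224 1792 (.leaf 253 1800 .nil)) .nil))))
noncomputable def t76 : T := .cons 226 (.leaf 202 1623 (.cons 228 (.leaf 204 1629 (.cons 300 (.leaf 324 1820 (.cons 225 t75 .nil)) .nil)) .nil)) (.cons 228 (.leaf 204 1629 (.cons 298 (.leaf 322 1814 (.cons 300 (.leaf 324 1820 (.cons 301 (.cons 274 (.leaf 302 2195 (.leaf 273 2187 .nil)) (.cons 277 (.leaf 278 2193 (.cons 325 (.leaf 326 2384 (.cons 253 (.leaf 252 1831 (.cons 230 (.leaf 254 1837 (.cons 229 (.leaf 250 1810 (.leaf 206 1645 .nil)) .nil)) .nil)) .nil)) .nil)) .nil)) .nil)) .nil))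 .nil)) (.cons 226 (.leaf 202 1623 (.cons 298 (.leaf 322 1814 (.cons 300 (.leaf 324 1820 (.cons 301 (.cons 274 (.leaf 302 2195 (.leaf 273 2187 .nil)) (.cons 277 (.leaf 278 2193 (.cons 326 (.leaf 325 2384 (.cons 302 (.leaf 327 2392 (.cons 253 (.leaf 229 1836 (.cons 252 (.leaf 254 1811 (.cons 225 (.leaf 224 1792 (.leaf 250 1803 .nil)) .nil)) .nil)) .nil)) .nil)) .nil)) (.cons 273 (.leaf 274 2187 (.cons 277 (.leaf 278 2193 (.cons 297 (.leaf 272 2179 (.cons 320 (.leaf 321 2370 (.cons 296 (.leaf 319 2362 (.cons 225 (.leaf 249 1798 (.cons 224 (.leaf 252 1792 (.cons 199 (.leaf 200 1595 (.cons 223 (.leaf 250 1784 (.leaf 198 1587 .nil)) .nil)) .nil)) .nil)) .nil)) .nil)) .nil)) .nil)) .nil)) .nil))) .nil)) .nil)) .nil)) (.cons 226 (.leaf 202 1623 (.cons 228 (.leaf 204 1629 (.cons 298 (.leaf 322 1814 (.cons 225 (.cons 200 (.leaf 201 1603 (.cons 199 (.leaf 224 1595 (.cons 249 (.leaf 248 1794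 (.cons 229 (.leaf 250 1802 (.cons 206 (.leaf 205 1617 (.cons 230 (.leaf 207 1625 (.cons 254 (.leaf 253 1808 (.leaf 255 1816 .nil)) .nil)) .nil)) .nil)) .nil)) .nil)) .nil)) (.cons 200 (.leaf 201 1603 (.cons 248 (.leaf 249 1794 (.cons 253 (.leaf 252 1800 (.cons 229 (.leaf 254 1808 (.cons 206 (.leaf 205 1617 (.cons 230 (.leaf 250 1810 (.leaf 207 1625 .nil)) .nil)) .nil)) .nil)) .nil)) .nil)) (.cons 200 (.leaf 201 1603 (.cons 224 (.leaf 252 1792 (.leaf 199 1595 .nil)) .nil)) (.cons 252 (.leaf 224 1792 (.leaf 253 1800 .nil)) .nil)))) .nil)) .nil)) .nil)) (.cons 226 (.leaf 202 1623 (.cons 228 (.leaf 204 1629 (.cons 300 (.leaf 324 1820 (.cons 298 (.leaf 322 1814 (.cons 301 (.cons 274 (.leaf 302 2195 (.leaf 273 2187 .nil)) (.cons 278 (.leaf 277 2193 (.cons 302 (.leaf 279 2201 (.cons 326 (.leaf 325 2384 (.leaf 327 2392 .nil)) .nil)) .nil)) (.cons 273 (.leaf 274 2187 (.cons 277 (.leaf 278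 2193 (.cons 297 (.leaf 272 2179 (.cons 320 (.leaf 321 2370 (.cons 296 (.leaf 319 2362 (.cons 225 (.leaf 249 1798 (.cons 200 (.leaf 201 1603 (.cons 224 (.leaf 252 1792 (.leaf 199 1595 .nil)) .nil)) .nil)) .nil)) .nil)) .nil)) .nil)) .nil)) .nil))) .nil)) .nil)) .nil)) .nil)) (.cons 226 (.leaf 202 1623 (.cons 228 (.leaf 204 1629 (.cons 298 (.leaf 322 1814 (.cons 300 (.leaf 324 1820 (.cons 229 (.cons 250 (.leaf 230 1810 (.leaf 249 1802 .nil)) (.cons 205 (.leaf 206 1617 (.cons 254 (.leaf 253 1808 (.cons 230 (.leaf 255 1816 (.cons 302 (.leaf 278 1647 (.cons 301 (.leaf 274 2195 (.cons 326 (.leaf 325 2384 (.leaf 327 2392 .nil)) .nil)) .nil)) .nil)) .nil)) .nil)) (.cons 205 (.leaf 206 1617 (.cons 249 (.leaf 250 1802 (.cons 225 (.leaf 248 1794 (.cons 200 (.leaf 201 1603 (.cons 224 (.leaf 199 1595 (.cons 152 (.leaf 176 1220 (.cons 273 (.leaf 297 1607 (.cons 274 (.leaf 272 2176 (.leaf 301 2187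 .nil)) .nil)) .nil)) .nil)) .nil)) .nil)) .nil)) .nil)) .nil))) .nil)) .nil)) .nil)) .nil)) .nil)))))
noncomputable def t77 : T := .cons 226 (.leaf 202 1623 (.cons 322 (.leaf 298 1814 (.cons 323 (.leaf 250 1815 (.leaf 346 2006 .nil)) .nil)) .nil)) (.cons 298 (.leaf 322 1814 (.cons 203 (.leaf 274 1622 (.cons 178 (.leaf 202 1431 (.cons 179 (.leaf 154 1239 (.cons 180 (.leaf 204 1437 (.leaf 156 1245 .nil)) .nil)) .nil)) .nil)) .nil)) (.cons 203 (.cons 180 (.leaf 204 1437 (.cons 179 (.leaf 156 1245 (.cons 154 (.leaf 178 1239 (.cons 155 (.leaf 130 1047 (.cons 250 (.leaf 274 1430 (.leaf 226 1238 .nil)) .nil)) .nil)) .nil)) .nil)) (.cons 178 (.leaf 202 1431 (.cons 179 (.leaf 154 1239 (.cons 180 (.leaf 204 1437 (.leaf 156 1245 .nil)) .nil)) .nil)) (.cons 226 (.leaf 202 1623 (.cons 180 (.leaf 204 1437 (.cons 179 (.leaf 156 1245 (.cons 250 (.leaf 323 1815 (.leaf 274 1430 .nil)) .nil)) .nil))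 .nil)) (.cons 202 (.leaf 178 1431 (.leaf 226 1623 .nil)) .nil)))) (.cons 323 (.cons 322 (.leaf 298 1814 (.leaf 346 2006 .nil)) (.cons 250 (.leaf 226 1815 (.cons 274 (.leaf 347 2007 (.cons 203 (.leaf 298 1622 (.leaf 179 1430 .nil)) .nil)) .nil)) (.cons 250 (.leaf 226 1815 (.cons 346 (.leaf 322 2006 (.cons 347 (.leaf 274 2007 (.leaf 370 2198 .nil)) .nil)) .nil)) .nil))) .nil)))
noncomputable def t78 : T := .cons 248 (.leaf 247 1976 (.cons 224 (.leaf 223 1787 (.cons 225 (.leaf 252 1795 (.cons 177 (.leaf 201 1420 (.cons 272 (.leaf 271 1978 (.cons 296 (.leaf 320 1797 (.cons 295 (.leaf 273 2170 (.leaf 319 1790 .nil)) .nil)) .nil)) .nil)) .nil)) .nil)) .nil)) (.cons 248 (.leaf 247 1976 (.cons 224 (.leaf 223 1787 (.cons 225 (.leaf 252 1795 (.cons 177 (.leaf 201 1420 (.cons 272 (.leaf 271 1978 (.cons 296 (.leaf 320 1797 (.cons 295 (.leaf 319 1790 (.cons 297 (.leaf 298 2169 (.leaf 321 1796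 .nil)) .nil)) .nil)) .nil)) .nil)) .nil)) .nil)) .nil)) (.cons 273 (.cons 272 (.leaf 252 1985 (.leaf 300 2176 .nil)) (.cons 252 (.leaf 253 1994 (.cons 225 (.leaf 224 1795 (.cons 201 (.leaf 177 1420 (.leaf 298 1612 .nil)) .nil)) .nil)) (.cons 272 (.leaf 300 2176 (.leaf 271 1977 .nil)) .nil))) (.cons 248 (.leaf 247 1976 (.cons 224 (.leaf 223 1787 (.cons 225 (.leaf 252 1795 (.cons 201 (.leaf 177 1420 (.cons 273 (.leaf 298 1612 (.cons 200 (.leaf 176 1412 (.leaf 297 1607 .nil)) .nil)) .nil)) .nil)) .nil)) .nil)) (.cons 248 (.leaf 247 1976 (.cons 223 (.leaf 224 1787 (.cons 272 (.leaf 271 1978 (.cons 273 (.leaf 300 2176 (.cons 296 (.leaf 295 2170 (.cons 225 (.leaf 201 1606 (.leaf 320 1797 .nil)) .nil)) .nil)) .nil)) .nil)) .nil)) (.cons 248 (.leaf 247 1976 (.cons 223 (.leaf 224 1787 (.cons 272 (.leaf 271 1978 (.cons 273 (.leaf 252 1985 (.leaf 300 2176 .nil)) .nil)) .nil)) .nil)) (.cons 248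 (.leaf 247 1976 (.cons 272 (.leaf 271 1978 (.cons 273 (.leaf 252 1985 (.leaf 300 2176 .nil)) .nil)) .nil)) .nil))))))
noncomputable def t79 : T := .cons 250 (.leaf 226 1815 (.cons 347 (.leaf 274 2007 (.cons 348 (.leaf 324 2012 (.leaf 372 2204 .nil)) .nil)) .nil)) (.cons 250 (.leaf 226 1815 (.cons 347 (.leaf 274 2007 (.cons 370 (.leaf 346 2198 (.cons 371 (.leaf 394 2390 (.cons 372 (.leaf 348 2204 (.leaf 396 2396 .nil)) .nil)) .nil)) .nil)) .nil)) (.cons 324 (.leaf 348 2012 (.cons 300 (.leaf 227 1820 (.cons 298 (.cons 297 (.leaf 296 2368 (.leaf 325 2376 .nil)) (.cons 297 (.leaf 296 2368 (.cons 273 (.leaf 272 2179 (.cons 274 (.leaf 301 2187 (.cons 321 (.leaf 320 2370 (.cons 345 (.leaf 369 2189 (.cons 344 (.leaf 368 2182 (.cons 346 (.leaf 347 2561 (.leaf 370 2188 .nil)) .nil)) .nil)) .nil)) .nil)) .nil)) .nil)) (.cons 325 (.leaf 326 2387 (.cons 301 (.cons 274 (.leaf 302 2195 (.leaf 273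 2187 .nil)) (.cons 274 (.leaf 273 2187 (.cons 277 (.leaf 278 2193 (.cons 253 (.leaf 229 1830 (.cons 254 (.leaf 252 2002 (.leaf 230 1837 .nil)) .nil)) .nil)) .nil)) (.cons 278 (.leaf 277 2193 (.cons 302 (.leaf 279 2201 (.leaf 303 2394 .nil)) .nil)) .nil))) .nil)) .nil))) .nil)) .nil)) (.cons 250 (.leaf 226 1815 (.cons 274 (.leaf 347 2007 (.cons 249 t78 .nil)) .nil)) (.cons 324 (.leaf 348 2012 (.cons 226 (.leaf 250 1815 (.cons 227 (.leaf 202 1623 (.leaf 300 1820 .nil)) .nil)) .nil)) .nil))))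
noncomputable def t80 : T := .cons 248 (.leaf 247 1976 (.cons 223 (.leaf 224 1787 (.cons 272 (.leaf 271 1978 (.cons 273 (.leaf 252 1985 (.leaf 300 2176 .nil)) .nil)) .nil)) .nil)) (.cons 248 (.leaf 247 1976 (.cons 224 (.leaf 223 1787 (.cons 225 (.leaf 252 1795 (.cons 177 (.leaf 201 1420 (.cons 272 (.leaf 271 1978 (.cons 296 (.leaf 320 1797 (.cons 295 (.leaf 319 1790 (.cons 297 (.leaf 298 2169 (.leaf 321 1796 .nil)) .nil)) .nil)) .nil)) .nil)) .nil)) .nil)) .nil)) (.cons 273 (.cons 272 (.leaf 252 1985 (.leaf 300 2176 .nil)) (.cons 252 (.leaf 253 1994 (.cons 225 (.leaf 224 1795 (.cons 201 (.leaf 177 1420 (.leaf 298 1612 .nil)) .nil)) .nil)) (.cons 272 (.leaf 300 2176 (.leaf 271 1977 .nil)) .nil))) (.cons 248 (.leaf 247 1976 (.cons 224 (.leaf 223 1787 (.cons 225 (.leaf 252 1795 (.cons 201 (.leaf 177 1420 (.cons 273 (.leaf 298 1612 (.cons 200 (.leaf 176 1412 (.leaf 297 1607 .nil)) .nil))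 .nil)) .nil)) .nil)) .nil)) (.cons 248 (.leaf 247 1976 (.cons 223 (.leaf 224 1787 (.cons 272 (.leaf 271 1978 (.cons 273 (.leaf 300 2176 (.cons 296 (.leaf 295 2170 (.cons 225 (.leaf 201 1606 (.leaf 320 1797 .nil)) .nil)) .nil)) .nil)) .nil)) .nil)) (.cons 248 (.leaf 247 1976 (.cons 272 (.leaf 271 1978 (.cons 273 (.leaf 252 1985 (.leaf 300 2176 .nil)) .nil)) .nil)) .nil)))))
noncomputable def t81 : T := .cons 202 (.leaf 226 1623 (.cons 248 (.leaf 321 1796 (.cons 199 (.leaf 223 1599 (.cons 200 (.leaf 175 1407 (.cons 201 (.leaf 177 1413 (.leaf 225 1605 .nil)) .nil)) .nil)) .nil)) .nil)) (.cons 226 (.leaf 202 1623 (.cons 225 (.leaf 252 1792 (.cons 199 (.leaf 200 1595 (.cons 223 (.leaf 250 1784 (.leaf 198 1587 .nil)) .nil)) .nil)) .nil)) (.cons 248 (.leaf 321 1796 (.cons 199 (.leaf 223 1599 (.cons 200 (.leaf 175 1407 (.cons 201 (.leaf 177 1413 (.leaf 225 1605 .nil)) .nil)) .nil)) .nil))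 (.cons 248 (.leaf 321 1796 (.cons 199 (.leaf 223 1599 (.cons 200 (.leaf 175 1407 (.cons 177 (.leaf 201 1413 (.cons 176 (.leaf 153 1221 (.cons 178 (.leaf 179 1402 (.cons 202 (.leaf 203 1431 (.leaf 226 1623 .nil)) .nil)) .nil)) .nil)) .nil)) .nil)) .nil)) (.cons 248 (.leaf 321 1796 (.cons 201 (.leaf 225 1605 (.cons 177 (.leaf 200 1413 (.cons 202 (.leaf 226 1623 (.cons 203 (.leaf 178 1431 (.cons 204 (.leaf 180 1437 (.leaf 176 1411 .nil)) .nil)) .nil)) .nil)) .nil)) .nil)) (.cons 248 (.leaf 321 1796 (.cons 199 (.leaf 223 1599 (.cons 225 (.leaf 201 1605 (.cons 226 (.leaf 202 1623 (.leaf 252 1792 .nil)) .nil)) .nil)) .nil)) .nil)))))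
noncomputable def t82 : T := .cons 319 (.leaf 320 2362 (.cons 295 (.leaf 318 2354 (.cons 270 (.leaf 271 2163 (.cons 294 (.leaf 269 2155 (.leaf 321 2352 .nil)) .nil)) .nil)) .nil)) (.cons 295 (.cons 272 (.leaf 271 2171 (.cons 294 (.leaf 321 2352 (.cons 269 (.leaf 270 2155 (.cons 293 (.leaf 268 2147 (.leaf 273 2153 .nil)) .nil)) .nil)) .nil)) (.cons 294 (.leaf 321 2352 (.cons 269 (.leaf 270 2155 (.cons 293 (.leaf 268 2147 (.cons 317 (.leaf 318 2346 (.leaf 316 2338 .nil)) .nil)) .nil)) .nil)) (.cons 271 (.leaf 272 2171 (.leaf 270 2163 .nil)) (.cons 272 (.leaf 271 2171 (.cons 294 (.leaf 321 2352 (.cons 293 (.leaf 273 2153 (.cons 317 (.leaf 318 2346 (.leaf 316 2338 .nil)) .nil)) .nil)) .nil)) .nil)))) (.cons 319 (.leaf 320 2362 (.cons 295 (.leaf 318 2354 (.cons 321 (.leaf 294 2352 (.cons 273 (.leaf 249 1996 (.cons 345 (.cons 272 (.leaf 248 1991 (.leaf 369 2183 .nil)) (.cons 368 (.leaf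 344 2182 (.cons 369 (.leaf 393 2381 (.leaf 392 2374 .nil)) .nil)) (.cons 272 (.leaf 248 1991 (.cons 343 (.leaf 367 2173 (.cons 344 (.leaf 368 2182 (.leaf 342 2545 .nil)) .nil)) .nil)) .nil))) .nil)) .nil)) .nil)) .nil)) (.cons 271 (.leaf 272 2171 (.cons 295 (.leaf 270 2163 (.cons 319 (.leaf 320 2362 (.leaf 318 2354 .nil)) .nil)) .nil)) (.cons 320 (.leaf 319 2362 (.cons 272 (.leaf 271 2171 (.cons 249 (.cons 248 (.leaf 225 1797 (.cons 223 (.leaf 247 1791 (.cons 224 (.leaf 250 1787 (.leaf 321 1796 .nil)) .nil)) .nil)) (.cons 273 (.leaf 321 1996 (.leaf 344 1989 .nil)) (.cons 248 (.leaf 225 1797 (.cons 223 (.leaf 247 1791 (.cons 224 (.leaf 250 1787 (.leaf 199 1599 .nil)) .nil)) .nil)) .nil))) .nil)) .nil)) .nil))))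
noncomputable def t83 : T := .cons 271 (.leaf 272 2171 (.cons 295 (.leaf 270 2163 (.cons 319 (.leaf 320 2362 (.leaf 318 2354 .nil)) .nil)) .nil)) (.cons 272 (.leaf 271 2171 (.cons 273 (.leaf 300 2179 (.cons 249 (.cons 225 (.leaf 322 1804 (.leaf 201 1606 .nil)) (.cons 250 (.leaf 252 1986 (.cons 321 (.leaf 226 1805 (.cons 248 (.leaf 224 1796 (.leaf 345 1991 .nil)) .nil)) .nil)) .nil)) .nil)) .nil)) (.cons 295 (.cons 270 (.leaf 271 2163 (.cons 294 (.leaf 269 2155 (.cons 317 (.leaf 318 2346 (.cons 293 (.leaf 316 2338 (.cons 321 (.leaf 322 2352 (.leaf 320 2344 .nil)) .nil)) .nil)) .nil)) .nil)) (.cons 270 (.leaf 271 2163 (.cons 294 (.leaf 269 2155 (.cons 318 (.leaf 319 2354 (.leaf 317 2346 .nil)) .nil)) .nil)) (.cons 270 (.leaf 271 2163 (.cons 294 (.leaf 269 2155 (.cons 320 (.leaf 319 2362 (.cons 321 (.leaf 300 2370 (.leaf 322 2352 .nil)) .nil)) .nil)) .nil)) (.cons 319 (.leaf 320 2362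 (.leaf 318 2354 .nil)) .nil)))) (.cons 320 (.leaf 319 2362 (.cons 273 (.cons 300 (.leaf 272 2179 (.leaf 321 2370 .nil)) (.cons 249 (.leaf 225 1798 (.cons 344 (.leaf 321 1990 (.leaf 368 2181 .nil)) .nil)) (.cons 249 (.leaf 225 1798 (.cons 272 (.leaf 300 2179 (.leaf 344 1989 .nil)) .nil)) .nil))) .nil)) .nil)))
noncomputable def t84 : T := .cons 227 (.leaf 322 1814 (.cons 226 (.leaf 202 1623 (.cons 300 (.leaf 324 1820 (.cons 272 (.leaf 273 2179 (.cons 296 (.leaf 271 2171 (.cons 320 (.leaf 319 2362 (.leaf 321 2370 .nil)) .nil)) .nil)) .nil)) .nil)) .nil)) (.cons 296 t83 (.cons 300 (.cons 324 (.leaf 227 1820 (.leaf 325 2376 .nil)) (.cons 272 (.leaf 273 2179 (.cons 296 (.leaf 271 2171 (.cons 320 (.leaf 319 2362 (.leaf 321 2370 .nil)) .nil)) .nil)) .nil)) (.cons 322 (.leaf 227 1814 (.cons 346 (.leaf 370 2197 (.cons 296 t82 .nil)) .nil)) (.cons 227 (.leaf 322 1814 (.cons 226 (.leaf 202 1623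 (.cons 300 (.leaf 324 1820 (.cons 273 (.leaf 272 2179 (.cons 321 (.leaf 320 2370 (.cons 249 (.leaf 250 1805 (.cons 224 (.leaf 248 1799 (.cons 225 (.leaf 252 1792 (.leaf 200 1607 .nil)) .nil)) .nil)) .nil)) .nil)) .nil)) .nil)) .nil)) (.cons 227 (.leaf 322 1814 (.cons 300 (.leaf 324 1820 (.cons 272 (.leaf 273 2179 (.cons 296 (.leaf 271 2171 (.cons 224 t81 .nil)) .nil)) .nil)) .nil)) (.cons 300 (.cons 321 (.leaf 320 2370 (.cons 322 (.leaf 227 1814 (.leaf 301 2378 .nil)) .nil)) (.cons 321 (.leaf 320 2370 (.cons 301 (.leaf 322 2378 (.cons 325 (.leaf 324 2376 (.leaf 326 2384 .nil)) .nil)) .nil)) (.cons 324 (.leaf 227 1820 (.leaf 325 2376 .nil)) .nil))) (.cons 227 (.leaf 322 1814 (.cons 226 (.leaf 202 1623 (.cons 300 (.leaf 324 1820 (.cons 272 (.leaf 273 2179 (.cons 296 (.leaf 271 2171 (.cons 319 (.leaf 320 2362 (.cons 295 (.leaf 318 2354 (.cons 224 (.leaf 248 1790 (.cons 225 (.leaf 252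 1792 (.cons 199 (.leaf 200 1595 (.cons 223 (.leaf 250 1784 (.leaf 198 1587 .nil)) .nil)) .nil)) .nil)) .nil)) .nil)) .nil)) .nil)) .nil)) .nil)) .nil)) .nil)))))))
noncomputable def t85 : T := .cons 273 (.leaf 272 2179 (.cons 274 (.leaf 301 2187 (.cons 295 (.leaf 296 2169 (.cons 321 (.leaf 320 2370 (.cons 250 (.leaf 226 1806 (.leaf 345 1997 .nil)) .nil)) .nil)) .nil)) .nil)) (.cons 320 (.leaf 321 2370 (.cons 296 (.leaf 319 2362 (.cons 271 (.leaf 272 2171 (.cons 295 (.leaf 274 2169 (.leaf 270 2163 .nil)) .nil)) .nil)) .nil)) (.cons 320 (.leaf 321 2370 (.cons 296 (.leaf 319 2362 (.cons 274 (.leaf 295 2169 (.cons 301 (.leaf 302 2195 (.leaf 273 2187 .nil)) .nil)) .nil)) .nil)) (.cons 272 (.leaf 273 2179 (.cons 296 (.leaf 271 2171 (.cons 320 (.leaf 319 2362 (.leaf 321 2370 .nil)) .nil)) .nil)) (.cons 273 (.leaf 272 2179 (.cons 274 (.leaf 301 2187 (.cons 227 (.leaf 203 1622 (.cons 226 (.leaf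 202 1623 (.cons 250 (.leaf 321 1806 (.cons 225 (.leaf 201 1615 (.cons 252 (.leaf 224 1792 (.leaf 253 1994 .nil)) .nil)) .nil)) .nil)) .nil)) .nil)) .nil)) (.cons 273 (.leaf 272 2179 (.cons 274 (.leaf 301 2187 (.cons 227 (.leaf 203 1622 (.cons 226 (.leaf 202 1623 (.cons 296 (.leaf 295 2169 (.cons 320 (.leaf 319 2362 (.cons 225 (.leaf 249 1798 (.cons 224 (.leaf 252 1792 (.cons 250 (.leaf 223 1784 (.leaf 201 1615 .nil)) .nil)) .nil)) .nil)) .nil)) .nil)) .nil)) .nil)) .nil)) .nil)))))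
noncomputable def t86 : T := .cons 296 (.leaf 295 2169 (.cons 272 (.leaf 271 2171 (.cons 273 (.leaf 252 1985 (.leaf 300 2176 .nil)) .nil)) .nil)) (.cons 322 (.leaf 346 2005 (.cons 296 (.leaf 295 2169 (.cons 272 (.leaf 271 2171 (.cons 250 (.cons 226 (.leaf 202 1620 (.leaf 321 1806 .nil)) (.cons 225 (.leaf 249 1807 (.cons 226 (.leaf 202 1620 (.leaf 201 1615 .nil)) .nil)) (.cons 249 (.leaf 225 1807 (.cons 248 (.leaf 247 1976 (.cons 224 (.leaf 223 1787 (.leaf 321 1796 .nil)) .nil)) .nil)) .nil))) .nil)) .nil)) .nil)) (.cons 322 (.leaf 346 2005 (.cons 295 (.leaf 296 2169 (.cons 250 (.cons 225 (.leaf 249 1807 (.cons 226 (.leaf 202 1620 (.leaf 201 1615 .nil)) .nil)) (.cons 249 (.leaf 225 1807 (.cons 248 (.leaf 247 1976 (.cons 224 (.leaf 223 1787 (.cons 321 (.leaf 345 1998 (.leaf 273 1799 .nil)) .nil)) .nil)) .nil)) (.cons 226 (.leaf 202 1620 (.leaf 321 1806 .nil)) .nil))) .nil)) .nil)) (.cons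 322 (.leaf 346 2005 (.cons 250 (.cons 225 (.leaf 249 1807 (.cons 226 (.leaf 202 1620 (.leaf 201 1615 .nil)) .nil)) (.cons 249 (.leaf 225 1807 (.cons 248 (.leaf 247 1976 (.cons 223 (.leaf 224 1787 (.cons 272 (.leaf 271 1978 (.cons 273 (.leaf 252 1985 (.leaf 300 2176 .nil)) .nil)) .nil)) .nil)) .nil)) (.cons 226 (.leaf 202 1620 (.leaf 321 1806 .nil)) .nil))) .nil)) .nil)))
noncomputable def t87 : T := .cons 321 (.leaf 320 2370 (.cons 301 (.leaf 322 2378 (.cons 325 (.leaf 324 2376 (.leaf 326 2384 .nil)) .nil)) .nil)) (.cons 325 (.leaf 324 2376 (.cons 301 (.leaf 326 2384 (.cons 274 (.leaf 302 2195 (.leaf 273 2187 .nil)) .nil)) .nil)) (.cons 324 (.leaf 325 2376 (.cons 321 (.leaf 320 2370 (.cons 372 (.leaf 348 2207 (.cons 274 (.cons 250 (.leaf 226 1806 (.cons 345 (.leaf 322 1998 (.leaf 369 2189 .nil)) .nil)) (.cons 345 (.leaf 369 2189 (.cons 346 (.leaf 322 2005 (.cons 370 (.leaf 273 2188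 (.cons 295 (.leaf 296 2169 (.cons 371 (.leaf 373 2763 (.cons 344 (.leaf 347 2752 (.leaf 343 2744 .nil)) .nil)) .nil)) .nil)) .nil)) .nil)) (.cons 250 (.leaf 226 1806 (.cons 345 (.leaf 369 2189 (.leaf 273 1997 .nil)) .nil)) (.cons 250 (.leaf 226 1806 (.cons 322 (.leaf 346 2005 (.cons 249 (.leaf 225 1807 (.cons 248 (.leaf 247 1976 (.cons 224 (.leaf 223 1787 (.leaf 273 1799 .nil)) .nil)) .nil)) .nil)) .nil)) .nil)))) .nil)) .nil)) .nil)) (.cons 321 (.leaf 320 2370 (.cons 301 (.leaf 322 2378 (.cons 274 (.leaf 302 2195 (.leaf 273 2187 .nil)) .nil)) .nil)) .nil)))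
noncomputable def t88 : T := .cons 319 (.leaf 320 2362 (.cons 271 (.leaf 272 2171 (.cons 295 (.leaf 274 2169 (.leaf 270 2163 .nil)) .nil)) .nil)) (.cons 272 (.leaf 271 2171 (.cons 320 (.leaf 319 2362 (.cons 248 (.cons 321 (.leaf 224 1796 (.leaf 345 1988 .nil)) (.cons 223 (.leaf 247 1791 (.cons 199 (.leaf 224 1599 (.cons 249 (.leaf 225 1797 (.cons 273 (.leaf 344 1989 (.cons 252 (.leaf 274 1985 (.leaf 250 1986 .nil)) .nil)) .nil)) .nil)) .nil)) (.cons 223 (.leaf 247 1791 (.cons 225 (.leaf 249 1797 (.cons 345 (.leaf 321 1988 (.cons 344 (.leaf 369 2180 (.cons 367 (.leaf 343 2174 (.cons 368 (.leaf 273 2181 (.leaf 391 2366 .nil)) .nil)) .nil)) .nil)) .nil)) .nil)) .nil))) .nil)) .nil)) (.cons 319 (.leaf 320 2362 (.cons 271 (.leaf 272 2171 (.cons 295 (.leaf 270 2163 (.leaf 318 2354 .nil)) .nil)) .nil)) (.cons 295 (.leaf 274 2169 (.cons 270 (.leaf 271 2163 (.cons 294 (.leaf 269 2155 (.cons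 317 (.leaf 318 2346 (.cons 293 (.leaf 316 2338 (.cons 321 (.leaf 322 2352 (.leaf 320 2344 .nil)) .nil)) .nil)) .nil)) .nil)) .nil)) (.cons 295 (.leaf 274 2169 (.cons 319 (.leaf 320 2362 (.leaf 318 2354 .nil)) .nil)) (.cons 295 (.leaf 274 2169 (.cons 270 (.leaf 271 2163 (.cons 294 (.leaf 269 2155 (.cons 318 (.leaf 319 2354 (.leaf 317 2346 .nil)) .nil)) .nil)) .nil)) .nil)))))
noncomputable def t89 : T := .cons 271 (.leaf 272 2171 (.cons 295 (.leaf 270 2163 (.cons 319 (.leaf 320 2362 (.leaf 318 2354 .nil)) .nil)) .nil)) (.cons 272 (.leaf 271 2171 (.cons 273 (.leaf 300 2179 (.cons 249 (.cons 225 (.leaf 322 1804 (.leaf 201 1606 .nil)) (.cons 250 (.leaf 252 1986 (.cons 321 (.leaf 226 1805 (.cons 248 (.leaf 224 1796 (.leaf 345 1991 .nil)) .nil)) .nil)) .nil)) .nil)) .nil)) (.cons 295 (.cons 319 (.leaf 320 2362 (.leaf 318 2354 .nil)) (.cons 270 (.leaf 271 2163 (.cons 294 (.leaf 269 2155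 (.cons 317 (.leaf 318 2346 (.cons 293 (.leaf 316 2338 (.cons 321 (.leaf 322 2352 (.leaf 320 2344 .nil)) .nil)) .nil)) .nil)) .nil)) (.cons 270 (.leaf 271 2163 (.cons 294 (.leaf 269 2155 (.cons 318 (.leaf 319 2354 (.leaf 317 2346 .nil)) .nil)) .nil)) (.cons 270 (.leaf 271 2163 (.cons 294 (.leaf 269 2155 (.cons 320 (.leaf 319 2362 (.cons 321 (.leaf 300 2370 (.leaf 322 2352 .nil)) .nil)) .nil)) .nil)) .nil)))) (.cons 320 (.leaf 319 2362 (.cons 273 (.cons 300 (.leaf 272 2179 (.leaf 321 2370 .nil)) (.cons 249 (.leaf 225 1798 (.cons 344 (.leaf 321 1990 (.leaf 368 2181 .nil)) .nil)) (.cons 249 (.leaf 225 1798 (.cons 272 (.leaf 300 2179 (.leaf 344 1989 .nil)) .nil)) .nil))) .nil)) .nil)))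
noncomputable def t90 : T := .cons 296 (.cons 271 (.leaf 272 2171 (.cons 320 (.leaf 319 2362 (.cons 300 (.leaf 321 2370 (.cons 325 (.leaf 324 2376 (.cons 301 (.leaf 326 2384 (.cons 274 (.leaf 295 2169 (.leaf 302 2195 .nil)) .nil)) .nil)) .nil)) .nil)) .nil)) (.cons 271 (.leaf 272 2171 (.cons 295 (.leaf 270 2163 (.cons 319 (.leaf 320 2362 (.leaf 318 2354 .nil)) .nil)) .nil)) (.cons 274 (.leaf 295 2169 (.cons 320 (.leaf 319 2362 (.cons 300 (.leaf 321 2370 (.cons 301 (.leaf 302 2195 (.leaf 273 2187 .nil)) .nil)) .nil)) .nil)) (.cons 271 (.leaf 272 2171 (.cons 320 (.leaf 319 2362 (.cons 300 (.leaf 321 2370 (.cons 325 (.leaf 324 2376 (.cons 301 (.leaf 326 2384 (.cons 274 (.leaf 302 2195 (.leaf 273 2187 .nil)) .nil)) .nil)) .nil)) .nil)) .nil)) (.cons 271 (.leaf 272 2171 (.cons 295 (.leaf 274 2169 (.leaf 270 2163 .nil)) .nil)) .nil))))) (.cons 296 t89 (.cons 296 t88 (.cons 300 (.cons 273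 (.leaf 272 2179 (.cons 301 (.leaf 274 2187 (.cons 325 (.leaf 324 2376 (.leaf 326 2384 .nil)) .nil)) .nil)) (.cons 321 (.leaf 320 2370 (.cons 301 (.leaf 322 2378 (.cons 325 (.leaf 324 2376 (.leaf 326 2384 .nil)) .nil)) .nil)) (.cons 273 (.leaf 272 2179 (.cons 321 (.leaf 320 2370 (.cons 324 (.leaf 325 2376 (.cons 348 (.leaf 372 2207 (.cons 249 (.cons 322 (.leaf 225 1804 (.leaf 346 1996 .nil)) (.cons 224 (.leaf 248 1799 (.cons 225 (.leaf 200 1607 (.cons 226 (.leaf 202 1613 (.leaf 250 1805 .nil)) .nil)) .nil)) (.cons 224 (.leaf 248 1799 (.cons 346 (.leaf 322 1996 (.cons 345 (.leaf 370 2188 (.cons 368 (.leaf 344 2182 (.cons 369 (.leaf 274 2189 (.leaf 392 2374 .nil)) .nil)) .nil)) .nil)) .nil)) .nil))) .nil)) .nil)) .nil)) .nil)) (.cons 273 (.leaf 272 2179 (.cons 274 (.leaf 301 2187 (.cons 321 (.leaf 320 2370 (.cons 250 (.leaf 226 1806 (.leaf 345 1997 .nil)) .nil)) .nil)) .nil)) .nil))))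 (.cons 296 (.cons 271 (.leaf 272 2171 (.cons 320 (.leaf 319 2362 (.cons 300 (.leaf 321 2370 (.cons 325 (.leaf 324 2376 (.cons 301 (.leaf 326 2384 (.cons 274 (.leaf 295 2169 (.leaf 302 2195 .nil)) .nil)) .nil)) .nil)) .nil)) .nil)) (.cons 271 (.leaf 272 2171 (.cons 320 (.leaf 319 2362 (.cons 300 (.leaf 321 2370 (.cons 325 (.leaf 324 2376 (.cons 301 (.leaf 326 2384 (.cons 278 (.leaf 277 2193 (.cons 302 (.leaf 274 2195 (.leaf 279 2201 .nil)) .nil)) .nil)) .nil)) .nil)) .nil)) .nil)) (.cons 271 (.leaf 272 2171 (.cons 295 (.leaf 274 2169 (.leaf 270 2163 .nil)) .nil)) (.cons 320 (.leaf 319 2362 (.cons 271 (.leaf 272 2171 (.cons 295 (.leaf 270 2163 (.cons 223 (.leaf 247 1788 (.cons 321 (.leaf 300 2370 (.cons 294 (.leaf 322 2352 (.leaf 293 2344 .nil)) .nil)) .nil)) .nil)) .nil)) .nil)) (.cons 274 (.leaf 295 2169 (.cons 320 (.leaf 319 2362 (.cons 300 (.leaf 321 2370 (.cons 301 (.leaf 302 2195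 (.cons 325 (.leaf 324 2376 (.leaf 326 2384 .nil)) .nil)) .nil)) .nil)) .nil)) .nil))))) (.cons 300 t87 (.cons 296 (.cons 295 (.leaf 274 2169 (.cons 319 (.leaf 320 2362 (.leaf 318 2354 .nil)) .nil)) (.cons 271 (.leaf 272 2171 (.cons 295 (.leaf 270 2163 (.cons 319 (.leaf 320 2362 (.leaf 318 2354 .nil)) .nil)) .nil)) (.cons 272 (.leaf 271 2171 (.cons 273 (.leaf 300 2179 (.cons 320 (.leaf 319 2362 (.cons 249 (.leaf 225 1798 (.leaf 344 1989 .nil)) .nil)) .nil)) .nil)) (.cons 272 (.leaf 271 2171 (.cons 273 (.leaf 300 2179 (.cons 274 (.leaf 252 1985 (.leaf 295 2169 .nil)) .nil)) .nil)) .nil)))) (.cons 274 t86 .nil)))))))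
noncomputable def t91 : T := .cons 324 (.leaf 227 1820 (.cons 297 (.leaf 325 2376 (.cons 272 (.leaf 273 2179 (.cons 296 (.leaf 271 2171 (.cons 320 (.leaf 319 2362 (.leaf 321 2370 .nil)) .nil)) .nil)) .nil)) .nil)) (.cons 301 (.cons 273 (.leaf 274 2187 (.cons 277 (.leaf 278 2193 (.cons 297 (.leaf 272 2179 (.cons 321 (.leaf 320 2370 (.leaf 322 2378 .nil)) .nil)) .nil)) .nil)) (.cons 278 (.leaf 277 2193 (.cons 321 (.leaf 322 2378 (.cons 297 (.leaf 320 2370 (.cons 325 (.leaf 324 2376 (.leaf 326 2384 .nil)) .nil)) .nil)) .nil)) (.cons 273 (.leaf 274 2187 (.cons 277 (.leaf 278 2193 (.cons 297 (.leaf 272 2179 (.cons 325 (.leaf 324 2376 (.leaf 326 2384 .nil)) .nil)) .nil)) .nil)) (.cons 274 (.leaf 302 2195 (.leaf 273 2187 .nil)) .nil)))) (.cons 297 (.cons 321 (.leaf 320 2370 (.cons 322 (.leaf 227 1814 (.leaf 301 2378 .nil)) .nil)) (.cons 272 (.leaf 273 2179 (.cons 296 (.leaf 271 2171 (.cons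 320 (.leaf 319 2362 (.leaf 321 2370 .nil)) .nil)) .nil)) (.cons 227 (.leaf 322 1814 (.cons 202 (.leaf 226 1623 (.cons 203 (.leaf 178 1431 (.leaf 274 1622 .nil)) .nil)) .nil)) .nil))) (.cons 227 (.leaf 322 1814 (.leaf 324 1820 .nil)) .nil)))
noncomputable def t92 : T := .cons 300 t91 (.cons 297 t90 (.cons 300 (.cons 297 (.cons 324 (.leaf 227 1820 (.leaf 325 2376 .nil)) (.cons 272 (.leaf 273 2179 (.cons 296 (.leaf 271 2171 (.cons 320 (.leaf 319 2362 (.leaf 321 2370 .nil)) .nil)) .nil)) .nil)) (.cons 301 (.cons 273 (.leaf 274 2187 (.cons 277 (.leaf 278 2193 (.cons 297 (.leaf 272 2179 (.cons 325 (.leaf 324 2376 (.leaf 326 2384 .nil)) .nil)) .nil)) .nil)) (.cons 278 (.leaf 277 2193 (.cons 302 (.leaf 279 2201 (.cons 326 (.leaf 325 2384 (.leaf 327 2392 .nil)) .nil)) .nil)) (.cons 274 (.leaf 302 2195 (.leaf 273 2187 .nil)) .nil))) (.cons 297 t85 (.cons 227 (.leaf 324 1820 (.cons 203 (.leaf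 274 1622 (.cons 202 (.leaf 178 1431 (.leaf 226 1623 .nil)) .nil)) .nil)) .nil)))) (.cons 297 t84 (.cons 227 (.leaf 322 1814 (.cons 203 (.leaf 274 1622 (.cons 178 (.leaf 202 1431 (.cons 179 (.leaf 154 1239 (.cons 180 (.leaf 204 1437 (.leaf 156 1245 .nil)) .nil)) .nil)) .nil)) .nil)) (.cons 322 (.leaf 227 1814 (.cons 346 (.leaf 274 2005 (.leaf 370 2197 .nil)) .nil)) .nil)))))
noncomputable def t93 : T := .cons 227 (.cons 226 (.leaf 202 1623 (.cons 298 (.leaf 322 1814 (.cons 203 (.leaf 274 1622 (.cons 180 (.leaf 204 1437 (.cons 179 (.leaf 156 1245 (.cons 154 (.leaf 178 1239 (.cons 155 (.leaf 130 1047 (.leaf 250 1238 .nil)) .nil)) .nil)) .nil)) .nil)) .nil)) .nil)) (.cons 298 (.leaf 322 1814 (.cons 203 (.leaf 274 1622 (.cons 178 (.leaf 202 1431 (.cons 179 (.leaf 154 1239 (.cons 180 (.leaf 204 1437 (.leaf 156 1245 .nil)) .nil)) .nil)) .nil)) .nil)) (.cons 226 (.leaf 202 1623 (.cons 323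 (.leaf 250 1815 (.cons 324 (.leaf 300 1820 (.leaf 348 2012 .nil)) .nil)) .nil)) (.cons 298 (.leaf 322 1814 (.cons 274 (.leaf 203 1622 (.cons 300 (.leaf 324 1820 (.cons 273 (.leaf 272 2176 (.leaf 301 2187 .nil)) .nil)) .nil)) .nil)) .nil)))) (.cons 298 t92 (.cons 323 (.cons 346 (.leaf 322 2006 (.cons 347 (.leaf 370 2198 (.cons 348 (.leaf 324 2012 (.leaf 372 2204 .nil)) .nil)) .nil)) (.cons 250 (.leaf 226 1815 (.cons 274 (.leaf 347 2007 (.cons 249 t80 .nil)) .nil)) (.cons 322 (.leaf 346 2006 (.cons 324 (.leaf 348 2012 (.cons 321 (.cons 300 (.leaf 320 2369 (.leaf 301 2377 .nil)) (.cons 296 (.leaf 297 2371 (.cons 320 (.leaf 295 2363 (.cons 344 (.leaf 343 2554 (.leaf 345 2562 .nil)) .nil)) .nil)) (.cons 296 (.leaf 297 2371 (.cons 301 (.leaf 300 2377 (.cons 325 (.leaf 302 2385 (.cons 326 (.leaf 298 2387 (.cons 350 (.leaf 349 2576 (.leaf 351 2584 .nil)) .nil)) .nil)) .nil)) .nil)) .nil)))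 .nil)) .nil)) .nil))) (.cons 323 t79 (.cons 323 (.cons 346 (.leaf 322 2006 (.cons 347 (.leaf 370 2198 (.cons 348 (.leaf 324 2012 (.leaf 372 2204 .nil)) .nil)) .nil)) (.cons 348 (.leaf 324 2012 (.cons 347 (.leaf 372 2204 (.cons 274 (.leaf 250 2007 (.cons 370 (.leaf 346 2198 (.cons 371 (.leaf 298 2199 (.leaf 394 2390 .nil)) .nil)) .nil)) .nil)) .nil)) (.cons 346 (.leaf 322 2006 (.cons 347 (.leaf 370 2198 (.cons 274 (.leaf 250 2007 (.cons 371 (.leaf 298 2199 (.cons 372 (.leaf 348 2204 (.leaf 396 2396 .nil)) .nil)) .nil)) .nil)) .nil)) (.cons 324 (.leaf 348 2012 (.cons 227 (.leaf 300 1820 (.cons 298 (.leaf 322 1814 (.cons 203 (.leaf 274 1622 (.cons 178 (.leaf 202 1431 (.cons 179 (.leaf 154 1239 (.cons 180 (.leaf 204 1437 (.leaf 156 1245 .nil)) .nil)) .nil)) .nil)) .nil)) .nil)) .nil)) (.cons 346 (.leaf 322 2006 (.cons 347 (.leaf 370 2198 (.cons 274 (.leaf 250 2007 (.cons 298 (.leaf 371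 2199 (.cons 227 (.leaf 203 1622 (.cons 300 (.leaf 324 1820 (.cons 273 (.leaf 272 2176 (.leaf 301 2187 .nil)) .nil)) .nil)) .nil)) .nil)) .nil)) .nil)) .nil))))) (.cons 323 (.cons 322 (.leaf 346 2006 (.cons 324 (.leaf 348 2012 (.cons 300 (.leaf 227 1820 (.cons 301 (.leaf 302 2386 (.leaf 321 2377 .nil)) .nil)) .nil)) .nil)) (.cons 250 (.leaf 226 1815 (.cons 346 (.leaf 322 2006 (.cons 347 (.leaf 274 2007 (.leaf 370 2198 .nil)) .nil)) .nil)) (.cons 226 (.leaf 250 1815 (.cons 227 (.leaf 202 1623 (.cons 324 (.leaf 300 1820 (.leaf 348 2012 .nil)) .nil)) .nil)) .nil))) (.cons 323 (.cons 226 (.leaf 250 1815 (.cons 346 (.leaf 322 2006 (.cons 347 (.leaf 370 2198 (.cons 348 (.leaf 324 2012 (.leaf 372 2204 .nil)) .nil)) .nil)) .nil)) (.cons 226 (.leaf 250 1815 (.cons 227 (.leaf 202 1623 (.cons 324 (.leaf 300 1820 (.leaf 348 2012 .nil)) .nil)) .nil)) (.cons 226 (.leaf 250 1815 (.cons 227 (.leaf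 202 1623 (.cons 322 (.leaf 298 1814 (.leaf 346 2006 .nil)) .nil)) .nil)) (.cons 322 (.leaf 346 2006 (.cons 324 (.leaf 348 2012 (.cons 298 (.leaf 227 1814 (.cons 297 (.leaf 296 2368 (.leaf 325 2379 .nil)) .nil)) .nil)) .nil)) .nil)))) (.cons 227 t77 (.cons 324 (.cons 227 (.leaf 300 1820 (.cons 202 (.leaf 226 1623 (.cons 203 (.leaf 178 1431 (.cons 298 (.leaf 274 1622 (.leaf 322 1814 .nil)) .nil)) .nil)) .nil)) (.cons 323 (.leaf 348 2012 (.cons 322 (.leaf 346 2006 (.cons 321 (.cons 300 (.leaf 320 2369 (.leaf 301 2377 .nil)) (.cons 296 (.leaf 297 2371 (.cons 320 (.leaf 295 2363 (.cons 344 (.leaf 345 2562 (.leaf 343 2554 .nil)) .nil)) .nil)) (.cons 296 (.leaf 297 2371 (.cons 301 (.leaf 300 2377 (.cons 325 (.leaf 302 2385 (.cons 326 (.leaf 298 2387 (.cons 350 (.leaf 349 2576 (.leaf 351 2584 .nil)) .nil)) .nil)) .nil)) .nil)) .nil))) .nil)) .nil)) (.cons 323 (.leaf 348 2012 (.cons 322 (.leaf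 346 2006 (.cons 298 (.leaf 227 1814 (.cons 297 (.leaf 296 2368 (.leaf 325 2379 .nil)) .nil)) .nil)) .nil)) (.cons 300 (.leaf 227 1820 (.cons 348 (.leaf 323 2012 (.leaf 372 2207 .nil)) .nil)) .nil)))) .nil))))))))
noncomputable def t94 : T := .cons 204 (.leaf 228 1629 (.cons 203 (.leaf 180 1437 (.cons 178 (.leaf 202 1431 (.cons 179 (.leaf 154 1239 (.cons 274 (.leaf 298 1622 (.leaf 250 1430 .nil)) .nil)) .nil)) .nil)) .nil)) (.cons 202 (.leaf 226 1623 (.cons 203 (.leaf 178 1431 (.cons 180 (.leaf 204 1437 (.cons 179 (.leaf 156 1245 (.cons 274 (.leaf 298 1622 (.leaf 250 1430 .nil)) .nil)) .nil)) .nil)) .nil)) (.cons 228 (.leaf 204 1629 (.cons 323 (.leaf 252 1821 (.cons 250 (.leaf 226 1815 (.cons 229 (.leaf 230 1810 (.cons 248 (.leaf 249 1793 (.cons 274 (.leaf 347 2007 (.cons 203 (.leaf 298 1622 (.leaf 179 1430 .nil)) .nil)) .nil)) .nil)) .nil)) .nil)) .nil)) (.cons 202 (.leaf 226 1623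 (.cons 203 (.leaf 178 1431 (.cons 274 (.leaf 298 1622 (.cons 250 (.leaf 179 1430 (.cons 323 (.leaf 347 2007 (.cons 252 (.leaf 228 1821 (.cons 253 (.leaf 254 2002 (.leaf 273 1994 .nil)) .nil)) .nil)) .nil)) .nil)) .nil)) .nil)) (.cons 226 (.leaf 202 1623 (.cons 228 (.leaf 204 1629 (.cons 323 (.leaf 250 1815 (.leaf 252 1821 .nil)) .nil)) .nil)) (.cons 228 (.leaf 204 1629 (.cons 226 (.leaf 202 1623 (.cons 252 (.leaf 323 1821 (.cons 225 (.leaf 224 1792 (.leaf 253 1800 .nil)) .nil)) .nil)) .nil)) .nil)))))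
noncomputable def t95 : T := .cons 346 (.leaf 322 2006 (.cons 228 (.leaf 252 1821 (.cons 347 (.leaf 370 2198 (.cons 348 (.leaf 324 2012 (.leaf 372 2204 .nil)) .nil)) .nil)) .nil)) (.cons 250 (.leaf 226 1815 (.cons 347 (.leaf 274 2007 (.cons 348 (.leaf 324 2012 (.leaf 372 2204 .nil)) .nil)) .nil)) (.cons 250 (.leaf 226 1815 (.cons 228 (.leaf 252 1821 (.cons 346 (.leaf 322 2006 (.cons 347 (.leaf 274 2007 (.leaf 370 2198 .nil)) .nil)) .nil)) .nil)) (.cons 250 (.leaf 226 1815 (.cons 252 (.leaf 228 1821 (.cons 322 (.leaf 346 2006 (.cons 324 (.leaf 348 2012 (.cons 253 (.cons 274 (.leaf 254 2002 (.leaf 273 1994 .nil)) (.cons 229 (.leaf 230 1809 (.cons 278 (.leaf 277 2000 (.cons 254 (.leaf 279 2008 (.cons 326 (.leaf 302 1839 (.cons 325 (.leaf 298 2387 (.cons 350 (.leaf 349 2576 (.leaf 351 2584 .nil)) .nil)) .nil)) .nil)) .nil)) .nil)) (.cons 229 (.leaf 230 1809 (.cons 273 (.leaf 274 1994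 (.cons 249 (.leaf 272 1986 (.cons 224 (.leaf 225 1795 (.cons 248 (.leaf 223 1787 (.cons 176 (.leaf 200 1412 (.cons 297 (.leaf 321 1799 (.cons 298 (.leaf 296 2368 (.leaf 325 2379 .nil)) .nil)) .nil)) .nil)) .nil)) .nil)) .nil)) .nil)) .nil))) .nil)) .nil)) .nil)) .nil)) .nil)))
noncomputable def t96 : T := .cons 298 (.leaf 322 1814 (.cons 202 (.leaf 226 1623 (.cons 203 (.leaf 178 1431 (.leaf 274 1622 .nil)) .nil)) .nil)) (.cons 298 (.leaf 322 1814 (.cons 203 (.leaf 274 1622 (.cons 204 (.leaf 180 1437 (.leaf 228 1629 .nil)) .nil)) .nil)) (.cons 202 (.leaf 226 1623 (.cons 203 (.leaf 178 1431 (.cons 204 (.leaf 180 1437 (.leaf 228 1629 .nil)) .nil)) .nil)) (.cons 226 (.leaf 202 1623 (.cons 228 (.leaf 204 1629 (.cons 298 (.leaf 322 1814 (.cons 225 (.cons 200 (.leaf 201 1603 (.cons 199 (.leaf 224 1595 (.cons 249 (.leaf 248 1794 (.cons 229 (.leaf 250 1802 (.cons 206 (.leaf 205 1617 (.cons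 230 (.leaf 207 1625 (.cons 254 (.leaf 253 1808 (.leaf 255 1816 .nil)) .nil)) .nil)) .nil)) .nil)) .nil)) .nil)) (.cons 200 (.leaf 201 1603 (.cons 248 (.leaf 249 1794 (.cons 253 (.leaf 252 1800 (.cons 229 (.leaf 254 1808 (.cons 206 (.leaf 205 1617 (.cons 230 (.leaf 250 1810 (.leaf 207 1625 .nil)) .nil)) .nil)) .nil)) .nil)) .nil)) (.cons 200 (.leaf 201 1603 (.cons 224 (.leaf 252 1792 (.leaf 199 1595 .nil)) .nil)) (.cons 252 (.leaf 224 1792 (.leaf 253 1800 .nil)) .nil)))) .nil)) .nil)) .nil)) .nil)))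
noncomputable def t97 : T := .cons 250 (.leaf 226 1815 (.cons 322 (.leaf 346 2006 (.cons 347 (.leaf 274 2007 (.cons 348 (.leaf 324 2012 (.leaf 372 2204 .nil)) .nil)) .nil)) .nil)) (.cons 250 (.leaf 226 1815 (.cons 228 (.leaf 252 1821 (.cons 324 (.leaf 348 2012 (.cons 347 (.leaf 274 2007 (.cons 370 (.leaf 346 2198 (.cons 371 (.leaf 394 2390 (.cons 395 (.leaf 300 2397 (.cons 396 (.leaf 372 2396 (.leaf 420 2588 .nil)) .nil)) .nil)) .nil)) .nil)) .nil)) .nil)) .nil)) (.cons 250 (.leaf 226 1815 (.cons 228 (.leaf 252 1821 (.cons 347 (.leaf 274 2007 (.cons 348 (.leaf 324 2012 (.leaf 372 2204 .nil)) .nil)) .nil)) .nil)) (.cons 346 (.leaf 322 2006 (.cons 228 (.leaf 252 1821 (.cons 347 (.leaf 370 2198 (.cons 348 (.leaf 324 2012 (.leaf 372 2204 .nil)) .nil)) .nil)) .nil)) (.cons 250 (.leaf 226 1815 (.cons 228 (.leaf 252 1821 (.cons 346 (.leaf 322 2006 (.cons 347 (.leaf 274 2007 (.leaf 370 2198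 .nil)) .nil)) .nil)) .nil)) (.cons 322 (.leaf 346 2006 (.cons 324 (.leaf 348 2012 (.cons 250 (.leaf 226 1815 (.cons 252 (.leaf 228 1821 (.cons 321 (.cons 300 (.leaf 320 2369 (.leaf 301 2377 .nil)) (.cons 296 (.leaf 297 2371 (.cons 320 (.leaf 295 2363 (.cons 344 (.leaf 343 2554 (.leaf 345 2562 .nil)) .nil)) .nil)) (.cons 296 (.leaf 297 2371 (.cons 301 (.leaf 300 2377 (.cons 325 (.leaf 302 2385 (.cons 298 (.leaf 326 2387 (.cons 345 (.leaf 344 2562 (.leaf 274 1998 .nil)) .nil)) .nil)) .nil)) .nil)) .nil))) .nil)) .nil)) .nil)) .nil)) .nil)))))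
noncomputable def t98 : T := .cons 227 (.cons 226 (.leaf 202 1623 (.cons 323 (.leaf 250 1815 (.cons 228 (.leaf 204 1629 (.leaf 252 1821 .nil)) .nil)) .nil)) (.cons 298 (.leaf 322 1814 (.cons 203 (.leaf 274 1622 (.cons 178 (.leaf 202 1431 (.cons 179 (.leaf 154 1239 (.cons 180 (.leaf 204 1437 (.leaf 156 1245 .nil)) .nil)) .nil)) .nil)) .nil)) (.cons 298 (.leaf 322 1814 (.cons 274 (.leaf 203 1622 (.cons 300 (.leaf 324 1820 (.cons 273 (.leaf 272 2176 (.leaf 301 2187 .nil)) .nil)) .nil)) .nil)) .nil))) (.cons 227 (.cons 202 (.leaf 226 1623 (.cons 203 (.leaf 178 1431 (.cons 204 (.leaf 180 1437 (.leaf 228 1629 .nil)) .nil)) .nil)) (.cons 298 (.leaf 322 1814 (.cons 274 (.leaf 203 1622 (.cons 300 (.leaf 324 1820 (.cons 273 (.leaf 272 2176 (.leaf 301 2187 .nil)) .nil)) .nil)) .nil)) (.cons 226 (.leaf 202 1623 (.cons 228 (.leaf 204 1629 (.cons 298 (.leaf 322 1814 (.cons 300 (.leaf 324 1820 (.cons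 301 (.cons 274 (.leaf 302 2195 (.leaf 273 2187 .nil)) (.cons 278 (.leaf 277 2193 (.cons 302 (.leaf 279 2201 (.cons 326 (.leaf 325 2384 (.leaf 327 2392 .nil)) .nil)) .nil)) (.cons 273 (.leaf 274 2187 (.cons 277 (.leaf 278 2193 (.cons 297 (.leaf 272 2179 (.cons 320 (.leaf 321 2370 (.cons 296 (.leaf 319 2362 (.cons 225 (.leaf 249 1798 (.cons 200 (.leaf 201 1603 (.cons 224 (.leaf 252 1792 (.leaf 199 1595 .nil)) .nil)) .nil)) .nil)) .nil)) .nil)) .nil)) .nil)) .nil))) .nil)) .nil)) .nil)) .nil)) .nil))) (.cons 323 t97 (.cons 227 (.cons 202 (.leaf 226 1623 (.cons 203 (.leaf 178 1431 (.cons 274 (.leaf 298 1622 (.cons 250 (.leaf 179 1430 (.cons 323 (.leaf 347 2007 (.cons 324 (.leaf 300 1820 (.leaf 348 2012 .nil)) .nil)) .nil)) .nil)) .nil)) .nil)) (.cons 228 (.leaf 204 1629 (.cons 323 (.leaf 252 1821 (.cons 324 (.leaf 300 1820 (.leaf 348 2012 .nil)) .nil)) .nil)) (.cons 204 (.leaf 228 1629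 (.cons 203 (.leaf 180 1437 (.cons 178 (.leaf 202 1431 (.cons 179 (.leaf 154 1239 (.cons 274 (.leaf 298 1622 (.leaf 250 1430 .nil)) .nil)) .nil)) .nil)) .nil)) .nil))) (.cons 227 (.cons 228 (.leaf 204 1629 (.cons 323 (.leaf 252 1821 (.cons 324 (.leaf 300 1820 (.leaf 348 2012 .nil)) .nil)) .nil)) (.cons 298 (.leaf 322 1814 (.cons 203 (.leaf 274 1622 (.cons 178 (.leaf 202 1431 (.cons 179 (.leaf 154 1239 (.cons 180 (.leaf 204 1437 (.leaf 156 1245 .nil)) .nil)) .nil)) .nil)) .nil)) (.cons 298 (.leaf 322 1814 (.cons 274 (.leaf 203 1622 (.cons 300 (.leaf 324 1820 (.cons 273 (.leaf 272 2176 (.leaf 301 2187 .nil)) .nil)) .nil)) .nil)) .nil))) (.cons 323 (.cons 226 (.leaf 250 1815 (.cons 228 (.leaf 252 1821 (.cons 346 (.leaf 322 2006 (.cons 347 (.leaf 370 2198 (.cons 348 (.leaf 324 2012 (.leaf 372 2204 .nil)) .nil)) .nil)) .nil)) .nil)) (.cons 226 (.leaf 250 1815 (.cons 227 (.leaf 202 1623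 (.cons 228 (.leaf 204 1629 (.leaf 252 1821 .nil)) .nil)) .nil)) (.cons 346 (.leaf 322 2006 (.cons 228 (.leaf 252 1821 (.cons 347 (.leaf 370 2198 (.cons 348 (.leaf 324 2012 (.leaf 372 2204 .nil)) .nil)) .nil)) .nil)) (.cons 324 (.leaf 348 2012 (.cons 226 (.leaf 250 1815 (.cons 227 (.leaf 202 1623 (.leaf 300 1820 .nil)) .nil)) .nil)) .nil)))) (.cons 227 (.cons 202 (.leaf 226 1623 (.cons 203 (.leaf 178 1431 (.cons 204 (.leaf 180 1437 (.leaf 228 1629 .nil)) .nil)) .nil)) (.cons 228 (.leaf 204 1629 (.cons 252 (.leaf 323 1821 (.cons 298 (.leaf 322 1814 (.cons 203 (.leaf 274 1622 (.cons 178 (.leaf 202 1431 (.cons 179 (.leaf 154 1239 (.leaf 155 1244 .nil)) .nil)) .nil)) .nil)) .nil)) .nil)) (.cons 202 (.leaf 226 1623 (.cons 203 (.leaf 178 1431 (.cons 298 (.leaf 274 1622 (.leaf 322 1814 .nil)) .nil)) .nil)) (.cons 228 (.leaf 204 1629 (.cons 298 (.leaf 322 1814 (.cons 274 (.leaf 203 1622 (.cons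 323 (.leaf 252 1821 (.cons 250 (.leaf 226 1812 (.leaf 347 2007 .nil)) .nil)) .nil)) .nil)) .nil)) (.cons 202 (.leaf 226 1623 (.cons 228 (.leaf 204 1629 (.cons 322 (.leaf 298 1814 (.cons 323 (.leaf 252 1821 (.leaf 346 2006 .nil)) .nil)) .nil)) .nil)) .nil))))) (.cons 227 (.cons 298 (.leaf 322 1814 (.cons 202 (.leaf 226 1623 (.cons 203 (.leaf 178 1431 (.leaf 274 1622 .nil)) .nil)) .nil)) (.cons 226 (.leaf 202 1623 (.cons 323 (.leaf 250 1815 (.cons 324 (.leaf 300 1820 (.leaf 348 2012 .nil)) .nil)) .nil)) (.cons 298 (.leaf 322 1814 (.cons 203 (.leaf 274 1622 (.cons 178 (.leaf 202 1431 (.cons 179 (.leaf 154 1239 (.cons 180 (.leaf 204 1437 (.leaf 156 1245 .nil)) .nil)) .nil)) .nil)) .nil)) (.cons 298 (.leaf 322 1814 (.cons 274 (.leaf 203 1622 (.cons 300 (.leaf 324 1820 (.cons 273 (.leaf 272 2176 (.leaf 301 2187 .nil)) .nil)) .nil)) .nil)) .nil)))) .nil)))))))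
noncomputable def t99 : T := .cons 202 (.leaf 226 1623 (.cons 228 (.leaf 204 1629 (.cons 203 (.leaf 178 1431 (.cons 298 (.leaf 274 1622 (.leaf 322 1814 .nil)) .nil)) .nil)) .nil)) (.cons 202 (.leaf 226 1623 (.cons 203 (.leaf 178 1431 (.cons 298 (.leaf 274 1622 (.leaf 322 1814 .nil)) .nil)) .nil)) (.cons 228 (.leaf 204 1629 (.cons 202 (.leaf 226 1623 (.cons 203 (.leaf 178 1431 (.cons 200 (.leaf 201 1600 (.cons 229 (.leaf 230 1619 (.cons 252 (.leaf 323 1821 (.cons 179 (.leaf 155 1244 (.cons 250 (.leaf 274 1430 (.leaf 249 1801 .nil)) .nil)) .nil)) .nil)) .nil)) .nil)) .nil)) .nil)) (.cons 228 (.leaf 204 1629 (.cons 252 (.leaf 323 1821 (.cons 298 (.leaf 322 1814 (.cons 203 (.leaf 274 1622 (.cons 178 (.leaf 202 1431 (.cons 179 (.leaf 154 1239 (.leaf 155 1244 .nil)) .nil)) .nil)) .nil)) .nil)) .nil)) (.cons 228 (.leaf 204 1629 (.cons 252 (.leaf 323 1821 (.cons 298 (.leaf 322 1814 (.cons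 274 (.leaf 203 1622 (.cons 253 (.leaf 254 2002 (.cons 273 (.leaf 272 1985 (.leaf 250 1994 .nil)) .nil)) .nil)) .nil)) .nil)) .nil)) (.cons 228 (.leaf 204 1629 (.cons 202 (.leaf 226 1623 (.cons 322 (.leaf 298 1814 (.cons 323 (.leaf 252 1821 (.leaf 346 2006 .nil)) .nil)) .nil)) .nil)) .nil)))))
noncomputable def t100 : T := .cons 346 (.leaf 322 2006 (.cons 228 (.leaf 252 1821 (.cons 347 (.leaf 370 2198 (.cons 348 (.leaf 324 2012 (.leaf 372 2204 .nil)) .nil)) .nil)) .nil)) (.cons 250 (.leaf 226 1815 (.cons 228 (.leaf 252 1821 (.cons 324 (.leaf 348 2012 (.cons 347 (.leaf 274 2007 (.cons 370 (.leaf 346 2198 (.cons 371 (.leaf 394 2390 (.cons 395 (.leaf 300 2397 (.cons 396 (.leaf 372 2396 (.leaf 420 2588 .nil)) .nil)) .nil)) .nil)) .nil)) .nil)) .nil)) .nil)) (.cons 250 (.leaf 226 1815 (.cons 228 (.leaf 252 1821 (.cons 347 (.leaf 274 2007 (.cons 348 (.leaf 324 2012 (.leaf 372 2204 .nil))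 .nil)) .nil)) .nil)) (.cons 250 (.leaf 226 1815 (.cons 228 (.leaf 252 1821 (.cons 346 (.leaf 322 2006 (.cons 347 (.leaf 274 2007 (.leaf 370 2198 .nil)) .nil)) .nil)) .nil)) (.cons 250 (.leaf 226 1815 (.cons 322 (.leaf 346 2006 (.cons 347 (.leaf 274 2007 (.cons 348 (.leaf 324 2012 (.leaf 372 2204 .nil)) .nil)) .nil)) .nil)) (.cons 322 (.leaf 346 2006 (.cons 324 (.leaf 348 2012 (.cons 250 (.leaf 226 1815 (.cons 252 (.leaf 228 1821 (.cons 253 (.cons 274 (.leaf 254 2002 (.leaf 273 1994 .nil)) (.cons 229 (.leaf 230 1809 (.cons 277 (.leaf 278 2000 (.cons 300 (.leaf 301 1830 (.cons 321 (.leaf 320 2369 (.cons 297 (.leaf 296 2371 (.cons 325 (.leaf 298 2376 (.cons 326 (.leaf 327 2395 (.cons 350 (.leaf 349 2576 (.leaf 351 2584 .nil)) .nil)) .nil)) .nil)) .nil)) .nil)) .nil)) .nil)) .nil)) .nil)) .nil)) .nil)) .nil)) .nil)))))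
noncomputable def t101 : T := .cons 227 (.cons 204 (.leaf 228 1629 (.cons 180 (.leaf 203 1437 (.cons 322 (.leaf 298 1814 (.cons 323 (.leaf 346 2006 (.cons 324 (.leaf 300 1820 (.leaf 348 2012 .nil)) .nil)) .nil)) .nil)) .nil)) (.cons 298 (.leaf 322 1814 (.cons 203 (.leaf 274 1622 (.cons 178 (.leaf 202 1431 (.cons 179 (.leaf 154 1239 (.cons 180 (.leaf 204 1437 (.leaf 156 1245 .nil)) .nil)) .nil)) .nil)) .nil)) (.cons 204 (.leaf 228 1629 (.cons 203 (.leaf 180 1437 (.cons 178 (.leaf 202 1431 (.cons 179 (.leaf 154 1239 (.cons 274 (.leaf 298 1622 (.leaf 250 1430 .nil)) .nil)) .nil)) .nil)) .nil)) (.cons 228 (.leaf 204 1629 (.cons 323 (.leaf 252 1821 (.cons 324 (.leaf 300 1820 (.leaf 348 2012 .nil)) .nil)) .nil)) (.cons 298 (.leaf 322 1814 (.cons 274 (.leaf 203 1622 (.cons 300 (.leaf 324 1820 (.cons 273 (.leaf 272 2176 (.leaf 301 2187 .nil)) .nil)) .nil)) .nil)) .nil))))) (.cons 227 (.cons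 202 (.leaf 226 1623 (.cons 203 (.leaf 178 1431 (.cons 180 (.leaf 204 1437 (.cons 179 (.leaf 156 1245 (.cons 274 (.leaf 298 1622 (.leaf 250 1430 .nil)) .nil)) .nil)) .nil)) .nil)) (.cons 228 (.leaf 204 1629 (.cons 323 (.leaf 252 1821 (.cons 324 (.leaf 300 1820 (.leaf 348 2012 .nil)) .nil)) .nil)) (.cons 202 (.leaf 226 1623 (.cons 203 (.leaf 178 1431 (.cons 274 (.leaf 298 1622 (.cons 250 (.leaf 179 1430 (.cons 300 (.leaf 324 1820 (.cons 273 (.leaf 272 2176 (.cons 252 (.leaf 253 1994 (.cons 323 (.leaf 228 1821 (.leaf 347 2007 .nil)) .nil)) .nil)) .nil)) .nil)) .nil)) .nil)) .nil)) .nil))) (.cons 227 (.cons 202 (.leaf 226 1623 (.cons 178 (.leaf 203 1431 (.cons 228 (.leaf 204 1629 (.cons 323 (.leaf 252 1821 (.cons 324 (.leaf 300 1820 (.leaf 348 2012 .nil)) .nil)) .nil)) .nil)) .nil)) (.cons 202 (.leaf 226 1623 (.cons 203 (.leaf 178 1431 (.cons 298 (.leaf 274 1622 (.leaf 322 1814 .nil))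 .nil)) .nil)) (.cons 228 (.leaf 204 1629 (.cons 323 (.leaf 252 1821 (.cons 324 (.leaf 300 1820 (.leaf 348 2012 .nil)) .nil)) .nil)) .nil))) (.cons 227 (.cons 226 (.leaf 202 1623 (.cons 323 (.leaf 250 1815 (.cons 324 (.leaf 300 1820 (.leaf 348 2012 .nil)) .nil)) .nil)) (.cons 298 (.leaf 322 1814 (.cons 203 (.leaf 274 1622 (.cons 178 (.leaf 202 1431 (.cons 179 (.leaf 154 1239 (.cons 180 (.leaf 204 1437 (.leaf 156 1245 .nil)) .nil)) .nil)) .nil)) .nil)) (.cons 298 (.leaf 322 1814 (.cons 274 (.leaf 203 1622 (.cons 300 (.leaf 324 1820 (.cons 273 (.leaf 272 2176 (.leaf 301 2187 .nil)) .nil)) .nil)) .nil)) .nil))) (.cons 227 (.cons 202 (.leaf 226 1623 (.cons 178 (.leaf 203 1431 (.cons 228 (.leaf 204 1629 (.cons 323 (.leaf 252 1821 (.cons 324 (.leaf 300 1820 (.leaf 348 2012 .nil)) .nil)) .nil)) .nil)) .nil)) (.cons 226 (.leaf 202 1623 (.cons 323 (.leaf 250 1815 (.cons 324 (.leaf 300 1820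 (.leaf 348 2012 .nil)) .nil)) .nil)) (.cons 228 (.leaf 204 1629 (.cons 323 (.leaf 252 1821 (.cons 324 (.leaf 300 1820 (.leaf 348 2012 .nil)) .nil)) .nil)) (.cons 202 (.leaf 226 1623 (.cons 178 (.leaf 203 1431 (.cons 228 (.leaf 204 1629 (.cons 322 (.leaf 298 1814 (.cons 323 (.leaf 252 1821 (.leaf 346 2006 .nil)) .nil)) .nil)) .nil)) .nil)) (.cons 202 (.leaf 226 1623 (.cons 203 (.leaf 178 1431 (.cons 204 (.leaf 180 1437 (.leaf 228 1629 .nil)) .nil)) .nil)) .nil))))) (.cons 227 (.cons 202 (.leaf 226 1623 (.cons 228 (.leaf 204 1629 (.cons 203 (.leaf 178 1431 (.cons 298 (.leaf 274 1622 (.leaf 322 1814 .nil)) .nil)) .nil)) .nil)) (.cons 204 (.leaf 228 1629 (.cons 203 (.leaf 180 1437 (.cons 298 (.leaf 274 1622 (.leaf 322 1814 .nil)) .nil)) .nil)) (.cons 202 (.leaf 226 1623 (.cons 203 (.leaf 178 1431 (.cons 180 (.leaf 204 1437 (.cons 179 (.leaf 156 1245 (.cons 274 (.leaf 298 1622 (.leaf 250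 1430 .nil)) .nil)) .nil)) .nil)) .nil)) (.cons 226 (.leaf 202 1623 (.cons 204 (.leaf 228 1629 (.cons 203 (.leaf 180 1437 (.cons 205 (.leaf 206 1618 (.cons 224 (.leaf 225 1601 (.cons 250 (.leaf 323 1815 (.cons 179 (.leaf 274 1430 (.leaf 155 1238 .nil)) .nil)) .nil)) .nil)) .nil)) .nil)) .nil)) (.cons 202 (.leaf 226 1623 (.cons 203 (.leaf 178 1431 (.cons 298 (.leaf 274 1622 (.leaf 322 1814 .nil)) .nil)) .nil)) (.cons 202 (.leaf 226 1623 (.cons 228 (.leaf 204 1629 (.cons 322 (.leaf 298 1814 (.cons 323 (.leaf 252 1821 (.leaf 346 2006 .nil)) .nil)) .nil)) .nil)) .nil)))))) .nil)))))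
noncomputable def t102 : T := .cons 298 (.leaf 322 1814 (.cons 202 (.leaf 226 1623 (.cons 203 (.leaf 178 1431 (.leaf 274 1622 .nil)) .nil)) .nil)) (.cons 298 (.leaf 322 1814 (.cons 203 (.leaf 274 1622 (.cons 178 (.leaf 202 1431 (.cons 179 (.leaf 154 1239 (.cons 180 (.leaf 204 1437 (.leaf 156 1245 .nil)) .nil)) .nil)) .nil)) .nil)) (.cons 298 (.leaf 322 1814 (.cons 274 (.leaf 203 1622 (.cons 300 (.leaf 324 1820 (.cons 273 (.leaf 272 2176 (.leaf 301 2187 .nil)) .nil)) .nil)) .nil)) (.cons 202 (.leaf 226 1623 (.cons 203 (.leaf 178 1431 (.cons 204 (.leaf 180 1437 (.leaf 228 1629 .nil)) .nil)) .nil)) (.cons 226 (.leaf 202 1623 (.cons 228 (.leaf 204 1629 (.cons 298 (.leaf 322 1814 (.cons 300 (.leaf 324 1820 (.cons 225 (.cons 200 (.leaf 201 1603 (.cons 199 (.leaf 224 1595 (.cons 249 (.leaf 248 1794 (.cons 229 (.leaf 250 1802 (.cons 206 (.leaf 205 1617 (.cons 230 (.leaf 207 1625 (.cons 254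 (.leaf 253 1808 (.leaf 255 1816 .nil)) .nil)) .nil)) .nil)) .nil)) .nil)) .nil)) (.cons 200 (.leaf 201 1603 (.cons 248 (.leaf 249 1794 (.cons 253 (.leaf 252 1800 (.cons 229 (.leaf 254 1808 (.cons 206 (.leaf 205 1617 (.cons 230 (.leaf 250 1810 (.leaf 207 1625 .nil)) .nil)) .nil)) .nil)) .nil)) .nil)) (.cons 200 (.leaf 201 1603 (.cons 224 (.leaf 252 1792 (.leaf 199 1595 .nil)) .nil)) (.cons 252 (.leaf 224 1792 (.leaf 253 1800 .nil)) .nil)))) .nil)) .nil)) .nil)) .nil)) .nil))))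
noncomputable def t103 : T := .cons 228 (.leaf 252 1821 (.cons 204 (.leaf 227 1629 (.cons 250 (.leaf 226 1815 (.cons 347 (.leaf 274 2007 (.cons 370 (.leaf 346 2198 (.cons 371 (.leaf 394 2390 (.cons 372 (.leaf 348 2204 (.leaf 396 2396 .nil)) .nil)) .nil)) .nil)) .nil)) .nil)) .nil)) (.cons 228 (.leaf 252 1821 (.cons 227 (.leaf 204 1629 (.cons 322 (.leaf 298 1814 (.leaf 346 2006 .nil)) .nil)) .nil)) (.cons 250 (.leaf 226 1815 (.cons 228 (.leaf 252 1821 (.cons 227 (.leaf 204 1629 (.cons 229 (.leaf 230 1810 (.cons 248 (.leaf 249 1793 (.cons 274 (.leaf 347 2007 (.cons 203 (.leaf 298 1622 (.leaf 179 1430 .nil)) .nil)) .nil)) .nil)) .nil)) .nil)) .nil)) (.cons 250 (.leaf 226 1815 (.cons 274 (.leaf 347 2007 (.cons 322 (.leaf 346 2006 (.cons 298 (.leaf 227 1813 (.cons 225 (.leaf 249 1807 (.cons 321 (.leaf 345 1998 (.cons 300 (.leaf 301 2378 (.leaf 320 2369 .nil)) .nil)) .nil)) .nil)) .nil))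 .nil)) .nil)) (.cons 228 (.leaf 252 1821 (.cons 250 (.leaf 226 1815 (.cons 346 (.leaf 322 2006 (.cons 347 (.leaf 274 2007 (.leaf 370 2198 .nil)) .nil)) .nil)) .nil)) .nil))))
noncomputable def t104 : T := .cons 323 t103 (.cons 323 (.cons 226 (.leaf 250 1815 (.cons 346 (.leaf 322 2006 (.cons 347 (.leaf 370 2198 (.cons 348 (.leaf 324 2012 (.leaf 372 2204 .nil)) .nil)) .nil)) .nil)) (.cons 324 (.leaf 348 2012 (.cons 227 (.leaf 300 1820 (.cons 250 (.leaf 226 1815 (.cons 274 (.leaf 347 2007 (.cons 203 (.leaf 298 1622 (.leaf 179 1430 .nil)) .nil)) .nil)) .nil)) .nil)) (.cons 322 (.leaf 346 2006 (.cons 250 (.leaf 226 1815 (.cons 274 (.leaf 347 2007 (.cons 298 (.leaf 227 1813 (.cons 225 (.leaf 249 1807 (.cons 321 (.leaf 345 1998 (.cons 300 (.leaf 301 2378 (.leaf 320 2369 .nil)) .nil)) .nil)) .nil)) .nil)) .nil)) .nil)) (.cons 322 (.leaf 346 2006 (.cons 227 (.leaf 298 1814 (.cons 324 (.leaf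 300 1820 (.leaf 348 2012 .nil)) .nil)) .nil)) .nil)))) (.cons 323 (.cons 226 (.leaf 250 1815 (.cons 346 (.leaf 322 2006 (.cons 347 (.leaf 370 2198 (.cons 348 (.leaf 324 2012 (.leaf 372 2204 .nil)) .nil)) .nil)) .nil)) (.cons 226 (.leaf 250 1815 (.cons 228 (.leaf 252 1821 (.cons 227 (.leaf 204 1629 (.cons 324 (.leaf 300 1820 (.leaf 348 2012 .nil)) .nil)) .nil)) .nil)) (.cons 226 (.leaf 250 1815 (.cons 228 (.leaf 252 1821 (.cons 227 (.leaf 204 1629 (.cons 322 (.leaf 298 1814 (.leaf 346 2006 .nil)) .nil)) .nil)) .nil)) (.cons 322 (.leaf 346 2006 (.cons 227 (.leaf 298 1814 (.cons 324 (.leaf 300 1820 (.leaf 348 2012 .nil)) .nil)) .nil)) .nil)))) (.cons 323 (.cons 226 (.leaf 250 1815 (.cons 228 (.leaf 252 1821 (.cons 227 (.leaf 204 1629 (.cons 322 (.leaf 298 1814 (.leaf 346 2006 .nil)) .nil)) .nil)) .nil)) (.cons 228 (.leaf 252 1821 (.cons 204 (.leaf 227 1629 (.cons 250 (.leaf 226 1815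 (.cons 347 (.leaf 274 2007 (.cons 348 (.leaf 324 2012 (.leaf 372 2204 .nil)) .nil)) .nil)) .nil)) .nil)) (.cons 228 (.leaf 252 1821 (.cons 227 (.leaf 204 1629 (.cons 322 (.leaf 298 1814 (.leaf 346 2006 .nil)) .nil)) .nil)) (.cons 322 (.leaf 346 2006 (.cons 226 (.leaf 250 1815 (.cons 298 (.leaf 227 1814 (.cons 324 (.leaf 348 2012 (.cons 297 (.leaf 296 2368 (.leaf 325 2379 .nil)) .nil)) .nil)) .nil)) .nil)) (.cons 346 (.leaf 322 2006 (.cons 228 (.leaf 252 1821 (.cons 347 (.leaf 370 2198 (.cons 348 (.leaf 324 2012 (.leaf 372 2204 .nil)) .nil)) .nil)) .nil)) .nil))))) (.cons 323 (.cons 228 (.leaf 252 1821 (.cons 227 (.leaf 204 1629 (.cons 324 (.leaf 300 1820 (.leaf 348 2012 .nil)) .nil)) .nil)) (.cons 322 (.leaf 346 2006 (.cons 227 (.leaf 298 1814 (.cons 228 (.leaf 204 1629 (.leaf 252 1821 .nil)) .nil)) .nil)) (.cons 322 (.leaf 346 2006 (.cons 324 (.leaf 348 2012 (.cons 227 (.leaf 298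 1814 (.leaf 300 1820 .nil)) .nil)) .nil)) (.cons 228 (.leaf 252 1821 (.cons 346 (.leaf 322 2006 (.cons 347 (.leaf 370 2198 (.cons 348 (.leaf 324 2012 (.leaf 372 2204 .nil)) .nil)) .nil)) .nil)) .nil)))) (.cons 227 (.cons 228 (.leaf 204 1629 (.cons 300 (.leaf 324 1820 (.cons 323 (.leaf 252 1821 (.cons 250 (.leaf 226 1815 (.cons 229 (.leaf 230 1810 (.cons 248 (.leaf 249 1793 (.cons 346 (.leaf 322 2006 (.cons 347 (.leaf 274 2007 (.leaf 370 2198 .nil)) .nil)) .nil)) .nil)) .nil)) .nil)) .nil)) .nil)) (.cons 298 (.leaf 322 1814 (.cons 274 (.leaf 203 1622 (.cons 300 (.leaf 324 1820 (.cons 273 (.leaf 272 2176 (.leaf 301 2187 .nil)) .nil)) .nil)) .nil)) (.cons 204 (.leaf 228 1629 (.cons 203 (.leaf 180 1437 (.cons 274 (.leaf 298 1622 (.cons 250 (.leaf 179 1430 (.cons 323 (.leaf 226 1815 (.leaf 347 2007 .nil)) .nil)) .nil)) .nil)) .nil)) (.cons 228 (.leaf 204 1629 (.cons 300 (.leaf 324 1820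 (.cons 322 (.leaf 298 1814 (.cons 323 (.leaf 252 1821 (.leaf 346 2006 .nil)) .nil)) .nil)) .nil)) .nil)))) (.cons 227 (.cons 298 (.leaf 322 1814 (.cons 274 (.leaf 203 1622 (.cons 204 (.leaf 228 1629 (.cons 300 (.leaf 324 1820 (.cons 273 (.leaf 272 2176 (.leaf 301 2187 .nil)) .nil)) .nil)) .nil)) .nil)) (.cons 298 (.leaf 322 1814 (.cons 274 (.leaf 203 1622 (.cons 300 (.leaf 324 1820 (.cons 273 (.leaf 272 2176 (.leaf 301 2187 .nil)) .nil)) .nil)) .nil)) (.cons 228 (.leaf 204 1629 (.cons 323 (.leaf 252 1821 (.cons 324 (.leaf 300 1820 (.leaf 348 2012 .nil)) .nil)) .nil)) (.cons 204 (.leaf 228 1629 (.cons 203 (.leaf 180 1437 (.cons 298 (.leaf 274 1622 (.leaf 322 1814 .nil)) .nil)) .nil)) .nil)))) .nil))))))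
noncomputable def t105 : T := .cons 346 (.leaf 322 2006 (.cons 228 (.leaf 252 1821 (.cons 347 (.leaf 370 2198 (.cons 348 (.leaf 324 2012 (.leaf 372 2204 .nil)) .nil)) .nil)) .nil)) (.cons 250 (.leaf 226 1815 (.cons 228 (.leaf 252 1821 (.cons 347 (.leaf 274 2007 (.cons 348 (.leaf 324 2012 (.leaf 372 2204 .nil)) .nil)) .nil)) .nil)) (.cons 346 (.leaf 322 2006 (.cons 228 (.leaf 252 1821 (.cons 250 (.leaf 226 1815 (.cons 347 (.leaf 274 2007 (.leaf 370 2198 .nil)) .nil)) .nil)) .nil)) (.cons 346 (.leaf 322 2006 (.cons 226 (.leaf 250 1815 (.cons 347 (.leaf 370 2198 (.cons 348 (.leaf 324 2012 (.leaf 372 2204 .nil)) .nil)) .nil)) .nil)) (.cons 322 (.leaf 346 2006 (.cons 324 (.leaf 348 2012 (.cons 252 (.leaf 228 1821 (.cons 250 (.leaf 226 1815 (.cons 253 (.cons 274 (.leaf 254 2002 (.leaf 273 1994 .nil)) (.cons 229 (.leaf 230 1809 (.cons 277 (.leaf 278 2000 (.cons 300 (.leaf 301 1830 (.cons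 321 (.leaf 320 2369 (.cons 297 (.leaf 296 2371 (.cons 325 (.leaf 298 2376 (.cons 326 (.leaf 327 2395 (.cons 350 (.leaf 349 2576 (.leaf 351 2584 .nil)) .nil)) .nil)) .nil)) .nil)) .nil)) .nil)) .nil)) .nil)) .nil)) .nil)) .nil)) .nil)) .nil))))
noncomputable def t106 : T := .cons 254 (.leaf 325 1838 (.cons 204 (.leaf 228 1629 (.cons 180 (.leaf 203 1437 (.cons 205 (.leaf 229 1647 (.cons 206 (.leaf 181 1455 (.cons 207 (.leaf 231 1653 (.leaf 183 1461 .nil)) .nil)) .nil)) .nil)) .nil)) .nil)) (.cons 228 (.leaf 204 1629 (.cons 229 (.leaf 250 1810 (.cons 206 (.leaf 207 1625 (.cons 231 (.leaf 252 1818 (.cons 205 (.leaf 226 1617 (.cons 232 (.leaf 233 1643 (.cons 256 (.leaf 255 1824 (.leaf 257 1832 .nil)) .nil)) .nil)) .nil)) .nil)) .nil)) .nil)) (.cons 254 (.leaf 325 1838 (.cons 205 (.leaf 229 1647 (.cons 206 (.leaf 181 1455 (.cons 207 (.leaf 231 1653 (.leaf 183 1461 .nil)) .nil)) .nil)) .nil))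 (.cons 204 (.leaf 228 1629 (.cons 180 (.leaf 203 1437 (.cons 254 (.leaf 325 1838 (.cons 207 (.leaf 231 1653 (.cons 206 (.leaf 183 1461 (.cons 205 (.leaf 181 1455 (.leaf 179 1435 .nil)) .nil)) .nil)) .nil)) .nil)) .nil)) (.cons 204 (.leaf 228 1629 (.cons 180 (.leaf 203 1437 (.cons 254 (.leaf 325 1838 (.cons 205 (.leaf 229 1647 (.cons 206 (.leaf 181 1455 (.cons 207 (.leaf 183 1461 (.leaf 179 1435 .nil)) .nil)) .nil)) .nil)) .nil)) .nil)) (.cons 204 (.leaf 228 1629 (.cons 203 (.leaf 180 1437 (.cons 254 (.leaf 325 1838 (.cons 205 (.leaf 229 1647 (.cons 206 (.leaf 226 1618 (.leaf 181 1455 .nil)) .nil)) .nil)) .nil)) .nil)) (.cons 228 (.leaf 204 1629 (.cons 229 (.leaf 250 1810 (.cons 254 (.leaf 255 1816 (.leaf 325 1838 .nil)) .nil)) .nil)) .nil))))))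
noncomputable def t107 : T := .cons 228 (.leaf 204 1629 (.cons 277 (.leaf 278 2193 (.cons 325 (.leaf 326 2384 (.cons 253 (.leaf 252 1831 (.cons 230 (.leaf 254 1837 (.cons 229 (.leaf 250 1810 (.leaf 206 1645 .nil)) .nil)) .nil)) .nil)) .nil)) .nil)) (.cons 278 (.leaf 277 2193 (.cons 302 (.leaf 279 2201 (.cons 326 (.leaf 325 2384 (.leaf 327 2392 .nil)) .nil)) .nil)) (.cons 326 (.leaf 325 2384 (.cons 228 (.leaf 204 1629 (.cons 302 (.leaf 327 2392 (.cons 229 (.cons 230 (.leaf 250 1810 (.cons 231 (.leaf 252 1818 (.cons 255 (.leaf 254 1816 (.leaf 256 1824 .nil)) .nil)) .nil)) (.cons 253 (.leaf 277 1836 (.cons 226 (.leaf 254 1808 (.cons 205 (.leaf 206 1617 (.cons 225 (.leaf 252 1800 (.cons 249 (.leaf 248 1794 (.leaf 250 1802 .nil)) .nil)) .nil)) .nil)) .nil)) (.cons 253 (.leaf 277 1836 (.cons 226 (.leaf 254 1808 (.cons 206 (.leaf 205 1617 (.cons 230 (.leaf 207 1625 (.cons 252 (.leaf 231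 1818 (.leaf 225 1800 .nil)) .nil)) .nil)) .nil)) .nil)) (.cons 230 (.leaf 250 1810 (.cons 206 (.leaf 207 1625 (.cons 253 (.leaf 277 1836 (.cons 226 (.leaf 205 1617 (.leaf 254 1808 .nil)) .nil)) .nil)) .nil)) (.cons 250 (.leaf 230 1810 (.cons 249 (.leaf 248 1793 (.leaf 252 1801 .nil)) .nil)) .nil))))) .nil)) .nil)) .nil)) (.cons 278 (.leaf 277 2193 (.cons 302 (.leaf 279 2201 (.cons 230 t3 .nil)) .nil)) (.cons 302 (.cons 326 (.leaf 325 2384 (.leaf 327 2392 .nil)) (.cons 278 (.leaf 279 2201 (.cons 230 t106 .nil)) (.cons 204 (.leaf 228 1629 (.cons 180 (.leaf 203 1437 (.cons 279 (.leaf 278 2201 (.cons 303 (.leaf 280 2209 (.cons 327 (.leaf 326 2392 (.leaf 328 2400 .nil)) .nil)) .nil)) .nil)) .nil)) .nil))) (.cons 278 (.leaf 277 2193 (.cons 228 (.leaf 204 1629 (.cons 302 (.leaf 279 2201 (.cons 327 (.leaf 326 2392 (.cons 303 (.leaf 328 2400 (.cons 230 (.leaf 254 1844 (.cons 229 (.leaf 250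 1810 (.cons 207 (.leaf 206 1625 (.cons 231 (.leaf 252 1818 (.leaf 208 1633 .nil)) .nil)) .nil)) .nil)) .nil)) .nil)) .nil)) .nil)) .nil)) .nil)))))
noncomputable def t108 : T := .cons 324 (.leaf 227 1820 (.cons 297 (.leaf 325 2376 (.cons 320 (.leaf 321 2370 (.cons 272 (.leaf 273 2179 (.cons 296 (.leaf 271 2171 (.leaf 319 2362 .nil)) .nil)) .nil)) .nil)) .nil)) (.cons 301 (.cons 274 (.leaf 302 2195 (.leaf 273 2187 .nil)) (.cons 277 (.leaf 278 2193 (.cons 325 (.leaf 326 2384 (.cons 297 (.leaf 324 2376 (.cons 272 (.leaf 273 2179 (.cons 296 (.leaf 271 2171 (.cons 320 (.leaf 319 2362 (.leaf 321 2370 .nil)) .nil)) .nil)) .nil)) .nil)) .nil)) (.cons 274 (.leaf 302 2195 (.cons 277 (.leaf 278 2193 (.cons 325 (.leaf 326 2384 (.cons 297 (.leaf 324 2376 (.cons 296 (.leaf 295 2169 (.cons 320 (.leaf 319 2362 (.leaf 321 2370 .nil)) .nil)) .nil)) .nil)) .nil)) .nil)) .nil))) (.cons 301 (.cons 274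 (.leaf 302 2195 (.leaf 273 2187 .nil)) (.cons 278 (.leaf 277 2193 (.cons 302 (.leaf 279 2201 (.cons 326 (.leaf 325 2384 (.leaf 327 2392 .nil)) .nil)) .nil)) (.cons 274 (.leaf 273 2187 (.cons 227 (.leaf 203 1622 (.cons 228 (.leaf 204 1629 (.cons 277 (.leaf 278 2193 (.cons 325 (.leaf 326 2384 (.cons 253 (.leaf 252 1831 (.cons 230 (.leaf 254 1837 (.cons 229 (.leaf 250 1810 (.leaf 206 1645 .nil)) .nil)) .nil)) .nil)) .nil)) .nil)) .nil)) .nil)) .nil))) (.cons 227 (.leaf 324 1820 (.cons 203 (.leaf 274 1622 (.cons 204 (.leaf 180 1437 (.leaf 228 1629 .nil)) .nil)) .nil)) .nil)))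
noncomputable def t109 : T := .cons 321 (.leaf 320 2370 (.cons 301 (.leaf 322 2378 (.cons 325 (.leaf 324 2376 (.leaf 326 2384 .nil)) .nil)) .nil)) (.cons 325 (.leaf 324 2376 (.cons 301 (.leaf 326 2384 (.cons 274 (.leaf 302 2195 (.leaf 273 2187 .nil)) .nil)) .nil)) (.cons 324 (.leaf 325 2376 (.cons 321 (.leaf 320 2370 (.cons 372 (.leaf 348 2207 (.cons 274 (.cons 226 (.leaf 250 1806 (.cons 345 (.leaf 369 2189 (.cons 346 (.leaf 322 2005 (.cons 370 (.leaf 273 2188 (.cons 295 (.leaf 296 2169 (.cons 371 (.leaf 373 2763 (.cons 344 (.leaf 347 2752 (.leaf 343 2744 .nil)) .nil)) .nil)) .nil)) .nil)) .nil)) .nil)) (.cons 250 (.leaf 226 1806 (.cons 345 (.leaf 369 2189 (.leaf 273 1997 .nil)) .nil)) (.cons 250 (.leaf 226 1806 (.cons 322 (.leaf 346 2005 (.cons 249 (.leaf 225 1807 (.cons 248 (.leaf 247 1976 (.cons 224 (.leaf 223 1787 (.leaf 273 1799 .nil)) .nil)) .nil)) .nil)) .nil)) (.cons 345 (.leaf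 369 2189 (.cons 346 (.leaf 322 2005 (.cons 370 (.leaf 273 2188 (.cons 295 (.leaf 296 2169 (.cons 371 (.leaf 373 2763 (.cons 344 (.leaf 347 2752 (.leaf 343 2744 .nil)) .nil)) .nil)) .nil)) .nil)) .nil)) (.cons 250 (.leaf 226 1806 (.cons 322 (.leaf 346 2005 (.leaf 345 1998 .nil)) .nil)) .nil))))) .nil)) .nil)) .nil)) (.cons 321 (.leaf 320 2370 (.cons 301 (.leaf 322 2378 (.cons 274 (.leaf 302 2195 (.leaf 273 2187 .nil)) .nil)) .nil)) .nil)))
noncomputable def t110 : T := .cons 271 (.leaf 272 2171 (.cons 320 (.leaf 319 2362 (.cons 300 (.leaf 321 2370 (.cons 295 (.leaf 274 2169 (.leaf 270 2163 .nil)) .nil)) .nil)) .nil)) (.cons 320 (.leaf 319 2362 (.cons 271 (.leaf 272 2171 (.cons 300 (.leaf 321 2370 (.cons 325 (.leaf 324 2376 (.cons 301 (.leaf 326 2384 (.cons 278 (.leaf 277 2193 (.cons 302 (.leaf 274 2195 (.leaf 279 2201 .nil)) .nil)) .nil)) .nil)) .nil)) .nil)) .nil)) (.cons 295 (.leaf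 274 2169 (.cons 270 (.leaf 271 2163 (.cons 294 (.leaf 269 2155 (.cons 318 (.leaf 319 2354 (.leaf 317 2346 .nil)) .nil)) .nil)) .nil)) (.cons 295 (.leaf 274 2169 (.cons 271 (.leaf 272 2171 (.leaf 270 2163 .nil)) .nil)) (.cons 320 (.leaf 319 2362 (.cons 271 (.leaf 272 2171 (.cons 295 (.leaf 270 2163 (.cons 223 (.leaf 247 1788 (.cons 321 (.leaf 300 2370 (.cons 294 (.leaf 322 2352 (.leaf 293 2344 .nil)) .nil)) .nil)) .nil)) .nil)) .nil)) (.cons 274 (.leaf 295 2169 (.cons 320 (.leaf 319 2362 (.cons 300 (.leaf 321 2370 (.cons 301 (.leaf 302 2195 (.cons 325 (.leaf 324 2376 (.leaf 326 2384 .nil)) .nil)) .nil)) .nil)) .nil)) .nil)))))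
noncomputable def t111 : T := .cons 271 (.leaf 272 2171 (.cons 295 (.leaf 270 2163 (.cons 319 (.leaf 320 2362 (.leaf 318 2354 .nil)) .nil)) .nil)) (.cons 272 (.leaf 271 2171 (.cons 273 (.leaf 300 2179 (.cons 249 (.cons 225 (.leaf 322 1804 (.leaf 201 1606 .nil)) (.cons 250 (.leaf 252 1986 (.cons 321 (.leaf 226 1805 (.cons 248 (.leaf 224 1796 (.leaf 345 1991 .nil)) .nil)) .nil)) .nil)) .nil)) .nil)) (.cons 295 (.cons 270 (.leaf 271 2163 (.cons 294 (.leaf 269 2155 (.cons 317 (.leaf 318 2346 (.cons 293 (.leaf 316 2338 (.cons 321 (.leaf 322 2352 (.leaf 320 2344 .nil)) .nil)) .nil)) .nil)) .nil)) (.cons 270 (.leaf 271 2163 (.cons 294 (.leaf 269 2155 (.cons 318 (.leaf 319 2354 (.leaf 317 2346 .nil)) .nil)) .nil)) (.cons 270 (.leaf 271 2163 (.cons 294 (.leaf 269 2155 (.cons 320 (.leaf 319 2362 (.cons 321 (.leaf 300 2370 (.leaf 322 2352 .nil)) .nil)) .nil)) .nil)) (.cons 319 (.leaf 320 2362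 (.leaf 318 2354 .nil)) .nil)))) (.cons 320 (.leaf 319 2362 (.cons 273 (.cons 249 (.leaf 225 1798 (.cons 321 (.leaf 300 2370 (.leaf 344 1990 .nil)) .nil)) (.cons 249 (.leaf 225 1798 (.cons 344 (.leaf 321 1990 (.leaf 368 2181 .nil)) .nil)) (.cons 300 (.leaf 272 2179 (.leaf 321 2370 .nil)) (.cons 249 (.leaf 225 1798 (.cons 272 (.leaf 300 2179 (.leaf 344 1989 .nil)) .nil)) .nil)))) .nil)) .nil)))
noncomputable def t112 : T := .cons 296 (.cons 295 (.leaf 274 2169 (.cons 270 (.leaf 271 2163 (.cons 294 (.leaf 269 2155 (.cons 317 (.leaf 318 2346 (.cons 293 (.leaf 316 2338 (.cons 321 (.leaf 322 2352 (.leaf 320 2344 .nil)) .nil)) .nil)) .nil)) .nil)) .nil)) (.cons 271 (.leaf 272 2171 (.cons 295 (.leaf 270 2163 (.cons 319 (.leaf 320 2362 (.leaf 318 2354 .nil)) .nil)) .nil)) (.cons 271 (.leaf 272 2171 (.cons 320 (.leaf 319 2362 (.cons 300 (.leaf 321 2370 (.cons 325 (.leaf 324 2376 (.cons 301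 (.leaf 326 2384 (.cons 274 (.leaf 302 2195 (.leaf 273 2187 .nil)) .nil)) .nil)) .nil)) .nil)) .nil)) (.cons 271 (.leaf 272 2171 (.cons 295 (.leaf 274 2169 (.leaf 270 2163 .nil)) .nil)) (.cons 274 (.leaf 295 2169 (.cons 320 (.leaf 319 2362 (.cons 300 (.leaf 321 2370 (.cons 301 (.leaf 302 2195 (.leaf 273 2187 .nil)) .nil)) .nil)) .nil)) .nil))))) (.cons 296 (.cons 319 (.leaf 320 2362 (.cons 295 (.leaf 274 2169 (.leaf 318 2354 .nil)) .nil)) (.cons 272 (.leaf 271 2171 (.cons 320 (.leaf 319 2362 (.cons 248 (.cons 321 (.leaf 224 1796 (.leaf 345 1988 .nil)) (.cons 223 (.leaf 247 1791 (.cons 199 (.leaf 224 1599 (.cons 249 (.leaf 225 1797 (.cons 273 (.leaf 344 1989 (.cons 252 (.leaf 274 1985 (.leaf 250 1986 .nil)) .nil)) .nil)) .nil)) .nil)) (.cons 223 (.leaf 247 1791 (.cons 225 (.leaf 249 1797 (.cons 345 (.leaf 321 1988 (.cons 344 (.leaf 369 2180 (.cons 367 (.leaf 343 2174 (.cons 368 (.leaf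 273 2181 (.leaf 391 2366 .nil)) .nil)) .nil)) .nil)) .nil)) .nil)) .nil))) .nil)) .nil)) (.cons 319 (.leaf 320 2362 (.cons 271 (.leaf 272 2171 (.cons 295 (.leaf 270 2163 (.leaf 318 2354 .nil)) .nil)) .nil)) (.cons 274 (.leaf 295 2169 (.cons 272 (.leaf 271 2171 (.cons 273 (.leaf 252 1985 (.cons 248 (.leaf 247 1979 (.cons 224 (.leaf 200 1604 (.leaf 321 1796 .nil)) .nil)) .nil)) .nil)) .nil)) .nil)))) (.cons 296 t111 (.cons 300 (.cons 321 (.leaf 320 2370 (.cons 301 (.leaf 322 2378 (.cons 325 (.leaf 324 2376 (.leaf 326 2384 .nil)) .nil)) .nil)) (.cons 273 (.leaf 272 2179 (.cons 301 (.leaf 274 2187 (.cons 325 (.leaf 324 2376 (.leaf 326 2384 .nil)) .nil)) .nil)) (.cons 273 (.leaf 272 2179 (.cons 321 (.leaf 320 2370 (.cons 324 (.leaf 325 2376 (.cons 322 (.cons 346 (.leaf 274 2005 (.leaf 370 2197 .nil)) (.cons 249 (.leaf 225 1804 (.cons 224 (.leaf 248 1799 (.cons 250 (.leaf 226 1805 (.cons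 345 (.leaf 274 1997 (.cons 348 (.leaf 372 2207 (.cons 368 (.leaf 344 2182 (.cons 369 (.leaf 393 2381 (.leaf 392 2374 .nil)) .nil)) .nil)) .nil)) .nil)) .nil)) .nil)) (.cons 346 (.leaf 370 2197 (.leaf 249 1996 .nil)) .nil))) .nil)) .nil)) .nil)) (.cons 273 (.leaf 272 2179 (.cons 274 (.leaf 301 2187 (.cons 321 (.leaf 320 2370 (.cons 250 (.leaf 226 1806 (.leaf 345 1997 .nil)) .nil)) .nil)) .nil)) .nil)))) (.cons 296 t110 (.cons 300 t109 (.cons 296 (.cons 271 (.leaf 272 2171 (.cons 295 (.leaf 274 2169 (.leaf 270 2163 .nil)) .nil)) (.cons 272 (.leaf 271 2171 (.cons 273 (.leaf 300 2179 (.cons 320 (.leaf 319 2362 (.cons 249 (.leaf 225 1798 (.leaf 344 1989 .nil)) .nil)) .nil)) .nil)) (.cons 295 (.leaf 274 2169 (.cons 319 (.leaf 320 2362 (.leaf 318 2354 .nil)) .nil)) .nil))) (.cons 322 (.cons 346 (.leaf 274 2005 (.leaf 370 2197 .nil)) (.cons 300 (.cons 272 (.leaf 273 2179 (.cons 271 (.leaf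 296 2171 (.cons 301 (.leaf 321 2378 (.cons 325 (.leaf 324 2376 (.leaf 326 2384 .nil)) .nil)) .nil)) .nil)) (.cons 272 (.leaf 273 2179 (.cons 296 (.leaf 271 2171 (.cons 295 (.leaf 274 2169 (.cons 294 (.leaf 321 2352 (.cons 318 (.leaf 319 2354 (.leaf 317 2346 .nil)) .nil)) .nil)) .nil)) .nil)) (.cons 301 (.leaf 321 2378 (.cons 325 (.leaf 324 2376 (.leaf 326 2384 .nil)) .nil)) (.cons 272 (.leaf 273 2179 (.cons 271 (.leaf 296 2171 (.cons 325 (.leaf 324 2376 (.cons 301 (.leaf 326 2384 (.cons 278 (.leaf 277 2193 (.cons 302 (.leaf 274 2195 (.leaf 279 2201 .nil)) .nil)) .nil)) .nil)) .nil)) .nil)) .nil)))) (.cons 346 (.leaf 370 2197 (.cons 273 (.cons 249 (.leaf 225 1804 (.leaf 321 1996 .nil)) (.cons 272 (.leaf 300 2179 (.cons 271 (.leaf 296 2171 (.leaf 270 2160 .nil)) .nil)) .nil)) .nil)) .nil))) .nil)))))))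
noncomputable def t113 : T := .cons 203 (.leaf 178 1431 (.cons 204 (.leaf 180 1437 (.cons 274 (.leaf 298 1622 (.cons 201 (.cons 176 (.leaf 177 1411 (.cons 175 (.leaf 200 1403 (.cons 225 (.leaf 224 1602 (.cons 226 (.leaf 299 1623 (.leaf 205 1610 .nil)) .nil)) .nil)) .nil)) (.cons 176 (.leaf 177 1411 (.cons 200 (.leaf 228 1600 (.leaf 175 1403 .nil)) .nil)) (.cons 176 (.leaf 177 1411 (.cons 224 (.leaf 225 1602 (.cons 229 (.leaf 228 1608 (.cons 205 (.leaf 230 1616 (.cons 182 (.leaf 181 1425 (.cons 206 (.leaf 226 1618 (.leaf 183 1433 .nil)) .nil)) .nil)) .nil)) .nil)) .nil)) (.cons 228 (.leaf 299 1629 (.leaf 200 1600 .nil)) .nil)))) .nil)) .nil)) .nil)) (.cons 299 (.leaf 226 1623 (.cons 228 (.leaf 204 1629 (.cons 323 (.leaf 252 1821 (.cons 324 (.leaf 300 1820 (.leaf 348 2012 .nil)) .nil)) .nil)) .nil)) (.cons 203 (.leaf 178 1431 (.cons 204 (.leaf 180 1437 (.cons 228 (.leaf 299 1629 (.cons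 201 (.leaf 200 1600 (.leaf 229 1608 .nil)) .nil)) .nil)) .nil)) (.cons 203 (.leaf 178 1431 (.cons 204 (.leaf 180 1437 (.cons 274 (.leaf 298 1622 (.cons 201 (.cons 176 (.leaf 177 1411 (.cons 175 (.leaf 200 1403 (.cons 225 (.leaf 224 1602 (.cons 205 (.leaf 226 1610 (.cons 182 (.leaf 181 1425 (.cons 206 (.leaf 183 1433 (.cons 230 (.leaf 229 1616 (.leaf 231 1624 .nil)) .nil)) .nil)) .nil)) .nil)) .nil)) .nil)) (.cons 176 (.leaf 177 1411 (.cons 224 (.leaf 225 1602 (.cons 229 (.leaf 228 1608 (.cons 205 (.leaf 230 1616 (.cons 182 (.leaf 181 1425 (.cons 206 (.leaf 226 1618 (.leaf 183 1433 .nil)) .nil)) .nil)) .nil)) .nil)) .nil)) (.cons 176 (.leaf 177 1411 (.cons 200 (.leaf 228 1600 (.leaf 175 1403 .nil)) .nil)) (.cons 228 (.leaf 200 1600 (.leaf 229 1608 .nil)) .nil)))) .nil)) .nil)) .nil)) (.cons 226 (.leaf 299 1623 (.cons 178 (.leaf 203 1431 (.leaf 154 1236 .nil)) .nil)) .nil))))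
noncomputable def t114 : T := .cons 202 (.leaf 178 1431 (.cons 226 (.leaf 299 1623 (.cons 274 (.leaf 298 1622 (.cons 250 (.leaf 179 1429 (.cons 177 (.leaf 201 1423 (.cons 273 (.leaf 297 1614 (.cons 252 (.leaf 272 1985 (.leaf 253 1994 .nil)) .nil)) .nil)) .nil)) .nil)) .nil)) .nil)) (.cons 274 (.leaf 298 1622 (.cons 179 (.leaf 250 1430 (.cons 154 (.leaf 178 1239 (.cons 155 (.leaf 130 1047 (.cons 156 (.leaf 180 1245 (.leaf 132 1053 .nil)) .nil)) .nil)) .nil)) .nil)) (.cons 179 (.cons 156 (.leaf 180 1245 (.cons 155 (.leaf 132 1053 (.cons 130 (.leaf 154 1047 (.cons 106 (.leaf 131 855 (.cons 226 (.leaf 250 1238 (.cons 202 (.leaf 178 1431 (.leaf 299 1623 .nil)) .nil)) .nil)) .nil)) .nil)) .nil)) (.cons 156 (.leaf 180 1245 (.cons 155 (.leaf 132 1053 (.cons 130 (.leaf 154 1047 (.cons 106 (.leaf 131 855 (.cons 226 (.leaf 250 1238 (.cons 202 (.leaf 299 1623 (.cons 228 (.leaf 252 1244 (.cons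 201 (.leaf 200 1600 (.leaf 229 1611 .nil)) .nil)) .nil)) .nil)) .nil)) .nil)) .nil)) .nil)) (.cons 154 (.leaf 178 1239 (.cons 155 (.leaf 130 1047 (.cons 156 (.leaf 180 1245 (.leaf 132 1053 .nil)) .nil)) .nil)) (.cons 202 (.leaf 178 1431 (.cons 156 (.leaf 180 1245 (.cons 155 (.leaf 132 1053 (.cons 226 (.leaf 299 1623 (.leaf 250 1238 .nil)) .nil)) .nil)) .nil)) (.cons 178 (.leaf 202 1431 (.leaf 154 1239 .nil)) .nil))))) (.cons 274 (.leaf 298 1622 (.cons 250 (.leaf 179 1430 (.cons 299 (.cons 226 (.leaf 202 1620 (.leaf 323 1815 .nil)) (.cons 300 (.leaf 324 1820 (.cons 273 (.leaf 272 2176 (.cons 252 (.leaf 253 1994 (.cons 323 (.leaf 228 1821 (.leaf 347 2007 .nil)) .nil)) .nil)) .nil)) (.cons 226 (.leaf 202 1620 (.cons 300 (.leaf 324 1820 (.cons 273 (.leaf 272 2176 (.cons 252 (.leaf 253 1994 (.cons 249 (.cons 228 (.leaf 248 1793 (.leaf 229 1801 .nil)) (.cons 225 (.leaf 224 1792 (.cons 228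 (.leaf 229 1801 (.cons 201 (.leaf 200 1603 (.leaf 177 1420 .nil)) .nil)) .nil)) (.cons 224 (.leaf 225 1792 (.cons 248 (.leaf 247 1976 (.leaf 223 1787 .nil)) .nil)) .nil))) .nil)) .nil)) .nil)) .nil)) .nil))) .nil)) .nil)) (.cons 202 (.leaf 178 1431 (.cons 226 (.leaf 299 1623 (.cons 274 (.leaf 298 1622 (.cons 228 (.cons 201 (.leaf 200 1600 (.leaf 229 1611 .nil)) (.cons 201 (.leaf 200 1600 (.cons 225 (.cons 224 (.leaf 252 1792 (.leaf 223 1593 .nil)) (.cons 224 (.leaf 223 1593 (.cons 248 (.leaf 247 1786 (.leaf 249 1794 .nil)) .nil)) (.cons 249 (.leaf 248 1794 (.cons 252 (.leaf 253 1800 (.cons 273 (.leaf 272 1985 (.leaf 297 1613 .nil)) .nil)) .nil)) .nil))) .nil)) (.cons 229 (.leaf 230 1619 (.cons 205 (.leaf 206 1617 (.cons 253 (.leaf 254 1808 (.cons 225 (.leaf 252 1800 (.cons 224 (.leaf 223 1593 (.cons 248 (.leaf 247 1786 (.leaf 249 1794 .nil)) .nil)) .nil)) .nil)) .nil)) .nil)) .nil)))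 .nil)) .nil)) .nil)) .nil))))
noncomputable def t115 : T := .cons 274 (.leaf 298 1622 (.cons 179 (.leaf 250 1430 (.cons 154 (.leaf 178 1239 (.cons 155 (.leaf 130 1047 (.cons 156 (.leaf 180 1245 (.leaf 132 1053 .nil)) .nil)) .nil)) .nil)) .nil)) (.cons 179 (.cons 154 (.leaf 178 1239 (.cons 155 (.leaf 130 1047 (.cons 132 (.leaf 156 1053 (.cons 108 (.leaf 131 861 (.cons 226 (.leaf 250 1238 (.cons 228 (.leaf 252 1244 (.cons 204 (.leaf 180 1437 (.leaf 299 1629 .nil)) .nil)) .nil)) .nil)) .nil)) .nil)) .nil)) (.cons 154 (.leaf 178 1239 (.cons 155 (.leaf 130 1047 (.cons 132 (.leaf 156 1053 (.cons 108 (.leaf 131 861 (.cons 226 (.leaf 250 1238 (.cons 228 (.leaf 252 1244 (.cons 204 (.leaf 299 1629 (.cons 205 (.leaf 206 1618 (.leaf 225 1609 .nil)) .nil)) .nil)) .nil)) .nil)) .nil)) .nil)) .nil)) (.cons 154 (.leaf 178 1239 (.cons 155 (.leaf 130 1047 (.cons 156 (.leaf 180 1245 (.leaf 132 1053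 .nil)) .nil)) .nil)) (.cons 204 (.leaf 180 1437 (.cons 154 (.leaf 178 1239 (.cons 155 (.leaf 130 1047 (.cons 228 (.leaf 299 1629 (.leaf 252 1244 .nil)) .nil)) .nil)) .nil)) (.cons 180 (.leaf 204 1437 (.leaf 156 1245 .nil)) .nil))))) (.cons 274 (.leaf 298 1622 (.cons 179 (.leaf 250 1430 (.cons 154 (.leaf 178 1239 (.cons 155 (.leaf 130 1047 (.cons 132 (.leaf 156 1053 (.cons 131 (.leaf 108 861 (.cons 228 (.leaf 252 1244 (.leaf 204 1052 .nil)) .nil)) .nil)) .nil)) .nil)) .nil)) .nil)) (.cons 204 (.leaf 180 1437 (.cons 274 (.leaf 298 1622 (.cons 299 (.leaf 228 1629 (.cons 324 (.leaf 300 1820 (.cons 323 (.leaf 348 2012 (.cons 250 (.leaf 226 1815 (.leaf 347 2007 .nil)) .nil)) .nil)) .nil)) .nil)) .nil)) (.cons 274 (.leaf 298 1622 (.cons 179 (.cons 154 (.leaf 178 1239 (.cons 155 (.leaf 130 1047 (.cons 156 (.leaf 180 1245 (.leaf 132 1053 .nil)) .nil)) .nil)) (.cons 154 (.leaf 178 1239 (.cons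 155 (.leaf 130 1047 (.cons 132 (.leaf 156 1053 (.cons 131 (.leaf 108 861 (.cons 228 (.leaf 252 1244 (.leaf 204 1052 .nil)) .nil)) .nil)) .nil)) .nil)) (.cons 154 (.leaf 178 1239 (.cons 155 (.leaf 130 1047 (.cons 204 (.leaf 180 1437 (.cons 228 (.leaf 299 1629 (.leaf 252 1244 .nil)) .nil)) .nil)) .nil)) (.cons 180 (.leaf 204 1437 (.leaf 156 1245 .nil)) .nil)))) .nil)) .nil))))
noncomputable def t116 : T := .cons 274 (.leaf 298 1622 (.cons 178 (.leaf 202 1431 (.cons 179 (.leaf 154 1239 (.leaf 250 1430 .nil)) .nil)) .nil)) (.cons 274 (.leaf 298 1622 (.cons 179 (.leaf 250 1430 (.cons 154 (.leaf 178 1239 (.cons 155 (.leaf 130 1047 (.cons 156 (.leaf 180 1245 (.leaf 132 1053 .nil)) .nil)) .nil)) .nil)) .nil)) (.cons 274 (.leaf 298 1622 (.cons 179 (.leaf 250 1430 (.cons 180 (.leaf 204 1437 (.leaf 156 1245 .nil)) .nil)) .nil)) (.cons 178 (.leaf 202 1431 (.cons 179 (.leaf 154 1239 (.cons 180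 (.leaf 204 1437 (.leaf 156 1245 .nil)) .nil)) .nil)) (.cons 202 (.leaf 178 1431 (.cons 204 (.leaf 180 1437 (.cons 274 (.leaf 298 1622 (.cons 201 (.cons 176 (.leaf 177 1411 (.cons 175 (.leaf 200 1403 (.cons 225 (.leaf 224 1602 (.cons 205 (.leaf 226 1610 (.cons 182 (.leaf 181 1425 (.cons 206 (.leaf 183 1433 (.cons 230 (.leaf 229 1616 (.leaf 231 1624 .nil)) .nil)) .nil)) .nil)) .nil)) .nil)) .nil)) (.cons 176 (.leaf 177 1411 (.cons 200 (.leaf 228 1600 (.leaf 175 1403 .nil)) .nil)) (.cons 176 (.leaf 177 1411 (.cons 224 (.leaf 225 1602 (.cons 229 (.leaf 228 1608 (.cons 205 (.leaf 230 1616 (.cons 182 (.leaf 181 1425 (.cons 206 (.leaf 226 1618 (.leaf 183 1433 .nil)) .nil)) .nil)) .nil)) .nil)) .nil)) (.cons 228 (.leaf 200 1600 (.leaf 229 1608 .nil)) .nil)))) .nil)) .nil)) .nil)) .nil))))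
noncomputable def t117 : T := .cons 228 (.leaf 204 1629 (.cons 323 (.leaf 252 1821 (.cons 324 (.leaf 300 1820 (.leaf 348 2012 .nil)) .nil)) .nil)) (.cons 226 (.leaf 202 1623 (.cons 323 (.leaf 250 1815 (.cons 324 (.leaf 300 1820 (.leaf 348 2012 .nil)) .nil)) .nil)) (.cons 226 (.leaf 202 1623 (.cons 228 (.leaf 204 1629 (.cons 323 (.leaf 250 1815 (.leaf 252 1821 .nil)) .nil)) .nil)) (.cons 226 (.leaf 202 1623 (.cons 228 (.leaf 204 1629 (.cons 300 (.leaf 324 1820 (.cons 225 (.cons 200 (.leaf 201 1603 (.cons 199 (.leaf 224 1595 (.cons 249 (.leaf 248 1794 (.cons 229 (.leaf 250 1802 (.cons 206 (.leaf 205 1617 (.cons 230 (.leaf 207 1625 (.cons 254 (.leaf 253 1808 (.leaf 255 1816 .nil)) .nil)) .nil)) .nil)) .nil)) .nil)) .nil)) (.cons 200 (.leaf 201 1603 (.cons 248 (.leaf 249 1794 (.cons 253 (.leaf 252 1800 (.cons 229 (.leaf 254 1808 (.cons 206 (.leaf 205 1617 (.cons 230 (.leaf 250 1810 (.leaf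 207 1625 .nil)) .nil)) .nil)) .nil)) .nil)) .nil)) (.cons 200 (.leaf 201 1603 (.cons 224 (.leaf 252 1792 (.leaf 199 1595 .nil)) .nil)) (.cons 252 (.leaf 224 1792 (.leaf 253 1800 .nil)) .nil)))) .nil)) .nil)) .nil)) .nil)))
noncomputable def t118 : T := .cons 204 (.leaf 180 1437 (.cons 274 (.leaf 298 1622 (.cons 299 (.leaf 228 1629 (.cons 250 (.leaf 179 1430 (.cons 323 (.leaf 226 1815 (.leaf 347 2007 .nil)) .nil)) .nil)) .nil)) .nil)) (.cons 202 (.leaf 178 1431 (.cons 226 (.leaf 299 1623 (.cons 274 (.leaf 298 1622 (.cons 179 (.leaf 250 1429 (.cons 155 (.leaf 131 1046 (.cons 156 (.leaf 180 1245 (.leaf 132 1053 .nil)) .nil)) .nil)) .nil)) .nil)) .nil)) (.cons 178 (.leaf 202 1431 (.cons 179 (.leaf 154 1239 (.cons 180 (.leaf 204 1437 (.leaf 156 1245 .nil)) .nil)) .nil)) (.cons 202 (.leaf 178 1431 (.cons 226 (.leaf 299 1623 (.cons 274 (.leaf 298 1622 (.cons 179 (.leaf 250 1429 (.cons 155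 (.leaf 131 1046 (.cons 130 (.leaf 154 1047 (.cons 132 (.leaf 156 1053 (.cons 228 (.leaf 252 1244 (.cons 201 (.leaf 200 1600 (.leaf 229 1611 .nil)) .nil)) .nil)) .nil)) .nil)) .nil)) .nil)) .nil)) .nil)) (.cons 202 (.leaf 178 1431 (.cons 204 (.leaf 180 1437 (.cons 274 (.leaf 298 1622 (.cons 201 (.cons 176 (.leaf 177 1411 (.cons 175 (.leaf 200 1403 (.cons 225 (.leaf 224 1602 (.cons 226 (.leaf 299 1623 (.leaf 205 1610 .nil)) .nil)) .nil)) .nil)) (.cons 176 (.leaf 177 1411 (.cons 200 (.leaf 228 1600 (.leaf 175 1403 .nil)) .nil)) (.cons 176 (.leaf 177 1411 (.cons 224 (.leaf 225 1602 (.cons 229 (.leaf 228 1608 (.cons 205 (.leaf 230 1616 (.cons 182 (.leaf 181 1425 (.cons 206 (.leaf 226 1618 (.leaf 183 1433 .nil)) .nil)) .nil)) .nil)) .nil)) .nil)) (.cons 228 (.leaf 299 1629 (.leaf 200 1600 .nil)) .nil)))) .nil)) .nil)) .nil)) .nil))))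
noncomputable def t119 : T := .cons 226 (.leaf 202 1623 (.cons 300 (.leaf 324 1820 (.cons 252 (.cons 224 (.leaf 225 1792 (.cons 250 (.leaf 323 1815 (.cons 253 (.leaf 254 1811 (.cons 229 (.leaf 230 1809 (.cons 273 (.leaf 274 1994 (.cons 249 (.leaf 228 1801 (.leaf 272 1986 .nil)) .nil)) .nil)) .nil)) .nil)) .nil)) (.cons 253 (.leaf 254 1811 (.cons 225 (.leaf 224 1792 (.leaf 250 1803 .nil)) .nil)) (.cons 253 (.leaf 254 1811 (.cons 225 (.leaf 224 1792 (.leaf 228 1800 .nil)) .nil)) (.cons 323 (.leaf 250 1815 (.leaf 228 1821 .nil)) .nil)))) .nil)) .nil)) (.cons 298 (.leaf 322 1814 (.cons 274 (.leaf 203 1622 (.cons 300 (.leaf 324 1820 (.cons 273 (.leaf 272 2176 (.leaf 301 2187 .nil)) .nil)) .nil)) .nil)) (.cons 226 (.leaf 202 1623 (.cons 250 (.leaf 323 1815 (.cons 298 (.leaf 322 1814 (.cons 274 (.leaf 203 1621 (.cons 201 (.leaf 225 1615 (.cons 297 (.leaf 321 1806 (.cons 296 (.leaf 295 2169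 (.cons 272 (.leaf 271 2171 (.cons 273 (.leaf 252 1985 (.cons 248 (.leaf 247 1979 (.cons 200 (.leaf 224 1604 (.cons 249 (.leaf 228 1793 (.cons 320 (.leaf 319 2362 (.leaf 344 1989 .nil)) .nil)) .nil)) .nil)) .nil)) .nil)) .nil)) .nil)) .nil)) .nil)) .nil)) .nil)) .nil)) (.cons 226 (.leaf 202 1623 (.cons 300 (.leaf 324 1820 (.cons 322 (.leaf 298 1814 (.cons 323 (.leaf 250 1815 (.leaf 346 2006 .nil)) .nil)) .nil)) .nil)) .nil)))
noncomputable def t120 : T := .cons 250 (.leaf 226 1815 (.cons 228 (.leaf 252 1821 (.cons 346 (.leaf 322 2006 (.cons 347 (.leaf 274 2007 (.leaf 370 2198 .nil)) .nil)) .nil)) .nil)) (.cons 250 (.leaf 226 1815 (.cons 228 (.leaf 252 1821 (.cons 347 (.leaf 274 2007 (.cons 370 (.leaf 346 2198 (.cons 371 (.leaf 394 2390 (.cons 372 (.leaf 348 2204 (.leaf 396 2396 .nil)) .nil)) .nil)) .nil)) .nil)) .nil)) (.cons 252 (.leaf 228 1821 (.cons 347 (.cons 370 (.leaf 346 2198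 (.cons 371 (.leaf 394 2390 (.cons 372 (.leaf 348 2204 (.leaf 396 2396 .nil)) .nil)) .nil)) (.cons 372 (.leaf 348 2204 (.cons 371 (.leaf 396 2396 (.cons 298 (.leaf 274 2199 (.cons 322 (.leaf 227 1814 (.leaf 395 2391 .nil)) .nil)) .nil)) .nil)) (.cons 346 (.leaf 322 2006 (.leaf 370 2198 .nil)) .nil))) .nil)) (.cons 250 (.leaf 226 1815 (.cons 252 (.leaf 228 1821 (.cons 274 (.leaf 347 2007 (.cons 253 (.leaf 254 2002 (.leaf 273 1994 .nil)) .nil)) .nil)) .nil)) (.cons 322 (.leaf 346 2006 (.cons 226 (.leaf 250 1815 (.cons 227 (.leaf 202 1623 (.leaf 298 1814 .nil)) .nil)) .nil)) .nil))))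
noncomputable def t121 : T := .cons 323 (.leaf 348 2012 (.cons 228 (.leaf 252 1821 (.cons 300 (.leaf 227 1820 (.cons 322 (.leaf 346 2006 (.cons 301 (.leaf 302 2386 (.leaf 321 2377 .nil)) .nil)) .nil)) .nil)) .nil)) (.cons 227 (.leaf 300 1820 (.cons 202 (.leaf 226 1623 (.cons 203 (.leaf 178 1431 (.cons 298 (.leaf 274 1622 (.leaf 322 1814 .nil)) .nil)) .nil)) .nil)) (.cons 323 (.leaf 348 2012 (.cons 228 (.leaf 252 1821 (.cons 322 (.leaf 346 2006 (.cons 298 (.leaf 227 1814 (.cons 297 (.leaf 296 2368 (.leaf 325 2379 .nil)) .nil)) .nil)) .nil)) .nil)) (.cons 323 (.leaf 348 2012 (.cons 322 (.leaf 346 2006 (.cons 252 (.leaf 228 1821 (.cons 321 (.cons 300 (.leaf 320 2369 (.leaf 301 2377 .nil)) (.cons 296 (.leaf 297 2371 (.cons 320 (.leaf 295 2363 (.cons 344 (.leaf 345 2562 (.leaf 343 2554 .nil)) .nil)) .nil)) (.cons 296 (.leaf 297 2371 (.cons 301 (.leaf 300 2377 (.cons 325 (.leaf 302 2385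 (.cons 326 (.leaf 298 2387 (.cons 350 (.leaf 349 2576 (.leaf 351 2584 .nil)) .nil)) .nil)) .nil)) .nil)) .nil))) .nil)) .nil)) .nil)) (.cons 300 (.leaf 227 1820 (.cons 348 (.leaf 323 2012 (.leaf 372 2207 .nil)) .nil)) .nil))))
noncomputable def t122 : T := .cons 228 (.leaf 252 1821 (.cons 324 (.leaf 348 2012 (.cons 227 (.leaf 300 1820 (.cons 298 (.leaf 322 1814 (.cons 274 (.leaf 203 1622 (.cons 347 (.leaf 250 2007 (.leaf 371 2199 .nil)) .nil)) .nil)) .nil)) .nil)) .nil)) (.cons 348 (.leaf 324 2012 (.cons 228 (.leaf 252 1821 (.cons 347 (.leaf 372 2204 (.cons 274 (.leaf 250 2007 (.cons 370 (.leaf 346 2198 (.cons 371 (.leaf 298 2199 (.leaf 394 2390 .nil)) .nil)) .nil)) .nil)) .nil)) .nil)) (.cons 346 (.leaf 322 2006 (.cons 228 (.leaf 252 1821 (.cons 347 (.leaf 370 2198 (.cons 274 (.leaf 250 2007 (.cons 371 (.leaf 298 2199 (.cons 372 (.leaf 348 2204 (.leaf 396 2396 .nil)) .nil)) .nil))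 .nil)) .nil)) .nil)) (.cons 346 (.leaf 322 2006 (.cons 228 (.leaf 252 1821 (.cons 347 (.leaf 370 2198 (.cons 274 (.leaf 250 2007 (.cons 298 (.leaf 371 2199 (.cons 227 (.leaf 203 1622 (.cons 300 (.leaf 324 1820 (.cons 273 (.leaf 272 2176 (.leaf 301 2187 .nil)) .nil)) .nil)) .nil)) .nil)) .nil)) .nil)) .nil)) (.cons 322 (.leaf 346 2006 (.cons 227 (.leaf 298 1814 (.cons 324 (.leaf 300 1820 (.leaf 348 2012 .nil)) .nil)) .nil)) (.cons 324 (.leaf 348 2012 (.cons 228 (.leaf 252 1821 (.cons 300 (.leaf 227 1820 (.cons 322 (.leaf 346 2006 (.cons 301 (.leaf 302 2386 (.leaf 321 2377 .nil)) .nil)) .nil)) .nil)) .nil)) .nil)))))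
noncomputable def t123 : T := .cons 324 (.leaf 348 2012 (.cons 226 (.leaf 250 1815 (.cons 227 (.leaf 202 1623 (.leaf 300 1820 .nil)) .nil)) .nil)) (.cons 324 (.leaf 348 2012 (.cons 300 (.leaf 227 1820 (.cons 252 (.leaf 228 1821 (.cons 298 (.cons 297 (.leaf 296 2368 (.leaf 325 2376 .nil)) (.cons 297 (.leaf 296 2368 (.cons 273 (.leaf 272 2179 (.cons 274 (.leaf 301 2187 (.cons 253 (.leaf 254 2002 (.cons 321 (.leaf 320 2370 (.cons 345 (.leaf 369 2189 (.cons 344 (.leaf 368 2182 (.cons 346 (.leaf 347 2561 (.leaf 370 2188 .nil)) .nil)) .nil)) .nil)) .nil)) .nil)) .nil)) .nil)) (.cons 325 (.leaf 326 2387 (.cons 301 (.cons 274 (.leaf 302 2195 (.leaf 273 2187 .nil)) (.cons 278 (.leaf 277 2193 (.cons 302 (.leaf 279 2201 (.leaf 303 2394 .nil)) .nil)) (.cons 274 (.leaf 273 2187 (.cons 253 (.leaf 254 2002 (.cons 277 (.leaf 278 2193 (.leaf 229 1830 .nil)) .nil)) .nil)) .nil))) .nil)) .nil))) .nil))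 .nil)) .nil)) (.cons 250 (.leaf 226 1815 (.cons 228 (.leaf 252 1821 (.cons 347 (.leaf 274 2007 (.cons 370 (.leaf 346 2198 (.cons 371 (.leaf 394 2390 (.cons 372 (.leaf 348 2204 (.leaf 396 2396 .nil)) .nil)) .nil)) .nil)) .nil)) .nil)) (.cons 250 (.leaf 226 1815 (.cons 252 (.leaf 228 1821 (.cons 274 (.leaf 347 2007 (.cons 253 (.leaf 254 2002 (.leaf 273 1994 .nil)) .nil)) .nil)) .nil)) .nil)))
noncomputable def t124 : T := .cons 250 (.leaf 226 1815 (.cons 322 (.leaf 346 2006 (.cons 347 (.leaf 274 2007 (.cons 348 (.leaf 324 2012 (.leaf 372 2204 .nil)) .nil)) .nil)) .nil)) (.cons 346 (.leaf 322 2006 (.cons 228 (.leaf 252 1821 (.cons 347 (.leaf 370 2198 (.cons 348 (.leaf 324 2012 (.leaf 372 2204 .nil)) .nil)) .nil)) .nil)) (.cons 250 (.leaf 226 1815 (.cons 228 (.leaf 252 1821 (.cons 347 (.leaf 274 2007 (.cons 348 (.leaf 324 2012 (.leaf 372 2204 .nil)) .nil)) .nil)) .nil)) (.cons 250 (.leaf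 226 1815 (.cons 252 (.leaf 228 1821 (.cons 274 (.leaf 347 2007 (.cons 253 (.leaf 254 2002 (.leaf 273 1994 .nil)) .nil)) .nil)) .nil)) (.cons 322 (.leaf 346 2006 (.cons 324 (.leaf 348 2012 (.cons 250 (.leaf 226 1815 (.cons 252 (.leaf 228 1821 (.cons 253 (.cons 274 (.leaf 254 2002 (.leaf 273 1994 .nil)) (.cons 229 (.leaf 230 1809 (.cons 277 (.leaf 278 2000 (.cons 300 (.leaf 301 1830 (.cons 321 (.leaf 320 2369 (.cons 297 (.leaf 296 2371 (.cons 325 (.leaf 298 2376 (.cons 326 (.leaf 327 2395 (.cons 350 (.leaf 349 2576 (.leaf 351 2584 .nil)) .nil)) .nil)) .nil)) .nil)) .nil)) .nil)) .nil)) .nil)) .nil)) .nil)) .nil)) .nil)) .nil))))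
noncomputable def t125 : T := .cons 248 (.leaf 321 1796 (.cons 201 (.leaf 225 1605 (.cons 200 (.leaf 177 1413 (.cons 175 (.leaf 199 1407 (.cons 151 (.leaf 176 1215 (.cons 202 (.leaf 226 1623 (.cons 203 (.leaf 178 1431 (.leaf 228 1600 .nil)) .nil)) .nil)) .nil)) .nil)) .nil)) .nil)) (.cons 226 (.leaf 202 1623 (.cons 225 (.leaf 252 1792 (.cons 199 (.leaf 200 1595 (.cons 223 (.leaf 250 1784 (.leaf 198 1587 .nil)) .nil)) .nil)) .nil)) (.cons 248 (.leaf 321 1796 (.cons 199 (.leaf 223 1599 (.cons 200 (.leaf 175 1407 (.cons 201 (.leaf 225 1605 (.leaf 177 1413 .nil)) .nil)) .nil)) .nil)) (.cons 202 (.leaf 226 1623 (.cons 178 (.leaf 203 1431 (.cons 248 (.leaf 321 1796 (.cons 199 (.leaf 223 1599 (.cons 200 (.leaf 175 1407 (.cons 201 (.leaf 177 1413 (.leaf 179 1401 .nil)) .nil)) .nil)) .nil)) .nil)) .nil)) (.cons 202 (.leaf 226 1623 (.cons 203 (.leaf 178 1431 (.cons 248 (.leaf 321 1796 (.cons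 201 (.leaf 225 1605 (.cons 200 (.leaf 228 1600 (.leaf 177 1413 .nil)) .nil)) .nil)) .nil)) .nil)) (.cons 226 (.leaf 202 1623 (.cons 225 (.leaf 252 1792 (.cons 248 (.leaf 247 1786 (.leaf 321 1796 .nil)) .nil)) .nil)) .nil)))))
noncomputable def t126 : T := .cons 202 (.leaf 226 1623 (.cons 178 (.leaf 203 1431 (.cons 248 (.leaf 321 1796 (.cons 199 (.leaf 223 1599 (.cons 200 (.leaf 175 1407 (.cons 201 (.leaf 177 1413 (.leaf 225 1605 .nil)) .nil)) .nil)) .nil)) .nil)) .nil)) (.cons 226 (.leaf 202 1623 (.cons 225 (.leaf 252 1792 (.cons 199 (.leaf 200 1595 (.cons 223 (.leaf 250 1784 (.leaf 198 1587 .nil)) .nil)) .nil)) .nil)) (.cons 248 (.leaf 321 1796 (.cons 199 (.leaf 223 1599 (.cons 200 (.leaf 175 1407 (.cons 201 (.leaf 177 1413 (.leaf 225 1605 .nil)) .nil)) .nil)) .nil)) (.cons 248 (.leaf 321 1796 (.cons 199 (.leaf 223 1599 (.cons 200 (.leaf 175 1407 (.cons 177 (.leaf 201 1413 (.cons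 176 (.leaf 153 1221 (.cons 178 (.leaf 179 1402 (.cons 202 (.leaf 203 1431 (.leaf 226 1623 .nil)) .nil)) .nil)) .nil)) .nil)) .nil)) .nil)) (.cons 248 (.leaf 321 1796 (.cons 201 (.leaf 225 1605 (.cons 200 (.leaf 177 1413 (.cons 175 (.leaf 199 1407 (.cons 151 (.leaf 176 1215 (.cons 202 (.leaf 226 1623 (.cons 203 (.leaf 178 1431 (.leaf 228 1600 .nil)) .nil)) .nil)) .nil)) .nil)) .nil)) .nil)) (.cons 248 (.leaf 321 1796 (.cons 201 (.leaf 225 1605 (.cons 200 (.leaf 177 1413 (.cons 202 (.leaf 226 1623 (.cons 203 (.leaf 178 1431 (.leaf 228 1600 .nil)) .nil)) .nil)) .nil)) .nil)) (.cons 248 (.leaf 321 1796 (.cons 199 (.leaf 223 1599 (.cons 225 (.leaf 201 1605 (.cons 226 (.leaf 202 1623 (.leaf 252 1792 .nil)) .nil)) .nil)) .nil)) .nil))))))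
noncomputable def t127 : T := .cons 272 (.leaf 273 2179 (.cons 226 (.leaf 202 1623 (.cons 296 (.leaf 271 2171 (.cons 320 (.leaf 319 2362 (.leaf 321 2370 .nil)) .nil)) .nil)) .nil)) (.cons 272 (.leaf 273 2179 (.cons 296 (.leaf 271 2171 (.cons 320 (.leaf 319 2362 (.leaf 321 2370 .nil)) .nil)) .nil)) (.cons 320 (.leaf 321 2370 (.cons 226 (.leaf 202 1623 (.cons 296 (.leaf 319 2362 (.cons 225 (.cons 224 (.leaf 252 1792 (.cons 199 (.leaf 200 1595 (.cons 223 (.leaf 250 1784 (.leaf 198 1587 .nil)) .nil)) .nil)) (.cons 249 (.leaf 273 1798 (.cons 228 (.leaf 248 1794 (.cons 200 (.leaf 201 1603 (.cons 229 (.leaf 250 1802 (.cons 253 (.leaf 252 1800 (.leaf 254 1808 .nil)) .nil)) .nil)) .nil)) .nil)) (.cons 249 (.leaf 273 1798 (.cons 228 (.leaf 248 1794 (.cons 200 (.leaf 201 1603 (.cons 224 (.leaf 199 1595 (.cons 250 (.leaf 223 1784 (.leaf 229 1802 .nil)) .nil)) .nil)) .nil)) .nil)) (.cons 224 (.leaf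 252 1792 (.cons 199 (.leaf 200 1595 (.cons 198 (.leaf 223 1587 (.cons 248 (.leaf 247 1786 (.cons 249 (.leaf 228 1794 (.leaf 273 1798 .nil)) .nil)) .nil)) .nil)) .nil)) (.cons 252 (.leaf 224 1792 (.cons 253 (.leaf 250 1803 (.leaf 254 1811 .nil)) .nil)) .nil))))) .nil)) .nil)) .nil)) (.cons 272 (.leaf 273 2179 (.cons 296 (.leaf 271 2171 (.cons 224 t126 .nil)) .nil)) (.cons 296 (.cons 320 (.leaf 319 2362 (.leaf 321 2370 .nil)) (.cons 272 (.leaf 271 2171 (.cons 224 t125 .nil)) (.cons 202 (.leaf 226 1623 (.cons 178 (.leaf 203 1431 (.cons 271 (.leaf 272 2171 (.cons 295 (.leaf 270 2163 (.cons 319 (.leaf 320 2362 (.leaf 318 2354 .nil)) .nil)) .nil)) .nil)) .nil)) .nil))) (.cons 272 (.leaf 273 2179 (.cons 226 (.leaf 202 1623 (.cons 296 (.leaf 271 2171 (.cons 319 (.leaf 320 2362 (.cons 295 (.leaf 318 2354 (.cons 224 (.leaf 248 1790 (.cons 225 (.leaf 252 1792 (.cons 199 (.leaf 200 1595 (.cons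 223 (.leaf 250 1784 (.leaf 198 1587 .nil)) .nil)) .nil)) .nil)) .nil)) .nil)) .nil)) .nil)) .nil)) (.cons 226 (.leaf 202 1623 (.cons 273 (.leaf 272 2179 (.cons 321 (.leaf 320 2370 (.cons 249 (.leaf 250 1805 (.cons 224 (.leaf 248 1799 (.cons 225 (.leaf 252 1792 (.leaf 200 1607 .nil)) .nil)) .nil)) .nil)) .nil)) .nil)) .nil))))))
noncomputable def t128 : T := .cons 273 (.leaf 272 2179 (.cons 274 (.leaf 301 2187 (.cons 295 (.leaf 296 2169 (.cons 321 (.leaf 320 2370 (.cons 250 (.leaf 226 1806 (.leaf 345 1997 .nil)) .nil)) .nil)) .nil)) .nil)) (.cons 320 (.leaf 321 2370 (.cons 296 (.leaf 319 2362 (.cons 271 (.leaf 272 2171 (.cons 295 (.leaf 274 2169 (.leaf 270 2163 .nil)) .nil)) .nil)) .nil)) (.cons 320 (.leaf 321 2370 (.cons 296 (.leaf 319 2362 (.cons 274 (.leaf 295 2169 (.cons 301 (.leaf 302 2195 (.leaf 273 2187 .nil)) .nil)) .nil)) .nil)) (.cons 272 (.leaf 273 2179 (.cons 296 (.leaf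 271 2171 (.cons 320 (.leaf 319 2362 (.leaf 321 2370 .nil)) .nil)) .nil)) (.cons 273 (.leaf 272 2179 (.cons 274 (.leaf 301 2187 (.cons 227 (.leaf 203 1622 (.cons 226 (.leaf 202 1623 (.cons 250 (.leaf 321 1806 (.cons 225 (.leaf 201 1615 (.cons 252 (.leaf 224 1792 (.leaf 253 1994 .nil)) .nil)) .nil)) .nil)) .nil)) .nil)) .nil)) (.cons 273 (.leaf 272 2179 (.cons 274 (.leaf 301 2187 (.cons 227 (.leaf 203 1622 (.cons 226 (.leaf 202 1623 (.cons 296 (.leaf 295 2169 (.cons 320 (.leaf 319 2362 (.cons 225 (.leaf 249 1798 (.cons 201 (.leaf 250 1615 (.cons 200 (.leaf 228 1603 (.cons 199 (.leaf 224 1595 (.leaf 198 1584 .nil)) .nil)) .nil)) .nil)) .nil)) .nil)) .nil)) .nil)) .nil)) .nil)) .nil)))))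
noncomputable def t129 : T := .cons 295 (.leaf 274 2169 (.cons 270 (.leaf 271 2163 (.cons 294 (.leaf 269 2155 (.cons 317 (.leaf 318 2346 (.cons 293 (.leaf 316 2338 (.cons 321 (.leaf 322 2352 (.leaf 320 2344 .nil)) .nil)) .nil)) .nil)) .nil)) .nil)) (.cons 272 (.leaf 271 2171 (.cons 320 (.leaf 319 2362 (.cons 248 (.cons 321 (.leaf 224 1796 (.leaf 345 1988 .nil)) (.cons 223 (.leaf 247 1791 (.cons 199 (.leaf 224 1599 (.cons 249 (.leaf 225 1797 (.cons 273 (.leaf 344 1989 (.cons 252 (.leaf 274 1985 (.leaf 250 1986 .nil)) .nil)) .nil)) .nil)) .nil)) (.cons 223 (.leaf 247 1791 (.cons 225 (.leaf 249 1797 (.cons 345 (.leaf 321 1988 (.cons 344 (.leaf 369 2180 (.cons 367 (.leaf 343 2174 (.cons 368 (.leaf 273 2181 (.leaf 391 2366 .nil)) .nil)) .nil)) .nil)) .nil)) .nil)) .nil))) .nil)) .nil)) (.cons 319 (.leaf 320 2362 (.cons 271 (.leaf 272 2171 (.cons 295 (.leaf 270 2163 (.leaf 318 2354 .nil))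 .nil)) .nil)) (.cons 295 (.leaf 274 2169 (.cons 319 (.leaf 320 2362 (.leaf 318 2354 .nil)) .nil)) (.cons 295 (.leaf 274 2169 (.cons 270 (.leaf 271 2163 (.cons 294 (.leaf 269 2155 (.cons 318 (.leaf 319 2354 (.leaf 317 2346 .nil)) .nil)) .nil)) .nil)) .nil))))
noncomputable def t130 : T := .cons 296 (.cons 271 (.leaf 272 2171 (.cons 320 (.leaf 319 2362 (.cons 300 (.leaf 321 2370 (.cons 325 (.leaf 324 2376 (.cons 301 (.leaf 326 2384 (.cons 274 (.leaf 295 2169 (.leaf 302 2195 .nil)) .nil)) .nil)) .nil)) .nil)) .nil)) (.cons 271 (.leaf 272 2171 (.cons 295 (.leaf 270 2163 (.cons 319 (.leaf 320 2362 (.leaf 318 2354 .nil)) .nil)) .nil)) (.cons 274 (.leaf 295 2169 (.cons 320 (.leaf 319 2362 (.cons 300 (.leaf 321 2370 (.cons 301 (.leaf 302 2195 (.leaf 273 2187 .nil)) .nil)) .nil)) .nil)) (.cons 271 (.leaf 272 2171 (.cons 320 (.leaf 319 2362 (.cons 300 (.leaf 321 2370 (.cons 325 (.leaf 324 2376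 (.cons 301 (.leaf 326 2384 (.cons 274 (.leaf 302 2195 (.leaf 273 2187 .nil)) .nil)) .nil)) .nil)) .nil)) .nil)) (.cons 271 (.leaf 272 2171 (.cons 295 (.leaf 274 2169 (.leaf 270 2163 .nil)) .nil)) .nil))))) (.cons 296 t111 (.cons 296 t129 (.cons 300 (.cons 321 (.leaf 320 2370 (.cons 301 (.leaf 322 2378 (.cons 325 (.leaf 324 2376 (.leaf 326 2384 .nil)) .nil)) .nil)) (.cons 273 (.leaf 272 2179 (.cons 301 (.leaf 274 2187 (.cons 325 (.leaf 324 2376 (.leaf 326 2384 .nil)) .nil)) .nil)) (.cons 273 (.leaf 272 2179 (.cons 321 (.leaf 320 2370 (.cons 324 (.leaf 325 2376 (.cons 348 (.leaf 372 2207 (.cons 249 (.cons 322 (.leaf 225 1804 (.leaf 346 1996 .nil)) (.cons 224 (.leaf 248 1799 (.cons 225 (.leaf 200 1607 (.cons 226 (.leaf 202 1613 (.leaf 250 1805 .nil)) .nil)) .nil)) (.cons 224 (.leaf 248 1799 (.cons 346 (.leaf 322 1996 (.cons 345 (.leaf 370 2188 (.cons 368 (.leaf 344 2182 (.cons 369 (.leaf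 274 2189 (.leaf 392 2374 .nil)) .nil)) .nil)) .nil)) .nil)) .nil))) .nil)) .nil)) .nil)) .nil)) (.cons 273 (.leaf 272 2179 (.cons 274 (.leaf 301 2187 (.cons 321 (.leaf 320 2370 (.cons 250 (.leaf 226 1806 (.leaf 345 1997 .nil)) .nil)) .nil)) .nil)) .nil)))) (.cons 296 (.cons 274 (.leaf 295 2169 (.cons 320 (.leaf 319 2362 (.cons 300 (.leaf 321 2370 (.cons 301 (.leaf 302 2195 (.cons 325 (.leaf 324 2376 (.leaf 326 2384 .nil)) .nil)) .nil)) .nil)) .nil)) (.cons 271 (.leaf 272 2171 (.cons 320 (.leaf 319 2362 (.cons 300 (.leaf 321 2370 (.cons 325 (.leaf 324 2376 (.cons 301 (.leaf 326 2384 (.cons 278 (.leaf 277 2193 (.cons 302 (.leaf 274 2195 (.leaf 279 2201 .nil)) .nil)) .nil)) .nil)) .nil)) .nil)) .nil)) (.cons 271 (.leaf 272 2171 (.cons 295 (.leaf 274 2169 (.leaf 270 2163 .nil)) .nil)) (.cons 320 (.leaf 319 2362 (.cons 271 (.leaf 272 2171 (.cons 295 (.leaf 270 2163 (.cons 223 (.leaf 247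 1788 (.cons 321 (.leaf 300 2370 (.cons 294 (.leaf 322 2352 (.leaf 293 2344 .nil)) .nil)) .nil)) .nil)) .nil)) .nil)) .nil)))) (.cons 300 t87 (.cons 296 (.cons 272 (.leaf 271 2171 (.cons 273 (.leaf 300 2179 (.cons 274 (.leaf 252 1985 (.leaf 295 2169 .nil)) .nil)) .nil)) (.cons 272 (.leaf 271 2171 (.cons 273 (.leaf 300 2179 (.cons 320 (.leaf 319 2362 (.cons 249 (.leaf 225 1798 (.leaf 344 1989 .nil)) .nil)) .nil)) .nil)) (.cons 295 (.leaf 274 2169 (.cons 270 (.leaf 271 2163 (.cons 294 (.leaf 269 2155 (.cons 318 (.leaf 319 2354 (.leaf 317 2346 .nil)) .nil)) .nil)) .nil)) (.cons 295 (.leaf 274 2169 (.cons 319 (.leaf 320 2362 (.leaf 318 2354 .nil)) .nil)) .nil)))) (.cons 274 t86 .nil)))))))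
noncomputable def t131 : T := .cons 324 (.leaf 227 1820 (.cons 297 (.leaf 325 2376 (.cons 272 (.leaf 273 2179 (.cons 296 (.leaf 271 2171 (.cons 320 (.leaf 319 2362 (.leaf 321 2370 .nil)) .nil)) .nil)) .nil)) .nil)) (.cons 301 (.cons 273 (.leaf 274 2187 (.cons 277 (.leaf 278 2193 (.cons 297 (.leaf 272 2179 (.cons 321 (.leaf 320 2370 (.leaf 322 2378 .nil)) .nil)) .nil)) .nil)) (.cons 278 (.leaf 277 2193 (.cons 321 (.leaf 322 2378 (.cons 297 (.leaf 320 2370 (.cons 325 (.leaf 324 2376 (.leaf 326 2384 .nil)) .nil)) .nil)) .nil)) (.cons 273 (.leaf 274 2187 (.cons 277 (.leaf 278 2193 (.cons 297 (.leaf 272 2179 (.cons 325 (.leaf 324 2376 (.leaf 326 2384 .nil)) .nil)) .nil)) .nil)) (.cons 274 (.leaf 302 2195 (.leaf 273 2187 .nil)) .nil)))) (.cons 297 (.cons 273 (.leaf 272 2179 (.cons 274 (.leaf 301 2187 (.cons 295 (.leaf 296 2169 (.cons 321 (.leaf 320 2370 (.cons 250 (.leaf 226 1806 (.leaf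 345 1997 .nil)) .nil)) .nil)) .nil)) .nil)) (.cons 272 (.leaf 273 2179 (.cons 296 (.leaf 271 2171 (.cons 320 (.leaf 319 2362 (.leaf 321 2370 .nil)) .nil)) .nil)) (.cons 227 (.leaf 322 1814 (.cons 202 (.leaf 226 1623 (.cons 203 (.leaf 178 1431 (.leaf 274 1622 .nil)) .nil)) .nil)) .nil))) (.cons 227 (.leaf 322 1814 (.leaf 324 1820 .nil)) .nil)))
noncomputable def t132 : T := .cons 178 (.leaf 202 1431 (.cons 179 (.leaf 154 1239 (.cons 156 (.leaf 180 1245 (.cons 155 (.leaf 132 1053 (.cons 250 (.leaf 274 1430 (.leaf 226 1238 .nil)) .nil)) .nil)) .nil)) .nil)) (.cons 180 (.leaf 204 1437 (.cons 179 (.leaf 156 1245 (.cons 154 (.leaf 178 1239 (.cons 155 (.leaf 130 1047 (.cons 250 (.leaf 274 1430 (.leaf 226 1238 .nil)) .nil)) .nil)) .nil)) .nil)) (.cons 204 (.leaf 180 1437 (.cons 299 (.leaf 228 1629 (.cons 226 (.leaf 202 1623 (.cons 205 (.leaf 206 1618 (.cons 224 (.leaf 225 1601 (.cons 250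 (.leaf 323 1815 (.cons 179 (.leaf 274 1430 (.leaf 155 1238 .nil)) .nil)) .nil)) .nil)) .nil)) .nil)) .nil)) (.cons 202 (.leaf 178 1431 (.cons 299 (.leaf 226 1623 (.cons 228 (.leaf 204 1629 (.cons 200 (.leaf 201 1600 (.cons 229 (.leaf 230 1619 (.cons 252 (.leaf 323 1821 (.cons 179 (.leaf 155 1244 (.cons 250 (.leaf 274 1430 (.leaf 249 1801 .nil)) .nil)) .nil)) .nil)) .nil)) .nil)) .nil)) .nil)) (.cons 202 (.leaf 178 1431 (.cons 204 (.leaf 180 1437 (.cons 299 (.leaf 226 1623 (.leaf 228 1629 .nil)) .nil)) .nil)) (.cons 204 (.leaf 180 1437 (.cons 178 (.leaf 202 1431 (.cons 179 (.leaf 154 1239 (.cons 176 (.leaf 177 1408 (.cons 205 (.leaf 206 1427 (.cons 228 (.leaf 299 1629 (.cons 155 (.leaf 252 1244 (.leaf 131 1052 .nil)) .nil)) .nil)) .nil)) .nil)) .nil)) .nil)) .nil)))))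
noncomputable def t133 : T := .cons 202 (.leaf 178 1431 (.cons 298 (.leaf 274 1622 (.cons 299 (.leaf 226 1623 (.leaf 322 1814 .nil)) .nil)) .nil)) (.cons 274 (.leaf 298 1622 (.cons 179 (.leaf 250 1430 (.cons 154 (.leaf 178 1239 (.cons 155 (.leaf 130 1047 (.cons 156 (.leaf 180 1245 (.leaf 132 1053 .nil)) .nil)) .nil)) .nil)) .nil)) (.cons 179 (.cons 178 (.leaf 202 1431 (.leaf 154 1239 .nil)) (.cons 156 (.leaf 180 1245 (.cons 155 (.leaf 132 1053 (.cons 130 (.leaf 154 1047 (.cons 106 (.leaf 131 855 (.cons 226 (.leaf 250 1238 (.cons 202 (.leaf 299 1623 (.cons 228 (.leaf 252 1244 (.cons 201 (.leaf 200 1600 (.leaf 229 1611 .nil)) .nil)) .nil)) .nil)) .nil)) .nil)) .nil)) .nil)) (.cons 154 (.leaf 178 1239 (.cons 155 (.leaf 130 1047 (.cons 156 (.leaf 180 1245 (.leaf 132 1053 .nil)) .nil)) .nil)) (.cons 156 (.leaf 180 1245 (.cons 155 (.leaf 132 1053 (.cons 202 (.leaf 178 1431 (.cons 226 (.leaf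 299 1623 (.leaf 250 1238 .nil)) .nil)) .nil)) .nil)) .nil)))) (.cons 298 (.leaf 274 1622 (.cons 299 (.leaf 322 1814 (.cons 226 (.leaf 202 1623 (.cons 252 (.cons 225 (.leaf 224 1792 (.cons 250 (.leaf 323 1815 (.leaf 253 1803 .nil)) .nil)) (.cons 225 (.leaf 224 1792 (.cons 228 (.leaf 323 1821 (.leaf 253 1800 .nil)) .nil)) (.cons 225 (.leaf 224 1792 (.cons 253 (.leaf 250 1803 (.leaf 254 1811 .nil)) .nil)) (.cons 323 (.leaf 250 1815 (.leaf 228 1821 .nil)) .nil)))) .nil)) .nil)) .nil)) .nil)))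
noncomputable def t134 : T := .cons 204 (.leaf 180 1437 (.cons 298 (.leaf 274 1622 (.cons 299 (.leaf 228 1629 (.leaf 322 1814 .nil)) .nil)) .nil)) (.cons 274 (.leaf 298 1622 (.cons 179 (.leaf 250 1430 (.cons 154 (.leaf 178 1239 (.cons 155 (.leaf 130 1047 (.cons 156 (.leaf 180 1245 (.leaf 132 1053 .nil)) .nil)) .nil)) .nil)) .nil)) (.cons 179 (.cons 154 (.leaf 178 1239 (.cons 155 (.leaf 130 1047 (.cons 132 (.leaf 156 1053 (.cons 108 (.leaf 131 861 (.cons 226 (.leaf 250 1238 (.cons 228 (.leaf 252 1244 (.cons 204 (.leaf 180 1437 (.leaf 299 1629 .nil)) .nil)) .nil)) .nil)) .nil)) .nil)) .nil)) (.cons 154 (.leaf 178 1239 (.cons 155 (.leaf 130 1047 (.cons 132 (.leaf 156 1053 (.cons 108 (.leaf 131 861 (.cons 226 (.leaf 250 1238 (.cons 228 (.leaf 252 1244 (.cons 204 (.leaf 299 1629 (.cons 205 (.leaf 206 1618 (.leaf 225 1609 .nil)) .nil)) .nil)) .nil)) .nil)) .nil)) .nil)) .nil)) (.cons 154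 (.leaf 178 1239 (.cons 155 (.leaf 130 1047 (.cons 156 (.leaf 180 1245 (.leaf 132 1053 .nil)) .nil)) .nil)) (.cons 154 (.leaf 178 1239 (.cons 155 (.leaf 130 1047 (.cons 204 (.leaf 180 1437 (.cons 228 (.leaf 299 1629 (.leaf 252 1244 .nil)) .nil)) .nil)) .nil)) (.cons 180 (.leaf 204 1437 (.leaf 156 1245 .nil)) .nil))))) (.cons 274 (.leaf 298 1622 (.cons 179 (.leaf 250 1430 (.cons 154 (.leaf 178 1239 (.cons 155 (.leaf 130 1047 (.cons 132 (.leaf 156 1053 (.cons 131 (.leaf 108 861 (.cons 228 (.leaf 252 1244 (.leaf 204 1052 .nil)) .nil)) .nil)) .nil)) .nil)) .nil)) .nil)) .nil)))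
noncomputable def t135 : T := .cons 274 (.leaf 298 1622 (.cons 179 (.leaf 250 1430 (.cons 180 (.leaf 204 1437 (.leaf 156 1245 .nil)) .nil)) .nil)) (.cons 178 (.leaf 202 1431 (.cons 179 (.leaf 154 1239 (.cons 180 (.leaf 204 1437 (.leaf 156 1245 .nil)) .nil)) .nil)) (.cons 274 (.leaf 298 1622 (.cons 179 (.leaf 250 1430 (.cons 154 (.leaf 178 1239 (.cons 155 (.leaf 130 1047 (.cons 132 (.leaf 156 1053 (.cons 131 (.leaf 108 861 (.cons 228 (.leaf 252 1244 (.leaf 204 1052 .nil)) .nil)) .nil)) .nil)) .nil)) .nil)) .nil)) (.cons 274 (.leaf 298 1622 (.cons 179 (.leaf 250 1430 (.cons 154 (.leaf 178 1239 (.cons 155 (.leaf 130 1047 (.cons 156 (.leaf 180 1245 (.leaf 132 1053 .nil)) .nil)) .nil)) .nil)) .nil)) (.cons 202 (.leaf 178 1431 (.cons 204 (.leaf 180 1437 (.cons 274 (.leaf 298 1622 (.cons 201 (.cons 176 (.leaf 177 1411 (.cons 175 (.leaf 200 1403 (.cons 225 (.leaf 224 1602 (.cons 205 (.leaf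 226 1610 (.cons 182 (.leaf 181 1425 (.cons 206 (.leaf 183 1433 (.cons 230 (.leaf 229 1616 (.leaf 231 1624 .nil)) .nil)) .nil)) .nil)) .nil)) .nil)) .nil)) (.cons 176 (.leaf 177 1411 (.cons 200 (.leaf 228 1600 (.leaf 175 1403 .nil)) .nil)) (.cons 176 (.leaf 177 1411 (.cons 224 (.leaf 225 1602 (.cons 229 (.leaf 228 1608 (.cons 205 (.leaf 230 1616 (.cons 182 (.leaf 181 1425 (.cons 206 (.leaf 226 1618 (.leaf 183 1433 .nil)) .nil)) .nil)) .nil)) .nil)) .nil)) (.cons 228 (.leaf 200 1600 (.leaf 229 1608 .nil)) .nil)))) .nil)) .nil)) .nil)) .nil))))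
noncomputable def t136 : T := .cons 226 (.leaf 202 1623 (.cons 322 (.leaf 298 1814 (.cons 323 (.leaf 250 1815 (.leaf 346 2006 .nil)) .nil)) .nil)) (.cons 228 (.leaf 204 1629 (.cons 322 (.leaf 298 1814 (.cons 323 (.leaf 252 1821 (.leaf 346 2006 .nil)) .nil)) .nil)) (.cons 226 (.leaf 202 1623 (.cons 228 (.leaf 204 1629 (.cons 323 (.leaf 250 1815 (.leaf 252 1821 .nil)) .nil)) .nil)) (.cons 226 (.leaf 202 1623 (.cons 228 (.leaf 204 1629 (.cons 298 (.leaf 322 1814 (.cons 225 (.cons 200 (.leaf 201 1603 (.cons 199 (.leaf 224 1595 (.cons 249 (.leaf 248 1794 (.cons 229 (.leaf 250 1802 (.cons 206 (.leaf 205 1617 (.cons 230 (.leaf 207 1625 (.cons 254 (.leaf 253 1808 (.leaf 255 1816 .nil)) .nil)) .nil)) .nil)) .nil)) .nil)) .nil)) (.cons 200 (.leaf 201 1603 (.cons 248 (.leaf 249 1794 (.cons 253 (.leaf 252 1800 (.cons 229 (.leaf 254 1808 (.cons 206 (.leaf 205 1617 (.cons 230 (.leaf 250 1810 (.leaf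 207 1625 .nil)) .nil)) .nil)) .nil)) .nil)) .nil)) (.cons 200 (.leaf 201 1603 (.cons 224 (.leaf 252 1792 (.leaf 199 1595 .nil)) .nil)) (.cons 252 (.leaf 224 1792 (.leaf 253 1800 .nil)) .nil)))) .nil)) .nil)) .nil)) .nil)))
noncomputable def t137 : T := .cons 202 (.leaf 226 1623 (.cons 228 (.leaf 204 1629 (.cons 203 (.leaf 178 1431 (.cons 298 (.leaf 274 1622 (.leaf 322 1814 .nil)) .nil)) .nil)) .nil)) (.cons 228 (.leaf 204 1629 (.cons 252 (.leaf 323 1821 (.cons 298 (.leaf 322 1814 (.cons 203 (.leaf 274 1622 (.cons 178 (.leaf 202 1431 (.cons 179 (.leaf 154 1239 (.leaf 155 1244 .nil)) .nil)) .nil)) .nil)) .nil)) .nil)) (.cons 226 (.leaf 202 1623 (.cons 250 (.leaf 323 1815 (.cons 298 (.leaf 322 1814 (.cons 203 (.leaf 274 1621 (.cons 179 (.leaf 155 1238 (.cons 180 (.leaf 204 1437 (.leaf 156 1245 .nil)) .nil)) .nil)) .nil)) .nil)) .nil)) (.cons 226 (.leaf 202 1623 (.cons 204 (.leaf 228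 1629 (.cons 203 (.leaf 180 1437 (.cons 205 (.leaf 206 1618 (.cons 224 (.leaf 225 1601 (.cons 250 (.leaf 323 1815 (.cons 179 (.leaf 274 1430 (.leaf 155 1238 .nil)) .nil)) .nil)) .nil)) .nil)) .nil)) .nil)) (.cons 226 (.leaf 202 1623 (.cons 250 (.leaf 323 1815 (.cons 298 (.leaf 322 1814 (.cons 274 (.leaf 203 1621 (.cons 297 (.leaf 321 1806 (.cons 296 (.leaf 295 2169 (.cons 272 (.leaf 271 2171 (.cons 273 (.leaf 252 1985 (.leaf 300 2176 .nil)) .nil)) .nil)) .nil)) .nil)) .nil)) .nil)) .nil)) (.cons 228 (.leaf 204 1629 (.cons 252 (.leaf 323 1821 (.cons 298 (.leaf 322 1814 (.cons 274 (.leaf 203 1622 (.cons 253 (.leaf 254 2002 (.cons 273 (.leaf 272 1985 (.leaf 250 1994 .nil)) .nil)) .nil)) .nil)) .nil)) .nil)) (.cons 226 (.leaf 202 1623 (.cons 204 (.leaf 228 1629 (.cons 322 (.leaf 298 1814 (.cons 323 (.leaf 250 1815 (.leaf 346 2006 .nil)) .nil)) .nil)) .nil)) .nil))))))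
noncomputable def t138 : T := .cons 250 (.leaf 226 1815 (.cons 228 (.leaf 252 1821 (.cons 324 (.leaf 348 2012 (.cons 347 (.leaf 274 2007 (.cons 370 (.leaf 346 2198 (.cons 371 (.leaf 394 2390 (.cons 395 (.leaf 300 2397 (.cons 396 (.leaf 372 2396 (.leaf 420 2588 .nil)) .nil)) .nil)) .nil)) .nil)) .nil)) .nil)) .nil)) (.cons 346 (.leaf 322 2006 (.cons 228 (.leaf 252 1821 (.cons 347 (.leaf 370 2198 (.cons 348 (.leaf 324 2012 (.leaf 372 2204 .nil)) .nil)) .nil)) .nil)) (.cons 250 (.leaf 226 1815 (.cons 228 (.leaf 252 1821 (.cons 347 (.leaf 274 2007 (.cons 348 (.leaf 324 2012 (.leaf 372 2204 .nil)) .nil)) .nil)) .nil)) (.cons 250 (.leaf 226 1815 (.cons 228 (.leaf 252 1821 (.cons 346 (.leaf 322 2006 (.cons 347 (.leaf 274 2007 (.leaf 370 2198 .nil)) .nil)) .nil)) .nil)) (.cons 250 (.leaf 226 1815 (.cons 322 (.leaf 346 2006 (.cons 347 (.leaf 274 2007 (.cons 348 (.leaf 324 2012 (.leaf 372 2204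 .nil)) .nil)) .nil)) .nil)) (.cons 322 (.leaf 346 2006 (.cons 324 (.leaf 348 2012 (.cons 250 (.leaf 226 1815 (.cons 252 (.leaf 228 1821 (.cons 253 (.cons 274 (.leaf 254 2002 (.leaf 273 1994 .nil)) (.cons 229 (.leaf 230 1809 (.cons 277 (.leaf 278 2000 (.cons 300 (.leaf 301 1830 (.cons 321 (.leaf 320 2369 (.cons 297 (.leaf 296 2371 (.cons 325 (.leaf 298 2376 (.cons 326 (.leaf 327 2395 (.cons 350 (.leaf 349 2576 (.leaf 351 2584 .nil)) .nil)) .nil)) .nil)) .nil)) .nil)) .nil)) .nil)) .nil)) .nil)) .nil)) .nil)) .nil)) .nil)))))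
noncomputable def t139 : T := .cons 202 (.leaf 226 1623 (.cons 203 (.leaf 178 1431 (.cons 204 (.leaf 180 1437 (.leaf 228 1629 .nil)) .nil)) .nil)) (.cons 298 (.leaf 322 1814 (.cons 203 (.leaf 274 1622 (.cons 178 (.leaf 202 1431 (.cons 179 (.leaf 154 1239 (.cons 180 (.leaf 204 1437 (.leaf 156 1245 .nil)) .nil)) .nil)) .nil)) .nil)) (.cons 298 (.leaf 322 1814 (.cons 202 (.leaf 226 1623 (.cons 203 (.leaf 178 1431 (.leaf 274 1622 .nil)) .nil)) .nil)) (.cons 298 (.leaf 322 1814 (.cons 274 (.leaf 203 1622 (.cons 300 (.leaf 324 1820 (.cons 273 (.leaf 272 2176 (.leaf 301 2187 .nil)) .nil)) .nil)) .nil)) (.cons 226 (.leaf 202 1623 (.cons 228 (.leaf 204 1629 (.cons 298 (.leaf 322 1814 (.cons 300 (.leaf 324 1820 (.cons 229 (.cons 250 (.leaf 230 1810 (.leaf 249 1802 .nil)) (.cons 205 (.leaf 206 1617 (.cons 254 (.leaf 253 1808 (.cons 230 (.leaf 255 1816 (.cons 157 (.leaf 181 1260 (.cons 231 (.leaf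 252 1818 (.cons 302 (.leaf 278 1647 (.cons 301 (.leaf 274 2195 (.cons 326 (.leaf 325 2384 (.leaf 327 2392 .nil)) .nil)) .nil)) .nil)) .nil)) .nil)) .nil)) .nil)) (.cons 205 (.leaf 206 1617 (.cons 249 (.leaf 250 1802 (.cons 225 (.leaf 248 1794 (.cons 252 (.leaf 224 1792 (.leaf 253 1800 .nil)) .nil)) .nil)) .nil)) .nil))) .nil)) .nil)) .nil)) .nil)) .nil))))
noncomputable def top0 : T := .cons 299 (.cons 298 (.leaf 322 1814 (.cons 300 (.leaf 324 1820 (.cons 301 t35 .nil)) .nil)) (.cons 322 (.leaf 298 1814 (.cons 323 (.leaf 346 2006 (.cons 324 (.leaf 300 1820 (.leaf 348 2012 .nil)) .nil)) .nil)) (.cons 202 (.leaf 226 1623 (.cons 203 (.leaf 178 1431 (.cons 204 (.leaf 180 1437 (.leaf 228 1629 .nil)) .nil)) .nil)) .nil))) (.cons 203 t34 (.cons 299 (.cons 228 (.leaf 204 1629 (.cons 298 (.leaf 322 1814 (.cons 323 (.leaf 252 1821 (.cons 324 (.leaf 300 1820 (.leaf 348 2012 .nil)) .nil)) .nil))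 .nil)) (.cons 322 (.leaf 298 1814 (.cons 323 (.leaf 346 2006 (.cons 324 (.leaf 300 1820 (.leaf 348 2012 .nil)) .nil)) .nil)) (.cons 228 (.leaf 204 1629 (.cons 323 (.leaf 252 1821 (.cons 324 (.leaf 300 1820 (.leaf 348 2012 .nil)) .nil)) .nil)) (.cons 228 (.leaf 204 1629 (.cons 322 (.leaf 298 1814 (.cons 323 (.leaf 252 1821 (.leaf 346 2006 .nil)) .nil)) .nil)) (.cons 300 (.leaf 324 1820 (.cons 278 t31 .nil)) .nil))))) (.cons 299 (.cons 226 (.leaf 202 1623 (.cons 298 (.leaf 322 1814 (.cons 323 (.leaf 250 1815 (.cons 324 (.leaf 300 1820 (.leaf 348 2012 .nil)) .nil)) .nil)) .nil)) (.cons 322 (.leaf 298 1814 (.cons 323 (.leaf 346 2006 (.cons 324 (.leaf 300 1820 (.leaf 348 2012 .nil)) .nil)) .nil)) (.cons 226 (.leaf 202 1623 (.cons 323 (.leaf 250 1815 (.cons 324 (.leaf 300 1820 (.leaf 348 2012 .nil)) .nil)) .nil)) (.cons 226 (.leaf 202 1623 (.cons 322 (.leaf 298 1814 (.cons 323 (.leaf 250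 1815 (.leaf 346 2006 .nil)) .nil)) .nil)) (.cons 298 (.leaf 322 1814 (.cons 272 t17 .nil)) .nil))))) (.cons 299 t5 (.cons 299 (.cons 228 (.leaf 204 1629 (.cons 298 (.leaf 322 1814 (.cons 323 (.leaf 252 1821 (.cons 324 (.leaf 300 1820 (.leaf 348 2012 .nil)) .nil)) .nil)) .nil)) (.cons 322 (.leaf 298 1814 (.cons 323 (.leaf 346 2006 (.cons 324 (.leaf 300 1820 (.leaf 348 2012 .nil)) .nil)) .nil)) (.cons 228 (.leaf 204 1629 (.cons 323 (.leaf 252 1821 (.cons 324 (.leaf 300 1820 (.leaf 348 2012 .nil)) .nil)) .nil)) (.cons 228 (.leaf 204 1629 (.cons 322 (.leaf 298 1814 (.cons 323 (.leaf 252 1821 (.leaf 346 2006 .nil)) .nil)) .nil)) (.cons 298 (.leaf 322 1814 (.cons 300 (.leaf 324 1820 (.cons 301 t4 .nil)) .nil)) .nil))))) (.cons 299 (.cons 226 (.leaf 202 1623 (.cons 323 (.leaf 250 1815 (.cons 324 (.leaf 300 1820 (.leaf 348 2012 .nil)) .nil)) .nil)) (.cons 322 (.leaf 298 1814 (.cons 323 (.leaf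 346 2006 (.cons 324 (.leaf 300 1820 (.leaf 348 2012 .nil)) .nil)) .nil)) (.cons 226 (.leaf 202 1623 (.cons 322 (.leaf 298 1814 (.cons 323 (.leaf 250 1815 (.leaf 346 2006 .nil)) .nil)) .nil)) (.cons 298 (.leaf 322 1814 (.cons 300 (.leaf 324 1820 (.cons 297 t1 .nil)) .nil)) .nil)))) (.cons 299 (.cons 202 (.leaf 226 1623 (.cons 178 (.leaf 203 1431 (.cons 228 (.leaf 204 1629 (.cons 323 (.leaf 252 1821 (.cons 324 (.leaf 300 1820 (.leaf 348 2012 .nil)) .nil)) .nil)) .nil)) .nil)) (.cons 322 (.leaf 298 1814 (.cons 323 (.leaf 346 2006 (.cons 324 (.leaf 300 1820 (.leaf 348 2012 .nil)) .nil)) .nil)) (.cons 202 (.leaf 226 1623 (.cons 178 (.leaf 203 1431 (.cons 228 (.leaf 204 1629 (.cons 322 (.leaf 298 1814 (.cons 323 (.leaf 252 1821 (.leaf 346 2006 .nil)) .nil)) .nil)) .nil)) .nil)) (.cons 202 (.leaf 226 1623 (.cons 203 (.leaf 178 1431 (.cons 204 (.leaf 180 1437 (.leaf 228 1629 .nil)) .nil))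 .nil)) .nil)))) (.cons 299 (.cons 202 (.leaf 226 1623 (.cons 203 (.leaf 178 1431 (.cons 322 (.leaf 298 1814 (.cons 323 (.leaf 346 2006 (.cons 324 (.leaf 300 1820 (.leaf 348 2012 .nil)) .nil)) .nil)) .nil)) .nil)) (.cons 322 (.leaf 298 1814 (.cons 323 (.leaf 346 2006 (.cons 324 (.leaf 300 1820 (.leaf 348 2012 .nil)) .nil)) .nil)) (.cons 202 (.leaf 226 1623 (.cons 203 (.leaf 178 1431 (.cons 204 (.leaf 180 1437 (.leaf 228 1629 .nil)) .nil)) .nil)) .nil))) .nil))))))))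
noncomputable def top1 : T := .cons 299 (.cons 298 (.leaf 322 1814 (.cons 204 (.leaf 228 1629 (.cons 226 (.leaf 202 1623 (.cons 323 (.leaf 250 1815 (.cons 324 (.leaf 300 1820 (.leaf 348 2012 .nil)) .nil)) .nil)) .nil)) .nil)) (.cons 298 (.leaf 322 1814 (.cons 274 (.leaf 203 1622 (.cons 300 (.leaf 324 1820 (.cons 273 (.leaf 272 2176 (.leaf 301 2187 .nil)) .nil)) .nil)) .nil)) (.cons 226 (.leaf 202 1623 (.cons 323 (.leaf 250 1815 (.cons 324 (.leaf 300 1820 (.leaf 348 2012 .nil)) .nil)) .nil)) (.cons 202 (.leaf 226 1623 (.cons 203 (.leaf 178 1431 (.cons 204 (.leaf 180 1437 (.leaf 228 1629 .nil)) .nil)) .nil)) .nil)))) (.cons 203 t38 (.cons 299 t37 (.cons 299 (.cons 204 (.leaf 228 1629 (.cons 180 (.leaf 203 1437 (.cons 322 (.leaf 298 1814 (.cons 323 (.leaf 346 2006 (.cons 324 (.leaf 300 1820 (.leaf 348 2012 .nil)) .nil)) .nil)) .nil)) .nil)) (.cons 204 (.leaf 228 1629 (.cons 180 (.leaf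 203 1437 (.cons 324 (.leaf 300 1820 (.cons 323 (.leaf 348 2012 (.cons 250 (.leaf 226 1815 (.cons 346 (.leaf 322 2006 (.cons 347 (.leaf 274 2007 (.leaf 370 2198 .nil)) .nil)) .nil)) .nil)) .nil)) .nil)) .nil)) (.cons 204 (.leaf 228 1629 (.cons 203 (.leaf 180 1437 (.cons 274 (.leaf 298 1622 (.cons 250 (.leaf 179 1430 (.cons 323 (.leaf 226 1815 (.leaf 347 2007 .nil)) .nil)) .nil)) .nil)) .nil)) (.cons 298 (.leaf 322 1814 (.cons 274 (.leaf 203 1622 (.cons 300 (.leaf 324 1820 (.cons 273 (.leaf 272 2176 (.leaf 301 2187 .nil)) .nil)) .nil)) .nil)) (.cons 322 (.leaf 298 1814 (.cons 204 (.leaf 228 1629 (.cons 323 (.leaf 346 2006 (.cons 324 (.leaf 300 1820 (.leaf 348 2012 .nil)) .nil)) .nil)) .nil)) .nil))))) (.cons 203 t36 (.cons 203 (.cons 180 (.leaf 204 1437 (.cons 179 (.leaf 156 1245 (.cons 274 (.leaf 298 1622 (.leaf 250 1430 .nil)) .nil)) .nil)) (.cons 178 (.leaf 202 1431 (.cons 179 (.leaf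 154 1239 (.cons 274 (.leaf 298 1622 (.leaf 250 1430 .nil)) .nil)) .nil)) (.cons 204 (.leaf 180 1437 (.cons 202 (.leaf 178 1431 (.cons 228 (.leaf 299 1629 (.cons 201 (.leaf 200 1600 (.leaf 229 1608 .nil)) .nil)) .nil)) .nil)) .nil))) (.cons 299 (.cons 202 (.leaf 226 1623 (.cons 322 (.leaf 298 1814 (.cons 323 (.leaf 346 2006 (.cons 324 (.leaf 300 1820 (.leaf 348 2012 .nil)) .nil)) .nil)) .nil)) (.cons 226 (.leaf 202 1623 (.cons 323 (.leaf 250 1815 (.cons 324 (.leaf 300 1820 (.leaf 348 2012 .nil)) .nil)) .nil)) (.cons 298 (.leaf 322 1814 (.cons 274 (.leaf 203 1622 (.cons 300 (.leaf 324 1820 (.cons 273 (.leaf 272 2176 (.leaf 301 2187 .nil)) .nil)) .nil)) .nil)) (.cons 202 (.leaf 226 1623 (.cons 203 (.leaf 178 1431 (.cons 298 (.leaf 274 1622 (.leaf 322 1814 .nil)) .nil)) .nil)) .nil)))) (.cons 299 (.cons 202 (.leaf 226 1623 (.cons 203 (.leaf 178 1431 (.cons 204 (.leaf 180 1437 (.leaf 228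 1629 .nil)) .nil)) .nil)) (.cons 204 (.leaf 228 1629 (.cons 322 (.leaf 298 1814 (.cons 323 (.leaf 346 2006 (.cons 324 (.leaf 300 1820 (.leaf 348 2012 .nil)) .nil)) .nil)) .nil)) (.cons 226 (.leaf 202 1623 (.cons 323 (.leaf 250 1815 (.cons 324 (.leaf 300 1820 (.leaf 348 2012 .nil)) .nil)) .nil)) .nil))) (.cons 299 (.cons 202 (.leaf 226 1623 (.cons 203 (.leaf 178 1431 (.cons 204 (.leaf 180 1437 (.leaf 228 1629 .nil)) .nil)) .nil)) (.cons 298 (.leaf 322 1814 (.cons 274 (.leaf 203 1622 (.cons 300 (.leaf 324 1820 (.cons 273 (.leaf 272 2176 (.leaf 301 2187 .nil)) .nil)) .nil)) .nil)) (.cons 202 (.leaf 226 1623 (.cons 322 (.leaf 298 1814 (.cons 323 (.leaf 346 2006 (.cons 324 (.leaf 300 1820 (.leaf 348 2012 .nil)) .nil)) .nil)) .nil)) .nil))) .nil))))))))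
noncomputable def top2 : T := t41
noncomputable def top3 : T := t45
noncomputable def top4 : T := .cons 299 t68 (.cons 252 t67 (.cons 252 t64 (.cons 299 t63 (.cons 249 t62 (.cons 252 t57 (.cons 299 t56 (.cons 249 t54 (.cons 249 (t51) (.cons 299 t47 .nil)))))))))
noncomputable def top5 : T := .cons 323 (.cons 226 (.leaf 250 1815 (.cons 227 (.leaf 202 1623 (.cons 228 (.leaf 204 1629 (.leaf 252 1821 .nil)) .nil)) .nil)) (.cons 322 (.leaf 346 2006 (.cons 227 (.leaf 298 1814 (.cons 324 (.leaf 300 1820 (.leaf 348 2012 .nil)) .nil)) .nil)) (.cons 226 (.leaf 250 1815 (.cons 346 (.leaf 322 2006 (.cons 347 (.leaf 370 2198 (.cons 348 (.leaf 324 2012 (.leaf 372 2204 .nil)) .nil)) .nil)) .nil)) .nil))) (.cons 227 t70 (.cons 323 t69 (.cons 323 (.cons 226 (.leaf 250 1815 (.cons 227 (.leaf 202 1623 (.cons 228 (.leaf 204 1629 (.leaf 252 1821 .nil)) .nil)) .nil)) (.cons 228 (.leaf 252 1821 (.cons 227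 (.leaf 204 1629 (.cons 324 (.leaf 300 1820 (.leaf 348 2012 .nil)) .nil)) .nil)) (.cons 324 (.leaf 348 2012 (.cons 226 (.leaf 250 1815 (.cons 227 (.leaf 202 1623 (.leaf 300 1820 .nil)) .nil)) .nil)) (.cons 228 (.leaf 252 1821 (.cons 250 (.leaf 226 1815 (.cons 324 (.leaf 348 2012 (.cons 347 (.leaf 274 2007 (.cons 370 (.leaf 346 2198 (.cons 371 (.leaf 394 2390 (.cons 395 (.leaf 300 2397 (.cons 396 (.leaf 372 2396 (.leaf 420 2588 .nil)) .nil)) .nil)) .nil)) .nil)) .nil)) .nil)) .nil)) .nil)))) (.cons 323 (.cons 322 (.leaf 346 2006 (.cons 227 (.leaf 298 1814 (.cons 324 (.leaf 300 1820 (.leaf 348 2012 .nil)) .nil)) .nil)) (.cons 324 (.leaf 348 2012 (.cons 227 (.leaf 300 1820 (.cons 228 (.leaf 204 1629 (.leaf 252 1821 .nil)) .nil)) .nil)) (.cons 322 (.leaf 346 2006 (.cons 227 (.leaf 298 1814 (.cons 228 (.leaf 204 1629 (.leaf 252 1821 .nil)) .nil)) .nil)) (.cons 228 (.leaf 252 1821 (.cons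 324 (.leaf 348 2012 (.cons 346 (.leaf 322 2006 (.cons 347 (.leaf 370 2198 (.cons 274 (.leaf 250 2007 (.cons 298 (.leaf 371 2199 (.cons 325 (.leaf 326 2578 (.cons 297 (.leaf 296 2368 (.leaf 300 2376 .nil)) .nil)) .nil)) .nil)) .nil)) .nil)) .nil)) .nil)) .nil)))) (.cons 323 (.cons 322 (.leaf 346 2006 (.cons 227 (.leaf 298 1814 (.cons 324 (.leaf 300 1820 (.leaf 348 2012 .nil)) .nil)) .nil)) (.cons 324 (.leaf 348 2012 (.cons 227 (.leaf 300 1820 (.cons 228 (.leaf 204 1629 (.leaf 252 1821 .nil)) .nil)) .nil)) (.cons 322 (.leaf 346 2006 (.cons 227 (.leaf 298 1814 (.cons 228 (.leaf 204 1629 (.leaf 252 1821 .nil)) .nil)) .nil)) (.cons 228 (.leaf 252 1821 (.cons 346 (.leaf 322 2006 (.cons 347 (.leaf 370 2198 (.cons 348 (.leaf 324 2012 (.leaf 372 2204 .nil)) .nil)) .nil)) .nil)) .nil)))) (.cons 323 (.cons 226 (.leaf 250 1815 (.cons 227 (.leaf 202 1623 (.cons 228 (.leaf 204 1629 (.leaf 252 1821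 .nil)) .nil)) .nil)) (.cons 322 (.leaf 346 2006 (.cons 227 (.leaf 298 1814 (.cons 228 (.leaf 204 1629 (.leaf 252 1821 .nil)) .nil)) .nil)) (.cons 226 (.leaf 250 1815 (.cons 227 (.leaf 202 1623 (.cons 322 (.leaf 298 1814 (.leaf 346 2006 .nil)) .nil)) .nil)) (.cons 228 (.leaf 252 1821 (.cons 250 (.leaf 226 1815 (.cons 346 (.leaf 322 2006 (.cons 347 (.leaf 274 2007 (.leaf 370 2198 .nil)) .nil)) .nil)) .nil)) .nil)))) (.cons 323 (.cons 226 (.leaf 250 1815 (.cons 227 (.leaf 202 1623 (.cons 324 (.leaf 300 1820 (.leaf 348 2012 .nil)) .nil)) .nil)) (.cons 322 (.leaf 346 2006 (.cons 226 (.leaf 250 1815 (.cons 227 (.leaf 202 1623 (.leaf 298 1814 .nil)) .nil)) .nil)) (.cons 322 (.leaf 346 2006 (.cons 227 (.leaf 298 1814 (.cons 324 (.leaf 300 1820 (.leaf 348 2012 .nil)) .nil)) .nil)) (.cons 226 (.leaf 250 1815 (.cons 346 (.leaf 322 2006 (.cons 347 (.leaf 370 2198 (.cons 348 (.leaf 324 2012 (.leaf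 372 2204 .nil)) .nil)) .nil)) .nil)) .nil)))) .nil)))))))
noncomputable def top6 : T := .cons 203 (.cons 204 (.leaf 180 1437 (.cons 298 (.leaf 274 1622 (.cons 299 (.leaf 228 1629 (.leaf 322 1814 .nil)) .nil)) .nil)) (.cons 202 (.leaf 178 1431 (.cons 298 (.leaf 274 1622 (.cons 299 (.leaf 226 1623 (.leaf 322 1814 .nil)) .nil)) .nil)) (.cons 178 (.leaf 202 1431 (.cons 179 (.leaf 154 1239 (.cons 180 (.leaf 204 1437 (.leaf 156 1245 .nil)) .nil)) .nil)) .nil))) (.cons 299 t76 (.cons 203 t74 (.cons 203 (.cons 178 (.leaf 202 1431 (.cons 204 (.leaf 180 1437 (.cons 298 (.leaf 274 1622 (.cons 299 (.leaf 228 1629 (.leaf 322 1814 .nil)) .nil)) .nil)) .nil)) (.cons 274 (.leaf 298 1622 (.cons 178 (.leaf 202 1431 (.cons 179 (.leaf 154 1239 (.leaf 250 1430 .nil)) .nil)) .nil)) (.cons 204 (.leaf 180 1437 (.cons 178 (.leaf 202 1431 (.cons 179 (.leaf 154 1239 (.cons 176 (.leaf 177 1408 (.cons 228 (.leaf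 299 1629 (.cons 155 (.leaf 252 1244 (.leaf 131 1052 .nil)) .nil)) .nil)) .nil)) .nil)) .nil)) (.cons 274 (.leaf 298 1622 (.cons 179 (.leaf 250 1430 (.cons 180 (.leaf 204 1437 (.leaf 156 1245 .nil)) .nil)) .nil)) .nil)))) (.cons 203 t73 (.cons 203 t72 (.cons 203 (.cons 178 (.leaf 202 1431 (.cons 179 (.leaf 154 1239 (.cons 274 (.leaf 298 1622 (.leaf 250 1430 .nil)) .nil)) .nil)) (.cons 178 (.leaf 202 1431 (.cons 179 (.leaf 154 1239 (.cons 180 (.leaf 204 1437 (.leaf 156 1245 .nil)) .nil)) .nil)) (.cons 180 (.leaf 204 1437 (.cons 179 (.leaf 156 1245 (.cons 274 (.leaf 298 1622 (.leaf 250 1430 .nil)) .nil)) .nil)) (.cons 202 (.leaf 178 1431 (.cons 298 (.leaf 274 1622 (.cons 299 (.leaf 226 1623 (.leaf 322 1814 .nil)) .nil)) .nil)) .nil)))) (.cons 203 t71 .nil)))))))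
noncomputable def top7 : T := t93
noncomputable def top8 : T := .cons 323 (.cons 322 (.leaf 346 2006 (.cons 228 (.leaf 252 1821 (.cons 250 (.leaf 226 1815 (.cons 347 (.leaf 274 2007 (.cons 348 (.leaf 324 2012 (.leaf 372 2204 .nil)) .nil)) .nil)) .nil)) .nil)) (.cons 322 (.leaf 346 2006 (.cons 298 (.leaf 227 1814 (.cons 324 (.leaf 348 2012 (.cons 297 (.leaf 296 2368 (.leaf 325 2379 .nil)) .nil)) .nil)) .nil)) (.cons 250 (.leaf 226 1815 (.cons 347 (.leaf 274 2007 (.cons 348 (.leaf 324 2012 (.leaf 372 2204 .nil)) .nil)) .nil)) (.cons 226 (.leaf 250 1815 (.cons 227 (.leaf 202 1623 (.cons 228 (.leaf 204 1629 (.leaf 252 1821 .nil)) .nil)) .nil)) .nil)))) (.cons 227 t96 (.cons 323 t95 (.cons 323 (.cons 228 (.leaf 252 1821 (.cons 204 (.leaf 227 1629 (.cons 346 (.leaf 322 2006 (.cons 347 (.leaf 370 2198 (.cons 348 (.leaf 324 2012 (.leaf 372 2204 .nil)) .nil)) .nil)) .nil)) .nil)) (.cons 228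 (.leaf 252 1821 (.cons 204 (.leaf 227 1629 (.cons 348 (.leaf 324 2012 (.cons 347 (.leaf 372 2204 (.cons 274 (.leaf 250 2007 (.cons 370 (.leaf 346 2198 (.cons 371 (.leaf 298 2199 (.leaf 394 2390 .nil)) .nil)) .nil)) .nil)) .nil)) .nil)) .nil)) (.cons 228 (.leaf 252 1821 (.cons 227 (.leaf 204 1629 (.cons 298 (.leaf 322 1814 (.cons 274 (.leaf 203 1622 (.cons 347 (.leaf 250 2007 (.leaf 371 2199 .nil)) .nil)) .nil)) .nil)) .nil)) (.cons 322 (.leaf 346 2006 (.cons 298 (.leaf 227 1814 (.cons 324 (.leaf 348 2012 (.cons 297 (.leaf 296 2368 (.leaf 325 2379 .nil)) .nil)) .nil)) .nil)) (.cons 346 (.leaf 322 2006 (.cons 228 (.leaf 252 1821 (.cons 347 (.leaf 370 2198 (.cons 348 (.leaf 324 2012 (.leaf 372 2204 .nil)) .nil)) .nil)) .nil)) .nil))))) (.cons 227 t94 (.cons 227 (.cons 204 (.leaf 228 1629 (.cons 203 (.leaf 180 1437 (.cons 298 (.leaf 274 1622 (.leaf 322 1814 .nil)) .nil)) .nil)) (.cons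 202 (.leaf 226 1623 (.cons 203 (.leaf 178 1431 (.cons 298 (.leaf 274 1622 (.leaf 322 1814 .nil)) .nil)) .nil)) (.cons 228 (.leaf 204 1629 (.cons 226 (.leaf 202 1623 (.cons 252 (.leaf 323 1821 (.cons 225 (.leaf 224 1792 (.leaf 253 1800 .nil)) .nil)) .nil)) .nil)) .nil))) (.cons 323 (.cons 226 (.leaf 250 1815 (.cons 346 (.leaf 322 2006 (.cons 347 (.leaf 370 2198 (.cons 348 (.leaf 324 2012 (.leaf 372 2204 .nil)) .nil)) .nil)) .nil)) (.cons 250 (.leaf 226 1815 (.cons 347 (.leaf 274 2007 (.cons 348 (.leaf 324 2012 (.leaf 372 2204 .nil)) .nil)) .nil)) (.cons 322 (.leaf 346 2006 (.cons 298 (.leaf 227 1814 (.cons 324 (.leaf 348 2012 (.cons 297 (.leaf 296 2368 (.leaf 325 2379 .nil)) .nil)) .nil)) .nil)) (.cons 226 (.leaf 250 1815 (.cons 227 (.leaf 202 1623 (.cons 322 (.leaf 298 1814 (.leaf 346 2006 .nil)) .nil)) .nil)) .nil)))) (.cons 323 (.cons 226 (.leaf 250 1815 (.cons 227 (.leaf 202 1623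 (.cons 228 (.leaf 204 1629 (.leaf 252 1821 .nil)) .nil)) .nil)) (.cons 228 (.leaf 252 1821 (.cons 346 (.leaf 322 2006 (.cons 347 (.leaf 370 2198 (.cons 348 (.leaf 324 2012 (.leaf 372 2204 .nil)) .nil)) .nil)) .nil)) (.cons 250 (.leaf 226 1815 (.cons 347 (.leaf 274 2007 (.cons 348 (.leaf 324 2012 (.leaf 372 2204 .nil)) .nil)) .nil)) .nil))) (.cons 323 (.cons 226 (.leaf 250 1815 (.cons 227 (.leaf 202 1623 (.cons 228 (.leaf 204 1629 (.leaf 252 1821 .nil)) .nil)) .nil)) (.cons 322 (.leaf 346 2006 (.cons 298 (.leaf 227 1814 (.cons 324 (.leaf 348 2012 (.cons 297 (.leaf 296 2368 (.leaf 325 2379 .nil)) .nil)) .nil)) .nil)) (.cons 226 (.leaf 250 1815 (.cons 346 (.leaf 322 2006 (.cons 347 (.leaf 370 2198 (.cons 348 (.leaf 324 2012 (.leaf 372 2204 .nil)) .nil)) .nil)) .nil)) .nil))) .nil))))))))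
noncomputable def top9 : T := t98
noncomputable def top10 : T := .cons 227 (.cons 226 (.leaf 202 1623 (.cons 323 (.leaf 250 1815 (.cons 228 (.leaf 204 1629 (.leaf 252 1821 .nil)) .nil)) .nil)) (.cons 226 (.leaf 202 1623 (.cons 323 (.leaf 250 1815 (.cons 324 (.leaf 300 1820 (.leaf 348 2012 .nil)) .nil)) .nil)) (.cons 298 (.leaf 322 1814 (.cons 203 (.leaf 274 1622 (.cons 178 (.leaf 202 1431 (.cons 179 (.leaf 154 1239 (.cons 180 (.leaf 204 1437 (.leaf 156 1245 .nil)) .nil)) .nil)) .nil)) .nil)) (.cons 298 (.leaf 322 1814 (.cons 274 (.leaf 203 1622 (.cons 300 (.leaf 324 1820 (.cons 273 (.leaf 272 2176 (.leaf 301 2187 .nil)) .nil)) .nil)) .nil)) .nil)))) (.cons 227 (.cons 202 (.leaf 226 1623 (.cons 203 (.leaf 178 1431 (.cons 204 (.leaf 180 1437 (.leaf 228 1629 .nil)) .nil)) .nil)) (.cons 298 (.leaf 322 1814 (.cons 274 (.leaf 203 1622 (.cons 300 (.leaf 324 1820 (.cons 273 (.leaf 272 2176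 (.leaf 301 2187 .nil)) .nil)) .nil)) .nil)) (.cons 228 (.leaf 204 1629 (.cons 226 (.leaf 202 1623 (.cons 298 (.leaf 322 1814 (.cons 300 (.leaf 324 1820 (.cons 301 (.cons 274 (.leaf 302 2195 (.leaf 273 2187 .nil)) (.cons 277 (.leaf 278 2193 (.cons 325 (.leaf 326 2384 (.cons 253 (.leaf 252 1831 (.cons 254 (.leaf 229 1808 (.leaf 230 1837 .nil)) .nil)) .nil)) .nil)) .nil)) .nil)) .nil)) .nil)) .nil)) .nil))) (.cons 323 t100 (.cons 227 (.cons 204 (.leaf 228 1629 (.cons 203 (.leaf 180 1437 (.cons 178 (.leaf 202 1431 (.cons 179 (.leaf 154 1239 (.cons 274 (.leaf 298 1622 (.leaf 250 1430 .nil)) .nil)) .nil)) .nil)) .nil)) (.cons 226 (.leaf 202 1623 (.cons 323 (.leaf 250 1815 (.cons 324 (.leaf 300 1820 (.leaf 348 2012 .nil)) .nil)) .nil)) (.cons 228 (.leaf 204 1629 (.cons 323 (.leaf 252 1821 (.cons 324 (.leaf 300 1820 (.leaf 348 2012 .nil)) .nil)) .nil)) .nil))) (.cons 323 (.cons 226 (.leaf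 250 1815 (.cons 228 (.leaf 252 1821 (.cons 346 (.leaf 322 2006 (.cons 347 (.leaf 370 2198 (.cons 348 (.leaf 324 2012 (.leaf 372 2204 .nil)) .nil)) .nil)) .nil)) .nil)) (.cons 226 (.leaf 250 1815 (.cons 227 (.leaf 202 1623 (.cons 228 (.leaf 204 1629 (.leaf 252 1821 .nil)) .nil)) .nil)) (.cons 228 (.leaf 252 1821 (.cons 346 (.leaf 322 2006 (.cons 347 (.leaf 370 2198 (.cons 348 (.leaf 324 2012 (.leaf 372 2204 .nil)) .nil)) .nil)) .nil)) (.cons 226 (.leaf 250 1815 (.cons 346 (.leaf 322 2006 (.cons 347 (.leaf 370 2198 (.cons 348 (.leaf 324 2012 (.leaf 372 2204 .nil)) .nil)) .nil)) .nil)) .nil)))) (.cons 227 t99 (.cons 227 (.cons 298 (.leaf 322 1814 (.cons 203 (.leaf 274 1622 (.cons 178 (.leaf 202 1431 (.cons 179 (.leaf 154 1239 (.cons 180 (.leaf 204 1437 (.leaf 156 1245 .nil)) .nil)) .nil)) .nil)) .nil)) (.cons 228 (.leaf 204 1629 (.cons 323 (.leaf 252 1821 (.cons 324 (.leaf 300 1820 (.leaf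 348 2012 .nil)) .nil)) .nil)) (.cons 298 (.leaf 322 1814 (.cons 274 (.leaf 203 1622 (.cons 300 (.leaf 324 1820 (.cons 273 (.leaf 272 2176 (.leaf 301 2187 .nil)) .nil)) .nil)) .nil)) .nil))) (.cons 227 (.cons 298 (.leaf 322 1814 (.cons 202 (.leaf 226 1623 (.cons 203 (.leaf 178 1431 (.leaf 274 1622 .nil)) .nil)) .nil)) (.cons 226 (.leaf 202 1623 (.cons 323 (.leaf 250 1815 (.cons 324 (.leaf 300 1820 (.leaf 348 2012 .nil)) .nil)) .nil)) (.cons 298 (.leaf 322 1814 (.cons 203 (.leaf 274 1622 (.cons 178 (.leaf 202 1431 (.cons 179 (.leaf 154 1239 (.cons 180 (.leaf 204 1437 (.leaf 156 1245 .nil)) .nil)) .nil)) .nil)) .nil)) (.cons 298 (.leaf 322 1814 (.cons 274 (.leaf 203 1622 (.cons 300 (.leaf 324 1820 (.cons 273 (.leaf 272 2176 (.leaf 301 2187 .nil)) .nil)) .nil)) .nil)) .nil)))) .nil)))))))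
noncomputable def top11 : T := .cons 227 (.cons 202 (.leaf 226 1623 (.cons 203 (.leaf 178 1431 (.cons 274 (.leaf 298 1622 (.cons 250 (.leaf 179 1430 (.cons 300 (.leaf 324 1820 (.cons 273 (.leaf 272 2176 (.cons 252 (.leaf 253 1994 (.cons 323 (.leaf 228 1821 (.leaf 347 2007 .nil)) .nil)) .nil)) .nil)) .nil)) .nil)) .nil)) .nil)) (.cons 204 (.leaf 228 1629 (.cons 180 (.leaf 203 1437 (.cons 322 (.leaf 298 1814 (.cons 323 (.leaf 346 2006 (.cons 324 (.leaf 300 1820 (.leaf 348 2012 .nil)) .nil)) .nil)) .nil)) .nil)) (.cons 202 (.leaf 226 1623 (.cons 203 (.leaf 178 1431 (.cons 298 (.leaf 274 1622 (.leaf 322 1814 .nil)) .nil)) .nil)) (.cons 202 (.leaf 226 1623 (.cons 203 (.leaf 178 1431 (.cons 204 (.leaf 180 1437 (.leaf 228 1629 .nil)) .nil)) .nil)) (.cons 202 (.leaf 226 1623 (.cons 228 (.leaf 204 1629 (.cons 322 (.leaf 298 1814 (.cons 323 (.leaf 252 1821 (.leaf 346 2006 .nil)) .nil)) .nil))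 .nil)) .nil))))) (.cons 323 (.cons 250 (.leaf 226 1815 (.cons 228 (.leaf 252 1821 (.cons 347 (.leaf 274 2007 (.cons 348 (.leaf 324 2012 (.leaf 372 2204 .nil)) .nil)) .nil)) .nil)) (.cons 346 (.leaf 322 2006 (.cons 228 (.leaf 252 1821 (.cons 347 (.leaf 370 2198 (.cons 348 (.leaf 324 2012 (.leaf 372 2204 .nil)) .nil)) .nil)) .nil)) (.cons 250 (.leaf 226 1815 (.cons 228 (.leaf 252 1821 (.cons 346 (.leaf 322 2006 (.cons 347 (.leaf 274 2007 (.leaf 370 2198 .nil)) .nil)) .nil)) .nil)) (.cons 250 (.leaf 226 1815 (.cons 322 (.leaf 346 2006 (.cons 347 (.leaf 274 2007 (.cons 348 (.leaf 324 2012 (.leaf 372 2204 .nil)) .nil)) .nil)) .nil)) (.cons 322 (.leaf 346 2006 (.cons 324 (.leaf 348 2012 (.cons 250 (.leaf 226 1815 (.cons 252 (.leaf 228 1821 (.cons 253 (.cons 274 (.leaf 254 2002 (.leaf 273 1994 .nil)) (.cons 229 (.leaf 230 1809 (.cons 277 (.leaf 278 2000 (.cons 301 (.leaf 300 1830 (.cons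 302 (.leaf 325 2385 (.leaf 326 1836 .nil)) .nil)) .nil)) .nil)) .nil)) .nil)) .nil)) .nil)) .nil)) .nil))))) (.cons 227 t102 t101))
noncomputable def top12 : T := .cons 227 (.cons 298 (.leaf 322 1814 (.cons 274 (.leaf 203 1622 (.cons 204 (.leaf 228 1629 (.cons 324 (.leaf 300 1820 (.cons 323 (.leaf 348 2012 (.cons 250 (.leaf 226 1812 (.leaf 347 2007 .nil)) .nil)) .nil)) .nil)) .nil)) .nil)) (.cons 228 (.leaf 204 1629 (.cons 300 (.leaf 324 1820 (.cons 323 (.leaf 252 1821 (.cons 250 (.leaf 226 1815 (.cons 229 (.leaf 230 1810 (.cons 248 (.leaf 249 1793 (.cons 346 (.leaf 322 2006 (.cons 347 (.leaf 274 2007 (.leaf 370 2198 .nil)) .nil)) .nil)) .nil)) .nil)) .nil)) .nil)) .nil)) (.cons 298 (.leaf 322 1814 (.cons 274 (.leaf 203 1622 (.cons 300 (.leaf 324 1820 (.cons 273 (.leaf 272 2176 (.leaf 301 2187 .nil)) .nil)) .nil)) .nil)) (.cons 228 (.leaf 204 1629 (.cons 323 (.leaf 252 1821 (.cons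 324 (.leaf 300 1820 (.leaf 348 2012 .nil)) .nil)) .nil)) (.cons 204 (.leaf 228 1629 (.cons 203 (.leaf 180 1437 (.cons 298 (.leaf 274 1622 (.leaf 322 1814 .nil)) .nil)) .nil)) .nil))))) (.cons 298 (.cons 322 (.leaf 227 1814 (.cons 346 (.leaf 274 2005 (.leaf 370 2197 .nil)) .nil)) (.cons 297 t112 (.cons 300 t108 (.cons 227 (.leaf 322 1814 (.cons 300 (.leaf 324 1820 (.cons 301 t107 .nil)) .nil)) .nil)))) (.cons 323 t105 (.cons 323 (.cons 250 (.leaf 226 1815 (.cons 228 (.leaf 252 1821 (.cons 347 (.leaf 274 2007 (.cons 348 (.leaf 324 2012 (.leaf 372 2204 .nil)) .nil)) .nil)) .nil)) (.cons 228 (.leaf 252 1821 (.cons 227 (.leaf 204 1629 (.cons 250 (.leaf 226 1815 (.cons 229 (.leaf 230 1810 (.cons 248 (.leaf 249 1793 (.cons 274 (.leaf 347 2007 (.cons 203 (.leaf 298 1622 (.leaf 179 1430 .nil)) .nil)) .nil)) .nil)) .nil)) .nil)) .nil)) (.cons 324 (.leaf 348 2012 (.cons 227 (.leaf 300 1820 (.cons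 228 (.leaf 204 1629 (.leaf 252 1821 .nil)) .nil)) .nil)) (.cons 250 (.leaf 226 1815 (.cons 274 (.leaf 347 2007 (.cons 324 (.leaf 348 2012 (.cons 227 (.leaf 300 1820 (.cons 203 (.leaf 298 1622 (.leaf 179 1430 .nil)) .nil)) .nil)) .nil)) .nil)) .nil)))) (.cons 323 (.cons 228 (.leaf 252 1821 (.cons 204 (.leaf 227 1629 (.cons 250 (.leaf 226 1815 (.cons 346 (.leaf 322 2006 (.cons 347 (.leaf 274 2007 (.leaf 370 2198 .nil)) .nil)) .nil)) .nil)) .nil)) (.cons 324 (.leaf 348 2012 (.cons 227 (.leaf 300 1820 (.cons 228 (.leaf 204 1629 (.leaf 252 1821 .nil)) .nil)) .nil)) (.cons 226 (.leaf 250 1815 (.cons 322 (.leaf 346 2006 (.cons 324 (.leaf 348 2012 (.cons 300 (.leaf 227 1820 (.cons 301 (.leaf 302 2386 (.leaf 321 2377 .nil)) .nil)) .nil)) .nil)) .nil)) (.cons 348 (.leaf 324 2012 (.cons 226 (.leaf 250 1815 (.cons 228 (.leaf 252 1821 (.cons 346 (.leaf 322 2006 (.cons 347 (.leaf 370 2198 (.leaf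 372 2204 .nil)) .nil)) .nil)) .nil)) .nil)) .nil)))) t104))))
noncomputable def top13 : T := .cons 203 t118 (.cons 299 t117 (.cons 203 t116 (.cons 203 (.cons 178 (.leaf 202 1431 (.cons 179 (.leaf 154 1239 (.cons 274 (.leaf 298 1622 (.leaf 250 1430 .nil)) .nil)) .nil)) (.cons 202 (.leaf 178 1431 (.cons 204 (.leaf 180 1437 (.cons 228 (.leaf 299 1629 (.cons 201 (.leaf 200 1600 (.leaf 229 1608 .nil)) .nil)) .nil)) .nil)) (.cons 204 (.leaf 180 1437 (.cons 228 (.leaf 299 1629 (.cons 274 (.leaf 298 1622 (.cons 179 (.leaf 250 1430 (.cons 155 (.leaf 252 1244 (.leaf 131 1052 .nil)) .nil)) .nil)) .nil)) .nil)) .nil))) (.cons 203 (.cons 180 (.leaf 204 1437 (.cons 179 (.leaf 156 1245 (.cons 274 (.leaf 298 1622 (.leaf 250 1430 .nil)) .nil)) .nil)) (.cons 178 (.leaf 202 1431 (.cons 179 (.leaf 154 1239 (.cons 180 (.leaf 204 1437 (.leaf 156 1245 .nil)) .nil)) .nil)) (.cons 202 (.leaf 178 1431 (.cons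 226 (.leaf 299 1623 (.cons 274 (.leaf 298 1622 (.cons 250 (.leaf 179 1429 (.cons 177 (.leaf 201 1423 (.cons 273 (.leaf 297 1614 (.cons 252 (.leaf 272 1985 (.leaf 253 1994 .nil)) .nil)) .nil)) .nil)) .nil)) .nil)) .nil)) (.cons 202 (.leaf 178 1431 (.cons 204 (.leaf 180 1437 (.cons 226 (.leaf 299 1623 (.cons 205 (.leaf 206 1618 (.leaf 225 1610 .nil)) .nil)) .nil)) .nil)) .nil)))) (.cons 203 t115 (.cons 203 t114 (.cons 202 t113 .nil)))))))
noncomputable def top14 : T := .cons 323 (.cons 226 (.leaf 250 1815 (.cons 227 (.leaf 202 1623 (.cons 324 (.leaf 300 1820 (.leaf 348 2012 .nil)) .nil)) .nil)) (.cons 226 (.leaf 250 1815 (.cons 227 (.leaf 202 1623 (.cons 322 (.leaf 298 1814 (.leaf 346 2006 .nil)) .nil)) .nil)) (.cons 322 (.leaf 346 2006 (.cons 227 (.leaf 298 1814 (.cons 324 (.leaf 300 1820 (.leaf 348 2012 .nil)) .nil)) .nil)) (.cons 250 (.leaf 226 1815 (.cons 322 (.leaf 346 2006 (.cons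 347 (.leaf 274 2007 (.cons 348 (.leaf 324 2012 (.leaf 372 2204 .nil)) .nil)) .nil)) .nil)) .nil)))) (.cons 298 (.cons 300 t131 (.cons 297 t130 (.cons 300 (.cons 297 (.cons 324 (.leaf 227 1820 (.leaf 325 2376 .nil)) (.cons 272 (.leaf 273 2179 (.cons 296 (.leaf 271 2171 (.cons 320 (.leaf 319 2362 (.leaf 321 2370 .nil)) .nil)) .nil)) .nil)) (.cons 301 (.cons 273 (.leaf 274 2187 (.cons 277 (.leaf 278 2193 (.cons 297 (.leaf 272 2179 (.cons 325 (.leaf 324 2376 (.leaf 326 2384 .nil)) .nil)) .nil)) .nil)) (.cons 278 (.leaf 277 2193 (.cons 302 (.leaf 279 2201 (.cons 326 (.leaf 325 2384 (.leaf 327 2392 .nil)) .nil)) .nil)) (.cons 274 (.leaf 302 2195 (.leaf 273 2187 .nil)) .nil))) (.cons 297 t128 (.cons 227 (.leaf 324 1820 (.cons 202 (.leaf 226 1623 (.cons 203 (.leaf 178 1431 (.leaf 274 1622 .nil)) .nil)) .nil)) .nil)))) (.cons 227 (.leaf 322 1814 (.cons 300 (.leaf 324 1820 (.cons 297 t127 .nil))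 .nil)) (.cons 322 (.leaf 227 1814 (.cons 346 (.leaf 274 2005 (.leaf 370 2197 .nil)) .nil)) .nil))))) (.cons 323 t124 (.cons 323 t123 (.cons 323 t122 (.cons 324 t121 (.cons 323 (.cons 324 (.leaf 348 2012 (.cons 228 (.leaf 252 1821 (.cons 300 (.leaf 227 1820 (.cons 322 (.leaf 346 2006 (.cons 301 (.leaf 302 2386 (.leaf 321 2377 .nil)) .nil)) .nil)) .nil)) .nil)) (.cons 228 (.leaf 252 1821 (.cons 250 (.leaf 226 1815 (.cons 346 (.leaf 322 2006 (.cons 347 (.leaf 274 2007 (.leaf 370 2198 .nil)) .nil)) .nil)) .nil)) (.cons 226 (.leaf 250 1815 (.cons 227 (.leaf 202 1623 (.cons 324 (.leaf 300 1820 (.leaf 348 2012 .nil)) .nil)) .nil)) .nil))) (.cons 323 (.cons 226 (.leaf 250 1815 (.cons 227 (.leaf 202 1623 (.cons 324 (.leaf 300 1820 (.leaf 348 2012 .nil)) .nil)) .nil)) (.cons 226 (.leaf 250 1815 (.cons 227 (.leaf 202 1623 (.cons 322 (.leaf 298 1814 (.leaf 346 2006 .nil)) .nil)) .nil)) (.cons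 322 (.leaf 346 2006 (.cons 227 (.leaf 298 1814 (.cons 324 (.leaf 300 1820 (.leaf 348 2012 .nil)) .nil)) .nil)) (.cons 226 (.leaf 250 1815 (.cons 346 (.leaf 322 2006 (.cons 347 (.leaf 370 2198 (.cons 348 (.leaf 324 2012 (.leaf 372 2204 .nil)) .nil)) .nil)) .nil)) .nil)))) (.cons 323 t120 (.cons 227 (.cons 298 (.leaf 322 1814 (.cons 202 (.leaf 226 1623 (.cons 203 (.leaf 178 1431 (.leaf 274 1622 .nil)) .nil)) .nil)) (.cons 298 (.leaf 322 1814 (.cons 274 (.leaf 203 1622 (.cons 300 (.leaf 324 1820 (.cons 273 (.leaf 272 2176 (.leaf 301 2187 .nil)) .nil)) .nil)) .nil)) (.cons 226 (.leaf 202 1623 (.cons 323 (.leaf 250 1815 (.cons 324 (.leaf 300 1820 (.leaf 348 2012 .nil)) .nil)) .nil)) .nil))) (.cons 227 t119 .nil))))))))))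
noncomputable def top15 : T := .cons 203 (.cons 202 (.leaf 178 1431 (.cons 298 (.leaf 274 1622 (.cons 299 (.leaf 226 1623 (.leaf 322 1814 .nil)) .nil)) .nil)) (.cons 204 (.leaf 180 1437 (.cons 298 (.leaf 274 1622 (.cons 299 (.leaf 228 1629 (.leaf 322 1814 .nil)) .nil)) .nil)) (.cons 178 (.leaf 202 1431 (.cons 179 (.leaf 154 1239 (.cons 180 (.leaf 204 1437 (.leaf 156 1245 .nil)) .nil)) .nil)) .nil))) (.cons 299 t136 (.cons 203 t135 (.cons 203 (.cons 178 (.leaf 202 1431 (.cons 179 (.leaf 154 1239 (.cons 274 (.leaf 298 1622 (.leaf 250 1430 .nil)) .nil)) .nil)) (.cons 204 (.leaf 180 1437 (.cons 178 (.leaf 202 1431 (.cons 179 (.leaf 154 1239 (.cons 176 (.leaf 177 1408 (.cons 205 (.leaf 206 1427 (.cons 228 (.leaf 299 1629 (.cons 155 (.leaf 252 1244 (.leaf 131 1052 .nil)) .nil)) .nil)) .nil)) .nil)) .nil)) .nil)) (.cons 180 (.leaf 204 1437 (.cons 179 (.leaf 156 1245 (.cons 274 (.leaf 298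 1622 (.leaf 250 1430 .nil)) .nil)) .nil)) (.cons 178 (.leaf 202 1431 (.cons 204 (.leaf 180 1437 (.cons 298 (.leaf 274 1622 (.cons 299 (.leaf 228 1629 (.leaf 322 1814 .nil)) .nil)) .nil)) .nil)) .nil)))) (.cons 203 (.cons 178 (.leaf 202 1431 (.cons 179 (.leaf 154 1239 (.cons 274 (.leaf 298 1622 (.leaf 250 1430 .nil)) .nil)) .nil)) (.cons 178 (.leaf 202 1431 (.cons 179 (.leaf 154 1239 (.cons 180 (.leaf 204 1437 (.leaf 156 1245 .nil)) .nil)) .nil)) (.cons 274 (.leaf 298 1622 (.cons 179 (.leaf 250 1430 (.cons 180 (.leaf 204 1437 (.leaf 156 1245 .nil)) .nil)) .nil)) (.cons 180 (.leaf 204 1437 (.cons 202 (.leaf 178 1431 (.cons 298 (.leaf 274 1622 (.cons 299 (.leaf 226 1623 (.leaf 322 1814 .nil)) .nil)) .nil)) .nil)) .nil)))) (.cons 203 t134 (.cons 203 t133 (.cons 203 t132 .nil)))))))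
noncomputable def top16 : T := .cons 227 (.cons 298 (.leaf 322 1814 (.cons 202 (.leaf 226 1623 (.cons 203 (.leaf 178 1431 (.leaf 274 1622 .nil)) .nil)) .nil)) (.cons 298 (.leaf 322 1814 (.cons 203 (.leaf 274 1622 (.cons 178 (.leaf 202 1431 (.cons 179 (.leaf 154 1239 (.cons 180 (.leaf 204 1437 (.leaf 156 1245 .nil)) .nil)) .nil)) .nil)) .nil)) (.cons 226 (.leaf 202 1623 (.cons 323 (.leaf 250 1815 (.cons 228 (.leaf 204 1629 (.leaf 252 1821 .nil)) .nil)) .nil)) (.cons 298 (.leaf 322 1814 (.cons 274 (.leaf 203 1622 (.cons 300 (.leaf 324 1820 (.cons 273 (.leaf 272 2176 (.leaf 301 2187 .nil)) .nil)) .nil)) .nil)) .nil)))) (.cons 227 t139 (.cons 323 t138 (.cons 227 (.cons 202 (.leaf 226 1623 (.cons 228 (.leaf 204 1629 (.cons 323 (.leaf 252 1821 (.cons 324 (.leaf 300 1820 (.leaf 348 2012 .nil)) .nil)) .nil)) .nil)) (.cons 228 (.leaf 204 1629 (.cons 323 (.leaf 252 1821 (.cons 324 (.leaf 300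 1820 (.leaf 348 2012 .nil)) .nil)) .nil)) (.cons 226 (.leaf 202 1623 (.cons 323 (.leaf 250 1815 (.cons 324 (.leaf 300 1820 (.leaf 348 2012 .nil)) .nil)) .nil)) (.cons 226 (.leaf 202 1623 (.cons 204 (.leaf 228 1629 (.cons 203 (.leaf 180 1437 (.cons 205 (.leaf 206 1618 (.cons 224 (.leaf 225 1601 (.cons 250 (.leaf 323 1815 (.cons 274 (.leaf 298 1621 (.leaf 179 1430 .nil)) .nil)) .nil)) .nil)) .nil)) .nil)) .nil)) (.cons 202 (.leaf 226 1623 (.cons 203 (.leaf 178 1431 (.cons 180 (.leaf 204 1437 (.cons 179 (.leaf 156 1245 (.cons 274 (.leaf 298 1622 (.leaf 250 1430 .nil)) .nil)) .nil)) .nil)) .nil)) .nil))))) (.cons 227 (.cons 228 (.leaf 204 1629 (.cons 323 (.leaf 252 1821 (.cons 324 (.leaf 300 1820 (.leaf 348 2012 .nil)) .nil)) .nil)) (.cons 298 (.leaf 322 1814 (.cons 203 (.leaf 274 1622 (.cons 178 (.leaf 202 1431 (.cons 179 (.leaf 154 1239 (.cons 180 (.leaf 204 1437 (.leaf 156 1245 .nil))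 .nil)) .nil)) .nil)) .nil)) (.cons 298 (.leaf 322 1814 (.cons 274 (.leaf 203 1622 (.cons 300 (.leaf 324 1820 (.cons 273 (.leaf 272 2176 (.leaf 301 2187 .nil)) .nil)) .nil)) .nil)) .nil))) (.cons 323 (.cons 226 (.leaf 250 1815 (.cons 228 (.leaf 252 1821 (.cons 346 (.leaf 322 2006 (.cons 347 (.leaf 370 2198 (.cons 348 (.leaf 324 2012 (.leaf 372 2204 .nil)) .nil)) .nil)) .nil)) .nil)) (.cons 226 (.leaf 250 1815 (.cons 227 (.leaf 202 1623 (.cons 228 (.leaf 204 1629 (.leaf 252 1821 .nil)) .nil)) .nil)) (.cons 228 (.leaf 252 1821 (.cons 204 (.leaf 227 1629 (.cons 346 (.leaf 322 2006 (.cons 347 (.leaf 370 2198 (.cons 348 (.leaf 324 2012 (.leaf 372 2204 .nil)) .nil)) .nil)) .nil)) .nil)) (.cons 226 (.leaf 250 1815 (.cons 346 (.leaf 322 2006 (.cons 347 (.leaf 370 2198 (.cons 348 (.leaf 324 2012 (.leaf 372 2204 .nil)) .nil)) .nil)) .nil)) .nil)))) (.cons 227 t137 (.cons 227 (.cons 298 (.leaf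 322 1814 (.cons 202 (.leaf 226 1623 (.cons 203 (.leaf 178 1431 (.leaf 274 1622 .nil)) .nil)) .nil)) (.cons 298 (.leaf 322 1814 (.cons 203 (.leaf 274 1622 (.cons 178 (.leaf 202 1431 (.cons 179 (.leaf 154 1239 (.cons 180 (.leaf 204 1437 (.leaf 156 1245 .nil)) .nil)) .nil)) .nil)) .nil)) (.cons 226 (.leaf 202 1623 (.cons 323 (.leaf 250 1815 (.cons 324 (.leaf 300 1820 (.leaf 348 2012 .nil)) .nil)) .nil)) (.cons 298 (.leaf 322 1814 (.cons 274 (.leaf 203 1622 (.cons 300 (.leaf 324 1820 (.cons 273 (.leaf 272 2176 (.leaf 301 2187 .nil)) .nil)) .nil)) .nil)) .nil)))) .nil)))))))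

end Vale.Agent.P062.Second.D2
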